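import Vale.Agent.P217.Eval
import Mathlib.Analysis.Normed.Field.Basic
import Mathlib.Analysis.Normed.Group.Ultra
import Mathlib.FieldTheory.IsAlgClosed.Basic
import Mathlib.Algebra.CharP.Defs
import Mathlib.Analysis.SpecificLimits.Normed
import Mathlib.Topology.Algebra.Ring.Basic

/-!
Complete algebraically closed nonarchimedean fields of characteristic `p` with algebraic
residue field, and their rings of integers.
-/

noncomputable section

open scoped Topology
open Filter

namespace Vale.Agent.P217

/-- A complete algebraically closed nonarchimedean field of characteristic `p` whose residue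
field is algebraic over `F_p` (stated with roots of unity). -/
class GoodField (p : outParam ℕ) (Ω : Type*) [NontriviallyNormedField Ω] : Prop where
  charP : CharP Ω p
  ultra : IsUltrametricDist Ω
  complete : CompleteSpace Ω
  algClosed : IsAlgClosed Ω
  residue : ∀ x : Ω, ‖x‖ ≤ 1 → ∃ (c : Ω) (m : ℕ), 0 < m ∧ c ^ (p ^ m) = c ∧ ‖x - c‖ < 1

instance (priority := 100) GoodField.instCompleteSpace {p : ℕ} {Ω : Type*}
    [NontriviallyNormedField Ω] [GoodField p Ω] : CompleteSpace Ω :=
  GoodField.complete (p := p)

instance (priority := 100) GoodField.instIsAlgClosed {p : ℕ} {Ω : Type*}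
    [NontriviallyNormedField Ω] [GoodField p Ω] : IsAlgClosed Ω :=
  GoodField.algClosed (p := p)

variable (Ω : Type*) [NontriviallyNormedField Ω] [IsUltrametricDist Ω]

/-- The ring of integers of a nonarchimedean field. -/
def intRing : Subring Ω where
  carrier := {x | ‖x‖ ≤ 1}
  mul_mem' {x y} hx hy := by
    show ‖x * y‖ ≤ 1
    rw [norm_mul]
    exact mul_le_one₀ hx (norm_nonneg y) hy
  one_mem' := by simp
  add_mem' {x y} hx hy := (IsUltrametricDist.norm_add_le_max x y).trans (max_le hx hy)
  zero_mem' := by simp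
  neg_mem' {x} hx := by simpa using hx

variable {Ω}

@[simp]
theorem mem_intRing {x : Ω} : x ∈ intRing Ω ↔ ‖x‖ ≤ 1 := Iff.rfl

theorem isTopologicallyNilpotent_intRing {x : intRing Ω} :
    IsTopologicallyNilpotent x ↔ ‖(x : Ω)‖ < 1 := by
  rw [IsTopologicallyNilpotent, tendsto_subtype_rng]
  simp only [SubmonoidClass.coe_pow, ZeroMemClass.coe_zero]
  rw [← tendsto_pow_atTop_nhds_zero_iff_norm_lt_one]

/-- The ideal of elements of norm at most `r`. -/
def normIdeal (r : ℝ) (hr : 0 ≤ r) : Ideal (intRing Ω) where
  carrier := {x | ‖(x : Ω)‖ ≤ r}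
  add_mem' {x y} hx hy := (IsUltrametricDist.norm_add_le_max (x : Ω) y).trans (max_le hx hy)
  zero_mem' := by simpa using hr
  smul_mem' c x hx := by
    show ‖(c : Ω) * (x : Ω)‖ ≤ r
    rw [norm_mul]
    calc ‖(c : Ω)‖ * ‖(x : Ω)‖ ≤ 1 * r := mul_le_mul c.2 hx (norm_nonneg _) zero_le_one
      _ = r := one_mul r

instance instUniformAddIntRing : IsUniformAddGroup (intRing Ω) :=
  (intRing Ω).toAddSubgroup.isUniformAddGroup

instance instTopRingIntRing : IsTopologicalRing (intRing Ω) :=
  Subring.instIsTopologicalRing (intRing Ω)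

instance instLinearIntRing : IsLinearTopology (intRing Ω) (intRing Ω) := by
  refine IsLinearTopology.mk_of_hasBasis (p := fun r : ℝ ↦ 0 < r)
    (s := fun r ↦ if hr : 0 ≤ r then normIdeal (Ω := Ω) r hr else ⊤) (intRing Ω) ?_
  refine (Metric.nhds_basis_closedBall (α := intRing Ω) (x := 0)).congr (fun r ↦ Iff.rfl)
    fun r hr ↦ ?_
  rw [dif_pos hr.le]
  ext x
  simp [normIdeal, dist_eq_norm]

instance instCompleteIntRing [CompleteSpace Ω] : CompleteSpace (intRing Ω) := by
  refine IsComplete.completeSpace_coe (IsClosed.isComplete ?_)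
  exact isClosed_le continuous_norm continuous_const

instance instCLRingIntRing [CompleteSpace Ω] : CLRing (intRing Ω) where

end Vale.Agent.P217
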