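import Vale.Agent.P217.Group
import Vale.Agent.P217.FieldBasic
import Mathlib.RingTheory.WittVector.DiscreteValuationRing
import Mathlib.FieldTheory.Perfect
import Mathlib.RingTheory.MvPowerSeries.Inverse

/-!
Specialisations of Hazewinkel's law used in P217, and the basic maps of the universal cover.
-/

noncomputable section

open Filter
open scoped Topology

namespace Vale.Agent.P217

variable (p n : ℕ) [Fact p.Prime]

/-- The structure map of the Lubin-Tate ring over the parameter ring. -/
def toLT : Haz.A n →+* LTRing p n :=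
  MvPolynomial.eval₂Hom (Int.castRingHom _) fun i ↦ MvPowerSeries.X i

/-- The universal deformation over the Lubin-Tate ring. -/
def lawLT : FormalGroup (LTRing p n) :=
  (Haz.law p n).map (toLT p n)

/-- The residue map of the Lubin-Tate ring. -/
def resLT : LTRing p n →+* GaloisField p n :=
  WittVector.constantCoeff.comp MvPowerSeries.constantCoeff

/-- Specialisation of all the variables at zero. -/
def zeroSpec (R : Type*) [CommRing R] : Haz.A n →+* R :=
  MvPolynomial.eval₂Hom (Int.castRingHom R) fun _ ↦ 0

/-- The Honda formal group law of height `n` over a ring. -/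
def honda (R : Type*) [CommRing R] : FormalGroup R :=
  (Haz.law p n).map (zeroSpec n R)

section field

variable {Ω : Type*} [NontriviallyNormedField Ω] [IsUltrametricDist Ω] [IsAlgClosed Ω]

/-- A `m`-th root of an element of the unit ball. -/
def intRoot (m : ℕ) (x : intRing Ω) : intRing Ω :=
  if hm : m = 0 then x else
    ⟨(IsAlgClosed.exists_pow_nat_eq (x : Ω) (Nat.pos_of_ne_zero hm)).choose, by
      have h := (IsAlgClosed.exists_pow_nat_eq (x : Ω) (Nat.pos_of_ne_zero hm)).choose_spec
      have hx : ‖(x : Ω)‖ ≤ 1 := x.2
      rw [← h, norm_pow] at hx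
      exact (pow_le_one_iff_of_nonneg (norm_nonneg _) hm).mp hx⟩

theorem intRoot_pow {m : ℕ} (hm : m ≠ 0) (x : intRing Ω) : intRoot m x ^ m = x := by
  rw [intRoot, dif_neg hm]
  exact Subtype.ext (IsAlgClosed.exists_pow_nat_eq (x : Ω) (Nat.pos_of_ne_zero hm)).choose_spec

variable [CompleteSpace Ω]

/-- The `N`-th approximation `[p^N](x^(q^(-N)))` of the universal cover map. -/
def prSeq (φ : Haz.A n →+* intRing Ω) (x : intRing Ω) (N : ℕ) : intRing Ω :=
  ev (MvPowerSeries.map φ (Haz.mulSeries p n ((p : ℤ) ^ N)))
    fun _ ↦ intRoot ((p ^ n) ^ N) x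

/-- `H` is a homomorphism of formal group laws from `F` to `G`. -/
def IsFGHom {R : Type*} [CommRing R] (F G : FormalGroup R) (H : PowerSeries R) : Prop :=
  PowerSeries.constantCoeff H = 0 ∧
    PowerSeries.subst F.toPowerSeries H =
      MvPowerSeries.subst
        ![PowerSeries.subst (MvPowerSeries.X (0 : Fin 2)) H,
          PowerSeries.subst (MvPowerSeries.X (1 : Fin 2)) H] G.toPowerSeries

end field

end Vale.Agent.P217
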