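import Vale.Agent.P217.FieldBasic
import Mathlib.RingTheory.Ideal.KrullsHeightTheorem
import Mathlib.RingTheory.AdicCompletion.Completeness
import Mathlib.RingTheory.AdicCompletion.Basic
import Mathlib.RingTheory.Filtration
import Mathlib.RingTheory.DiscreteValuationRing.Basic
import Mathlib.RingTheory.IntegralClosure.IsIntegral.Basic
import Mathlib.FieldTheory.IsAlgClosed.Basic
import Mathlib.RingTheory.MvPowerSeries.Inverse
import Mathlib.RingTheory.MvPowerSeries.Equiv

/-!
Curve selection in a complete local ring: primes maximal avoiding an element give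
one-dimensional quotients, finite over a discrete valuation ring.
-/

noncomputable section

open IsLocalRing

namespace Vale.Agent.P217

/-- In a Noetherian local domain in which every nonzero prime contains `v`, the maximal ideal
is the radical of `(v)`. -/
theorem exists_maximalIdeal_pow_le {R : Type*} [CommRing R] [IsDomain R] [IsNoetherianRing R]
    [IsLocalRing R] {v : R} (hv0 : v ≠ 0) (hv : ¬ IsUnit v)
    (hall : ∀ J : Ideal R, J.IsPrime → J ≠ ⊥ → v ∈ J) :
    ∃ N : ℕ, maximalIdeal R ^ N ≤ Ideal.span {v} := by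
  classical
  set I := Ideal.span {v}
  have hfin := Ideal.finite_minimalPrimes_of_isNoetherianRing R I
  have hItop : I ≠ ⊤ := by rwa [Ne, Ideal.span_singleton_eq_top]
  have hcover : (maximalIdeal R : Set R) ⊆ ⋃ q ∈ (hfin.toFinset : Set (Ideal R)), (q : Set R) := by
    intro x hx
    simp only [Set.Finite.coe_toFinset, Set.mem_iUnion, SetLike.mem_coe, exists_prop]
    by_cases hx0 : x = 0
    · obtain ⟨q, hq⟩ := Ideal.nonempty_minimalPrimes hItop
      exact ⟨q, hq, hx0 ▸ q.zero_mem⟩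
    · have hxu : ¬ IsUnit x := hx
      obtain ⟨J, hJ⟩ := Ideal.nonempty_minimalPrimes
        (show Ideal.span {x} ≠ ⊤ by rwa [Ne, Ideal.span_singleton_eq_top])
      have hJp : J.IsPrime := hJ.1.1
      have hxJ : x ∈ J := hJ.1.2 (Ideal.mem_span_singleton_self x)
      have hJ0 : J ≠ ⊥ := fun h ↦ hx0 (by simpa [h] using hxJ)
      have hIJ : I ≤ J := by
        rw [Ideal.span_singleton_le_iff_mem]; exact hall J hJp hJ0
      obtain ⟨q, hq, hqJ⟩ := Ideal.exists_minimalPrimes_le hIJ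
      refine ⟨q, hq, ?_⟩
      rcases hqJ.eq_or_lt with h | hlt
      · exact h ▸ hxJ
      · exfalso
        have hqp : q.IsPrime := hq.1.1
        have hq0 : q ≠ ⊥ := fun h ↦ hv0 (by
          simpa [h] using hq.1.2 (Ideal.mem_span_singleton_self v))
        have h1 : J.height ≤ 1 :=
          Ideal.height_le_one_of_isPrincipal_of_mem_minimalPrimes _ J hJ
        have : J.FiniteHeight := ⟨Or.inr (h1.trans_lt (WithTop.coe_lt_top 1)).ne⟩
        have : q.FiniteHeight :=
          ⟨Or.inr ((Ideal.height_mono hlt.le).trans_lt (h1.trans_lt (WithTop.coe_lt_top 1))).ne⟩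
        have h2 := (Ideal.height_strict_mono_of_isPrime_of_isPrime hlt).trans_le h1
        rw [Order.lt_one_iff, Ideal.height_eq_zero_iff] at h2
        rw [IsDomain.minimalPrimes_eq_singleton_bot] at h2
        exact hq0 h2
  obtain ⟨q, hq, hmq⟩ := (Ideal.subset_union_prime (s := hfin.toFinset) (f := fun q ↦ q) ⊥ ⊥
    (fun i hi _ _ ↦ (hfin.mem_toFinset.mp hi).1.1)).mp hcover
  rw [hfin.mem_toFinset] at hq
  have hrad : maximalIdeal R ≤ I.radical := by
    rw [Ideal.radical_eq_sInf]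
    refine le_sInf fun J hJ ↦ ?_
    have hJp : J.IsPrime := hJ.2
    obtain ⟨q', hq', hq'J⟩ := Ideal.exists_minimalPrimes_le hJ.1
    have hq'm : q' ≤ q := (le_maximalIdeal hq'.1.1.ne_top).trans hmq
    exact hmq.trans ((hq.2 hq'.1 hq'm).trans hq'J)
  exact Ideal.exists_pow_le_of_le_radical_of_fg hrad (IsNoetherian.noetherian _)

/-- A prime containing `P`, avoiding `v`, with one-dimensional quotient. -/
theorem exists_prime_curve {E : Type*} [CommRing E] [IsNoetherianRing E] [IsLocalRing E]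
    (P : Ideal E) [P.IsPrime] {v : E} (hv : v ∉ P) (hvu : ¬ IsUnit v) :
    ∃ Q : Ideal E, Q.IsPrime ∧ P ≤ Q ∧ v ∉ Q ∧
      ∃ N : ℕ, maximalIdeal E ^ N ≤ Q ⊔ Ideal.span {v} := by
  obtain ⟨Q, ⟨hQp, hPQ, hvQ⟩, hmax⟩ := set_has_maximal_iff_noetherian.mpr inferInstance
    {Q : Ideal E | Q.IsPrime ∧ P ≤ Q ∧ v ∉ Q} ⟨P, inferInstance, le_rfl, hv⟩
  refine ⟨Q, hQp, hPQ, hvQ, ?_⟩
  let f := Ideal.Quotient.mk Q
  have hf : Function.Surjective f := Ideal.Quotient.mk_surjective
  have : IsLocalRing (E ⧸ Q) := IsLocalRing.of_surjective' f hf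
  have hfv0 : f v ≠ 0 := fun h ↦ hvQ (Ideal.Quotient.eq_zero_iff_mem.mp h)
  have hfvu : ¬ IsUnit (f v) := by
    rintro ⟨w, hw⟩
    obtain ⟨y, hy⟩ := hf (↑w⁻¹ : E ⧸ Q)
    have h1 : f (v * y - 1) = 0 := by
      rw [map_sub, map_mul, hy, ← hw, Units.mul_inv, map_one, sub_self]
    have h2 : v * y - 1 ∈ maximalIdeal E :=
      le_maximalIdeal hQp.ne_top (Ideal.Quotient.eq_zero_iff_mem.mp h1)
    have h3 : v * y ∈ maximalIdeal E := Ideal.mul_mem_right _ _ hvu
    have := Ideal.sub_mem _ h3 h2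
    rw [sub_sub_cancel] at this
    exact (maximalIdeal.isMaximal E).ne_top ((Ideal.eq_top_iff_one _).mpr this)
  obtain ⟨N, hN⟩ := exists_maximalIdeal_pow_le hfv0 hfvu fun J hJ hJ0 ↦ by
    by_contra hvJ
    have hJ' : (J.comap f).IsPrime := hJ.comap f
    have hQJ : Q ≤ J.comap f := fun x hx ↦ by
      show f x ∈ J
      rw [Ideal.Quotient.eq_zero_iff_mem.mpr hx]; exact J.zero_mem
    rcases hQJ.eq_or_lt with h | hlt
    · refine hJ0 ((Submodule.eq_bot_iff _).mpr fun x hx ↦ ?_)
      obtain ⟨y, rfl⟩ := hf x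
      exact Ideal.Quotient.eq_zero_iff_mem.mpr (h ▸ hx)
    · exact hmax _ ⟨hJ', hPQ.trans hQJ, hvJ⟩ hlt
  refine ⟨N, fun x hx ↦ ?_⟩
  have h1 : f x ∈ maximalIdeal (E ⧸ Q) ^ N := by
    have hle : (maximalIdeal E).map f ≤ maximalIdeal (E ⧸ Q) :=
      le_maximalIdeal (by
        intro htop
        have h := congrArg (Ideal.comap f) htop
        rw [Ideal.comap_map_of_surjective f hf, Ideal.comap_top, ← RingHom.ker_eq_comap_bot,
          Ideal.mk_ker, sup_eq_left.mpr (le_maximalIdeal hQp.ne_top)] at h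
        exact (maximalIdeal.isMaximal E).ne_top h)
    exact Ideal.pow_right_mono hle N (by rw [← Ideal.map_pow]; exact Ideal.mem_map_of_mem f hx)
  obtain ⟨y, hy⟩ := Ideal.mem_span_singleton'.mp (hN h1)
  obtain ⟨z, rfl⟩ := hf y
  rw [← map_mul, Ideal.Quotient.eq] at hy
  have : x = (z * v - (z * v - x)) := by ring
  rw [this]
  exact Ideal.sub_mem _ (Submodule.mem_sup_right (Ideal.mem_span_singleton'.mpr ⟨z, rfl⟩))
    (Submodule.mem_sup_left hy)

/-- If the residue field is finite, powers of the maximal ideal have finitely many classes. -/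
theorem exists_finset_mod_pow {E : Type*} [CommRing E] [IsNoetherianRing E] (𝔪 : Ideal E)
    (h : ∃ S : Finset E, ∀ x, ∃ s ∈ S, x - s ∈ 𝔪) :
    ∀ N : ℕ, ∃ S : Finset E, ∀ x, ∃ s ∈ S, x - s ∈ 𝔪 ^ N := by
  classical
  obtain ⟨S₀, hS₀⟩ := h
  intro N
  induction N with
  | zero => exact ⟨{0}, fun x ↦ ⟨0, by simp, by simp⟩⟩
  | succ N ih =>
    obtain ⟨S, hS⟩ := ih
    obtain ⟨G, hG⟩ := IsNoetherian.noetherian (𝔪 ^ N)
    refine ⟨(S ×ˢ Fintype.piFinset (fun _ : G ↦ S₀)).image fun z ↦ z.1 + ∑ g : G, z.2 g * (g : E),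
      fun x ↦ ?_⟩
    obtain ⟨s, hs, hxs⟩ := hS x
    rw [← hG] at hxs
    obtain ⟨a, ha⟩ := Submodule.mem_span_finset'.mp hxs
    choose b hb hb' using fun g : G ↦ hS₀ (a g)
    refine ⟨s + ∑ g, b g * (g : E), Finset.mem_image.mpr ⟨(s, b), Finset.mem_product.mpr
      ⟨hs, Fintype.mem_piFinset.mpr hb⟩, rfl⟩, ?_⟩
    have : x - (s + ∑ g, b g * (g : E)) = ∑ g : G, (a g - b g) * (g : E) := by
      rw [sub_add_eq_sub_sub, ← ha]
      simp [sub_mul, Finset.sum_sub_distrib]
    rw [this]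
    refine Ideal.sum_mem _ fun g _ ↦ ?_
    rw [pow_succ']
    refine Ideal.mul_mem_mul (hb' g) ?_
    rw [← hG]
    exact Submodule.subset_span g.2

/-- Complete Nakayama: finitely many classes modulo the image of `t` give a finite algebra. -/
theorem finite_of_finite_mod {B R : Type*} [CommRing B] [CommRing R] [IsDomain R]
    [IsNoetherianRing R] [Algebra B R] (t : B) [IsPrecomplete (Ideal.span {t}) B]
    (hv : ¬ IsUnit (algebraMap B R t))
    (hS : ∃ S : Finset R, ∀ x, ∃ s ∈ S, algebraMap B R t ∣ x - s) : Module.Finite B R := by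
  classical
  obtain ⟨S, hS⟩ := hS
  set v := algebraMap B R t with hv_def
  choose σ hσ q hq using hS
  refine ⟨⟨S, eq_top_iff.mpr fun x _ ↦ ?_⟩⟩
  let it : ℕ → R := fun D ↦ q^[D] x
  have hit : ∀ D, it D = σ (it D) + v * it (D + 1) := by
    intro D
    have := hq (it D)
    simp only [it, Function.iterate_succ_apply'] at this ⊢
    rw [← this]; ring
  let b : R → ℕ → B := fun s D ↦
    ∑ e ∈ (Finset.range D).filter (fun e ↦ σ (it e) = s), t ^ e
  have hb : ∀ s, ∃ L : B, ∀ D, b s D - L ∈ Ideal.span {t} ^ D := by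
    intro s
    obtain ⟨L, hL⟩ := IsPrecomplete.prec' (I := Ideal.span {t}) (M := B) (b s) fun {i k} hik ↦ by
      rw [SModEq.sub_mem, smul_eq_mul, Ideal.mul_top]
      have hsub : (Finset.range i).filter (fun e ↦ σ (it e) = s) ⊆
          (Finset.range k).filter (fun e ↦ σ (it e) = s) :=
        Finset.filter_subset_filter _ (Finset.range_mono hik)
      rw [← neg_sub, Ideal.neg_mem_iff]
      simp only [b]
      rw [← Finset.sum_sdiff hsub, add_sub_cancel_right]
      refine Ideal.sum_mem _ fun e he ↦ ?_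
      simp only [Finset.mem_sdiff, Finset.mem_filter, Finset.mem_range, not_and] at he
      have hie : i ≤ e := by by_contra h; exact he.2 (by omega) he.1.2
      rw [Ideal.span_singleton_pow, Ideal.mem_span_singleton]
      exact pow_dvd_pow t hie
    exact ⟨L, fun D ↦ by simpa [SModEq.sub_mem, smul_eq_mul, Ideal.mul_top] using hL D⟩
  choose L hL using hb
  have key : ∀ D, x = ∑ s ∈ S, algebraMap B R (b s D) * s + v ^ D * it D := by
    intro D
    induction D with
    | zero => simp [b, it]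
    | succ D ih =>
      have hb' : ∀ s, b s (D + 1) = b s D + if σ (it D) = s then t ^ D else 0 := by
        intro s
        simp only [b, Finset.sum_filter, Finset.sum_range_succ]
      simp only [hb', map_add, apply_ite (algebraMap B R), map_zero, map_pow, add_mul,
        Finset.sum_add_distrib, ite_mul, zero_mul, Finset.sum_ite_eq, if_pos (hσ (it D))]
      conv_lhs => rw [ih, hit D]
      simp only [← hv_def]
      ring
  have hzero : x - ∑ s ∈ S, algebraMap B R (L s) * s = 0 := by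
    refine (Submodule.mem_bot R).mp ((Ideal.iInf_pow_eq_bot_of_isDomain (Ideal.span {v})
      (by rwa [Ne, Ideal.span_singleton_eq_top])) ▸ ?_)
    rw [Submodule.mem_iInf]
    intro D
    have : x - ∑ s ∈ S, algebraMap B R (L s) * s
        = ∑ s ∈ S, algebraMap B R (b s D - L s) * s + v ^ D * it D := by
      conv_lhs => rw [key D]
      simp only [map_sub, sub_mul, Finset.sum_sub_distrib]
      ring
    rw [this]
    refine Ideal.add_mem _ (Ideal.sum_mem _ fun s _ ↦ Ideal.mul_mem_right _ _ ?_) ?_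
    · have := Ideal.mem_map_of_mem (algebraMap B R) (hL s D)
      rwa [Ideal.map_pow, Ideal.map_span, Set.image_singleton] at this
    · rw [Ideal.span_singleton_pow]
      exact Ideal.mul_mem_right _ _ (Ideal.mem_span_singleton_self _)
  rw [sub_eq_zero.mp hzero]
  refine Submodule.sum_mem _ fun s hs ↦ ?_
  rw [← Algebra.smul_def]
  exact Submodule.smul_mem _ _ (Submodule.subset_span hs)

variable {Ω : Type*} [NontriviallyNormedField Ω] [IsUltrametricDist Ω]

/-- Elements integral over a ring of integral elements are integral. -/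
theorem norm_le_one_of_isIntegral {B R : Type*} [CommRing B] [CommRing R] [Algebra B R]
    (j : B →+* Ω) (hj : ∀ b, ‖j b‖ ≤ 1) (ψ : R →+* Ω)
    (hψ : ψ.comp (algebraMap B R) = j) {x : R} (hx : IsIntegral B x) : ‖ψ x‖ ≤ 1 := by
  obtain ⟨P, hPm, hP⟩ := hx
  by_contra hlt
  push Not at hlt
  have h0 : P.eval₂ j (ψ x) = 0 := by
    have := congrArg ψ hP
    rwa [map_zero, Polynomial.hom_eval₂, hψ] at this
  rw [Polynomial.eval₂_eq_sum_range, Finset.sum_range_succ, hPm.coeff_natDegree, map_one,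
    one_mul] at h0
  have h1 : ‖ψ x‖ ^ P.natDegree =
      ‖∑ i ∈ Finset.range P.natDegree, j (P.coeff i) * ψ x ^ i‖ := by
    rw [← norm_pow, eq_neg_of_add_eq_zero_right h0, norm_neg]
  have h2 : ‖∑ i ∈ Finset.range P.natDegree, j (P.coeff i) * ψ x ^ i‖ < ‖ψ x‖ ^ P.natDegree := by
    refine Finset.sum_induction _ (fun z : Ω ↦ ‖z‖ < ‖ψ x‖ ^ P.natDegree)
      (fun a b ha hb ↦ (IsUltrametricDist.norm_add_le_max a b).trans_lt (max_lt ha hb)) ?_
      fun i hi ↦ ?_
    · rw [norm_zero]; positivity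
    · rw [norm_mul, norm_pow]
      calc ‖j (P.coeff i)‖ * ‖ψ x‖ ^ i ≤ 1 * ‖ψ x‖ ^ i := by gcongr; exact hj _
        _ < ‖ψ x‖ ^ P.natDegree := by
          rw [one_mul]
          exact pow_lt_pow_right₀ hlt (Finset.mem_range.mp hi)
  linarith [h1.trans_lt h2]

/-- A local homomorphism to the integers of an algebraically closed field, from a
one-dimensional quotient finite over a discrete valuation ring. -/
theorem exists_local_hom [IsAlgClosed Ω] {E B : Type*} [CommRing E] [IsNoetherianRing E]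
    [IsLocalRing E] [CommRing B] [IsDomain B] [IsDiscreteValuationRing B] (t : B)
    (ht : Irreducible t) [IsPrecomplete (Ideal.span {t}) B] (φ : B →+* E)
    (hfin : ∃ S : Finset E, ∀ x, ∃ s ∈ S, x - s ∈ maximalIdeal E)
    (P : Ideal E) [P.IsPrime] {u : E} (hvP : φ t * u ∉ P) (hvu : ¬ IsUnit (φ t))
    (j : B →+* Ω) (hj : Function.Injective j) (hj1 : ∀ b, ‖j b‖ ≤ 1) (hjt : ‖j t‖ < 1) :
    ∃ ψ : E →+* Ω, (∀ x, ‖ψ x‖ ≤ 1) ∧ (∀ x ∈ maximalIdeal E, ‖ψ x‖ < 1) ∧
      (∀ x ∈ P, ψ x = 0) ∧ ψ u ≠ 0 := by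
  obtain ⟨Q, hQp, hPQ, hvQ', N, hN'⟩ := exists_prime_curve P hvP fun h ↦ hvu (isUnit_of_mul_isUnit_left h)
  have hN : maximalIdeal E ^ N ≤ Q ⊔ Ideal.span {φ t} := hN'.trans
    (sup_le_sup_left (Ideal.span_singleton_le_span_singleton.mpr (dvd_mul_right _ _)) Q)
  have hvQ : φ t ∉ Q := fun h ↦ hvQ' (Ideal.mul_mem_right u _ h)
  have huQ : u ∉ Q := fun h ↦ hvQ' (Ideal.mul_mem_left Q _ h)
  let f := Ideal.Quotient.mk Q
  algebraize [f.comp φ]
  let := j.toAlgebra
  set v : E ⧸ Q := f (φ t)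
  have hv0 : v ≠ 0 := fun h ↦ hvQ (Ideal.Quotient.eq_zero_iff_mem.mp h)
  have hdvd : ∀ x ∈ maximalIdeal E ^ N, v ∣ f x := by
    intro x hx
    obtain ⟨y, hy, z, hz, rfl⟩ := Submodule.mem_sup.mp (hN hx)
    obtain ⟨w, rfl⟩ := Ideal.mem_span_singleton'.mp hz
    rw [map_add, Ideal.Quotient.eq_zero_iff_mem.mpr hy, zero_add, map_mul]
    exact dvd_mul_left v _
  have hvu' : ¬ IsUnit v := fun h ↦ by
    obtain ⟨y, hy⟩ := Ideal.Quotient.mk_surjective (I := Q) ↑h.unit⁻¹
    have h1 : f (φ t * y - 1) = 0 := by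
      rw [map_sub, map_mul, show f y = _ from hy, show f (φ t) = _ from h.unit_spec.symm,
        Units.mul_inv, map_one, sub_self]
    have h2 := le_maximalIdeal hQp.ne_top (Ideal.Quotient.eq_zero_iff_mem.mp h1)
    have := Ideal.sub_mem _ (Ideal.mul_mem_right y _ (show φ t ∈ maximalIdeal E from hvu)) h2
    rw [sub_sub_cancel] at this
    exact (maximalIdeal.isMaximal E).ne_top ((Ideal.eq_top_iff_one _).mpr this)
  have : Module.Finite B (E ⧸ Q) := by
    refine finite_of_finite_mod t hvu' ?_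
    classical
    obtain ⟨S, hS⟩ := exists_finset_mod_pow _ hfin N
    refine ⟨S.image f, fun x ↦ ?_⟩
    obtain ⟨y, rfl⟩ := Ideal.Quotient.mk_surjective x
    obtain ⟨s, hs, hys⟩ := hS y
    exact ⟨f s, Finset.mem_image_of_mem f hs, by rw [← map_sub]; exact hdvd _ hys⟩
  have hinj : Function.Injective (algebraMap B (E ⧸ Q)) := by
    rw [injective_iff_map_eq_zero]
    intro b hb
    by_contra hb0
    obtain ⟨k, u, rfl⟩ := IsDiscreteValuationRing.eq_unit_mul_pow_irreducible hb0 ht
    rw [map_mul, map_pow] at hb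
    exact hv0 (pow_eq_zero_iff'.mp (((u.map (algebraMap B (E ⧸ Q)).toMonoidHom).mul_right_eq_zero).mp
      hb)).1
  have : FaithfulSMul B (E ⧸ Q) := (faithfulSMul_iff_algebraMap_injective _ _).mpr hinj
  have : FaithfulSMul B Ω := (faithfulSMul_iff_algebraMap_injective _ _).mpr hj
  let g : E ⧸ Q →ₐ[B] Ω := IsAlgClosed.lift
  let ψ := g.toRingHom.comp f
  have hg : g.toRingHom.comp (algebraMap B (E ⧸ Q)) = j := g.comp_algebraMap
  have hle : ∀ x, ‖ψ x‖ ≤ 1 := fun x ↦
    norm_le_one_of_isIntegral j hj1 g.toRingHom hg (Algebra.IsIntegral.isIntegral (f x))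
  have hgv : g v = j t := RingHom.congr_fun hg t
  refine ⟨ψ, hle, fun x hx ↦ ?_, fun x hx ↦ ?_, ?_⟩
  · obtain ⟨y, hy⟩ := hdvd (x ^ N) (Ideal.pow_mem_pow hx N)
    rcases Nat.eq_zero_or_pos N with rfl | hNpos
    · exact absurd (isUnit_of_dvd_one ⟨y, by simpa using hy⟩) hvu'
    refine (pow_lt_one_iff_of_nonneg (norm_nonneg _) hNpos.ne').mp ?_
    rw [← norm_pow, ← map_pow]
    show ‖g (f (x ^ N))‖ < 1
    obtain ⟨z, hz⟩ := Ideal.Quotient.mk_surjective y
    rw [hy, map_mul, hgv, norm_mul, ← hz]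
    calc ‖j t‖ * ‖g (f z)‖ ≤ ‖j t‖ * 1 := mul_le_mul_of_nonneg_left (hle z) (norm_nonneg _)
      _ < 1 := by rwa [mul_one]
  · show g (f x) = 0
    rw [Ideal.Quotient.eq_zero_iff_mem.mpr (hPQ hx), map_zero]
  · show g (f u) ≠ 0
    have hker : RingHom.ker g.toRingHom = ⊥ := by
      refine Ideal.eq_bot_of_comap_eq_bot (R := B) ((Submodule.eq_bot_iff _).mpr fun b hb ↦ ?_)
      have h1 : g (algebraMap B (E ⧸ Q) b) = 0 := hb
      rw [AlgHom.commutes] at h1
      exact hj (h1.trans (map_zero j).symm)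
    intro h
    have : f u ∈ RingHom.ker g.toRingHom := h
    rw [hker, Submodule.mem_bot] at this
    exact huQ (Ideal.Quotient.eq_zero_iff_mem.mp this)

/-- A series whose terms of degree `< D` vanish lies in the `D`-th power of `(X)`. -/
theorem mem_span_X_pow {C : Type*} [CommRing C] {m : ℕ} :
    ∀ (D : ℕ) (f : MvPowerSeries (Fin m) C), (∀ d, d.degree < D → MvPowerSeries.coeff d f = 0) →
      f ∈ Ideal.span (Set.range MvPowerSeries.X) ^ D := by
  classical
  intro D
  induction D with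
  | zero => intro f _; simp
  | succ D ih =>
    intro f hf
    let g : Fin m → MvPowerSeries (Fin m) C := fun i d ↦
      if ∀ k < i, d k = 0 then MvPowerSeries.coeff (d + Finsupp.single i 1) f else 0
    have hg : f = ∑ i, MvPowerSeries.X i * g i := by
      ext d
      rw [map_sum]
      simp only [MvPowerSeries.X_def, MvPowerSeries.coeff_monomial_mul, one_mul]
      by_cases hd : d = 0
      · subst hd
        rw [hf 0 (by simp)]
        exact (Finset.sum_eq_zero fun i _ ↦ by simp).symm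
      · have hne : d.support.Nonempty := Finsupp.support_nonempty_iff.mpr hd
        set i₀ := d.support.min' hne
        have hi₀ : d i₀ ≠ 0 := Finsupp.mem_support_iff.mp (Finset.min'_mem _ hne)
        have hmin : ∀ k < i₀, d k = 0 := fun k hk ↦ by
          by_contra h
          exact (Finset.min'_le _ k (Finsupp.mem_support_iff.mpr h)).not_gt hk
        rw [Finset.sum_eq_single i₀]
        · have hle : Finsupp.single i₀ 1 ≤ d := Finsupp.single_le_iff.mpr (by omega)
          rw [if_pos hle, MvPowerSeries.coeff_apply (g i₀)]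
          simp only [g]
          rw [if_pos (fun k hk ↦ by simp [hmin k hk]), tsub_add_cancel_of_le hle]
        · intro i _ hi
          by_cases hle : Finsupp.single i 1 ≤ d
          · rw [if_pos hle, MvPowerSeries.coeff_apply (g i)]
            simp only [g]
            have hdi : d i ≠ 0 := by have := Finsupp.single_le_iff.mp hle; omega
            have hlt : i₀ < i := lt_of_le_of_ne
              (Finset.min'_le _ i (Finsupp.mem_support_iff.mpr hdi)) (Ne.symm hi)
            rw [if_neg fun hall ↦ hi₀ ?_]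
            have := hall i₀ hlt
            simpa [Finsupp.tsub_apply, hi] using this
          · rw [if_neg hle]
        · simp
    rw [hg, pow_succ']
    refine Ideal.sum_mem _ fun i _ ↦ Ideal.mul_mem_mul (Ideal.subset_span ⟨i, rfl⟩)
      (ih _ fun d hd ↦ ?_)
    rw [MvPowerSeries.coeff_apply (g i)]
    simp only [g]
    split_ifs
    · refine hf _ ?_
      rw [map_add, Finsupp.degree_single]; omega
    · rfl

variable [CompleteSpace Ω]

/-- A homomorphism sending the variables into the open disc is evaluation. -/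
theorem hom_eq_ev {C : Type*} [CommRing C] {m : ℕ}
    (ψ : MvPowerSeries (Fin m) C →+* intRing Ω)
    (hX : ∀ i, ‖(ψ (MvPowerSeries.X i) : Ω)‖ < 1) (f : MvPowerSeries (Fin m) C) :
    ψ f = ev (MvPowerSeries.map (ψ.comp MvPowerSeries.C) f) fun i ↦ ψ (MvPowerSeries.X i) := by
  set a : Fin m → intRing Ω := fun i ↦ ψ (MvPowerSeries.X i)
  have ha : IsSmall a := fun i ↦ isTopologicallyNilpotent_intRing.mpr (hX i)
  let ψ' : MvPowerSeries (Fin m) C →+* intRing Ω :=
    (evHom ha).comp (MvPowerSeries.map (ψ.comp MvPowerSeries.C))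
  have hψ' : ψ' f = ev (MvPowerSeries.map (ψ.comp MvPowerSeries.C) f) a := evHom_apply ha _
  rw [← hψ']
  obtain ⟨c, hc0, hc1, hac⟩ : ∃ c : ℝ, 0 ≤ c ∧ c < 1 ∧ ∀ i, ‖(a i : Ω)‖ ≤ c := by
    rcases isEmpty_or_nonempty (Fin m) with h | h
    · exact ⟨0, le_rfl, one_pos, fun i ↦ isEmptyElim i⟩
    · obtain ⟨i, hi⟩ := Finite.exists_max fun i ↦ ‖(a i : Ω)‖
      exact ⟨_, norm_nonneg _, hX i, hi⟩
  have hX' : ∀ i, ψ' (MvPowerSeries.X i) = a i := fun i ↦ by
    simp [ψ', evHom_apply ha]
  have hpow : ∀ (θ : MvPowerSeries (Fin m) C →+* intRing Ω), (∀ i, θ (MvPowerSeries.X i) = a i) →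
      ∀ (D : ℕ), ∀ x ∈ Ideal.span (Set.range MvPowerSeries.X) ^ D, ‖(θ x : Ω)‖ ≤ c ^ D := by
    intro θ hθ D
    induction D with
    | zero => intro x _; simpa using mem_intRing.mp (θ x).2
    | succ D ih =>
      intro x hx
      rw [pow_succ] at hx
      refine Submodule.mul_induction_on hx (fun y hy z hz ↦ ?_) fun y z hy hz ↦ ?_
      · have hz' : z ∈ (normIdeal (Ω := Ω) c hc0).comap θ := by
          refine Ideal.span_le.mpr ?_ hz
          rintro _ ⟨i, rfl⟩
          show ‖(θ (MvPowerSeries.X i) : Ω)‖ ≤ c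
          rw [hθ]; exact hac i
        rw [map_mul, MulMemClass.coe_mul, norm_mul, pow_succ]
        exact mul_le_mul (ih y hy) hz' (norm_nonneg _) (by positivity)
      · rw [map_add, AddMemClass.coe_add]
        exact (IsUltrametricDist.norm_add_le_max _ _).trans (max_le hy hz)
  have hpoly : ∀ p : MvPolynomial (Fin m) C, ψ p = ψ' p := by
    intro p
    refine RingHom.congr_fun (f := ψ.comp MvPolynomial.coeToMvPowerSeries.ringHom)
      (g := ψ'.comp MvPolynomial.coeToMvPowerSeries.ringHom)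
      (MvPolynomial.ringHom_ext (fun r ↦ ?_) fun i ↦ ?_) p
    · simp [ψ', evHom_apply ha]
    · simp [hX', a]
  refine Subtype.ext (sub_eq_zero.mp (norm_eq_zero.mp (le_antisymm ?_ (norm_nonneg _))))
  refine ge_of_tendsto' (tendsto_pow_atTop_nhds_zero_of_lt_one hc0 hc1) fun D ↦ ?_
  have hmem : f - MvPowerSeries.truncTotal D f ∈ Ideal.span (Set.range MvPowerSeries.X) ^ D := by
    refine mem_span_X_pow D _ fun d hd ↦ ?_
    rw [map_sub, MvPolynomial.coeff_coe]
    exact sub_eq_zero.mpr (MvPowerSeries.coeff_truncTotal (p := f) hd).symm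
  have e : (ψ f : Ω) - (ψ' f : Ω) = (ψ (f - MvPowerSeries.truncTotal D f) : Ω)
      + -(ψ' (f - MvPowerSeries.truncTotal D f) : Ω) := by
    rw [map_sub, map_sub, hpoly, AddSubgroupClass.coe_sub, AddSubgroupClass.coe_sub]; ring
  rw [e]
  refine (IsUltrametricDist.norm_add_le_max _ _).trans (max_le (hpow ψ (fun i ↦ rfl) D _ hmem) ?_)
  rw [norm_neg]
  exact hpow ψ' hX' D _ hmem

end Vale.Agent.P217
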