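import Vale.Agent.P217.FieldBasic
import Mathlib.RingTheory.PowerSeries.Trunc
import Mathlib.Algebra.Polynomial.Splits
import Mathlib.Algebra.Polynomial.Taylor
import Mathlib.Analysis.SpecialFunctions.Pow.Real
import Mathlib.Topology.MetricSpace.Ultra.Basic

/-!
Roots of power series over the ring of integers of an algebraically closed complete
nonarchimedean field.
-/

noncomputable section

open scoped Topology
open Filter Polynomial

namespace Vale.Agent.P217

variable {Ω : Type*} [NontriviallyNormedField Ω] [IsUltrametricDist Ω]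

/-- If all roots have norm `> t`, the coefficients of the monic product decay. -/
theorem coeff_prod_X_sub_C_bound {t : ℝ} (ht : 0 ≤ t) (s : Multiset Ω) :
    (∀ r ∈ s, t < ‖r‖) → ∀ k : ℕ, 0 < k →
      ‖((s.map fun r ↦ X - C r).prod).coeff k‖ * t ^ k < ‖((s.map fun r ↦ X - C r).prod).coeff 0‖ := by
  induction s using Multiset.induction with
  | empty =>
    intro _ k hk
    simp [coeff_one, hk.ne']
  | cons r s ih =>
    intro h k hk
    have hr : t < ‖r‖ := h r (Multiset.mem_cons_self r s)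
    have ih' := ih fun x hx ↦ h x (Multiset.mem_cons_of_mem hx)
    set Q := (s.map fun r ↦ X - C r).prod with hQ
    rw [Multiset.map_cons, Multiset.prod_cons]
    obtain ⟨j, rfl⟩ : ∃ j, k = j + 1 := ⟨k - 1, by omega⟩
    have e0 : ((X - C r) * Q).coeff 0 = -(r * Q.coeff 0) := by simp
    have ek : ((X - C r) * Q).coeff (j + 1) = Q.coeff j - r * Q.coeff (j + 1) := by
      simp [sub_mul, coeff_X_mul]
    have hQ0 : 0 < ‖Q.coeff 0‖ := by
      rw [norm_pos_iff, hQ, coeff_zero_multiset_prod, Multiset.map_map]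
      refine Multiset.prod_ne_zero fun h0 ↦ ?_
      obtain ⟨x, hx, hx0⟩ := Multiset.mem_map.mp h0
      have : x = 0 := by simpa using hx0
      have hxn := h x (Multiset.mem_cons_of_mem hx)
      rw [this, norm_zero] at hxn
      linarith
    rw [e0, ek, norm_neg, norm_mul]
    have hj : ‖Q.coeff j‖ * t ^ j ≤ ‖Q.coeff 0‖ := by
      rcases Nat.eq_zero_or_pos j with rfl | hj
      · simp
      · exact (ih' j hj).le
    have h1 : ‖Q.coeff j‖ * t ^ (j + 1) < ‖r‖ * ‖Q.coeff 0‖ := by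
      calc ‖Q.coeff j‖ * t ^ (j + 1) = t * (‖Q.coeff j‖ * t ^ j) := by ring
        _ ≤ t * ‖Q.coeff 0‖ := by gcongr
        _ < ‖r‖ * ‖Q.coeff 0‖ := by gcongr
    have h2 : ‖r * Q.coeff (j + 1)‖ * t ^ (j + 1) < ‖r‖ * ‖Q.coeff 0‖ := by
      rw [norm_mul, mul_assoc]
      have := ih' (j + 1) (by omega)
      have hrpos : 0 < ‖r‖ := ht.trans_lt hr
      gcongr
    calc ‖Q.coeff j - r * Q.coeff (j + 1)‖ * t ^ (j + 1)
        ≤ max ‖Q.coeff j‖ ‖r * Q.coeff (j + 1)‖ * t ^ (j + 1) := by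
          gcongr
          rw [sub_eq_add_neg]
          exact (IsUltrametricDist.norm_add_le_max _ _).trans (by rw [norm_neg])
      _ = max (‖Q.coeff j‖ * t ^ (j + 1)) (‖r * Q.coeff (j + 1)‖ * t ^ (j + 1)) :=
          max_mul_of_nonneg _ _ (by positivity)
      _ < ‖r‖ * ‖Q.coeff 0‖ := max_lt h1 h2

/-- A polynomial with a coefficient of norm `1` in degree `m > 0` has a root `r` with
`‖r‖ ^ m ≤ ‖constant term‖`. -/
theorem exists_small_root [IsAlgClosed Ω] (P : Ω[X]) {m : ℕ} (hm : 0 < m)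
    (hu : ‖P.coeff m‖ = 1) : ∃ r : Ω, P.IsRoot r ∧ ‖r‖ ^ m ≤ ‖P.coeff 0‖ := by
  by_contra hcon
  push Not at hcon
  have hP : P ≠ 0 := fun h ↦ by simp [h] at hu
  set t : ℝ := ‖P.coeff 0‖ ^ (m : ℝ)⁻¹
  have ht : 0 ≤ t := by positivity
  have htm : t ^ m = ‖P.coeff 0‖ := Real.rpow_inv_natCast_pow (norm_nonneg _) hm.ne'
  have hroots : ∀ r ∈ P.roots, t < ‖r‖ := by
    intro r hr
    by_contra hle
    push Not at hle
    have h1 := hcon r (mem_roots hP |>.mp hr)
    have h2 : ‖r‖ ^ m ≤ t ^ m := pow_le_pow_left₀ (norm_nonneg r) hle m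
    rw [htm] at h2
    linarith
  have key := coeff_prod_X_sub_C_bound ht P.roots hroots m hm
  have hsplit := (IsAlgClosed.splits P).eq_prod_roots
  have hlead : 0 < ‖P.leadingCoeff‖ := norm_pos_iff.mpr (leadingCoeff_ne_zero.mpr hP)
  have h2 := mul_lt_mul_of_pos_left key hlead
  rw [← mul_assoc, ← norm_mul, ← norm_mul, ← coeff_C_mul, ← coeff_C_mul, ← hsplit, hu, one_mul,
    htm] at h2
  exact lt_irrefl _ h2

/-- In an ultrametric field, vanishing consecutive differences give a Cauchy sequence. -/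
theorem cauchySeq_of_tendsto_succ {r : ℕ → Ω}
    (h : Tendsto (fun k ↦ r (k + 1) - r k) atTop (𝓝 0)) : CauchySeq r := by
  refine Metric.cauchySeq_iff'.mpr fun ε hε ↦ ?_
  obtain ⟨N, hN⟩ := Metric.tendsto_atTop.mp h ε hε
  refine ⟨N, fun k hk ↦ ?_⟩
  induction k, hk using Nat.le_induction with
  | base => simpa using hε
  | succ j hj ih =>
    refine (dist_triangle_max (r (j + 1)) (r j) (r N)).trans_lt (max_lt ?_ ih)
    simpa [dist_eq_norm] using hN j hj

variable [CompleteSpace Ω]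

/-- Evaluation of a one-variable series differs from its truncation by at most `‖z‖ ^ D`. -/
theorem norm_ev_sub_trunc_le (f : PowerSeries (intRing Ω)) {z : intRing Ω} (hz : ‖(z : Ω)‖ < 1)
    (D : ℕ) :
    ‖((ev f (fun _ : Unit ↦ z) : intRing Ω) : Ω)
      - ((PowerSeries.trunc D f).eval z : intRing Ω)‖ ≤ ‖(z : Ω)‖ ^ D := by
  have ha : IsSmall (fun _ : Unit ↦ z) := fun _ ↦ isTopologicallyNilpotent_intRing.mpr hz
  let g : PowerSeries (intRing Ω) := PowerSeries.mk fun i ↦ PowerSeries.coeff (i + D) f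
  have hf : f = g * PowerSeries.X ^ D + (PowerSeries.trunc D f : PowerSeries (intRing Ω)) :=
    PowerSeries.eq_shift_mul_X_pow_add_trunc D f
  have hpol : ∀ P : (intRing Ω)[X],
      ev (P : PowerSeries (intRing Ω)) (fun _ : Unit ↦ z) = P.eval z := by
    intro P
    rw [← evHom_apply ha]
    have h : (evHom ha).comp (Polynomial.coeToPowerSeries.ringHom) = Polynomial.evalRingHom z := by
      refine Polynomial.ringHom_ext (fun r ↦ ?_) ?_
      · simp [evHom_apply, PowerSeries.C]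
      · simp [evHom_apply, PowerSeries.X]
    exact RingHom.congr_fun h P
  have : ev f (fun _ : Unit ↦ z) = ev g (fun _ : Unit ↦ z) * z ^ D
      + (PowerSeries.trunc D f).eval z := by
    conv_lhs => rw [hf]
    rw [ev_add ha, ev_mul ha, ev_pow ha, hpol, PowerSeries.X, ev_X]
  rw [this]
  simp only [AddMemClass.coe_add, MulMemClass.coe_mul, SubmonoidClass.coe_pow, add_sub_cancel_right]
  rw [norm_mul, norm_pow]
  exact mul_le_of_le_one_left (by positivity) (ev g _).2

/-- A power series over the integers with a first unit coefficient in positive degree has a root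
in the open disc. -/
theorem exists_root_series [IsAlgClosed Ω] (f : PowerSeries (intRing Ω)) {m : ℕ} (hm : 0 < m)
    (hu : ‖((PowerSeries.coeff m f : intRing Ω) : Ω)‖ = 1)
    (hlt : ∀ i < m, ‖((PowerSeries.coeff i f : intRing Ω) : Ω)‖ < 1) :
    ∃ z : intRing Ω, ‖(z : Ω)‖ < 1 ∧ ev f (fun _ : Unit ↦ z) = 0 := by
  let F : ℕ → Ω[X] := fun D ↦ (PowerSeries.trunc D f).map (intRing Ω).subtype
  let c : ℕ → Ω := fun i ↦ ((PowerSeries.coeff i f : intRing Ω) : Ω)
  have hFc : ∀ D i, (F D).coeff i = if i < D then c i else 0 := by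
    intro D i
    simp only [F, Polynomial.coeff_map, PowerSeries.coeff_trunc]
    split_ifs <;> simp [c]
  have hc1 : ∀ i, ‖c i‖ ≤ 1 := fun i ↦ (PowerSeries.coeff i f).2
  have hFsucc : ∀ D, F (D + 1) = F D + Polynomial.monomial D (c D) := by
    intro D
    simp [F, PowerSeries.trunc_succ, Polynomial.map_add, c]
  -- one step of the iteration
  have step : ∀ D r, m ≤ D → ‖r‖ < 1 → (F (D)).IsRoot r →
      ∃ r', (F (D + 1)).IsRoot r' ∧ ‖r' - r‖ ^ m ≤ ‖r‖ ^ D := by
    intro D r hD hr hroot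
    let T := Polynomial.taylor r (F (D + 1))
    have hT0 : ‖T.coeff 0‖ ≤ ‖r‖ ^ D := by
      simp only [T, Polynomial.taylor_coeff_zero]
      rw [hFsucc, Polynomial.eval_add, hroot.eq_zero, zero_add, Polynomial.eval_monomial, norm_mul,
        norm_pow]
      exact mul_le_of_le_one_left (by positivity) (hc1 D)
    have hTm : ‖T.coeff m‖ = 1 := by
      simp only [T, Polynomial.taylor_coeff, Polynomial.hasseDeriv_apply, Polynomial.sum_def]
      rw [Polynomial.eval_finsetSum]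
      have hmem : m ∈ (F (D + 1)).support := by
        rw [Polynomial.mem_support_iff, hFc, if_pos (by omega)]
        intro h
        simp [c] at h
        simp [h] at hu
      rw [← Finset.add_sum_erase _ _ hmem]
      have h1 : ‖(monomial (m - m) (((m.choose m : ℕ) : Ω) * (F (D + 1)).coeff m)).eval r‖ = 1 := by
        simp [hFc, show m < D + 1 by omega, c, hu]
      have h2 : ‖∑ i ∈ (F (D + 1)).support.erase m,
          (monomial (i - m) (((i.choose m : ℕ) : Ω) * (F (D + 1)).coeff i)).eval r‖ ≤ ‖r‖ := by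
        refine IsUltrametricDist.norm_sum_le_of_forall_le_of_nonneg (norm_nonneg r) fun i hi ↦ ?_
        rw [Polynomial.eval_monomial, norm_mul, norm_mul, norm_pow]
        rcases lt_or_gt_of_ne (Finset.ne_of_mem_erase hi) with hlt' | hgt
        · simp [Nat.choose_eq_zero_of_lt hlt']
        · have hb : ‖(F (D + 1)).coeff i‖ ≤ 1 := by
            rw [hFc]; split_ifs <;> simp [hc1]
          calc ‖((i.choose m : ℕ) : Ω)‖ * ‖(F (D + 1)).coeff i‖ * ‖r‖ ^ (i - m)
              ≤ 1 * 1 * ‖r‖ ^ (i - m) := by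
                gcongr
                exact natCast_mem (intRing Ω) _
            _ ≤ ‖r‖ := by
                rw [one_mul, one_mul]
                calc ‖r‖ ^ (i - m) ≤ ‖r‖ ^ 1 :=
                      pow_le_pow_of_le_one (norm_nonneg r) hr.le (by omega)
                  _ = ‖r‖ := pow_one _
      rw [IsUltrametricDist.norm_add_eq_max_of_norm_ne_norm (by linarith), h1, max_eq_left]
      linarith
    obtain ⟨d, hd, hd'⟩ := exists_small_root T hm hTm
    refine ⟨d + r, ?_, by simpa using hd'.trans hT0⟩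
    simpa [T, Polynomial.IsRoot, Polynomial.taylor_eval, add_comm] using hd
  -- starting root
  obtain ⟨r0, hr0, hr0'⟩ := exists_small_root (F (m + 1)) hm (by simp [hFc, c, hu])
  have hr0n : ‖r0‖ < 1 := by
    refine (pow_lt_one_iff_of_nonneg (norm_nonneg r0) hm.ne').mp (hr0'.trans_lt ?_)
    simpa [hFc, c] using hlt 0 hm
  classical
  have hstep' : ∀ D r, ∃ r', m ≤ D → ‖r‖ < 1 → (F D).IsRoot r →
      (F (D + 1)).IsRoot r' ∧ ‖r' - r‖ ^ m ≤ ‖r‖ ^ D := by
    intro D r
    by_cases h : m ≤ D ∧ ‖r‖ < 1 ∧ (F D).IsRoot r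
    · obtain ⟨r', h'⟩ := step D r h.1 h.2.1 h.2.2
      exact ⟨r', fun _ _ _ ↦ h'⟩
    · exact ⟨0, fun a b c ↦ absurd ⟨a, b, c⟩ h⟩
  choose nxt hnxt using hstep'
  let r : ℕ → Ω := fun k ↦ k.rec r0 fun j x ↦ nxt (m + 1 + j) x
  have hr_succ : ∀ k, r (k + 1) = nxt (m + 1 + k) (r k) := fun k ↦ rfl
  have inv : ∀ k, (F (m + 1 + k)).IsRoot (r k) ∧ ‖r k‖ ≤ ‖r0‖ := by
    intro k
    induction k with
    | zero => exact ⟨hr0, le_rfl⟩
    | succ k ih =>
      have hk1 : ‖r k‖ < 1 := ih.2.trans_lt hr0n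
      obtain ⟨ha, hb⟩ := hnxt (m + 1 + k) (r k) (by omega) hk1 ih.1
      refine ⟨by rw [hr_succ]; exact ha, ?_⟩
      rw [hr_succ]
      have hd : ‖nxt (m + 1 + k) (r k) - r k‖ ≤ ‖r k‖ := by
        refine (pow_le_pow_iff_left₀ (norm_nonneg _) (norm_nonneg _) hm.ne').mp (hb.trans ?_)
        exact pow_le_pow_of_le_one (norm_nonneg _) hk1.le (by omega)
      calc ‖nxt (m + 1 + k) (r k)‖ = ‖(nxt (m + 1 + k) (r k) - r k) + r k‖ := by simp
        _ ≤ max ‖nxt (m + 1 + k) (r k) - r k‖ ‖r k‖ := IsUltrametricDist.norm_add_le_max _ _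
        _ ≤ ‖r0‖ := max_le (hd.trans ih.2) ih.2
  have hdiff : Tendsto (fun k ↦ r (k + 1) - r k) atTop (𝓝 0) := by
    rw [tendsto_zero_iff_norm_tendsto_zero, Metric.tendsto_atTop]
    intro ε hε
    obtain ⟨N, hN⟩ := exists_pow_lt_of_lt_one (pow_pos hε m) hr0n
    refine ⟨N, fun k hk ↦ ?_⟩
    have hk1 : ‖r k‖ < 1 := (inv k).2.trans_lt hr0n
    obtain ⟨-, hb⟩ := hnxt (m + 1 + k) (r k) (by omega) hk1 (inv k).1
    rw [Real.dist_eq, sub_zero, abs_norm]
    refine lt_of_pow_lt_pow_left₀ m hε.le ?_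
    calc ‖r (k + 1) - r k‖ ^ m ≤ ‖r k‖ ^ (m + 1 + k) := hb
      _ ≤ ‖r0‖ ^ (m + 1 + k) := pow_le_pow_left₀ (norm_nonneg _) (inv k).2 _
      _ ≤ ‖r0‖ ^ N := pow_le_pow_of_le_one (norm_nonneg _) hr0n.le (by omega)
      _ < ε ^ m := hN
  obtain ⟨z, hz⟩ := cauchySeq_tendsto_of_complete
    (cauchySeq_of_tendsto_succ hdiff)
  have hzn : ‖z‖ ≤ ‖r0‖ := le_of_tendsto' hz.norm fun k ↦ (inv k).2
  refine ⟨⟨z, by simpa using hzn.trans hr0n.le⟩, hzn.trans_lt hr0n, Subtype.ext ?_⟩
  set z' : intRing Ω := ⟨z, by simpa using hzn.trans hr0n.le⟩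
  rw [ZeroMemClass.coe_zero, ← norm_eq_zero]
  refine le_antisymm ?_ (norm_nonneg _)
  have hlim : Tendsto (fun k ↦ max (‖r0‖ ^ k) ‖z - r k‖) atTop (𝓝 (max 0 0)) := by
    refine (tendsto_pow_atTop_nhds_zero_of_lt_one (norm_nonneg _) hr0n).max ?_
    rw [← tendsto_zero_iff_norm_tendsto_zero]
    simpa using (tendsto_const_nhds (x := z)).sub hz
  rw [max_self] at hlim
  refine ge_of_tendsto' hlim fun k ↦ ?_
  have hev := norm_ev_sub_trunc_le f (z := z') (hzn.trans_lt hr0n) (m + 1 + k)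
  have heval : (((PowerSeries.trunc (m + 1 + k) f).eval z' : intRing Ω) : Ω)
      = (F (m + 1 + k)).eval z := by
    simp only [F, Polynomial.eval_map, z']
    exact (Polynomial.eval₂_at_apply (intRing Ω).subtype z').symm
  rw [heval] at hev
  have hbound : ‖(F (m + 1 + k)).eval z - (F (m + 1 + k)).eval (r k)‖ ≤ ‖z - r k‖ := by
    have hQ : ∃ q : intRing Ω, (PowerSeries.trunc (m + 1 + k) f).eval z'
        - (PowerSeries.trunc (m + 1 + k) f).eval ⟨r k, by simpa using (inv k).2.trans hr0n.le⟩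
          = q * (z' - ⟨r k, by simpa using (inv k).2.trans hr0n.le⟩) :=
      ⟨_, (Polynomial.evalSubFactor _ _ _).2⟩
    obtain ⟨q, hq⟩ := hQ
    have := congrArg (Subtype.val) hq
    simp only [AddSubgroupClass.coe_sub, MulMemClass.coe_mul, heval] at this
    have he2 : (((PowerSeries.trunc (m + 1 + k) f).eval
        ⟨r k, by simpa using (inv k).2.trans hr0n.le⟩ : intRing Ω) : Ω)
          = (F (m + 1 + k)).eval (r k) := by
      simp only [F, Polynomial.eval_map]
      exact (Polynomial.eval₂_at_apply (intRing Ω).subtype _).symm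
    rw [he2] at this
    rw [this, norm_mul]
    exact mul_le_of_le_one_left (norm_nonneg _) q.2
  rw [(inv k).1.eq_zero, sub_zero] at hbound
  calc ‖((ev f (fun _ : Unit ↦ z') : intRing Ω) : Ω)‖
      = ‖(((ev f (fun _ : Unit ↦ z') : intRing Ω) : Ω) - (F (m + 1 + k)).eval z)
          + (F (m + 1 + k)).eval z‖ := by simp
    _ ≤ max _ _ := IsUltrametricDist.norm_add_le_max _ _
    _ ≤ max (‖r0‖ ^ k) ‖z - r k‖ := by
        refine max_le_max (hev.trans ?_) hbound
        calc ‖(z' : Ω)‖ ^ (m + 1 + k) ≤ ‖r0‖ ^ (m + 1 + k) :=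
              pow_le_pow_left₀ (norm_nonneg _) hzn _
          _ ≤ ‖r0‖ ^ k := pow_le_pow_of_le_one (norm_nonneg _) hr0n.le (by omega)

end Vale.Agent.P217
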