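import Vale.Agent.P217.FieldBasic
import Mathlib.RingTheory.LaurentSeries
import Mathlib.Analysis.Normed.Unbundled.SpectralNorm
import Mathlib.Analysis.Normed.Module.Completion
import Mathlib.Analysis.Normed.Field.Instances
import Mathlib.Analysis.Normed.Field.Approximation
import Mathlib.Topology.Algebra.Valued.NormedValued
import Mathlib.FieldTheory.Finite.Basic
import Mathlib.Topology.Algebra.Polynomial
import Mathlib.FieldTheory.IsAlgClosed.AlgebraicClosure
import Vale.Agent.P217.RootSeries

/-!
The completion of an algebraic closure of `F_p((t))`.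
-/

noncomputable section

open scoped Topology
open Filter Polynomial

namespace Vale.Agent.P217

/-- A complete ultrametric field with an algebraically closed dense subfield is algebraically
closed (any characteristic). -/
theorem isAlgClosed_of_denseRange {A L : Type*} [Field A] [IsAlgClosed A] [NormedField L]
    [CompleteSpace L] [IsUltrametricDist L] (j : A →+* L) (hj : DenseRange j) :
    IsAlgClosed L := by
  algebraize [j]
  refine IsAlgClosed.of_exists_root L fun f fmon firr ↦ ?_
  have hd0 : f.natDegree ≠ 0 := (Irreducible.natDegree_pos firr).ne'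
  set d := f.natDegree
  -- approximating split polynomials
  let ε : ℕ → ℝ := fun k ↦ ((1 / 2 : ℝ) ^ (k + 1)) ^ d / (2 * (d + 1))
  have hε : ∀ k, 0 < ε k := fun k ↦ by positivity
  choose g gmon gdeg gcoeff using fun k ↦
    exists_monic_and_natDegree_eq_and_norm_map_algebraMap_coeff_sub_lt (K := A)
      (L := L) hj fmon (hε k)
  let G : ℕ → L[X] := fun k ↦ (g k).map (algebraMap A L)
  have Gmon : ∀ k, (G k).Monic := fun k ↦ (gmon k).map _
  have Gdeg : ∀ k, (G k).natDegree = d := fun k ↦ by
    simp only [G, natDegree_map]; exact (gdeg k).symm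
  have Gsplit : ∀ k, (G k).Splits := fun k ↦ (IsAlgClosed.splits (g k)).map _
  have hdist : ∀ k i, ‖(G (k + 1)).coeff i - (G k).coeff i‖ < 2 * ε k := by
    intro k i
    have h1 := gcoeff (k + 1) i
    have h2 := gcoeff k i
    have h3 : ε (k + 1) ≤ ε k := by
      simp only [ε]
      gcongr ?_ ^ d / _
      exact pow_le_pow_of_le_one (by norm_num) (by norm_num) (by omega)
    calc ‖(G (k + 1)).coeff i - (G k).coeff i‖
        ≤ ‖(G (k + 1)).coeff i - f.coeff i‖ + ‖(G k).coeff i - f.coeff i‖ :=
          norm_sub_le_norm_sub_add_norm_sub _ _ _ |>.trans (by rw [norm_sub_rev (f.coeff i)])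
      _ < 2 * ε k := by linarith
  have step : ∀ k a, (G k).eval a = 0 → ∃ b, (G (k + 1)).eval b = 0 ∧
      ‖a - b‖ ≤ (1 / 2 : ℝ) ^ (k + 1) * max ‖a‖ 1 := by
    intro k a ha
    obtain ⟨b, hb, hab⟩ := exists_roots_norm_sub_lt_of_norm_coeff_sub_lt
      (f := G k) (g := G (k + 1)) (by positivity : (0 : ℝ) < 2 * ε k) ha (Gmon k) (Gmon (k + 1))
      (by rw [Gdeg, Gdeg]) (hdist k) (Gsplit (k + 1))
    refine ⟨b, ((mem_roots (Gmon (k + 1)).ne_zero).mp hb).eq_zero, hab.le.trans (le_of_eq ?_)⟩
    congr 1
    rw [Gdeg]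
    have : ((d : ℝ) + 1) * (2 * ε k) = ((1 / 2 : ℝ) ^ (k + 1)) ^ d := by
      simp only [ε]; field_simp
    rw [this, Real.pow_rpow_inv_natCast (by positivity) hd0]
  obtain ⟨a0, ha0⟩ : ∃ a, (G 0).eval a = 0 := by
    obtain ⟨a, ha⟩ := (Gsplit 0).exists_eval_eq_zero (by
      rw [degree_eq_natDegree (Gmon 0).ne_zero, Gdeg]; exact_mod_cast hd0)
    exact ⟨a, ha⟩
  classical
  have step' : ∀ k a, ∃ b, (G k).eval a = 0 → (G (k + 1)).eval b = 0 ∧
      ‖a - b‖ ≤ (1 / 2 : ℝ) ^ (k + 1) * max ‖a‖ 1 := by
    intro k a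
    by_cases h : (G k).eval a = 0
    · obtain ⟨b, hb⟩ := step k a h
      exact ⟨b, fun _ ↦ hb⟩
    · exact ⟨0, fun h' ↦ absurd h' h⟩
  choose nxt hnxt using step'
  let r : ℕ → L := fun k ↦ k.rec a0 fun j x ↦ nxt j x
  set B := max ‖a0‖ 1
  have inv : ∀ k, (G k).eval (r k) = 0 ∧ max ‖r k‖ 1 ≤ B := by
    intro k
    induction k with
    | zero => exact ⟨ha0, le_rfl⟩
    | succ k ih =>
      obtain ⟨h1, h2⟩ := hnxt k (r k) ih.1
      refine ⟨h1, max_le ?_ (le_max_right _ _)⟩
      have h3 : ‖r k - nxt k (r k)‖ ≤ B := h2.trans <| by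
        refine le_trans (mul_le_of_le_one_left (by positivity) ?_) ih.2
        exact pow_le_one₀ (by norm_num) (by norm_num)
      calc ‖nxt k (r k)‖ = ‖r k + (-(r k - nxt k (r k)))‖ := by simp
        _ ≤ max ‖r k‖ ‖r k - nxt k (r k)‖ :=
          (IsUltrametricDist.norm_add_le_max _ _).trans (by rw [norm_neg])
        _ ≤ B := max_le ((le_max_left _ _).trans ih.2) h3
  have hcs : CauchySeq r := by
    refine cauchySeq_of_le_geometric (1 / 2) B (by norm_num) fun k ↦ ?_
    obtain ⟨-, h2⟩ := hnxt k (r k) (inv k).1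
    rw [dist_eq_norm]
    calc ‖r k - r (k + 1)‖ ≤ (1 / 2 : ℝ) ^ (k + 1) * max ‖r k‖ 1 := h2
      _ ≤ (1 / 2 : ℝ) ^ k * B :=
        mul_le_mul (pow_le_pow_of_le_one (by norm_num) (by norm_num) (Nat.le_succ k)) (inv k).2
          (by positivity) (by positivity)
      _ = B * (1 / 2) ^ k := mul_comm _ _
  obtain ⟨z, hz⟩ := cauchySeq_tendsto_of_complete hcs
  refine ⟨z, ?_⟩
  have h1 : Tendsto (fun k ↦ (G k).eval (r k) - f.eval (r k)) atTop (𝓝 (0 - f.eval z)) := by
    refine Tendsto.sub ?_ ((f.continuous.tendsto z).comp hz)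
    simp only [fun k ↦ (inv k).1]
    exact tendsto_const_nhds
  have h2 : Tendsto (fun k ↦ (G k).eval (r k) - f.eval (r k)) atTop (𝓝 0) := by
    have hεlim : Tendsto (fun k ↦ (d + 1 : ℝ) * (ε k * B ^ d)) atTop (𝓝 0) := by
      have : Tendsto ε atTop (𝓝 0) := by
        simp only [ε]
        have := (((tendsto_pow_atTop_nhds_zero_of_lt_one (by norm_num : (0 : ℝ) ≤ 1 / 2)
          (by norm_num)).comp (tendsto_add_atTop_nat 1)).pow d).div_const (2 * (d + 1 : ℝ))
        simpa [zero_pow hd0] using this
      simpa using (this.mul_const (B ^ d)).const_mul (d + 1 : ℝ)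
    refine squeeze_zero_norm (fun k ↦ ?_) hεlim
    rw [← eval_sub, Polynomial.eval_eq_sum_range' (n := d + 1) (by
      refine lt_of_le_of_lt (natDegree_sub_le _ _) ?_
      rw [Gdeg]; simp [d])]
    refine (norm_sum_le _ _).trans ?_
    refine (Finset.sum_le_card_nsmul _ _ (ε k * B ^ d) fun i hi ↦ ?_).trans (le_of_eq (by simp))
    rw [norm_mul, norm_pow, coeff_sub]
    refine mul_le_mul (gcoeff k i).le ?_ (by positivity) (hε k).le
    calc ‖r k‖ ^ i ≤ B ^ i := by gcongr; exact (le_max_left _ _).trans (inv k).2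
      _ ≤ B ^ d := pow_le_pow_right₀ (le_max_right _ _) (Nat.lt_succ_iff.mp (Finset.mem_range.mp hi))
  have := tendsto_nhds_unique h1 h2
  simpa using this

open scoped Valued in
/-- `F_p((t))` has a rank one valuation. -/
instance laurentRankOne (p : ℕ) [Fact p.Prime] :
    (Valued.v : Valuation (LaurentSeries (ZMod p)) (WithZero (Multiplicative ℤ))).RankOne where
  hom' := (WithZeroMulInt.toNNReal (e := (2 : NNReal)) two_ne_zero).comp
    MonoidWithZeroHom.ValueGroup₀.embedding
  strictMono' := (WithZeroMulInt.toNNReal_strictMono (by norm_num : (1 : NNReal) < 2)).comp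
    MonoidWithZeroHom.ValueGroup₀.embedding_strictMono
  exists_val_nontrivial := by
    refine ⟨HahnSeries.single (1 : ℤ) (1 : ZMod p), ?_, ?_⟩ <;>
      rw [LaurentSeries.valuation_single_zpow] <;> simp

variable (p : ℕ) [Fact p.Prime]

/-- `F_p((t))` as a normed field. -/
instance laurentNormed : NontriviallyNormedField (LaurentSeries (ZMod p)) :=
  Valued.toNontriviallyNormedField (LaurentSeries (ZMod p)) (WithZero (Multiplicative ℤ))

instance laurentUltra : IsUltrametricDist (LaurentSeries (ZMod p)) :=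
  IsUltrametricDist.isUltrametricDist_of_forall_norm_add_le_max_norm
    (Valuation.norm_add_le Valued.v)

theorem norm_powerSeries_le (f : PowerSeries (ZMod p)) :
    ‖HahnSeries.ofPowerSeries ℤ (ZMod p) f‖ ≤ 1 := by
  rw [Valued.toNormedField.norm_le_one_iff]
  simpa using (LaurentSeries.intValuation_le_iff_coeff_lt_eq_zero (ZMod p) (d := 0) f).mpr (by omega)

theorem norm_powerSeries_lt (f : PowerSeries (ZMod p)) (hf : PowerSeries.constantCoeff f = 0) :
    ‖HahnSeries.ofPowerSeries ℤ (ZMod p) f‖ < 1 := by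
  rw [Valued.toNormedField.norm_lt_one_iff]
  refine ((LaurentSeries.intValuation_le_iff_coeff_lt_eq_zero (ZMod p) (d := 1) f).mpr ?_).trans_lt ?_
  · intro k hk
    obtain rfl : k = 0 := by omega
    simpa using hf
  · rw [← WithZero.exp_zero, WithZero.exp_lt_exp]; norm_num

theorem exists_powerSeries_of_norm_le (x : LaurentSeries (ZMod p)) (hx : ‖x‖ ≤ 1) :
    ∃ f : PowerSeries (ZMod p), HahnSeries.ofPowerSeries ℤ (ZMod p) f = x := by
  rw [Valued.toNormedField.norm_le_one_iff] at hx
  exact (LaurentSeries.val_le_one_iff_eq_coe _ x).mp hx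

/-- The algebraic closure of `F_p((t))`. -/
def LaurentAlgCl : Type := AlgebraicClosure (LaurentSeries (ZMod p))

namespace LaurentAlgCl

instance : Field (LaurentAlgCl p) := inferInstanceAs (Field (AlgebraicClosure _))
instance : Algebra (LaurentSeries (ZMod p)) (LaurentAlgCl p) :=
  inferInstanceAs (Algebra _ (AlgebraicClosure (LaurentSeries (ZMod p))))
instance : IsAlgClosed (LaurentAlgCl p) := inferInstanceAs (IsAlgClosed (AlgebraicClosure _))
instance : Algebra.IsAlgebraic (LaurentSeries (ZMod p)) (LaurentAlgCl p) :=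
  inferInstanceAs (Algebra.IsAlgebraic _ (AlgebraicClosure (LaurentSeries (ZMod p))))

instance normed : NontriviallyNormedField (LaurentAlgCl p) :=
  spectralNorm.nontriviallyNormedField (LaurentSeries (ZMod p)) (LaurentAlgCl p)

instance ultra : IsUltrametricDist (LaurentAlgCl p) :=
  IsUltrametricDist.isUltrametricDist_of_forall_norm_add_le_max_norm
    (isNonarchimedean_spectralNorm (K := LaurentSeries (ZMod p)) (L := LaurentAlgCl p))

theorem norm_algebraMap (x : LaurentSeries (ZMod p)) :
    ‖algebraMap (LaurentSeries (ZMod p)) (LaurentAlgCl p) x‖ = ‖x‖ :=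
  spectralNorm_extends x

end LaurentAlgCl

/-- The completed algebraic closure of `F_p((t))`. -/
abbrev CharPComplex : Type := UniformSpace.Completion (LaurentAlgCl p)

namespace CharPComplex

instance normed : NontriviallyNormedField (CharPComplex p) :=
  NontriviallyNormedField.ofNormNeOne <| by
    obtain ⟨x, hx⟩ := NormedField.exists_one_lt_norm (LaurentAlgCl p)
    refine ⟨(x : CharPComplex p), ?_, ?_⟩
    · rw [← norm_ne_zero_iff, UniformSpace.Completion.norm_coe]; linarith
    · rw [UniformSpace.Completion.norm_coe]; linarith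

instance ultra : IsUltrametricDist (CharPComplex p) :=
  IsUltrametricDist.isUltrametricDist_of_forall_norm_add_le_max_norm fun x y ↦ by
    induction x, y using UniformSpace.Completion.induction_on₂ with
    | hp => apply isClosed_le <;> fun_prop
    | ih a b =>
      rw [← UniformSpace.Completion.coe_add]
      simpa only [UniformSpace.Completion.norm_coe] using IsUltrametricDist.norm_add_le_max a b

/-- The map `F_p((t)) → Ω`. -/
def ofLaurent : LaurentSeries (ZMod p) →+* CharPComplex p :=
  (UniformSpace.Completion.coeRingHom).comp (algebraMap _ (LaurentAlgCl p))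

theorem norm_ofLaurent (x : LaurentSeries (ZMod p)) : ‖ofLaurent p x‖ = ‖x‖ := by
  rw [← LaurentAlgCl.norm_algebraMap]
  exact UniformSpace.Completion.norm_coe _

/-- Roots of unity of `p`-power-minus-one order approximate integral elements of `F_p((t))^alg`. -/
theorem residue_aux (y : LaurentAlgCl p) (hy : ‖y‖ ≤ 1) :
    ∃ (c : LaurentAlgCl p) (m : ℕ), 0 < m ∧ c ^ (p ^ m) = c ∧ ‖y - c‖ < 1 := by
  let K := LaurentSeries (ZMod p)
  let P := minpoly K y
  have hint : IsIntegral K y := (Algebra.IsAlgebraic.isAlgebraic (R := K) y).isIntegral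
  have hPm : P.Monic := minpoly.monic hint
  have hcoef : ∀ i, ‖P.coeff i‖ ≤ 1 := (spectralValue_le_one_iff hPm).mp hy
  choose F hF using fun i ↦ exists_powerSeries_of_norm_le p (P.coeff i) (hcoef i)
  let d := P.natDegree
  let j : ZMod p →+* LaurentAlgCl p := (algebraMap K (LaurentAlgCl p)).comp
    ((HahnSeries.ofPowerSeries ℤ (ZMod p)).comp PowerSeries.C)
  have : CharP (LaurentAlgCl p) p := charP_of_injective_ringHom j.injective p
  have : ExpChar (LaurentAlgCl p) p := ExpChar.prime Fact.out
  let g : (ZMod p)[X] := X ^ d + ∑ i ∈ Finset.range d, C (PowerSeries.constantCoeff (F i)) * X ^ i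
  have gmon : g.Monic := monic_X_pow_add (by
    refine lt_of_le_of_lt (degree_sum_le _ _) ?_
    rw [Finset.sup_lt_iff (by exact WithBot.bot_lt_coe d)]
    intro i hi
    exact (degree_C_mul_X_pow_le _ _).trans_lt (by exact_mod_cast Finset.mem_range.mp hi))
  have hgy : ‖(g.map j).eval y‖ < 1 := by
    have h0 : P.aeval y = 0 := minpoly.aeval K y
    rw [hPm.as_sum, map_add, map_pow, aeval_X, map_sum] at h0
    simp only [g, Polynomial.map_add, Polynomial.map_pow, map_X, Polynomial.map_sum,
      Polynomial.map_mul, map_C, eval_add, eval_pow, eval_X, eval_finsetSum, eval_mul, eval_C]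
    rw [eq_neg_of_add_eq_zero_left h0, neg_add_eq_sub, ← Finset.sum_sub_distrib]
    refine Finset.sum_induction _ (fun z : LaurentAlgCl p ↦ ‖z‖ < 1)
      (fun x z hx hz ↦ (IsUltrametricDist.norm_add_le_max x z).trans_lt (max_lt hx hz))
      (by simp) fun i hi ↦ ?_
    rw [map_mul, map_pow, aeval_X, aeval_C, ← sub_mul, norm_mul, norm_pow]
    have hsmall : ‖j (PowerSeries.constantCoeff (F i)) - algebraMap K (LaurentAlgCl p) (P.coeff i)‖
        < 1 := by
      rw [← hF i]
      simp only [j, RingHom.coe_comp, Function.comp_apply, ← map_sub]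
      rw [LaurentAlgCl.norm_algebraMap]
      exact norm_powerSeries_lt p _ (by simp)
    calc _ ≤ _ * 1 := mul_le_mul_of_nonneg_left (pow_le_one₀ (norm_nonneg y) hy) (norm_nonneg _)
      _ < 1 := by rwa [mul_one]
  have hsplit := IsAlgClosed.splits (g.map j)
  rw [hsplit.eval_eq_prod_roots_of_monic (gmon.map j)] at hgy
  obtain ⟨c, hc, hyc⟩ : ∃ c ∈ (g.map j).roots, ‖y - c‖ < 1 := by
    by_contra! h
    have h1 : 1 ≤ ‖((g.map j).roots.map fun x ↦ y - x).prod‖ := by
      generalize (g.map j).roots = s at h ⊢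
      induction s using Multiset.induction with
      | empty => simp
      | cons a s ih =>
        simp only [Multiset.map_cons, Multiset.prod_cons, norm_mul]
        exact one_le_mul_of_one_le_of_one_le (h a (Multiset.mem_cons_self a s))
          (ih fun x hx ↦ h x (Multiset.mem_cons_of_mem hx))
    linarith
  have hfrob : ∀ x ∈ (g.map j).roots, x ^ p ∈ (g.map j).roots := by
    intro x hx
    rw [mem_roots (gmon.map j).ne_zero, IsRoot, eval_map] at hx ⊢
    have hj : (frobenius (LaurentAlgCl p) p).comp j = j := by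
      refine RingHom.ext_zmod _ _
    have := congrArg (frobenius (LaurentAlgCl p) p) hx
    rw [map_zero, Polynomial.hom_eval₂, hj] at this
    simpa [frobenius_def] using this
  classical
  have hiter : ∀ k : ℕ, c ^ (p ^ k) ∈ (g.map j).roots.toFinset := by
    intro k
    rw [Multiset.mem_toFinset]
    induction k with
    | zero => simpa using hc
    | succ k ih => rw [pow_succ, pow_mul]; exact hfrob _ ih
  obtain ⟨a, b, hab, he⟩ := Finite.exists_ne_map_eq_of_infinite
    (fun k : ℕ ↦ (⟨c ^ (p ^ k), hiter k⟩ : (g.map j).roots.toFinset))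
  have he' : c ^ (p ^ a) = c ^ (p ^ b) := congrArg Subtype.val he
  wlog hlt : a < b generalizing a b
  · exact this b a (Ne.symm hab) he.symm he'.symm (by omega)
  refine ⟨c, b - a, by omega, ?_, hyc⟩
  apply iterateFrobenius_inj (LaurentAlgCl p) p a
  simp only [iterateFrobenius_def, ← pow_mul, ← pow_add]
  rw [he', show b - a + a = b by omega]

instance charP : CharP (CharPComplex p) p :=
  charP_of_injective_ringHom ((ofLaurent p).comp
    ((HahnSeries.ofPowerSeries ℤ (ZMod p)).comp PowerSeries.C)).injective p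

instance good : GoodField p (CharPComplex p) where
  charP := inferInstance
  ultra := inferInstance
  complete := inferInstance
  algClosed := isAlgClosed_of_denseRange (A := LaurentAlgCl p)
    UniformSpace.Completion.coeRingHom UniformSpace.Completion.denseRange_coe
  residue x hx := by
    obtain ⟨y, hy⟩ := Metric.denseRange_iff.mp
      (UniformSpace.Completion.denseRange_coe (α := LaurentAlgCl p)) x 1 one_pos
    rw [dist_eq_norm] at hy
    have hy1 : ‖y‖ ≤ 1 := by
      rw [← UniformSpace.Completion.norm_coe]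
      calc ‖(y : CharPComplex p)‖ = ‖((y : CharPComplex p) - x) + x‖ := by simp
        _ ≤ max ‖(y : CharPComplex p) - x‖ ‖x‖ := IsUltrametricDist.norm_add_le_max _ _
        _ ≤ 1 := max_le (by rw [norm_sub_rev]; exact hy.le) hx
    obtain ⟨c, m, hm, hc, hyc⟩ := residue_aux p y hy1
    refine ⟨(c : CharPComplex p), m, hm, ?_, ?_⟩
    · exact (map_pow (UniformSpace.Completion.coeRingHom (α := LaurentAlgCl p)) c (p ^ m)).symm.trans (congrArg _ hc)
    · calc ‖x - (c : CharPComplex p)‖
          = ‖(x - (y : CharPComplex p)) + ((y : CharPComplex p) - (c : CharPComplex p))‖ := by simp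
        _ ≤ max ‖x - (y : CharPComplex p)‖ ‖(y : CharPComplex p) - (c : CharPComplex p)‖ :=
          IsUltrametricDist.norm_add_le_max _ _
        _ < 1 := max_lt hy (by rw [← UniformSpace.Completion.coe_sub,
            UniformSpace.Completion.norm_coe]; exact hyc)

end CharPComplex

end Vale.Agent.P217
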