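import Vale.Agent.P217.Defs
import Vale.Agent.P217.FieldBasic
import Vale.Agent.P217.RootSeries
import Vale.Agent.P217.FieldCpl
import Vale.Agent.P217.CurveSel
import Mathlib.NumberTheory.Padics.Complex
import Mathlib.NumberTheory.Padics.PadicIntegers
import Mathlib.RingTheory.WittVector.Compare
import Mathlib.RingTheory.WittVector.Teichmuller
import Mathlib.RingTheory.WittVector.DiscreteValuationRing

/-!
Points of closed subschemes of Lubin-Tate space with values in complete algebraically closed
fields.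
-/

noncomputable section

open IsLocalRing

namespace Vale.Agent.P217

variable {p n m : ℕ} [Fact p.Prime]

theorem exists_point_charP (hn : n ≠ 0) (P : Ideal (MvPowerSeries (Fin m) (GaloisField p n)))
    [P.IsPrime] {u : MvPowerSeries (Fin m) (GaloisField p n)} (hu : u ∉ P) :
    ∃ (Ω : Type) (_ : NontriviallyNormedField Ω) (_ : IsUltrametricDist Ω) (_ : GoodField p Ω)
      (ι : GaloisField p n →+* intRing Ω) (a : Fin m → intRing Ω),
      (∀ i, ‖(a i : Ω)‖ < 1) ∧ (∀ f ∈ P, ev (MvPowerSeries.map ι f) a = 0) ∧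
        ev (MvPowerSeries.map ι u) a ≠ 0 := by
  classical
  have : Fintype (GaloisField p n) := Fintype.ofFinite _
  refine ⟨CharPComplex p, inferInstance, inferInstance, inferInstance, ?_⟩
  have : IsNoetherianRing (MvPowerSeries (Fin m) (GaloisField p n)) :=
    MvPowerSeries.isNoetherianRing (GaloisField p n)
  by_cases hP : P = maximalIdeal (MvPowerSeries (Fin m) (GaloisField p n))
  · -- the closed point
    let : Algebra (ZMod p) (CharPComplex p) := ZMod.algebra _ p
    let e : GaloisField p n →ₐ[ZMod p] CharPComplex p := IsAlgClosed.lift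
    have he : ∀ x : GaloisField p n, e x ∈ intRing (CharPComplex p) := by
      intro x
      rw [mem_intRing]
      rcases eq_or_ne x 0 with rfl | hx
      · simp
      · have hcard : x ^ (Fintype.card (GaloisField p n) - 1) = 1 :=
          FiniteField.pow_card_sub_one_eq_one x hx
        have h1 : ‖e x‖ ^ (Fintype.card (GaloisField p n) - 1) = 1 := by
          rw [← norm_pow, ← map_pow, hcard, map_one, norm_one]
        have hpos : 0 < Fintype.card (GaloisField p n) - 1 := by
          have := Fintype.one_lt_card (α := GaloisField p n); omega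
        exact ((pow_eq_one_iff_of_nonneg (norm_nonneg _) hpos.ne').mp h1).le
    let ι : GaloisField p n →+* intRing (CharPComplex p) := e.toRingHom.codRestrict _ he
    let a : Fin m → intRing (CharPComplex p) := fun _ ↦ 0
    have ha : IsSmall a := fun _ ↦ IsTopologicallyNilpotent.zero
    have hev : ∀ f : MvPowerSeries (Fin m) (GaloisField p n),
        ev (MvPowerSeries.map ι f) a = ι (MvPowerSeries.constantCoeff f) := by
      intro f
      refine (hasSum_ev ha _).unique ?_
      have h : HasSum (fun d : Fin m →₀ ℕ ↦ MvPowerSeries.coeff d (MvPowerSeries.map ι f) *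
          d.prod fun s e ↦ a s ^ e)
          (MvPowerSeries.coeff 0 (MvPowerSeries.map ι f) *
            (0 : Fin m →₀ ℕ).prod fun s e ↦ a s ^ e) := by
        refine hasSum_single (0 : Fin m →₀ ℕ) fun d hd ↦ ?_
        obtain ⟨i, hi⟩ := Finsupp.support_nonempty_iff.mpr hd
        rw [Finsupp.prod, Finset.prod_eq_zero hi (by simp [a, Finsupp.mem_support_iff.mp hi]),
          mul_zero]
      simpa [MvPowerSeries.coeff_map] using h
    refine ⟨ι, a, fun i ↦ by simp [a], fun f hf ↦ ?_, ?_⟩
    · have : ¬ IsUnit f := by rw [hP] at hf; exact hf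
      rw [MvPowerSeries.isUnit_iff_constantCoeff, isUnit_iff_ne_zero, not_not] at this
      rw [hev, this, map_zero]
    · have : IsUnit u := by
        rw [hP] at hu
        simpa [mem_maximalIdeal, mem_nonunits_iff] using hu
      rw [hev]
      have h0 : IsUnit (MvPowerSeries.constantCoeff u) := MvPowerSeries.isUnit_constantCoeff _ this
      intro h
      have := h0.map ι
      rw [h] at this
      exact not_isUnit_zero this
  · obtain ⟨w, hwm, hwP⟩ : ∃ w ∈ maximalIdeal (MvPowerSeries (Fin m) (GaloisField p n)), w ∉ P := by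
      by_contra! h
      exact hP (le_antisymm (le_maximalIdeal Ideal.IsPrime.ne_top') h)
    set v := u * w
    have hvP : v ∉ P := fun h ↦ (Ideal.IsPrime.mem_or_mem inferInstance h).elim hu hwP
    have hvm : v ∈ maximalIdeal (MvPowerSeries (Fin m) (GaloisField p n)) :=
      Ideal.mul_mem_left _ u hwm
    have hvsub : PowerSeries.HasSubst v := PowerSeries.HasSubst.of_constantCoeff_zero (by
      have hvu : ¬ IsUnit v := hvm
      rw [MvPowerSeries.isUnit_iff_constantCoeff, isUnit_iff_ne_zero, not_not] at hvu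
      exact hvu)
    let φ : PowerSeries (ZMod p) →+* MvPowerSeries (Fin m) (GaloisField p n) :=
      (PowerSeries.substAlgHom (R := ZMod p) hvsub).toRingHom
    have hφt : φ PowerSeries.X = v := PowerSeries.substAlgHom_X hvsub
    let j : PowerSeries (ZMod p) →+* CharPComplex p :=
      (CharPComplex.ofLaurent p).comp (HahnSeries.ofPowerSeries ℤ (ZMod p))
    have : Fact (n ≠ 0) := ⟨hn⟩
    have hfin : ∃ S : Finset (MvPowerSeries (Fin m) (GaloisField p n)), ∀ x, ∃ s ∈ S,
        x - s ∈ maximalIdeal (MvPowerSeries (Fin m) (GaloisField p n)) := by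
      refine ⟨Finset.univ.image MvPowerSeries.C, fun x ↦ ⟨MvPowerSeries.C
        (MvPowerSeries.constantCoeff x), Finset.mem_image_of_mem _ (Finset.mem_univ _), ?_⟩⟩
      rw [mem_maximalIdeal, mem_nonunits_iff, MvPowerSeries.isUnit_iff_constantCoeff]
      simp
    obtain ⟨ψ, hψ1, hψm, hψP, hψv⟩ := exists_local_hom (E := MvPowerSeries (Fin m) (GaloisField p n))
      (B := PowerSeries (ZMod p)) PowerSeries.X PowerSeries.X_irreducible φ hfin P (u := v)
      (by rw [hφt]; exact fun h ↦ (Ideal.IsPrime.mem_or_mem inferInstance h).elim hvP hvP)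
      (hφt ▸ hvm) j
      ((CharPComplex.ofLaurent p).injective.comp HahnSeries.ofPowerSeries_injective)
      (fun b ↦ (CharPComplex.norm_ofLaurent p _).trans_le (norm_powerSeries_le p b))
      ((CharPComplex.norm_ofLaurent p _).trans_lt (norm_powerSeries_lt p _ (by simp)))
    let ψ₀ : MvPowerSeries (Fin m) (GaloisField p n) →+* intRing (CharPComplex p) :=
      ψ.codRestrict _ fun x ↦ hψ1 x
    have hX : ∀ i, ‖(ψ₀ (MvPowerSeries.X i) : CharPComplex p)‖ < 1 := fun i ↦ hψm _ (by
      rw [mem_maximalIdeal, mem_nonunits_iff, MvPowerSeries.isUnit_iff_constantCoeff]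
      simp)
    refine ⟨ψ₀.comp MvPowerSeries.C, fun i ↦ ψ₀ (MvPowerSeries.X i), hX, fun f hf ↦ ?_, ?_⟩
    · rw [← hom_eq_ev ψ₀ hX f]
      exact Subtype.ext (hψP f hf)
    · rw [← hom_eq_ev ψ₀ hX u]
      intro h
      apply hψv
      have h' : ψ u = 0 := congrArg Subtype.val h
      rw [map_mul, h', zero_mul]

theorem exists_point_charZero (P : Ideal (LTRing p n)) [P.IsPrime] (hp : (p : LTRing p n) ∉ P)
    {u : LTRing p n} (hu : u ∉ P) :
    ∃ (ι : WittVector p (GaloisField p n) →+* intRing ℂ_[p]) (a : Fin (n - 1) → intRing ℂ_[p]),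
      (∀ i, ‖(a i : ℂ_[p])‖ < 1) ∧ (∀ f ∈ P, ev (MvPowerSeries.map ι f) a = 0) ∧
        ev (MvPowerSeries.map ι u) a ≠ 0 := by
  classical
  have : IsNoetherianRing (LTRing p n) :=
    MvPowerSeries.isNoetherianRing (WittVector p (GaloisField p n))
  -- maximal ideal membership
  have hmem : ∀ x : LTRing p n, x ∈ maximalIdeal (LTRing p n) ↔
      WittVector.coeff (MvPowerSeries.constantCoeff x) 0 = 0 := by
    intro x
    rw [mem_maximalIdeal, mem_nonunits_iff, MvPowerSeries.isUnit_iff_constantCoeff]
    constructor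
    · intro h
      by_contra h0
      exact h (WittVector.isUnit_of_coeff_zero_ne_zero _ h0)
    · intro h0 hu
      have := hu.map (WittVector.constantCoeff : WittVector p (GaloisField p n) →+* GaloisField p n)
      rw [WittVector.constantCoeff_apply, h0] at this
      exact not_isUnit_zero this
  have hpm : (p : LTRing p n) ∈ maximalIdeal (LTRing p n) := by
    rw [hmem, map_natCast, ← WittVector.constantCoeff_apply, map_natCast,
      CharP.cast_eq_zero]
  set v := (p : LTRing p n) * u
  have hvP : v ∉ P := fun h ↦ (Ideal.IsPrime.mem_or_mem inferInstance h).elim hp hu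
  -- the base `ℤ_p`
  let φ : ℤ_[p] →+* LTRing p n :=
    (MvPowerSeries.C).comp ((WittVector.map (ZMod.castHom dvd_rfl (GaloisField p n))).comp
      (WittVector.equiv p).symm.toRingHom)
  have hφp : φ (p : ℤ_[p]) = (p : LTRing p n) := map_natCast φ p
  let j : ℤ_[p] →+* ℂ_[p] := (algebraMap ℚ_[p] ℂ_[p]).comp PadicInt.Coe.ringHom
  have hjn : ∀ b, ‖j b‖ = ‖b‖ := fun b ↦ (PadicComplex.norm_extends' p (b : ℚ_[p]))
  have hj : Function.Injective j :=
    (algebraMap ℚ_[p] ℂ_[p]).injective.comp Subtype.val_injective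
  have hpre : IsPrecomplete (Ideal.span {(p : ℤ_[p])}) ℤ_[p] := by
    rw [← PadicInt.maximalIdeal_eq_span_p]; infer_instance
  have hfin : ∃ S : Finset (LTRing p n), ∀ x, ∃ s ∈ S, x - s ∈ maximalIdeal (LTRing p n) := by
    let := Fintype.ofFinite (GaloisField p n)
    refine ⟨Finset.univ.image fun c : GaloisField p n ↦
      MvPowerSeries.C (WittVector.teichmuller p c), fun x ↦
      ⟨_, Finset.mem_image_of_mem _ (Finset.mem_univ
        (WittVector.coeff (MvPowerSeries.constantCoeff x) 0)), ?_⟩⟩
    rw [hmem, map_sub, MvPowerSeries.constantCoeff_C, ← WittVector.constantCoeff_apply, map_sub,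
      WittVector.constantCoeff_apply, WittVector.constantCoeff_apply,
      WittVector.teichmuller_coeff_zero, sub_self]
  obtain ⟨ψ, hψ1, hψm, hψP, hψu⟩ := exists_local_hom (p : ℤ_[p]) PadicInt.irreducible_p φ
    hfin P (u := u) (hφp ▸ hvP) (hφp ▸ hpm) j hj (fun b ↦ (hjn b).trans_le b.2)
    ((hjn _).trans_lt (PadicInt.norm_p.trans_lt (inv_lt_one_of_one_lt₀ (by exact_mod_cast (Fact.out : p.Prime).one_lt))))
  let ψ₀ : LTRing p n →+* intRing ℂ_[p] := ψ.codRestrict _ fun x ↦ hψ1 x
  have hX : ∀ i, ‖(ψ₀ (MvPowerSeries.X i) : ℂ_[p])‖ < 1 := fun i ↦ hψm _ (by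
    rw [hmem]; simp)
  refine ⟨ψ₀.comp MvPowerSeries.C, fun i ↦ ψ₀ (MvPowerSeries.X i), hX, fun f hf ↦ ?_, ?_⟩
  · rw [← hom_eq_ev ψ₀ hX f]
    exact Subtype.ext (hψP f hf)
  · rw [← hom_eq_ev ψ₀ hX u]
    exact fun h ↦ hψu (congrArg Subtype.val h)

end Vale.Agent.P217
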