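import Vale.Agent.P217.CharZero.Kill
import Vale.Agent.P217.Field
import Mathlib.NumberTheory.Padics.Complex

/-!
A prime of the Lubin-Tate ring that does not contain `p` and is moved into itself by all small
moves is zero.
-/

noncomputable section

open Filter MvPowerSeries
open scoped MvPowerSeries.WithPiTopology Topology

namespace Vale.Agent.P217.CharZero

variable {p N : ℕ} [hp : Fact p.Prime]

theorem pderiv_map {σ R S : Type*} [CommRing R] [CommRing S] (g : R →+* S) (f : MvPowerSeries σ R)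
    (j : σ) : MvPowerSeries.map g (pderiv R j f) = pderiv S j (MvPowerSeries.map g f) := by
  ext d
  simp [coeff_map, coeff_pderiv]

theorem norm_p_lt_one : ‖(p : ℂ_[p])‖ < 1 := by
  rw [← map_natCast (algebraMap ℚ_[p] ℂ_[p]), norm_algebraMap']
  exact Padic.norm_p_lt_one

theorem setup_point (a : Fin (N + 1 - 1) → intRing ℂ_[p]) (ha : ∀ i, ‖(a i : ℂ_[p])‖ < 1) :
    ∃ r, Setup ℂ_[p] p r ∧ ‖(p : ℂ_[p])‖ ≤ r ∧ ∀ i, ‖(a i : ℂ_[p])‖ ≤ r :=
  ⟨max ‖(p : ℂ_[p])‖ ‖fun i ↦ (a i : ℂ_[p])‖,
    { two_le := hp.out.two_le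
      ne_zero := Nat.cast_ne_zero.mpr hp.out.ne_zero
      small := norm_p_lt_one
      r_nonneg := le_max_of_le_left (norm_nonneg _)
      r_lt := max_lt norm_p_lt_one ((pi_norm_lt_iff one_pos).mpr ha) },
    le_max_left _ _, fun i ↦
      le_max_of_le_right (norm_le_pi_norm (fun i ↦ (a i : ℂ_[p])) i)⟩

theorem pderiv_mem (P : Ideal (LTRing p (N + 1))) [P.IsPrime] (hP0 : (p : LTRing p (N + 1)) ∉ P)
    (hP : MovesInto p (N + 1) P) {f : LTRing p (N + 1)} (hf : f ∈ P) (j : Fin (N + 1 - 1)) :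
    pderiv (WittVector p (GaloisField p (N + 1))) j f ∈ P := by
  by_contra hu
  obtain ⟨ι, a, ha, hvan, hne⟩ := exists_point_charZero P hP0 hu
  obtain ⟨r, S, hpr, har⟩ := setup_point a ha
  have hsa : IsSmall a := fun i ↦ isTopologicallyNilpotent_intRing.mpr (ha i)
  refine hne ?_
  rw [pderiv_map]
  exact ev_pderiv_eq_zero S hpr ι har hsa hP
    (fun g hg ↦ by rw [chi_apply ι hsa]; exact hvan g hg) hf j

theorem eq_zero_of_mem (P : Ideal (LTRing p (N + 1))) [P.IsPrime] (hP0 : (p : LTRing p (N + 1)) ∉ P)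
    (hP : MovesInto p (N + 1) P) {f : LTRing p (N + 1)} (hf : f ∈ P) : f = 0 := by
  classical
  obtain ⟨ι, a, ha, hvan, -⟩ := exists_point_charZero P hP0
    (fun h ↦ Ideal.IsPrime.ne_top inferInstance ((Ideal.eq_top_iff_one P).mpr h))
  have hsa : IsSmall a := fun i ↦ isTopologicallyNilpotent_intRing.mpr (ha i)
  have key : ∀ (k : ℕ) (e : Fin (N + 1 - 1) →₀ ℕ), e.degree = k → ∀ g ∈ P,
      coeff e (translate hsa (MvPowerSeries.map ι g)) = 0 := by
    intro k
    induction k with
    | zero =>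
      intro e he g hg
      rw [Finsupp.degree_eq_zero_iff] at he
      rw [he, coeff_zero_eq_constantCoeff_apply, constantCoeff_translate]
      exact hvan g hg
    | succ k ih =>
      intro e he g hg
      obtain ⟨j, hj⟩ : ∃ j, e j ≠ 0 := by
        by_contra h
        push Not at h
        have : e = 0 := Finsupp.ext h
        simp [this] at he
      obtain ⟨e', rfl⟩ : ∃ e', e = e' + Finsupp.single j 1 :=
        ⟨e - Finsupp.single j 1, (tsub_add_cancel_of_le (Finsupp.single_le_iff.mpr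
          (Nat.one_le_iff_ne_zero.mpr hj))).symm⟩
      rw [map_add, Finsupp.degree_single, Nat.add_right_cancel_iff] at he
      have h := ih e' he _ (pderiv_mem P hP0 hP hg j)
      rw [pderiv_map, ← pderiv_translate, coeff_pderiv] at h
      refine (mul_eq_zero.mp h).resolve_right fun h0 ↦ ?_
      have h1 : ((e' j + 1 : ℕ) : ℂ_[p]) = 0 := by
        simpa using congrArg Subtype.val h0
      exact Nat.succ_ne_zero _ (Nat.cast_eq_zero.mp h1)
  have h := eq_zero_of_translate hsa (MvPowerSeries.ext fun e ↦ by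
    rw [key _ e rfl f hf, map_zero])
  refine MvPowerSeries.ext fun e ↦ ?_
  have he := congrArg (coeff e) h
  rw [coeff_map, map_zero] at he
  rw [map_zero]
  exact iota_injective ι (by rw [he]; exact (map_zero ι).symm)

end Vale.Agent.P217.CharZero

namespace Vale.Agent.P217

theorem charZero_eq_bot {p n : ℕ} [Fact p.Prime] (hn : 0 < n) (P : Ideal (LTRing p n)) [P.IsPrime]
    (hp : (p : LTRing p n) ∉ P) (hP : MovesInto p n P) : P = ⊥ := by
  obtain ⟨N, rfl⟩ := Nat.exists_eq_succ_of_ne_zero hn.ne'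
  exact (Submodule.eq_bot_iff P).mpr fun f hf ↦ CharZero.eq_zero_of_mem P hp hP hf

end Vale.Agent.P217
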