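import Vale.Agent.P217.LTLog
import Mathlib.RingTheory.MvPowerSeries.Equiv

/-!
Lubin-Tate lifting: existence, uniqueness and continuity of the lifts of automorphisms of Honda's
law to automorphisms of the Lubin-Tate ring.
-/

noncomputable section

open MvPowerSeries Finset

namespace Vale.Agent.P217.LT

section generic

variable {R S : Type*} [CommRing R] [CommRing S] {F G : FormalGroup R}

theorem fgHom_inv {θ : PowerSeries R} (h : IsFGHom F G θ) (h1 : IsUnit (PowerSeries.coeff 1 θ)) :
    IsFGHom G F (PowerSeries.substInvOfIsUnit θ h1) := by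
  set η := PowerSeries.substInvOfIsUnit θ h1 with hη
  have hη0 : PowerSeries.constantCoeff η = 0 := PowerSeries.constantCoeff_substInvOfIsUnit _ _
  refine ⟨hη0, ?_⟩
  have hpair := Haz.constantCoeff_pair
    (constantCoeff_ps_subst (constantCoeff_X (R := R) (0 : Fin 2)) hη0)
    (constantCoeff_ps_subst (constantCoeff_X (R := R) (1 : Fin 2)) hη0)
  have hs := hasSubst_of_constantCoeff_zero hpair
  have hpair' := Haz.constantCoeff_pair
    (constantCoeff_ps_subst (constantCoeff_X (R := R) (0 : Fin 2)) h.1)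
    (constantCoeff_ps_subst (constantCoeff_X (R := R) (1 : Fin 2)) h.1)
  set c := MvPowerSeries.subst ![PowerSeries.subst (X (0 : Fin 2) : MvPowerSeries (Fin 2) R) η,
    PowerSeries.subst (X (1 : Fin 2) : MvPowerSeries (Fin 2) R) η] F.toPowerSeries with hc
  have hc0 : constantCoeff c = 0 := constantCoeff_subst_eq_zero hs hpair F.zero_constantCoeff
  have hθc : PowerSeries.subst c θ = G.toPowerSeries := by
    rw [hc, ← mv_subst_ps_subst F.zero_constantCoeff hs, h.2,
      MvPowerSeries.subst_comp_subst_apply (hasSubst_of_constantCoeff_zero hpair') hs]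
    conv_rhs => rw [← id_eq G.toPowerSeries, ← MvPowerSeries.subst_self]
    congr 1
    funext i
    have hid : ∀ j : Fin 2, PowerSeries.subst (PowerSeries.subst (X j) η) θ =
        (X j : MvPowerSeries (Fin 2) R) := fun j ↦ by
      rw [← ps_subst_subst hη0 (constantCoeff_X j), hη,
        PowerSeries.subst_substInvOfIsUnit_right θ h.1 h1,
        PowerSeries.subst_X (PowerSeries.HasSubst.of_constantCoeff_zero (constantCoeff_X j))]
    fin_cases i
    · simp [mv_subst_ps_subst (constantCoeff_X (0 : Fin 2)) hs, MvPowerSeries.subst_X hs, hid]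
    · simp [mv_subst_ps_subst (constantCoeff_X (1 : Fin 2)) hs, MvPowerSeries.subst_X hs, hid]
  rw [← hθc, ← ps_subst_subst h.1 hc0, hη, PowerSeries.subst_substInvOfIsUnit_left θ h.1 h1,
    PowerSeries.subst_X (PowerSeries.HasSubst.of_constantCoeff_zero hc0)]

theorem fgHom_map {H : PowerSeries R} (h : IsFGHom F G H) (f : R →+* S) :
    IsFGHom (F.map f) (G.map f) (PowerSeries.map f H) := by
  refine ⟨by rw [← PowerSeries.coeff_zero_eq_constantCoeff_apply, PowerSeries.coeff_map,
    PowerSeries.coeff_zero_eq_constantCoeff_apply, h.1, map_zero], ?_⟩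
  have hpair := Haz.constantCoeff_pair
    (constantCoeff_ps_subst (constantCoeff_X (R := R) (0 : Fin 2)) h.1)
    (constantCoeff_ps_subst (constantCoeff_X (R := R) (1 : Fin 2)) h.1)
  have e := congr_arg (MvPowerSeries.map f) h.2
  rw [PowerSeries.map_subst (PowerSeries.HasSubst.of_constantCoeff_zero F.zero_constantCoeff),
    MvPowerSeries.map_subst (hasSubst_of_constantCoeff_zero hpair)] at e
  rw [FormalGroup.map_toPowerSeries, FormalGroup.map_toPowerSeries]
  refine e.trans ?_
  congr 1
  funext i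
  fin_cases i
  · simp [PowerSeries.map_subst (PowerSeries.HasSubst.of_constantCoeff_zero (constantCoeff_X (R := R) (0 : Fin 2)))]
  · simp [PowerSeries.map_subst (PowerSeries.HasSubst.of_constantCoeff_zero (constantCoeff_X (R := R) (1 : Fin 2)))]

theorem fgHom_id (F : FormalGroup R) : IsFGHom F F (PowerSeries.X : PowerSeries R) := by
  refine ⟨PowerSeries.constantCoeff_X, ?_⟩
  rw [PowerSeries.subst_X (PowerSeries.HasSubst.of_constantCoeff_zero F.zero_constantCoeff),
    PowerSeries.subst_X (PowerSeries.HasSubst.of_constantCoeff_zero (constantCoeff_X _)),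
    PowerSeries.subst_X (PowerSeries.HasSubst.of_constantCoeff_zero (constantCoeff_X _))]
  conv_lhs => rw [← id_eq F.toPowerSeries, ← MvPowerSeries.subst_self]
  congr 1
  funext i
  fin_cases i <;> rfl

theorem fgMap_map {T : Type*} [CommRing T] (F : FormalGroup R) (f : R →+* S) (g : S →+* T) :
    (F.map f).map g = F.map (g.comp f) := by
  refine FormalGroup.ext ?_
  simp only [FormalGroup.map_toPowerSeries, MvPowerSeries.map_map]

theorem ps_subst_cancel₁ {L a b : PowerSeries R} (h0 : PowerSeries.constantCoeff L = 0)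
    (h1 : IsUnit (PowerSeries.coeff 1 L)) (ha : PowerSeries.constantCoeff a = 0)
    (hb : PowerSeries.constantCoeff b = 0) (h : PowerSeries.subst a L = PowerSeries.subst b L) :
    a = b :=
  ps_subst_cancel h0 h1 ha hb h

theorem coeff_one_map {H : PowerSeries R} (h : IsUnit (PowerSeries.coeff 1 H)) (f : R →+* S) :
    IsUnit (PowerSeries.coeff 1 (PowerSeries.map f H)) := by
  rw [PowerSeries.coeff_map]; exact h.map f

theorem coeff_one_subst {H H' : PowerSeries R} (h0 : PowerSeries.constantCoeff H = 0)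
    (h0' : PowerSeries.constantCoeff H' = 0) :
    PowerSeries.coeff 1 (PowerSeries.subst H H') = PowerSeries.coeff 1 H' * PowerSeries.coeff 1 H :=
  ps_subst_linear h0 h0' (by simp)

/-- The recursion reading off the coordinates of a series. -/
def Qseq (p : ℕ) [Fact p.Prime] {n : ℕ} (φ : Haz.A n →+* R) (ψ : PowerSeries R) :
    ℕ → PowerSeries R
  | 0 => 0
  | N + 1 => MvPowerSeries.subst ![Qseq p φ ψ N, PowerSeries.monomial (p ^ N)
      (PowerSeries.coeff (p ^ N) ψ - PowerSeries.coeff (p ^ N) (Qseq p φ ψ N))]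
      ((Haz.law p n).map φ).toPowerSeries

/-- The coordinates of a series. -/
def tOf (p : ℕ) [Fact p.Prime] {n : ℕ} (φ : Haz.A n →+* R) (ψ : PowerSeries R) (N : ℕ) : R :=
  PowerSeries.coeff (p ^ N) ψ - PowerSeries.coeff (p ^ N) (Qseq p φ ψ N)

theorem tOf_spec {p : ℕ} [Fact p.Prime] {n : ℕ} (φ : Haz.A n →+* R) (ψ : PowerSeries R) (N : ℕ) :
    PowerSeries.coeff (p ^ N) ψ =
      PowerSeries.coeff (p ^ N) (PS p φ (tOf p φ ψ) N) + tOf p φ ψ N := by
  have : ∀ N, Qseq p φ ψ N = PS p φ (tOf p φ ψ) N := by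
    intro N
    induction N with
    | zero => rfl
    | succ N ih => rw [Qseq, PS, ← ih]; rfl
  rw [← this, tOf]
  ring

end generic

variable {p n : ℕ} [hp : Fact p.Prime]

theorem resLT_comp_toLT : (resLT p n).comp (toLT p n) = zeroSpec n (GaloisField p n) := by
  refine MvPolynomial.ringHom_ext (fun r ↦ by simp) fun i ↦ ?_
  simp [toLT, zeroSpec, resLT_apply]

theorem lawLT_map_resLT : (lawLT p n).map (resLT p n) = honda p n (GaloisField p n) := by
  rw [lawLT, fgMap_map, resLT_comp_toLT, honda]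

theorem resLT_comp_phB {x : ℕ → LTRing p n} (hx : ∀ v, v ≠ 0 → v < n → resLT p n (x v) = 0) :
    (resLT p n).comp (phB x) = zeroSpec n (GaloisField p n) := by
  refine MvPolynomial.ringHom_ext (fun r ↦ by simp) fun i ↦ ?_
  simp [phB, zeroSpec, hx (i.1 + 1) (by omega) (by omega)]

/-- Ring endomorphisms of the Lubin-Tate ring are local. -/
theorem endo_mem_J_one (hn : n ≠ 0) (φ : LTRing p n →+* LTRing p n) {f : LTRing p n}
    (hf : f ∈ J p n 1) : φ f ∈ J p n 1 := by
  rw [mem_J_one] at hf ⊢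
  by_contra hne
  have hq : 2 ≤ p ^ n := le_trans hp.out.two_le (Nat.le_self_pow hn p)
  have hc : resLT p n (φ f) ^ (p ^ n - 1) = 1 := by
    apply mul_left_cancel₀ hne
    rw [← pow_succ', show p ^ n - 1 + 1 = p ^ n by omega, res_pow hn, mul_one]
  have hu : IsUnit (1 - f ^ (p ^ n - 1)) := by
    rw [isUnit_iff_resLT, map_sub, map_one, map_pow, hf, zero_pow (by omega), sub_zero]
    exact one_ne_zero
  have := isUnit_iff_resLT.mp (hu.map φ)
  rw [map_sub, map_one, map_pow, map_sub, map_one, map_pow, hc, sub_self] at this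
  exact this rfl

theorem endo_mem_J (hn : n ≠ 0) (φ : LTRing p n →+* LTRing p n) {r : ℕ} {f : LTRing p n}
    (hf : f ∈ J p n r) : φ f ∈ J p n r := by
  have h1 : Ideal.map φ (J p n 1) ≤ J p n 1 :=
    Ideal.map_le_iff_le_comap.mpr fun x hx ↦ endo_mem_J_one hn φ hx
  have h2 := Ideal.mem_map_of_mem φ (J_le_pow r hf)
  rw [← J_one_eq, Ideal.map_pow] at h2
  have h3 := Ideal.pow_right_mono h1 r h2
  rw [J_one_eq] at h3
  exact maximalIdeal_pow_le r h3

theorem sub_truncTotal_mem (f : LTRing p n) (r : ℕ) :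
    f - (MvPowerSeries.truncTotal r f : LTRing p n) ∈ J p n r := by
  intro e
  rcases Nat.lt_or_ge e.degree r with h | h
  · rw [map_sub, MvPolynomial.coeff_coe, coeff_truncTotal _ h, sub_self]
    exact dvd_zero _
  · rw [show r - e.degree = 0 by omega, pow_zero]
    exact one_dvd _

theorem endo_ext (hn : n ≠ 0) {φ φ' : LTRing p n →+* LTRing p n}
    (hC : ∀ w, φ (MvPowerSeries.C w) = φ' (MvPowerSeries.C w))
    (hX : ∀ i, φ (MvPowerSeries.X i) = φ' (MvPowerSeries.X i)) : φ = φ' := by
  refine RingHom.ext fun f ↦ eq_of_sub_mem_J fun r ↦ ?_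
  have hP : φ.comp (MvPolynomial.coeToMvPowerSeries.ringHom) =
      φ'.comp (MvPolynomial.coeToMvPowerSeries.ringHom) :=
    MvPolynomial.ringHom_ext (fun w ↦ by simpa using hC w) (fun i ↦ by simpa using hX i)
  have e := RingHom.congr_fun hP (MvPowerSeries.truncTotal r f)
  simp only [RingHom.comp_apply, MvPolynomial.coeToMvPowerSeries.ringHom_apply] at e
  have h1 := endo_mem_J hn φ (sub_truncTotal_mem f r)
  have h2 := endo_mem_J hn φ' (sub_truncTotal_mem f r)
  rw [map_sub] at h1 h2
  simpa [e] using Ideal.sub_mem _ h1 h2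

theorem resLT_endo (hn : n ≠ 0) {φ : LTRing p n →+* LTRing p n}
    (hC : ∀ w, φ (MvPowerSeries.C w) = MvPowerSeries.C w) (f : LTRing p n) :
    resLT p n (φ f) = resLT p n f := by
  have h := endo_mem_J_one hn φ (f := f - MvPowerSeries.C (MvPowerSeries.constantCoeff f))
    (mem_J_one.mpr (by simp [resLT_apply]))
  rw [mem_J_one, map_sub, map_sub, hC, sub_eq_zero] at h
  rw [h]
  simp [resLT_apply]

section substitution

variable (b : Fin (n - 1) → LTRing p n)

/-- The `r`-th approximation of substitution. -/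
def substApprox (r : ℕ) (f : LTRing p n) : LTRing p n :=
  MvPolynomial.eval₂Hom (MvPowerSeries.C : _ →+* LTRing p n) b (MvPowerSeries.truncTotal r f)

variable (hb : ∀ i, resLT p n (b i) = 0)
include hb

theorem eval_mem_J {r : ℕ} {P : MvPolynomial (Fin (n - 1)) (WittVector p (GaloisField p n))}
    (hP : P ∈ MvPolynomial.idealOfVars (Fin (n - 1)) (WittVector p (GaloisField p n)) ^ r) :
    MvPolynomial.eval₂Hom (MvPowerSeries.C : _ →+* LTRing p n) b P ∈ J p n r := by
  have h1 : Ideal.map (MvPolynomial.eval₂Hom (MvPowerSeries.C : _ →+* LTRing p n) b)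
      (MvPolynomial.idealOfVars (Fin (n - 1)) (WittVector p (GaloisField p n))) ≤ J p n 1 := by
    rw [MvPolynomial.idealOfVars, Ideal.map_span, Ideal.span_le]
    rintro _ ⟨_, ⟨i, rfl⟩, rfl⟩
    simpa using mem_J_one.mpr (hb i)
  have h2 := Ideal.mem_map_of_mem (MvPolynomial.eval₂Hom (MvPowerSeries.C : _ →+* LTRing p n) b) hP
  rw [Ideal.map_pow] at h2
  have h3 := Ideal.pow_right_mono h1 r h2
  rw [J_one_eq] at h3
  exact maximalIdeal_pow_le r h3

theorem substApprox_step (f : LTRing p n) (r : ℕ) :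
    substApprox b (r + 1) f - substApprox b r f ∈ J p n r := by
  rw [substApprox, substApprox, ← map_sub]
  exact eval_mem_J b hb (truncTotal_sub_truncTotal_mem_pow_idealOfVars (Nat.le_succ r) le_rfl f)

theorem exists_substHom : ∃ φ : LTRing p n →+* LTRing p n,
    (∀ w, φ (MvPowerSeries.C w) = MvPowerSeries.C w) ∧ ∀ i, φ (MvPowerSeries.X i) = b i := by
  choose φ hφ using fun f ↦ J_complete (fun r ↦ substApprox b r f) (substApprox_step b hb f)
  have hpoly : ∀ (P : MvPolynomial (Fin (n - 1)) (WittVector p (GaloisField p n))),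
      φ (P : LTRing p n) = MvPolynomial.eval₂Hom (MvPowerSeries.C : _ →+* LTRing p n) b P := by
    intro P
    refine eq_of_sub_mem_J fun r ↦ ?_
    have h1 := hφ (P : LTRing p n) r
    have h2 : substApprox b r (P : LTRing p n) -
        MvPolynomial.eval₂Hom (MvPowerSeries.C : _ →+* LTRing p n) b P ∈ J p n r := by
      rw [substApprox, ← map_sub]
      refine eval_mem_J b hb ((MvPolynomial.mem_pow_idealOfVars_iff' ..).mpr fun x hx ↦ ?_)
      rw [MvPolynomial.coeff_sub, coeff_truncTotal _ hx, MvPolynomial.coeff_coe, sub_self]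
    simpa using Ideal.add_mem _ h1 h2
  have hadd : ∀ f g, φ (f + g) = φ f + φ g := by
    intro f g
    refine eq_of_sub_mem_J fun r ↦ ?_
    have h := Ideal.sub_mem _ (hφ (f + g) r) (Ideal.add_mem _ (hφ f r) (hφ g r))
    rw [substApprox, substApprox, substApprox, map_add, map_add] at h
    convert h using 1
    ring
  have hmul : ∀ f g, φ (f * g) = φ f * φ g := by
    intro f g
    refine eq_of_sub_mem_J fun r ↦ ?_
    have h1 := hφ (f * g) r
    have h2 := eval_mem_J b hb (truncTotal_mul_sub_mul_truncTotal_mem_pow_idealOfVars (n := r) f g)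
    have h3 := Ideal.mul_mem_right (φ g) _ (hφ f r)
    have h4 := Ideal.mul_mem_left _ (substApprox b r f) (hφ g r)
    rw [map_sub, map_mul (MvPolynomial.eval₂Hom (MvPowerSeries.C : _ →+* LTRing p n) b)] at h2
    have h := Ideal.sub_mem _ (Ideal.add_mem _ h1 h2) (Ideal.add_mem _ h3 h4)
    simp only [substApprox] at h
    convert h using 1
    ring
  refine ⟨{ toFun := φ, map_one' := ?_, map_mul' := hmul, map_zero' := ?_, map_add' := hadd },
    fun w ↦ ?_, fun i ↦ ?_⟩
  · have := hpoly 1
    rwa [MvPolynomial.coe_one, map_one] at this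
  · have := hpoly 0
    rwa [MvPolynomial.coe_zero, map_zero] at this
  · have := hpoly (MvPolynomial.C w)
    rw [MvPolynomial.coe_C] at this
    simpa using this
  · have := hpoly (MvPolynomial.X i)
    rw [MvPolynomial.coe_X] at this
    simpa using this

end substitution

/-- The coordinates of the images of the parameters. -/
def imgs (φ : LTRing p n →+* LTRing p n) (v : ℕ) : LTRing p n :=
  if h : v - 1 < n - 1 then φ (MvPowerSeries.X ⟨v - 1, h⟩) else 0

theorem comp_toLT_eq (φ : LTRing p n →+* LTRing p n) {x : ℕ → LTRing p n}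
    (hx : ∀ v, v ≠ 0 → v < n → x v = imgs φ v) : φ.comp (toLT p n) = phB x := by
  refine MvPolynomial.ringHom_ext (fun r ↦ by simp) fun i ↦ ?_
  simp [phB, toLT, hx (i.1 + 1) (by omega) (by omega), imgs]

theorem resLT_imgs (hn : n ≠ 0) (φ : LTRing p n →+* LTRing p n) (v : ℕ) :
    resLT p n (imgs φ v) = 0 := by
  rw [imgs]
  split_ifs
  · exact mem_J_one.mp (endo_mem_J_one hn φ (mem_J_one.mpr (by simp [resLT_apply])))
  · exact map_zero _

/-- A homomorphism of deformations comes from a root. -/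
theorem hom_to_root {a : ℕ → LTRing p n} {ψ : PowerSeries (LTRing p n)}
    (hψ : IsFGHom ((Haz.law p n).map (phB a)) (lawLT p n) ψ) :
    ∃ x : ℕ → LTRing p n, (∀ v, v < n → x v = a v) ∧ (∀ m, m ≠ 0 → eqn p n x m = 0) ∧
      psiS (toLT p n) (fun j ↦ x (n + j)) = ψ := by
  set t := tOf p (toLT p n) ψ with htdef
  let x : ℕ → LTRing p n := fun v ↦ if v < n then a v else t (v - n)
  have hxt : (fun j ↦ x (n + j)) = t := funext fun j ↦ by simp [x]
  have hphB : phB x = phB a := by
    refine MvPolynomial.ringHom_ext (fun r ↦ by simp) fun i ↦ ?_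
    simp [phB, x, show i.1 + 1 < n by omega]
  have hψ0 : MvPowerSeries.constantCoeff ψ = 0 := hψ.1
  set c := incl p n (PowerSeries.coeff 1 ψ) with hc
  have hlogψ : (logS (toLT p n) ψ : PowerSeries (KE p n)) = c • Lg (phB a) := by
    set Ga : FormalGroup (KE p n) :=
      ⟨X 0 + X 1, by simp, by simp [coeff_index_single_X], by simp [coeff_index_single_X], by
        have h : ∀ (f g : MvPowerSeries (Fin 3) (KE p n)), constantCoeff f = 0 →
            constantCoeff g = 0 →
            MvPowerSeries.subst ![f, g] (X 0 + X 1 : MvPowerSeries (Fin 2) (KE p n)) = f + g := by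
          intro f g hf hg
          have hs := hasSubst_of_constantCoeff_zero (Haz.constantCoeff_pair hf hg)
          rw [MvPowerSeries.subst_add hs, MvPowerSeries.subst_X hs, MvPowerSeries.subst_X hs]
          simp
        rw [h _ _ (constantCoeff_X _) (constantCoeff_X _), h _ _ (constantCoeff_X _)
          (constantCoeff_X _), h _ _ (by simp) (constantCoeff_X _),
          h _ _ (constantCoeff_X _) (by simp)]
        exact add_assoc _ _ _⟩
    have hGa : ∀ {τ : Type} (f g : MvPowerSeries τ (KE p n)), constantCoeff f = 0 →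
        constantCoeff g = 0 → MvPowerSeries.subst ![f, g] Ga.toPowerSeries = f + g := by
      intro τ f g hf hg
      have hs := hasSubst_of_constantCoeff_zero (Haz.constantCoeff_pair hf hg)
      show MvPowerSeries.subst ![f, g] (X 0 + X 1 : MvPowerSeries (Fin 2) (KE p n)) = _
      rw [MvPowerSeries.subst_add hs, MvPowerSeries.subst_X hs, MvPowerSeries.subst_X hs]
      simp
    set FbK := (Haz.law p n).map ((incl p n).comp (phB a)) with hFbK
    have hX : ∀ i : Fin 2, constantCoeff (X i : MvPowerSeries (Fin 2) (KE p n)) = 0 := constantCoeff_X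
    have hΛ0 : PowerSeries.constantCoeff (logS (toLT p n) ψ : PowerSeries (KE p n)) = 0 :=
      constantCoeff_ps_subst (constantCoeff_mapK' hψ0) (Haz.logAt_zero _)
    have hcL0 : PowerSeries.constantCoeff (c • Lg (phB a)) = 0 := by
      rw [← PowerSeries.coeff_zero_eq_constantCoeff_apply, LinearMap.map_smul,
        PowerSeries.coeff_zero_eq_constantCoeff_apply, Lg, Haz.logAt_zero, smul_zero]
    refine hom_eq_of_coeff_one (G := FbK) (G' := Ga) ⟨hΛ0, ?_⟩ ⟨hcL0, ?_⟩ ?_
    · have hFb0 : constantCoeff ((Haz.law p n).map (phB a)).toPowerSeries = 0 :=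
        ((Haz.law p n).map (phB a)).zero_constantCoeff
      have hpair := Haz.constantCoeff_pair
        (constantCoeff_ps_subst (constantCoeff_X (R := LTRing p n) (0 : Fin 2)) hψ.1)
        (constantCoeff_ps_subst (constantCoeff_X (R := LTRing p n) (1 : Fin 2)) hψ.1)
      have e := congr_arg (logS (toLT p n)) hψ.2
      rw [lawLT, logS_law _ hpair, Matrix.cons_val_zero, Matrix.cons_val_one,
        Matrix.cons_val_fin_one, logS_subst _ hψ0 hFb0, logS_subst _ hψ0 (constantCoeff_X 0),
        logS_subst _ hψ0 (constantCoeff_X 1), MvPowerSeries.map_X, MvPowerSeries.map_X] at e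
      rw [hGa _ _ (constantCoeff_ps_subst (hX 0) hΛ0) (constantCoeff_ps_subst (hX 1) hΛ0), ← e,
        hFbK, FormalGroup.map_toPowerSeries, FormalGroup.map_toPowerSeries, MvPowerSeries.map_map]
    · rw [hGa _ _ (constantCoeff_ps_subst (hX 0) hcL0) (constantCoeff_ps_subst (hX 1) hcL0),
        PowerSeries.subst_smul (PowerSeries.HasSubst.of_constantCoeff_zero FbK.zero_constantCoeff),
        PowerSeries.subst_smul (PowerSeries.HasSubst.of_constantCoeff_zero (hX 0)),
        PowerSeries.subst_smul (PowerSeries.HasSubst.of_constantCoeff_zero (hX 1)), ← smul_add]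
      refine congr_arg _ ?_
      exact Haz.logAt_law _
    · have h1 := coeff_logS_congr₁ (toLT p n) (M := 1) hψ0 (map_zero _)
        (fun j hj ↦ by
          rw [show j = 0 by omega, map_zero, PowerSeries.coeff_zero_eq_constantCoeff_apply]
          exact hψ0)
      rw [map_zero (PowerSeries.coeff 1), sub_zero,
        show (logS (toLT p n) (0 : PowerSeries (LTRing p n)) : PowerSeries (KE p n)) = 0 by
          rw [logS, map_zero]; exact PowerSeries.subst_zero_of_constantCoeff_zero (Haz.logAt_zero _),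
        map_zero, sub_zero] at h1
      rw [h1, LinearMap.map_smul, smul_eq_mul, Lg, Haz.logAt_one, mul_one, hc]
  have heq : psiS (toLT p n) t = ψ := by
    refine PowerSeries.ext fun d ↦ ?_
    induction d using Nat.strong_induction_on with
    | _ d ih =>
      by_cases hd : ∃ N, d = p ^ N
      · obtain ⟨N, rfl⟩ := hd
        rw [coeff_psiS_pow, htdef, ← tOf_spec]
      · push Not at hd
        have h := coeff_logS_congr₁ (toLT p n) (constantCoeff_psiS _ t) hψ0 (M := d) ih
        rw [(coeff_logS_psiS _ t).2 d hd, hlogψ, LinearMap.map_smul, Lg, Haz.coeff_logAt_ne _ d hd,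
          smul_zero, sub_zero, eq_comm, map_eq_zero_iff _ incl_injective, sub_eq_zero] at h
        exact h
  refine ⟨x, fun v hv ↦ by simp [x, hv], (root_iff x).mpr fun m ↦ ?_, by rw [hxt, heq]⟩
  have ht0 : x n = PowerSeries.coeff 1 ψ := by
    have := tOf_spec (toLT p n) ψ (p := p) 0
    rw [pow_zero, PS, map_zero, zero_add] at this
    rw [show x n = t 0 by simp [x], this]
  rw [hxt, ← (coeff_logS_psiS (toLT p n) t).1 m, heq, hlogψ, LinearMap.map_smul, Lg,
    Haz.coeff_logAt, hphB, ht0, hc, smul_eq_mul]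

/-- Everything attached to a lift `(φ, θ)`: the root and the inverse series. -/
theorem pair_to_root (hn : n ≠ 0) {φ : LTRing p n →+* LTRing p n}
    {θ : PowerSeries (LTRing p n)} (h : IsFGIso (lawLT p n) ((lawLT p n).map φ) θ) :
    ∃ x : ℕ → LTRing p n, (∀ v, v ≠ 0 → v < n → x v = imgs φ v) ∧
      (∀ v, v ≠ 0 → v < n → resLT p n (x v) = 0) ∧ resLT p n (x n) ≠ 0 ∧
      (∀ m, m ≠ 0 → eqn p n x m = 0) ∧
      PowerSeries.subst θ (psiS (toLT p n) fun j ↦ x (n + j)) = PowerSeries.X := by
  obtain ⟨h0, h1, h2⟩ := h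
  have hinv := fgHom_inv (F := lawLT p n) (G := (lawLT p n).map φ) ⟨h0, h2⟩ h1
  rw [show (lawLT p n).map φ = (Haz.law p n).map (phB (imgs φ)) by
    rw [lawLT, fgMap_map, comp_toLT_eq φ fun _ _ _ ↦ rfl]] at hinv
  obtain ⟨x, hxv, hroot, hpsi⟩ := hom_to_root hinv
  refine ⟨x, fun v _ hv ↦ hxv v hv, fun v _ hv ↦ by rw [hxv v hv, resLT_imgs hn], ?_, hroot, ?_⟩
  · have hx : x n = PowerSeries.coeff 1 (PowerSeries.substInvOfIsUnit θ h1) := by
      rw [← hpsi]
      have := coeff_psiS_pow (toLT p n) (fun j ↦ x (n + j)) 0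
      rw [pow_zero, PS, map_zero, zero_add, add_zero] at this
      exact this.symm
    rw [hx, PowerSeries.coeff_one_substInvOfIsUnit]
    exact isUnit_iff_resLT.mp (h1.unit⁻¹).isUnit
  · rw [hpsi]
    exact PowerSeries.subst_substInvOfIsUnit_left θ h0 h1

/-- The residues of the coordinates are determined by the residue of the series. -/
theorem t_res_congr {t t' : ℕ → LTRing p n} {M : ℕ}
    (h : ∀ N < M, resLT p n (PowerSeries.coeff (p ^ N) (psiS (toLT p n) t)) =
      resLT p n (PowerSeries.coeff (p ^ N) (psiS (toLT p n) t'))) :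
    ∀ N < M, resLT p n (t N) = resLT p n (t' N) := by
  intro N
  induction N using Nat.strong_induction_on with
  | _ N ih =>
    intro hN
    have e := h N hN
    rw [coeff_psiS_pow, coeff_psiS_pow, map_add, map_add, ← PowerSeries.coeff_map,
      ← PowerSeries.coeff_map, PS_map, PS_map,
      PS_congr (t' := fun j ↦ resLT p n (t' j)) _ (fun j hj ↦ ih j hj (by omega))] at e
    exact add_left_cancel e

theorem subst_cancel_res {θ ψ ψ' : PowerSeries (GaloisField p n)}
    (h0 : PowerSeries.constantCoeff θ = 0) (h1 : IsUnit (PowerSeries.coeff 1 θ))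
    (hψ : PowerSeries.subst θ ψ = PowerSeries.X) (hψ' : PowerSeries.subst θ ψ' = PowerSeries.X) :
    ψ = ψ' := by
  have key : ∀ f : PowerSeries (GaloisField p n),
      PowerSeries.subst (PowerSeries.substInvOfIsUnit θ h1) (PowerSeries.subst θ f) = f := by
    intro f
    rw [ps_subst_subst h0 (PowerSeries.constantCoeff_substInvOfIsUnit θ h1),
      PowerSeries.subst_substInvOfIsUnit_right θ h0 h1, PowerSeries.X_subst]
  rw [← key ψ, ← key ψ', hψ, hψ']

theorem map_ps_subst {R S : Type*} [CommRing R] [CommRing S] (f : R →+* S) {a g : PowerSeries R}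
    (ha : PowerSeries.constantCoeff a = 0) :
    PowerSeries.map f (PowerSeries.subst a g) =
      PowerSeries.subst (PowerSeries.map f a) (PowerSeries.map f g) :=
  PowerSeries.map_subst (PowerSeries.HasSubst.of_constantCoeff_zero' ha) g

theorem lift_unique_endo (hn : n ≠ 0) {φ φ' : LTRing p n →+* LTRing p n}
    (hW : ∀ w, φ (MvPowerSeries.C w) = φ' (MvPowerSeries.C w))
    {θ θ' : PowerSeries (LTRing p n)}
    (h : IsFGIso (lawLT p n) ((lawLT p n).map φ) θ)
    (h' : IsFGIso (lawLT p n) ((lawLT p n).map φ') θ')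
    (hres : θ.map (resLT p n) = θ'.map (resLT p n)) : φ = φ' ∧ θ = θ' := by
  obtain ⟨x, hxv, hx0, hxn, hroot, hinv⟩ := pair_to_root hn h
  obtain ⟨y, hyv, hy0, hyn, hyroot, hinv'⟩ := pair_to_root hn h'
  obtain ⟨h0, h1, -⟩ := h
  obtain ⟨h0', h1', -⟩ := h'
  have hψ : (psiS (toLT p n) fun j ↦ x (n + j)).map (resLT p n) =
      (psiS (toLT p n) fun j ↦ y (n + j)).map (resLT p n) := by
    have e := congr_arg (PowerSeries.map (resLT p n)) hinv
    have e' := congr_arg (PowerSeries.map (resLT p n)) hinv'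
    rw [map_ps_subst _ h0, PowerSeries.map_X] at e
    rw [map_ps_subst _ h0', PowerSeries.map_X, ← hres] at e'
    exact subst_cancel_res (by rw [← PowerSeries.coeff_zero_eq_constantCoeff_apply,
      PowerSeries.coeff_map, PowerSeries.coeff_zero_eq_constantCoeff_apply, h0, map_zero])
      (coeff_one_map h1 _) e e'
  have ht : ∀ N, resLT p n (x (n + N)) = resLT p n (y (n + N)) := fun N ↦
    t_res_congr (t := fun j ↦ x (n + j)) (t' := fun j ↦ y (n + j)) (M := N + 1)
      (fun M _ ↦ by rw [← PowerSeries.coeff_map, hψ, PowerSeries.coeff_map]) N (Nat.lt_succ_self N)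
  have heq : ∀ v, v ≠ 0 → y v = x v := root_unique hn hx0 hxn hroot hyroot fun v hv ↦ by
    rcases Nat.lt_or_ge v n with hlt | hge
    · rw [hx0 v hv hlt, hy0 v hv hlt]
    · obtain ⟨N, rfl⟩ : ∃ N, v = n + N := ⟨v - n, by omega⟩
      rw [ht N]
  refine ⟨endo_ext hn hW fun i ↦ ?_, ?_⟩
  · have e := heq (i.1 + 1) (by omega)
    rw [hxv _ (by omega) (by omega), hyv _ (by omega) (by omega)] at e
    simpa [imgs] using e.symm
  · have hpsi : (psiS (toLT p n) fun j ↦ y (n + j)) = psiS (toLT p n) fun j ↦ x (n + j) := by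
      congr 1
      exact funext fun j ↦ heq _ (by omega)
    rw [hpsi] at hinv'
    have hc : PowerSeries.constantCoeff (psiS (toLT p n) fun j ↦ x (n + j)) = 0 :=
      constantCoeff_psiS _ _
    refine ps_subst_cancel₁ hc ?_ h0 h0' (hinv.trans hinv'.symm)
    have := coeff_psiS_pow (toLT p n) (fun j ↦ x (n + j)) 0
    rw [pow_zero, PS, map_zero, zero_add] at this
    rw [this]
    exact isUnit_iff_resLT.mpr hxn

theorem lift_endo (hn : n ≠ 0) (g : PowerSeries (GaloisField p n))
    (hg : IsFGIso (honda p n (GaloisField p n)) (honda p n (GaloisField p n)) g) :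
    ∃ φ : LTRing p n →+* LTRing p n, (∀ w, φ (MvPowerSeries.C w) = MvPowerSeries.C w) ∧
      ∃ θ : PowerSeries (LTRing p n), IsFGIso (lawLT p n) ((lawLT p n).map φ) θ ∧
        θ.map (resLT p n) = g := by
  obtain ⟨g0, g1, g2⟩ := hg
  have hh := fgHom_inv (F := honda p n (GaloisField p n)) (G := honda p n (GaloisField p n))
    ⟨g0, g2⟩ g1
  set h := PowerSeries.substInvOfIsUnit g g1 with hdef
  set c := tOf p (zeroSpec n (GaloisField p n)) h with hcdef
  have hc0 : c 0 = PowerSeries.coeff 1 h := by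
    have := tOf_spec (p := p) (zeroSpec n (GaloisField p n)) h 0
    rw [pow_zero, PS, map_zero, zero_add] at this
    exact this.symm
  have hh1 : PowerSeries.coeff 1 h ≠ 0 := by
    rw [hdef, PowerSeries.coeff_one_substInvOfIsUnit]
    exact Units.ne_zero _
  obtain ⟨x, hxres, hroot⟩ := exists_root hn (fun v ↦ if v < n then 0 else c (v - n))
    (fun v _ hv ↦ if_pos hv) (by simp [hc0, hh1])
  have hx0 : ∀ v, v ≠ 0 → v < n → resLT p n (x v) = 0 := fun v _ hv ↦ by rw [hxres, if_pos hv]
  obtain ⟨φ, hφC, hφX⟩ := exists_substHom (fun i ↦ x (i.1 + 1))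
    (fun i ↦ hx0 _ (by omega) (by omega))
  have hφx : ∀ v, v ≠ 0 → v < n → x v = imgs φ v := by
    intro v hv hvn
    rw [imgs, dif_pos (by omega), hφX]
    congr 1
    simp only
    omega
  have hφ : φ.comp (toLT p n) = phB x := comp_toLT_eq φ hφx
  have hlaw : (lawLT p n).map φ = (Haz.law p n).map (phB x) := by rw [lawLT, fgMap_map, hφ]
  set ψ := psiS (toLT p n) fun j ↦ x (n + j) with hψdef
  have hψ := psiS_hom hroot
  have hψ1 : PowerSeries.coeff 1 ψ = x n := by
    have := coeff_psiS_pow (toLT p n) (fun j ↦ x (n + j)) 0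
    rw [pow_zero, PS, map_zero, zero_add] at this
    exact this
  have hu : IsUnit (PowerSeries.coeff 1 ψ) := by
    rw [hψ1, isUnit_iff_resLT, hxres, if_neg (lt_irrefl n), Nat.sub_self, hc0]
    exact hh1
  have hres : ψ.map (resLT p n) = h := by
    have hm := fgHom_map hψ (resLT p n)
    rw [fgMap_map, resLT_comp_phB hx0, lawLT_map_resLT] at hm
    have hm' : IsFGHom (honda p n (GaloisField p n)) (honda p n (GaloisField p n))
        (ψ.map (resLT p n)) := hm
    refine hom_eq_of_coeff_pow (p := p) hm' hh fun N ↦ ?_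
    rw [PowerSeries.coeff_map, hψdef, coeff_psiS_pow, map_add, ← PowerSeries.coeff_map, PS_map,
      resLT_comp_toLT, tOf_spec (p := p) (zeroSpec n (GaloisField p n)) h N, ← hcdef,
      PS_congr (t' := c) _ (fun j _ ↦ by simp [hxres]), hxres,
      if_neg (by omega), Nat.add_sub_cancel_left]
  have hθ := fgHom_inv hψ hu
  refine ⟨φ, hφC, PowerSeries.substInvOfIsUnit ψ hu, ⟨hθ.1, ?_, ?_⟩, ?_⟩
  · rw [PowerSeries.coeff_one_substInvOfIsUnit]
    exact (hu.unit⁻¹).isUnit
  · rw [hlaw]; exact hθ.2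
  · have e := congr_arg (PowerSeries.map (resLT p n))
      (PowerSeries.subst_substInvOfIsUnit_right ψ hψ.1 hu)
    rw [map_ps_subst _ (PowerSeries.constantCoeff_substInvOfIsUnit ψ hu), PowerSeries.map_X,
      hres] at e
    have e2 := PowerSeries.subst_substInvOfIsUnit_left g g0 g1
    exact ps_subst_cancel₁ hh.1 (isUnit_iff_ne_zero.mpr hh1) (by
      rw [← PowerSeries.coeff_zero_eq_constantCoeff_apply, PowerSeries.coeff_map,
        PowerSeries.coeff_zero_eq_constantCoeff_apply, PowerSeries.constantCoeff_substInvOfIsUnit,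
        map_zero]) g0 (e.trans e2.symm)

theorem comp_lifts (hn : n ≠ 0) {φ φ' : LTRing p n →+* LTRing p n}
    (hC' : ∀ w, φ' (MvPowerSeries.C w) = MvPowerSeries.C w)
    (hC : ∀ w, φ (MvPowerSeries.C w) = MvPowerSeries.C w) {θ θ' : PowerSeries (LTRing p n)}
    (h : IsFGIso (lawLT p n) ((lawLT p n).map φ) θ)
    (h' : IsFGIso (lawLT p n) ((lawLT p n).map φ') θ')
    (hres : PowerSeries.subst (θ'.map (resLT p n)) (θ.map (resLT p n)) = PowerSeries.X) :
    φ'.comp φ = RingHom.id _ := by
  have hm := fgHom_map (F := lawLT p n) (G := (lawLT p n).map φ) ⟨h.1, h.2.2⟩ φ'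
  rw [fgMap_map] at hm
  have hcomp := IsFGHom.comp (F := lawLT p n) (G := (lawLT p n).map φ') ⟨h'.1, h'.2.2⟩ hm
  have hiso : IsFGIso (lawLT p n) ((lawLT p n).map (φ'.comp φ))
      (PowerSeries.subst θ' (PowerSeries.map φ' θ)) := by
    refine ⟨hcomp.1, ?_, hcomp.2⟩
    rw [coeff_one_subst h'.1 hm.1]
    exact (coeff_one_map h.2.1 φ').mul h'.2.1
  have hid : IsFGIso (lawLT p n) ((lawLT p n).map (RingHom.id (LTRing p n))) PowerSeries.X := by
    obtain ⟨e0, e1⟩ := fgHom_id (lawLT p n)
    refine ⟨e0, by simp, ?_⟩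
    rw [FormalGroup.map_toPowerSeries, MvPowerSeries.map_id]
    exact e1
  refine (lift_unique_endo hn (fun w ↦ by simp [hC, hC']) hiso hid ?_).1
  rw [map_ps_subst _ h'.1, PowerSeries.map_X, ← hres]
  congr 1
  refine PowerSeries.ext fun d ↦ ?_
  simp [resLT_endo hn hC']

end Vale.Agent.P217.LT

namespace Vale.Agent.P217

open _root_.Vale.Agent.P217.LT

theorem lift_exists {p n : ℕ} [Fact p.Prime] (hn : n ≠ 0) (g : PowerSeries (GaloisField p n))
    (hg : IsFGIso (honda p n (GaloisField p n)) (honda p n (GaloisField p n)) g) :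
    ∃ φ : LTRing p n ≃+* LTRing p n, (∀ w, φ (MvPowerSeries.C w) = MvPowerSeries.C w) ∧
      ∃ θ : PowerSeries (LTRing p n), IsFGIso (lawLT p n) ((lawLT p n).map φ.toRingHom) θ ∧
        θ.map (resLT p n) = g := by
  have hinv : IsFGIso (honda p n (GaloisField p n)) (honda p n (GaloisField p n))
      (PowerSeries.substInvOfIsUnit g hg.2.1) := by
    obtain ⟨h0, h1⟩ := fgHom_inv (F := honda p n (GaloisField p n))
      (G := honda p n (GaloisField p n)) ⟨hg.1, hg.2.2⟩ hg.2.1
    refine ⟨h0, ?_, h1⟩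
    rw [PowerSeries.coeff_one_substInvOfIsUnit]
    exact (hg.2.1.unit⁻¹).isUnit
  obtain ⟨φ, hC, θ, hθ, hθg⟩ := lift_endo hn g hg
  obtain ⟨φ', hC', θ', hθ', hθg'⟩ := lift_endo hn _ hinv
  have h1 : φ'.comp φ = RingHom.id _ := comp_lifts hn hC' hC hθ hθ' (by
    rw [hθg, hθg']; exact PowerSeries.subst_substInvOfIsUnit_right g hg.1 hg.2.1)
  have h2 : φ.comp φ' = RingHom.id _ := comp_lifts hn hC hC' hθ' hθ (by
    rw [hθg, hθg']; exact PowerSeries.subst_substInvOfIsUnit_left g hg.1 hg.2.1)
  exact ⟨RingEquiv.ofRingHom φ φ' h2 h1, hC, θ, hθ, hθg⟩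

theorem lift_unique {p n : ℕ} [Fact p.Prime] (hn : n ≠ 0) {φ φ' : LTRing p n ≃+* LTRing p n}
    (hW : ∀ w, φ (MvPowerSeries.C w) = φ' (MvPowerSeries.C w))
    {θ θ' : PowerSeries (LTRing p n)}
    (h : IsFGIso (lawLT p n) ((lawLT p n).map φ.toRingHom) θ)
    (h' : IsFGIso (lawLT p n) ((lawLT p n).map φ'.toRingHom) θ')
    (hres : θ.map (resLT p n) = θ'.map (resLT p n)) : φ = φ' ∧ θ = θ' := by
  obtain ⟨e1, e2⟩ := lift_unique_endo hn (φ := φ.toRingHom) (φ' := φ'.toRingHom) hW h h' hres
  exact ⟨RingEquiv.ext fun f ↦ RingHom.congr_fun e1 f, e2⟩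

theorem lift_continuity {p n : ℕ} [Fact p.Prime] (hn : n ≠ 0) (r : ℕ) :
    ∃ K : ℕ, ∀ φ : LTRing p n ≃+* LTRing p n, (∀ w, φ (MvPowerSeries.C w) = MvPowerSeries.C w) →
      ∀ θ : PowerSeries (LTRing p n), IsFGIso (lawLT p n) ((lawLT p n).map φ.toRingHom) θ →
        (∀ m < K, PowerSeries.coeff m (θ.map (resLT p n)) =
          PowerSeries.coeff m (PowerSeries.X : PowerSeries (GaloisField p n))) →
        ∀ i, φ (MvPowerSeries.X i) - MvPowerSeries.X i ∈
          IsLocalRing.maximalIdeal (LTRing p n) ^ r := by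
  have hp := Fact.out (p := p.Prime)
  refine ⟨p ^ (n * r + n), fun φ _ θ hθ hK i ↦ J_le_pow r ?_⟩
  obtain ⟨x, hxv, hx0, hxn, hroot, hinv⟩ := pair_to_root hn hθ
  have hid : IsFGIso (lawLT p n) ((lawLT p n).map (RingHom.id (LTRing p n))) PowerSeries.X := by
    obtain ⟨e0, e1⟩ := fgHom_id (lawLT p n)
    refine ⟨e0, by simp, ?_⟩
    rw [FormalGroup.map_toPowerSeries, MvPowerSeries.map_id]
    exact e1
  obtain ⟨y, hyv, hy0, hyn, hyroot, hinv'⟩ := pair_to_root hn hid
  rw [PowerSeries.X_subst] at hinv'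
  have h0 : PowerSeries.constantCoeff (θ.map (resLT p n)) = 0 := by
    rw [← PowerSeries.coeff_zero_eq_constantCoeff_apply, PowerSeries.coeff_map,
      PowerSeries.coeff_zero_eq_constantCoeff_apply, hθ.1, map_zero]
  have e := congr_arg (PowerSeries.map (resLT p n)) hinv
  rw [map_ps_subst _ hθ.1, PowerSeries.map_X] at e
  have hψ : ∀ m < p ^ (n * r + n), PowerSeries.coeff m
      ((psiS (toLT p n) fun j ↦ x (n + j)).map (resLT p n)) =
      PowerSeries.coeff m (PowerSeries.X : PowerSeries (GaloisField p n)) := by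
    intro m hm
    have hagree : ∀ d : Unit →₀ ℕ, d.degree < p ^ (n * r + n) →
        MvPowerSeries.coeff d (θ.map (resLT p n)) =
          MvPowerSeries.coeff d (PowerSeries.X : PowerSeries (GaloisField p n)) := by
      intro d hd
      have hd' : d = Finsupp.single () (d ()) := Finsupp.ext fun u ↦ by simp
      rw [hd']
      exact hK _ (by rw [hd', Finsupp.degree_single] at hd; exact hd)
    have h := ps_subst_congr (f := (psiS (toLT p n) fun j ↦ x (n + j)).map (resLT p n))
      (a := θ.map (resLT p n)) (b := (PowerSeries.X : PowerSeries (GaloisField p n))) h0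
      PowerSeries.constantCoeff_X hagree (d := Finsupp.single () m) (by simpa using hm.le)
    rw [e, PowerSeries.X_subst, hagree (Finsupp.single () m) (by simpa using hm), sub_self,
      mul_zero, sub_eq_zero] at h
    exact h.symm
  have ht : ∀ N < n * r + n, resLT p n (x (n + N)) = resLT p n (y (n + N)) :=
    t_res_congr (t := fun j ↦ x (n + j)) (t' := fun j ↦ y (n + j)) fun N hN ↦ by
      rw [hinv', ← PowerSeries.coeff_map, hψ _ (Nat.pow_lt_pow_right hp.one_lt hN),
        ← PowerSeries.coeff_map, PowerSeries.map_X]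
  have hclose := root_close hn hy0 hyn hyroot hroot r n (fun v hv hvM ↦ by
    rcases Nat.lt_or_ge v n with hlt | hge
    · rw [hx0 v hv hlt, hy0 v hv hlt]
    · obtain ⟨N, rfl⟩ : ∃ N, v = n + N := ⟨v - n, by omega⟩
      exact ht N (by omega)) (i.1 + 1) (by omega) (by omega)
  rw [hxv _ (by omega) (by omega), hyv _ (by omega) (by omega)] at hclose
  exact J_anti (Nat.le_succ r) (by simpa [imgs] using hclose)

end Vale.Agent.P217
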