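import Vale.Agent.P217.Honda
import Mathlib.RingTheory.WittVector.DiscreteValuationRing
import Mathlib.RingTheory.MvPowerSeries.Inverse
import Mathlib.RingTheory.Ideal.Maps

/-!
The height ideals are prime and invariant; inverses of isomorphisms of formal group laws.
-/

noncomputable section

open MvPowerSeries Finset

namespace Vale.Agent.P217

theorem IsFGHom.map {R S : Type*} [CommRing R] [CommRing S] {F G : FormalGroup R}
    {H : PowerSeries R} (hH : IsFGHom F G H) (f : R →+* S) :
    IsFGHom (F.map f) (G.map f) (PowerSeries.map f H) := by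
  have hX : ∀ i : Fin 2, constantCoeff (PowerSeries.subst (X i : MvPowerSeries (Fin 2) R) H) = 0 :=
    fun i ↦ constantCoeff_ps_subst (constantCoeff_X i) hH.1
  refine ⟨?_, ?_⟩
  · rw [← PowerSeries.coeff_zero_eq_constantCoeff_apply, PowerSeries.coeff_map,
      PowerSeries.coeff_zero_eq_constantCoeff_apply, hH.1, map_zero]
  · rw [FormalGroup.map_toPowerSeries, FormalGroup.map_toPowerSeries,
      ← PowerSeries.map_subst (PowerSeries.HasSubst.of_constantCoeff_zero F.zero_constantCoeff),
      hH.2, MvPowerSeries.map_subst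
        (hasSubst_of_constantCoeff_zero (Haz.constantCoeff_pair (hX 0) (hX 1)))]
    congr 1
    funext i
    fin_cases i <;>
      simp [PowerSeries.map_subst (PowerSeries.HasSubst.of_constantCoeff_zero (constantCoeff_X _))]

theorem IsFGIso.symm {R : Type} [CommRing R] {F G : FormalGroup R} {θ : PowerSeries R}
    (hθ : IsFGIso F G θ) : IsFGIso G F (θ.substInvOfIsUnit hθ.2.1) := by
  obtain ⟨h0, h1, h2⟩ := hθ
  set ψ := θ.substInvOfIsUnit h1
  have hψ0 : PowerSeries.constantCoeff ψ = 0 := PowerSeries.constantCoeff_substInvOfIsUnit _ _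
  refine ⟨hψ0, ?_, ?_⟩
  · rw [PowerSeries.coeff_one_substInvOfIsUnit]
    exact Units.isUnit _
  have hX : ∀ i : Fin 2, constantCoeff (PowerSeries.subst (X i : MvPowerSeries (Fin 2) R) ψ) = 0 :=
    fun i ↦ constantCoeff_ps_subst (constantCoeff_X i) hψ0
  have hs := hasSubst_of_constantCoeff_zero (Haz.constantCoeff_pair (hX 0) (hX 1))
  have hinv : ∀ {c : MvPowerSeries (Fin 2) R}, constantCoeff c = 0 →
      PowerSeries.subst (PowerSeries.subst c ψ) θ = c := by
    intro c hc
    rw [← ps_subst_subst hψ0 hc, PowerSeries.subst_substInvOfIsUnit_right θ h0 h1,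
      PowerSeries.subst_X (PowerSeries.HasSubst.of_constantCoeff_zero hc)]
  have hb : ∀ i : Fin 2, constantCoeff (PowerSeries.subst (X i : MvPowerSeries (Fin 2) R) θ) = 0 :=
    fun i ↦ constantCoeff_ps_subst (constantCoeff_X i) h0
  refine ps_subst_cancel h0 h1 (constantCoeff_ps_subst G.zero_constantCoeff hψ0)
    (constantCoeff_subst_pair (hX 0) (hX 1) F.zero_constantCoeff) ?_
  rw [hinv G.zero_constantCoeff, ← mv_subst_ps_subst F.zero_constantCoeff hs, h2,
    MvPowerSeries.subst_comp_subst_apply
      (hasSubst_of_constantCoeff_zero (Haz.constantCoeff_pair (hb 0) (hb 1))) hs]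
  conv_lhs => rw [← id_eq G.toPowerSeries, ← MvPowerSeries.subst_self]
  congr 1
  funext i
  fin_cases i
  · simp [mv_subst_ps_subst (constantCoeff_X (0 : Fin 2)) hs, MvPowerSeries.subst_X hs,
      hinv (constantCoeff_X 0)]
  · simp [mv_subst_ps_subst (constantCoeff_X (1 : Fin 2)) hs, MvPowerSeries.subst_X hs,
      hinv (constantCoeff_X 1)]

variable {p n : ℕ} [hp : Fact p.Prime]

/-- A homomorphism of formal group laws commutes with multiplication by integers. -/
theorem hom_mulSeries {R : Type*} [CommRing R] {m : ℕ} (φ : Haz.A n →+* R) (φ' : Haz.A m →+* R)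
    {H : PowerSeries R} (hH : IsFGHom ((Haz.law p n).map φ) ((Haz.law p m).map φ') H) (k : ℕ) :
    PowerSeries.subst (MvPowerSeries.map φ (Haz.mulSeries p n k)) H =
      PowerSeries.subst H (MvPowerSeries.map φ' (Haz.mulSeries p m k)) := by
  have h0 : MvPowerSeries.constantCoeff H = 0 := hH.1
  induction k with
  | zero =>
    rw [Nat.cast_zero, Haz.mulSeries_zero, Haz.mulSeries_zero, map_zero, map_zero,
      PowerSeries.subst_zero_of_constantCoeff_zero hH.1, ← PowerSeries.coe_substAlgHom
        (PowerSeries.HasSubst.of_constantCoeff_zero' hH.1)]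
    exact (map_zero (PowerSeries.substAlgHom
      (PowerSeries.HasSubst.of_constantCoeff_zero' hH.1))).symm
  | succ k ih =>
    set a := MvPowerSeries.map φ (Haz.mulSeries p n k)
    have ha : constantCoeff a = 0 := by simp [a, Haz.constantCoeff_mulSeries]
    set a' := MvPowerSeries.map φ' (Haz.mulSeries p m k)
    have ha' : constantCoeff a' = 0 := by simp [a', Haz.constantCoeff_mulSeries]
    have hX : constantCoeff (X () : MvPowerSeries Unit R) = 0 := constantCoeff_X ()
    rw [Nat.cast_succ, Haz.mulSeries_add, Haz.mulSeries_add,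
      Haz.map_fsum φ (Haz.constantCoeff_mulSeries p n _) (Haz.constantCoeff_mulSeries p n _),
      Haz.map_fsum φ' (Haz.constantCoeff_mulSeries p m _) (Haz.constantCoeff_mulSeries p m _),
      Haz.mulSeries_one, Haz.mulSeries_one, MvPowerSeries.map_X, MvPowerSeries.map_X]
    have hs := hasSubst_of_constantCoeff_zero (Haz.constantCoeff_pair ha hX)
    have hc : ∀ i : Fin 2, constantCoeff
        (PowerSeries.subst (X i : MvPowerSeries (Fin 2) R) H) = 0 :=
      fun i ↦ constantCoeff_ps_subst (constantCoeff_X i) hH.1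
    rw [← mv_subst_ps_subst ((Haz.law p n).map φ).zero_constantCoeff hs, hH.2,
      MvPowerSeries.subst_comp_subst_apply
        (hasSubst_of_constantCoeff_zero (Haz.constantCoeff_pair (hc 0) (hc 1))) hs,
      PowerSeries.subst_def H, MvPowerSeries.subst_comp_subst_apply
        (hasSubst_of_constantCoeff_zero (Haz.constantCoeff_pair ha' hX))
        (hasSubst_of_constantCoeff_zero fun _ ↦ h0)]
    congr 1
    funext i
    fin_cases i
    · simp only [Fin.zero_eta, Matrix.cons_val_zero]
      rw [mv_subst_ps_subst (constantCoeff_X (0 : Fin 2)) hs, MvPowerSeries.subst_X hs]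
      exact ih
    · simp only [Fin.mk_one, Matrix.cons_val_one, Matrix.cons_val_fin_one]
      rw [mv_subst_ps_subst (constantCoeff_X (1 : Fin 2)) hs, MvPowerSeries.subst_X hs,
        MvPowerSeries.subst_X (hasSubst_of_constantCoeff_zero fun _ ↦ h0)]
      simp only [Matrix.cons_val_one, Matrix.cons_val_fin_one]
      exact PowerSeries.X_subst H

/-- Series supported on monomials meeting `S` lie in the ideal of the variables of `S`. -/
theorem mem_span_X {R σ : Type*} [CommRing R] (S : Finset σ) :
    ∀ f : MvPowerSeries σ R, (∀ e, (∀ s ∈ S, e s = 0) → coeff e f = 0) →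
      f ∈ Ideal.span ((X : σ → MvPowerSeries σ R) '' S) := by
  classical
  induction S using Finset.induction_on with
  | empty =>
    intro f hf
    have : f = 0 := MvPowerSeries.ext fun e ↦ by simpa using hf e (by simp)
    simp [this]
  | @insert a S ha ih =>
    intro f hf
    let g : MvPowerSeries σ R := fun e ↦ coeff (e + Finsupp.single a 1) f
    let r : MvPowerSeries σ R := fun e ↦ if e a = 0 then coeff e f else 0
    have hfr : f = X a * g + r := by
      refine MvPowerSeries.ext fun e ↦ ?_
      rw [map_add, show coeff e r = if e a = 0 then coeff e f else 0 from rfl]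
      by_cases he : e a = 0
      · rw [if_pos he, X, coeff_monomial_mul, if_neg, zero_add]
        intro hle
        have := hle a
        simp [he] at this
      · rw [if_neg he, add_zero, X, coeff_monomial_mul, if_pos, one_mul]
        · show _ = coeff (e - Finsupp.single a 1 + Finsupp.single a 1) f
          rw [tsub_add_cancel_of_le]
          intro s
          rcases eq_or_ne a s with rfl | hs <;>
            simp [Finsupp.single_apply, *]
          omega
        · intro s
          rcases eq_or_ne a s with rfl | hs <;>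
            simp [Finsupp.single_apply, *]
          omega
    rw [hfr, Finset.coe_insert, Set.image_insert_eq]
    refine Ideal.add_mem _ (Ideal.mul_mem_right _ _ (Ideal.subset_span (Set.mem_insert _ _))) ?_
    refine Ideal.span_mono (Set.subset_insert _ _) (ih r fun e he ↦ ?_)
    show (if e a = 0 then coeff e f else 0) = 0
    split_ifs with h0
    · refine hf e fun s hs ↦ ?_
      rcases Finset.mem_insert.mp hs with rfl | hs
      · exact h0
      · exact he s hs
    · rfl

theorem witt_p_dvd {w : WittVector p (GaloisField p n)}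
    (hw : WittVector.constantCoeff w = 0) : (p : WittVector p (GaloisField p n)) ∣ w := by
  by_cases h0 : w = 0
  · simp [h0]
  obtain ⟨m, b, hb, rfl⟩ := WittVector.exists_eq_pow_p_mul w h0
  rcases m with _ | m
  · exfalso
    apply hb
    simpa using hw
  · exact Dvd.dvd.mul_right (dvd_pow_self _ (Nat.succ_ne_zero m)) _

variable (p n)

/-- Reduction modulo `p` followed by setting the first `h - 1` variables to zero. -/
def heightProj (h : ℕ) : LTRing p n →+* MvPowerSeries (Fin (n - 1)) (GaloisField p n) :=
  (rescale (fun i : Fin (n - 1) ↦ if i.1 + 1 < h then (0 : GaloisField p n) else 1)).comp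
    (MvPowerSeries.map WittVector.constantCoeff)

theorem heightProj_X (h : ℕ) (i : Fin (n - 1)) :
    heightProj p n h (MvPowerSeries.X i) = if i.1 + 1 < h then 0 else MvPowerSeries.X i := by
  classical
  refine MvPowerSeries.ext fun e ↦ ?_
  rw [heightProj, RingHom.comp_apply, MvPowerSeries.map_X, coeff_rescale, coeff_X]
  by_cases he : e = Finsupp.single i 1
  · subst he
    rw [if_pos rfl, Finsupp.prod_single_index (by simp), pow_one, mul_one]
    split_ifs <;> simp [coeff_X]
  · rw [if_neg he, mul_zero]
    split_ifs <;> simp [coeff_X, he]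

theorem heightProj_natCast (h : ℕ) : heightProj p n h (p : LTRing p n) = 0 := by
  rw [map_natCast, ← map_natCast (MvPowerSeries.C (R := GaloisField p n)),
    CharP.cast_eq_zero (GaloisField p n) p, map_zero]

theorem heightProj_ltParam {h i : ℕ} (hh : h ≤ n) (hi : i < h) :
    heightProj p n h (ltParam p n i) = 0 := by
  unfold ltParam
  split_ifs with h1 h2 h3
  · exact heightProj_natCast p n h
  · rw [heightProj_X, if_pos (by simp only; omega)]
  · omega
  · exact map_zero _

theorem heightIdeal_eq_ker {h : ℕ} (h0 : 0 < h) (hh : h ≤ n) :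
    heightIdeal p n h = RingHom.ker (heightProj p n h) := by
  classical
  apply le_antisymm
  · rw [heightIdeal, Ideal.span_le]
    rintro _ ⟨i, hi, rfl⟩
    exact heightProj_ltParam p n hh hi
  · intro f hf
    rw [RingHom.mem_ker] at hf
    set S : Finset (Fin (n - 1)) := univ.filter fun i ↦ i.1 + 1 < h
    have hdvd : ∀ e, ∃ b, (∀ s ∈ S, e s = 0) → coeff e f = (p : WittVector p (GaloisField p n)) * b := by
      intro e
      by_cases he : ∀ s ∈ S, e s = 0
      · have hc := congr_arg (coeff e) hf
        rw [heightProj, RingHom.comp_apply, coeff_rescale, MvPowerSeries.coeff_map, map_zero] at hc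
        have hone : (e.prod fun s m ↦ (if s.1 + 1 < h then (0 : GaloisField p n) else 1) ^ m) = 1 := by
          refine prod_eq_one fun s hs ↦ ?_
          show (if s.1 + 1 < h then (0 : GaloisField p n) else 1) ^ e s = 1
          rw [if_neg, one_pow]
          intro hsh
          exact (Finsupp.mem_support_iff.mp hs) (he s (by simp [S, hsh]))
        rw [hone, one_mul] at hc
        obtain ⟨b, hb⟩ := witt_p_dvd hc
        exact ⟨b, fun _ ↦ hb⟩
      · exact ⟨0, fun h ↦ absurd h he⟩
    choose b hb using hdvd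
    let g : LTRing p n := fun e ↦ if ∀ s ∈ S, e s = 0 then b e else 0
    have hr : f - (p : LTRing p n) * g ∈ Ideal.span ((X : _ → LTRing p n) '' S) := by
      refine mem_span_X S _ fun e he ↦ ?_
      rw [map_sub, ← map_natCast (MvPowerSeries.C (σ := Fin (n - 1))
        (R := WittVector p (GaloisField p n))), coeff_C_mul, hb e he,
        show coeff e g = b e from if_pos he, sub_self]
    have hp : (p : LTRing p n) ∈ heightIdeal p n h :=
      Ideal.subset_span ⟨0, h0, by simp [ltParam]⟩
    have hsub : Ideal.span ((X : _ → LTRing p n) '' S) ≤ heightIdeal p n h := by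
      rw [Ideal.span_le]
      rintro _ ⟨s, hs, rfl⟩
      refine Ideal.subset_span ⟨s.1 + 1, by simpa [S] using hs, ?_⟩
      rw [ltParam, if_neg (Nat.succ_ne_zero _), dif_pos (by simp)]
      simp
    simpa using Ideal.add_mem _ (hsub hr) (Ideal.mul_mem_right g _ hp)

theorem heightIdeal_isPrime {h : ℕ} (hh : h ≤ n) : (heightIdeal p n h).IsPrime := by
  have : IsDomain (LTRing p n) := NoZeroDivisors.to_isDomain _
  have : IsDomain (MvPowerSeries (Fin (n - 1)) (GaloisField p n)) := NoZeroDivisors.to_isDomain _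
  rcases Nat.eq_zero_or_pos h with rfl | h0
  · rw [heightIdeal, show ltParam p n '' Set.Iio 0 = ∅ by simp, Ideal.span_empty]
    exact Ideal.isPrime_bot
  · rw [heightIdeal_eq_ker p n h0 hh]
    exact RingHom.ker_isPrime _

theorem heightIdeal_top {J : Ideal (LTRing p n)} (hn : 0 < n) (hJ : heightIdeal p n n ≤ J)
    (hJne : J ≠ ⊤) : J = heightIdeal p n n := by
  classical
  refine le_antisymm (fun f hf ↦ ?_) hJ
  rw [heightIdeal_eq_ker p n hn le_rfl, RingHom.mem_ker]
  have hu : ¬ IsUnit f := fun hu ↦ hJne (Ideal.eq_top_of_isUnit_mem _ hf hu)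
  rw [MvPowerSeries.isUnit_iff_constantCoeff] at hu
  refine MvPowerSeries.ext fun e ↦ ?_
  rw [heightProj, RingHom.comp_apply, coeff_rescale, MvPowerSeries.coeff_map, map_zero]
  by_cases he : e = 0
  · subst he
    rw [coeff_zero_eq_constantCoeff_apply]
    refine mul_eq_zero_of_right _ ?_
    by_contra hne
    exact hu (WittVector.isUnit_of_coeff_zero_ne_zero _ (by simpa using hne))
  · obtain ⟨s, hs⟩ := Finsupp.support_nonempty_iff.mpr he
    refine mul_eq_zero_of_left (prod_eq_zero hs ?_) _
    show (if s.1 + 1 < n then (0 : GaloisField p n) else 1) ^ e s = 0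
    rw [if_pos (by omega), zero_pow (Finsupp.mem_support_iff.mp hs)]

theorem coeff_expand_single {R : Type*} [CommRing R] {P : ℕ} (hP : P ≠ 0)
    (Φ : MvPowerSeries Unit R) {e : ℕ} (he : ¬ P ∣ e) :
    coeff (Finsupp.single () e) (MvPowerSeries.expand P hP Φ) = 0 :=
  MvPowerSeries.coeff_expand_of_not_dvd P hP Φ (i := ()) (by simpa using he)

theorem stabilizer_kills_params {φ : LTRing p n →+* LTRing p n} {θ : PowerSeries (LTRing p n)}
    (hθ : IsFGIso (lawLT p n) ((lawLT p n).map φ) θ) {h : ℕ} (hh : h ≤ n) :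
    ∀ i < h, heightProj p n h (φ (ltParam p n i)) = 0 := by
  set π := heightProj p n h
  set ψ₁ : Haz.A n →+* MvPowerSeries (Fin (n - 1)) (GaloisField p n) := π.comp (toLT p n)
  set ψ₂ : Haz.A n →+* MvPowerSeries (Fin (n - 1)) (GaloisField p n) :=
    π.comp (φ.comp (toLT p n))
  intro i
  induction i using Nat.strong_induction_on with
  | _ i ih =>
    intro hi
    rcases Nat.eq_zero_or_pos i with rfl | hi0
    · rw [show ltParam p n 0 = (p : LTRing p n) by simp [ltParam], map_natCast φ]
      exact heightProj_natCast p n h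
    have hchar : (p : MvPowerSeries (Fin (n - 1)) (GaloisField p n)) = 0 := by
      rw [← map_natCast π]; exact heightProj_natCast p n h
    have hu₁ : ∀ j, 0 < j → j < h → ψ₁ (Haz.uA n j) = 0 := fun j hj hjh ↦ by
      rw [RingHom.comp_apply, toLT_uA p n j hj.ne', heightProj_ltParam p n hh hjh]
    have hu₂ : ∀ j, 0 < j → j < i → ψ₂ (Haz.uA n j) = 0 := fun j hj hji ↦ by
      rw [RingHom.comp_apply, RingHom.comp_apply, toLT_uA p n j hj.ne', ih j hji (by omega)]
    obtain ⟨Φ₁, h10, h11, h12⟩ := Haz.mulSeries_p_height ψ₁ hchar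
      (fun j hj hji ↦ hu₁ j hj (by omega)) hi0
    obtain ⟨Φ₂, h20, h21, h22⟩ := Haz.mulSeries_p_height ψ₂ hchar hu₂ hi0
    rw [hu₁ i hi0 hi] at h11
    let θ' := PowerSeries.map π θ
    have hhom : IsFGHom ((Haz.law p n).map ψ₁) ((Haz.law p n).map ψ₂) θ' := by
      have h' : IsFGHom (lawLT p n) ((lawLT p n).map φ) θ := ⟨hθ.1, hθ.2.2⟩
      have h := h'.map π
      have e1 : ((lawLT p n).map π) = (Haz.law p n).map ψ₁ :=
        FormalGroup.ext (by simp [lawLT, ψ₁, MvPowerSeries.map_map])
      have e2 : ((lawLT p n).map φ).map π = (Haz.law p n).map ψ₂ :=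
        FormalGroup.ext (by simp [lawLT, ψ₂, MvPowerSeries.map_map, RingHom.comp_assoc])
      rwa [e1, e2] at h
    have hcomm := hom_mulSeries ψ₁ ψ₂ hhom p
    rw [h12, h22] at hcomm
    set P := p ^ i
    have hP : P ≠ 0 := pow_ne_zero i hp.out.ne_zero
    set d := Finsupp.single () P
    have hdeg : d.degree = P := by simp [d, Finsupp.degree_single]
    have hlhs : coeff d (PowerSeries.subst (MvPowerSeries.expand P hP Φ₁) θ') = 0 := by
      have hord : (P : ℕ∞) ≤ (MvPowerSeries.expand P hP Φ₁).order := by
        rw [MvPowerSeries.order_expand]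
        calc (P : ℕ∞) = P • ((1 : ℕ) : ℕ∞) := by simp
          _ ≤ P • Φ₁.order := nsmul_le_nsmul_right (one_le_order h10) P
      rw [PowerSeries.subst, coeff_subst_low (fun _ ↦ by simp [h10]) hhom.1 (fun _ ↦ hord)
        (by omega), univ_unique, sum_singleton]
      refine mul_eq_zero_of_right _ ?_
      rw [show d = P • Finsupp.single () 1 by simp [d], MvPowerSeries.coeff_expand_smul, h11]
    have h0 : MvPowerSeries.constantCoeff θ' = 0 := hhom.1
    have hrhs : coeff d (PowerSeries.subst θ' (MvPowerSeries.expand P hP Φ₂)) =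
        ψ₂ (Haz.uA n i) * PowerSeries.coeff 1 θ' ^ P := by
      have hpow : constantCoeff (θ' ^ P : MvPowerSeries Unit _) = 0 := by
        rw [map_pow, h0, zero_pow hP]
      rw [PowerSeries.subst, MvPowerSeries.expand,
        MvPowerSeries.substAlgHom_apply,
        MvPowerSeries.subst_comp_subst_apply (MvPowerSeries.HasSubst.X_pow hP)
          (hasSubst_of_constantCoeff_zero fun _ ↦ h0),
        coeff_subst_low (r := P) (fun _ ↦ by
          rw [MvPowerSeries.subst_pow (hasSubst_of_constantCoeff_zero fun _ ↦ h0),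
            MvPowerSeries.subst_X (hasSubst_of_constantCoeff_zero fun _ ↦ h0)]
          exact hpow) h20 (fun _ ↦ ?_) (by omega), univ_unique, sum_singleton]
      · rw [MvPowerSeries.subst_pow (hasSubst_of_constantCoeff_zero fun _ ↦ h0),
          MvPowerSeries.subst_X (hasSubst_of_constantCoeff_zero fun _ ↦ h0)]
        congr 1
        obtain ⟨t, ht⟩ := PowerSeries.X_dvd_iff.mpr hhom.1
        rw [← PowerSeries.coeff_def (by simp [d]) (n := P)]
        rw [ht, mul_pow, PowerSeries.coeff_X_pow_mul', if_pos le_rfl, Nat.sub_self,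
          PowerSeries.coeff_zero_eq_constantCoeff_apply, map_pow,
          show PowerSeries.coeff 1 (PowerSeries.X * t) = PowerSeries.coeff 0 t from
            PowerSeries.coeff_succ_X_mul 0 t, PowerSeries.coeff_zero_eq_constantCoeff_apply]
      · rw [MvPowerSeries.subst_pow (hasSubst_of_constantCoeff_zero fun _ ↦ h0),
          MvPowerSeries.subst_X (hasSubst_of_constantCoeff_zero fun _ ↦ h0)]
        exact MvPowerSeries.le_order_pow_of_constantCoeff_eq_zero _ h0
    rw [hcomm] at hlhs
    rw [hrhs] at hlhs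
    have hunit : IsUnit (PowerSeries.coeff 1 θ' ^ P) := by
      rw [PowerSeries.coeff_map]
      exact (hθ.2.1.map π).pow P
    rw [← toLT_uA p n i hi0.ne']
    exact hunit.mul_left_eq_zero.mp hlhs

theorem stabilizer_map_le {φ : LTRing p n ≃+* LTRing p n}
    (hφ : φ ∈ stabilizerImage p n (lawLT p n)) {h : ℕ} (hh : h ≤ n) :
    Ideal.map φ.toRingHom (heightIdeal p n h) ≤ heightIdeal p n h := by
  rcases Nat.eq_zero_or_pos h with rfl | h0
  · simp [heightIdeal]
  obtain ⟨θ, hθ⟩ := hφ
  conv_lhs => rw [heightIdeal]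
  rw [Ideal.map_span, Ideal.span_le]
  rintro _ ⟨_, ⟨i, hi, rfl⟩, rfl⟩
  rw [heightIdeal_eq_ker p n h0 hh]
  exact stabilizer_kills_params p n hθ hh i hi

theorem symm_mem_stabilizerImage {φ : LTRing p n ≃+* LTRing p n}
    (hφ : φ ∈ stabilizerImage p n (lawLT p n)) : φ.symm ∈ stabilizerImage p n (lawLT p n) := by
  obtain ⟨θ, hθ⟩ := hφ
  obtain ⟨h0, h1, h2⟩ := hθ.symm
  have h' : IsFGHom _ _ _ := ⟨h0, h2⟩
  have h := IsFGHom.map h' φ.symm.toRingHom
  have e : ((lawLT p n).map φ.toRingHom).map φ.symm.toRingHom = lawLT p n :=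
    FormalGroup.ext (MvPowerSeries.ext fun d ↦ by simp)
  rw [e] at h
  refine ⟨_, h.1, ?_, h.2⟩
  rw [PowerSeries.coeff_map]
  exact h1.map _

theorem heightIdeal_invariant {h : ℕ} (hh : h ≤ n) :
    IsInvariantIdeal p n (lawLT p n) (heightIdeal p n h) := by
  intro φ hφ
  refine le_antisymm (stabilizer_map_le p n hφ hh) ?_
  have h' := stabilizer_map_le p n (symm_mem_stabilizerImage p n hφ) hh
  intro x hx
  have hx' := h' (Ideal.mem_map_of_mem _ hx)
  simpa using Ideal.mem_map_of_mem φ.toRingHom hx'

end Vale.Agent.P217
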