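import Vale.Agent.P217.Shared
import Vale.Agent.P217.Heights
import Vale.Agent.P217.CurveSel
import Mathlib.RingTheory.Ideal.MinimalPrime.Basic
import Mathlib.RingTheory.Ideal.MinimalPrime.Noetherian
import Mathlib.RingTheory.Filtration

/-!
Reduction of invariant radical ideals to prime ideals moved into themselves.
-/

noncomputable section

open MvPowerSeries Finset

namespace Vale.Agent.P217

variable {p n : ℕ} [hp : Fact p.Prime]

theorem coeff_gSeries_low {δ : PowerSeries (GaloisField p n)}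
    (hδ : PowerSeries.constantCoeff δ = 0) {M m : ℕ} (hm : m < (p ^ n) ^ M) :
    PowerSeries.coeff m (gSeries p n δ M) =
      PowerSeries.coeff m (PowerSeries.X : PowerSeries (GaloisField p n)) := by
  classical
  set Q := (p ^ n) ^ M
  set F := (honda p n (GaloisField p n)).toPowerSeries
  have hQ : Q ≠ 0 := (Nat.zero_lt_of_lt hm).ne'
  have hX : MvPowerSeries.constantCoeff (PowerSeries.X : PowerSeries (GaloisField p n)) = 0 :=
    PowerSeries.constantCoeff_X
  have hb : MvPowerSeries.constantCoeff (δ ^ Q) = 0 := by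
    show PowerSeries.constantCoeff (δ ^ Q) = 0
    rw [map_pow, hδ, zero_pow hQ]
  have h0 : MvPowerSeries.constantCoeff (0 : PowerSeries (GaloisField p n)) = 0 := map_zero _
  have hdvd : (PowerSeries.X : PowerSeries (GaloisField p n)) ^ Q ∣ δ ^ Q :=
    pow_dvd_pow_of_dvd (PowerSeries.X_dvd_iff.mpr hδ) Q
  have key : ∀ e : Fin 2 →₀ ℕ, PowerSeries.coeff m
      (e.prod fun i k ↦ (![(PowerSeries.X : PowerSeries (GaloisField p n)), δ ^ Q]) i ^ k) =
      PowerSeries.coeff m
      (e.prod fun i k ↦ (![(PowerSeries.X : PowerSeries (GaloisField p n)), 0]) i ^ k) := by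
    intro e
    rw [Finsupp.prod_fintype _ _ (fun _ ↦ pow_zero _), Finsupp.prod_fintype _ _ (fun _ ↦ pow_zero _),
      Fin.prod_univ_two, Fin.prod_univ_two]
    simp only [Matrix.cons_val_zero, Matrix.cons_val_one, Matrix.cons_val_fin_one]
    rcases Nat.eq_zero_or_pos (e 1) with h1 | h1
    · simp [h1]
    · rw [zero_pow h1.ne', mul_zero, (PowerSeries.coeff m).map_zero]
      obtain ⟨t, ht⟩ := (hdvd.trans (dvd_pow_self _ h1.ne')).mul_left
        ((PowerSeries.X : PowerSeries (GaloisField p n)) ^ e 0)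
      rw [ht, PowerSeries.coeff_X_pow_mul', if_neg (by omega)]
  have hzero : MvPowerSeries.subst ![(PowerSeries.X : PowerSeries (GaloisField p n)), 0] F =
      PowerSeries.X := FormalGroup.Xzero_eq_X (honda p n (GaloisField p n))
  rw [gSeries]
  conv_rhs => rw [← hzero]
  rw [PowerSeries.coeff, coeff_subst (hasSubst_of_constantCoeff_zero (Haz.constantCoeff_pair hX hb)),
    coeff_subst (hasSubst_of_constantCoeff_zero (Haz.constantCoeff_pair hX h0))]
  exact finsum_congr fun e ↦ congrArg ((MvPowerSeries.coeff e F) • ·) (key e)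

/-- An automorphism fixing the constants and moving each parameter little moves everything
little. -/
theorem sub_mem_pow_of_params {φ : LTRing p n ≃+* LTRing p n}
    (hW : ∀ w, φ (MvPowerSeries.C w) = MvPowerSeries.C w) {r : ℕ}
    (hX : ∀ i, φ (MvPowerSeries.X i) - MvPowerSeries.X i ∈
      IsLocalRing.maximalIdeal (LTRing p n) ^ r) (f : LTRing p n) :
    φ f - f ∈ IsLocalRing.maximalIdeal (LTRing p n) ^ r := by
  classical
  set m := IsLocalRing.maximalIdeal (LTRing p n)
  let q := Ideal.Quotient.mk (m ^ r)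
  have hpoly : ∀ P : MvPolynomial (Fin (n - 1)) (WittVector p (GaloisField p n)),
      q (φ P) = q P := by
    intro P
    refine RingHom.congr_fun
      (f := (q.comp φ.toRingHom).comp MvPolynomial.coeToMvPowerSeries.ringHom)
      (g := q.comp MvPolynomial.coeToMvPowerSeries.ringHom)
      (MvPolynomial.ringHom_ext (fun w ↦ ?_) fun i ↦ ?_) P
    · simp [hW]
    · simpa [q, Ideal.Quotient.eq] using hX i
  have hmap : ∀ x ∈ Ideal.span (Set.range (MvPowerSeries.X :
      Fin (n - 1) → LTRing p n)) ^ r, x ∈ m ^ r ∧ φ x ∈ m ^ r := by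
    have hXm : Ideal.span (Set.range (MvPowerSeries.X : Fin (n - 1) → LTRing p n)) ≤ m := by
      rw [Ideal.span_le]
      rintro _ ⟨i, rfl⟩
      rw [SetLike.mem_coe, IsLocalRing.mem_maximalIdeal, mem_nonunits_iff,
        MvPowerSeries.isUnit_iff_constantCoeff, constantCoeff_X]
      exact not_isUnit_zero
    have hφm : Ideal.map φ.toRingHom m ≤ m := by
      rw [Ideal.map_le_iff_le_comap]
      intro x hx
      rw [Ideal.mem_comap, IsLocalRing.mem_maximalIdeal, mem_nonunits_iff] at *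
      intro hu
      exact hx (by simpa using hu.map φ.symm)
    intro x hx
    have hxm : x ∈ m ^ r := Ideal.pow_right_mono hXm r hx
    refine ⟨hxm, ?_⟩
    have := Ideal.mem_map_of_mem φ.toRingHom hxm
    rw [Ideal.map_pow] at this
    exact Ideal.pow_right_mono hφm r this
  have htail : f - MvPowerSeries.truncTotal r f ∈
      Ideal.span (Set.range (MvPowerSeries.X : Fin (n - 1) → LTRing p n)) ^ r := by
    refine mem_span_X_pow r _ fun d hd ↦ ?_
    rw [map_sub, MvPolynomial.coeff_coe]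
    exact sub_eq_zero.mpr (MvPowerSeries.coeff_truncTotal (p := f) hd).symm
  obtain ⟨h1, h2⟩ := hmap _ htail
  rw [← Ideal.Quotient.eq]
  show q (φ f) = q f
  have e1 : q (φ f) = q (φ (MvPowerSeries.truncTotal r f)) := by
    rw [Ideal.Quotient.eq, ← map_sub]
    exact h2
  have e2 : q f = q (MvPowerSeries.truncTotal r f) := Ideal.Quotient.eq.mpr h1
  rw [e1, e2, hpoly]

theorem heightIdeal_mono {a b : ℕ} (h : a ≤ b) : heightIdeal p n a ≤ heightIdeal p n b :=
  Ideal.span_mono (Set.image_mono (Set.Iio_subset_Iio h))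

theorem exists_separation {P P' : Ideal (LTRing p n)} [P'.IsPrime] (h : ¬ P ≤ P') :
    ∃ f ∈ P, ∃ r : ℕ, ∀ y ∈ P', f - y ∉ IsLocalRing.maximalIdeal (LTRing p n) ^ r := by
  obtain ⟨f, hf, hf'⟩ := Set.not_subset.mp h
  refine ⟨f, hf, ?_⟩
  set m := IsLocalRing.maximalIdeal (LTRing p n)
  set π := Ideal.Quotient.mk P'
  have htop : Ideal.map π m ≠ ⊤ := by
    intro htop
    have h1 : Ideal.comap π (Ideal.map π m) = ⊤ := by rw [htop, Ideal.comap_top]
    rw [Ideal.comap_map_of_surjective π Ideal.Quotient.mk_surjective, ← RingHom.ker_eq_comap_bot,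
      Ideal.mk_ker] at h1
    have hle : m ⊔ P' ≤ m :=
      sup_le le_rfl (IsLocalRing.le_maximalIdeal (Ideal.IsPrime.ne_top inferInstance))
    rw [h1] at hle
    exact (IsLocalRing.maximalIdeal.isMaximal (LTRing p n)).ne_top (top_le_iff.mp hle)
  have hinf := Ideal.iInf_pow_eq_bot_of_isDomain (Ideal.map π m) htop
  by_contra hcon
  push Not at hcon
  refine hf' (Ideal.Quotient.eq_zero_iff_mem.mp ?_)
  have hall : π f ∈ ⨅ r : ℕ, (Ideal.map π m) ^ r := by
    rw [Submodule.mem_iInf]
    intro r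
    obtain ⟨y, hy, hyr⟩ := hcon r
    rw [← Ideal.map_pow]
    have h2 := Ideal.mem_map_of_mem π hyr
    rwa [map_sub, show π y = 0 from Ideal.Quotient.eq_zero_iff_mem.mpr hy, sub_zero] at h2
  rw [hinf] at hall
  exact hall

/-- Invariant radical ideals are height ideals, granted the same for primes moved into
themselves and the continuity of lifts. -/
theorem radical_invariant (hn : n ≠ 0)
    (cont : ∀ r : ℕ, ∃ K : ℕ, ∀ φ : LTRing p n ≃+* LTRing p n,
      (∀ w, φ (MvPowerSeries.C w) = MvPowerSeries.C w) →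
      ∀ θ : PowerSeries (LTRing p n), IsFGIso (lawLT p n) ((lawLT p n).map φ.toRingHom) θ →
        (∀ m < K, PowerSeries.coeff m (θ.map (resLT p n)) =
          PowerSeries.coeff m (PowerSeries.X : PowerSeries (GaloisField p n))) →
        ∀ i, φ (MvPowerSeries.X i) - MvPowerSeries.X i ∈
          IsLocalRing.maximalIdeal (LTRing p n) ^ r)
    (main : ∀ P : Ideal (LTRing p n), P.IsPrime → MovesInto p n P →
      ∃ h ≤ n, P = heightIdeal p n h)
    {J : Ideal (LTRing p n)} (hrad : J.IsRadical)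
    (hinv : ∀ φ ∈ stabilizerImage p n (lawLT p n),
      (∀ w, φ (MvPowerSeries.C w) = MvPowerSeries.C w) → Ideal.map φ.toRingHom J = J) :
    J = ⊤ ∨ ∃ h ≤ n, J = heightIdeal p n h := by
  classical
  rcases eq_or_ne J ⊤ with hJ | hJ
  · exact Or.inl hJ
  refine Or.inr ?_
  have hfin : J.minimalPrimes.Finite := Ideal.finite_minimalPrimes_of_isNoetherianRing _ J
  have hne : J.minimalPrimes.Nonempty := Set.nonempty_coe_sort.mp (Ideal.nonempty_minimalPrimes hJ)
  -- separation radius
  have hsep : ∀ q : Ideal (LTRing p n) × Ideal (LTRing p n), ∃ r : ℕ,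
      q.2.IsPrime → ¬ q.1 ≤ q.2 → ∃ f ∈ q.1, ∀ y ∈ q.2,
        f - y ∉ IsLocalRing.maximalIdeal (LTRing p n) ^ r := by
    intro q
    by_cases h1 : q.2.IsPrime ∧ ¬ q.1 ≤ q.2
    · have := h1.1
      obtain ⟨f, hf, r, hr⟩ := exists_separation h1.2
      exact ⟨r, fun _ _ ↦ ⟨f, hf, hr⟩⟩
    · exact ⟨0, fun a b ↦ absurd ⟨a, b⟩ h1⟩
  choose rad hrad' using hsep
  set R := (hfin.toFinset ×ˢ hfin.toFinset).sup rad
  obtain ⟨K, hK⟩ := cont R
  have hmoves : ∀ P ∈ J.minimalPrimes, MovesInto p n P := by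
    intro P hP
    refine ⟨K + 1, fun M hM δ hδ φ hW θ hθ hred f hf ↦ ?_⟩
    have hφ : φ ∈ stabilizerImage p n (lawLT p n) := ⟨θ, hθ⟩
    have hlow : ∀ m < K, PowerSeries.coeff m (θ.map (resLT p n)) =
        PowerSeries.coeff m (PowerSeries.X : PowerSeries (GaloisField p n)) := by
      intro m hm
      rw [hred]
      refine coeff_gSeries_low hδ.1 ?_
      calc m < M := by omega
        _ < (p ^ n) ^ M := Nat.lt_pow_self (Nat.one_lt_pow hn hp.out.one_lt)
    have hclose := sub_mem_pow_of_params hW (hK φ hW θ hθ hlow)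
    have hJφ : ∀ x ∈ J, φ x ∈ J := fun x hx ↦ by
      have := Ideal.mem_map_of_mem φ.toRingHom hx
      rwa [hinv φ hφ hW] at this
    have hJφ' : ∀ x ∈ J, φ.symm x ∈ J := fun x hx ↦ by
      have := Ideal.mem_map_of_mem φ.symm.toRingHom hx
      rwa [hinv φ.symm (symm_mem_stabilizerImage p n hφ) fun w ↦ by
        rw [RingEquiv.symm_apply_eq, hW]] at this
    let P' : Ideal (LTRing p n) := P.comap φ.symm.toRingHom
    have hPprime : P.IsPrime := hP.1.1
    have hP' : P' ∈ J.minimalPrimes := by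
      refine ⟨⟨Ideal.comap_isPrime _ _, fun x hx ↦ hP.1.2 (hJφ' x hx)⟩, fun Q hQ hQP x hx ↦ ?_⟩
      have : Q.IsPrime := hQ.1
      have hle := hP.2 (y := Q.comap φ.toRingHom)
        ⟨Ideal.comap_isPrime _ _, fun z hz ↦ hQ.2 (hJφ z hz)⟩
        (fun z hz ↦ by simpa [P'] using hQP hz)
      have h2 : φ (φ.symm x) ∈ Q := hle hx
      simpa using h2
    have hle : P ≤ P' := by
      by_contra hnle
      obtain ⟨g, hg, hgr⟩ := hrad' (P, P') hP'.1.1 hnle
      refine hgr (φ g) (by simpa [P'] using hg) ?_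
      have hRr : rad (P, P') ≤ R :=
        Finset.le_sup (f := rad) (Finset.mem_product.mpr
          ⟨hfin.mem_toFinset.mpr hP, hfin.mem_toFinset.mpr hP'⟩)
      have := Ideal.pow_le_pow_right hRr (hclose g)
      simpa using neg_mem this
    have heq : P' ≤ P := hP'.2 hP.1 hle
    exact heq (by simpa [P'] using hf)
  have hheight : ∀ P ∈ J.minimalPrimes, ∃ h ≤ n, P = heightIdeal p n h :=
    fun P hP ↦ main P hP.1.1 (hmoves P hP)
  obtain ⟨P, hP⟩ := hne
  have huniq : ∀ Q ∈ J.minimalPrimes, Q = P := by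
    intro Q hQ
    obtain ⟨a, -, rfl⟩ := hheight Q hQ
    obtain ⟨b, -, rfl⟩ := hheight P hP
    rcases le_total a b with hab | hab
    · exact le_antisymm (heightIdeal_mono hab) (hP.2 hQ.1 (heightIdeal_mono hab))
    · exact le_antisymm (hQ.2 hP.1 (heightIdeal_mono hab)) (heightIdeal_mono hab)
  obtain ⟨h, hh, hPh⟩ := hheight P hP
  refine ⟨h, hh, ?_⟩
  have hset : J.minimalPrimes = {P} := Set.Subset.antisymm (fun Q hQ ↦ huniq Q hQ)
    (Set.singleton_subset_iff.mpr hP)
  rw [← hrad.radical, ← Ideal.sInf_minimalPrimes, hset, sInf_singleton, hPh]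

end Vale.Agent.P217
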