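import Vale.Agent.P217.LTUniv
import Vale.Agent.P217.Base
import Mathlib.RingTheory.WittVector.Complete
import Mathlib.RingTheory.WittVector.Teichmuller

/-!
Triangular Hensel lemma for the universal equations over the Lubin-Tate ring.
-/

noncomputable section

open Finset

namespace Vale.Agent.P217.LT

variable (p n : ℕ) [hp : Fact p.Prime]

/-- The filtration of the Lubin-Tate ring by powers of the maximal ideal, coefficientwise. -/
def J (r : ℕ) : Ideal (LTRing p n) where
  carrier := {f | ∀ e, (p : WittVector p (GaloisField p n)) ^ (r - e.degree) ∣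
    MvPowerSeries.coeff e f}
  add_mem' {f g} hf hg e := by rw [map_add]; exact dvd_add (hf e) (hg e)
  zero_mem' e := by rw [map_zero]; exact dvd_zero _
  smul_mem' c f hf e := by
    classical
    rw [smul_eq_mul, MvPowerSeries.coeff_mul]
    refine dvd_sum fun q hq ↦ (pow_dvd_pow _ ?_).trans ((hf q.2).mul_left _)
    rw [← mem_antidiagonal.mp hq, map_add]
    omega

variable {p n}

theorem mem_J {r : ℕ} {f : LTRing p n} : f ∈ J p n r ↔ ∀ e,
    (p : WittVector p (GaloisField p n)) ^ (r - e.degree) ∣ MvPowerSeries.coeff e f := Iff.rfl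

theorem J_zero : J p n 0 = ⊤ := by
  refine eq_top_iff.mpr fun f _ e ↦ ?_
  simp

theorem J_anti {r s : ℕ} (h : r ≤ s) : J p n s ≤ J p n r :=
  fun _ hf e ↦ (pow_dvd_pow _ (by omega)).trans (hf e)

theorem J_mul (r s : ℕ) : J p n r * J p n s ≤ J p n (r + s) := by
  classical
  refine Ideal.mul_le.mpr fun f hf g hg e ↦ ?_
  rw [MvPowerSeries.coeff_mul]
  refine dvd_sum fun q hq ↦ (pow_dvd_pow _ ?_).trans
    (by rw [pow_add]; exact mul_dvd_mul (hf q.1) (hg q.2))
  rw [← mem_antidiagonal.mp hq, map_add]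
  omega

theorem mul_mem_J {r s t : ℕ} {f g : LTRing p n} (hf : f ∈ J p n r) (hg : g ∈ J p n s)
    (h : t ≤ r + s) : f * g ∈ J p n t :=
  J_anti h (J_mul r s (Ideal.mul_mem_mul hf hg))

theorem resLT_apply (f : LTRing p n) : resLT p n f = (MvPowerSeries.constantCoeff f).coeff 0 := rfl

theorem mem_J_one {f : LTRing p n} : f ∈ J p n 1 ↔ resLT p n f = 0 := by
  rw [resLT_apply, ← WittVector.mem_span_p_iff_coeff_zero_eq_zero, Ideal.mem_span_singleton,
    ← MvPowerSeries.coeff_zero_eq_constantCoeff_apply]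
  constructor
  · intro h; simpa using h 0
  · intro h e
    rcases eq_or_ne e 0 with rfl | he
    · simpa using h
    · have : 1 ≤ e.degree := Nat.one_le_iff_ne_zero.mpr (by simpa [Finsupp.degree_eq_zero_iff])
      rw [show 1 - e.degree = 0 by omega, pow_zero]
      exact one_dvd _

theorem isUnit_iff_resLT {f : LTRing p n} : IsUnit f ↔ resLT p n f ≠ 0 := by
  constructor
  · exact fun h ↦ (h.map (resLT p n)).ne_zero
  · intro h
    rw [MvPowerSeries.isUnit_iff_constantCoeff]
    exact WittVector.isUnit_of_coeff_zero_ne_zero _ h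

theorem J_one_eq : J p n 1 = IsLocalRing.maximalIdeal (LTRing p n) := by
  ext f
  rw [mem_J_one, IsLocalRing.mem_maximalIdeal, mem_nonunits_iff, isUnit_iff_resLT, not_not]

theorem maximalIdeal_pow_le (r : ℕ) : IsLocalRing.maximalIdeal (LTRing p n) ^ r ≤ J p n r := by
  induction r with
  | zero => rw [J_zero]; exact le_top
  | succ r ih =>
    rw [pow_succ]
    exact (Ideal.mul_mono ih J_one_eq.ge).trans (J_mul r 1)

theorem J_le_pow (r : ℕ) : J p n r ≤ IsLocalRing.maximalIdeal (LTRing p n) ^ r := by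
  classical
  induction r with
  | zero => rw [pow_zero, Ideal.one_eq_top]; exact le_top
  | succ r ih =>
    intro f hf
    have hp0 : (p : WittVector p (GaloisField p n)) ≠ 0 := WittVector.p_nonzero p _
    obtain ⟨c, hc⟩ : (p : WittVector p (GaloisField p n)) ∣ MvPowerSeries.coeff 0 f :=
      (dvd_pow_self _ (by simp)).trans (hf 0)
    have hc' : MvPowerSeries.C c ∈ J p n r := by
      intro e
      rw [MvPowerSeries.coeff_C]
      split_ifs with he
      · subst he
        have := hf 0
        rw [hc, map_zero, Nat.sub_zero, pow_succ', mul_dvd_mul_iff_left hp0] at this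
        simpa using this
      · exact dvd_zero _
    let g : Fin (n - 1) → LTRing p n := fun i e ↦
      if (e + Finsupp.single i 1).support.min = (i : WithTop (Fin (n - 1))) then
        MvPowerSeries.coeff (e + Finsupp.single i 1) f else 0
    have hg : ∀ i, g i ∈ J p n r := by
      intro i e
      show _ ∣ (if _ then _ else _)
      split_ifs
      · exact (pow_dvd_pow _ (by simp)).trans (hf _)
      · exact dvd_zero _
    have hsum : f = (p : LTRing p n) * MvPowerSeries.C c + ∑ i, MvPowerSeries.X i * g i := by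
      ext1 e
      rw [map_add, map_sum, ← map_natCast (MvPowerSeries.C (σ := Fin (n - 1))
        (R := WittVector p (GaloisField p n))), ← map_mul, MvPowerSeries.coeff_C]
      simp only [MvPowerSeries.X_def, MvPowerSeries.coeff_monomial_mul, one_mul]
      rcases eq_or_ne e 0 with rfl | he
      · rw [if_pos rfl, sum_eq_zero fun i _ ↦ if_neg (by simp), add_zero, hc]
      · rw [if_neg he, zero_add]
        obtain ⟨i₀, hi₀⟩ := Finset.min_of_nonempty (Finsupp.support_nonempty_iff.mpr he)
        have hpos : ∀ i, Finsupp.single i 1 ≤ e → e - Finsupp.single i 1 + Finsupp.single i 1 = e :=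
          fun i h ↦ tsub_add_cancel_of_le h
        have hi₀' : Finsupp.single i₀ 1 ≤ e := by
          rw [Finsupp.single_le_iff]
          exact Nat.one_le_iff_ne_zero.mpr (Finsupp.mem_support_iff.mp (Finset.mem_of_min hi₀))
        rw [sum_eq_single i₀]
        · rw [if_pos hi₀']
          show _ = if _ then _ else _
          rw [hpos i₀ hi₀', if_pos hi₀]
        · intro i _ hi
          split_ifs with h
          · show (if _ then _ else _) = _
            rw [hpos i h, if_neg (by rw [hi₀]; exact fun h ↦ hi (WithTop.coe_injective h).symm)]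
          · rfl
        · simp
    rw [hsum, pow_succ']
    refine Ideal.add_mem _ (Ideal.mul_mem_mul ?_ (ih hc'))
      (Ideal.sum_mem _ fun i _ ↦ Ideal.mul_mem_mul ?_ (ih (hg i)))
    · rw [← J_one_eq, mem_J_one, map_natCast]
      exact CharP.cast_eq_zero _ p
    · rw [← J_one_eq, mem_J_one, resLT_apply, MvPowerSeries.constantCoeff_X, WittVector.zero_coeff]

theorem eq_of_sub_mem_J {f g : LTRing p n} (h : ∀ r, f - g ∈ J p n r) : f = g := by
  ext1 e
  rw [← sub_eq_zero, ← map_sub]
  refine WittVector.ext fun l ↦ ?_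
  have := h (l + 1 + e.degree) e
  rw [Nat.add_sub_cancel, ← Ideal.mem_span_singleton, ← Ideal.span_singleton_pow,
    Ideal.span_singleton_pow, WittVector.mem_span_p_pow_iff_le_coeff_eq_zero] at this
  rw [this l (by omega), WittVector.zero_coeff]

theorem J_complete (x : ℕ → LTRing p n) (hx : ∀ r, x (r + 1) - x r ∈ J p n r) :
    ∃ y, ∀ r, y - x r ∈ J p n r := by
  classical
  let W := WittVector p (GaloisField p n)
  have hmono : ∀ r s, r ≤ s → x s - x r ∈ J p n r := by
    intro r s h
    induction s, h using Nat.le_induction with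
    | base => simp
    | succ s h ih => simpa using Ideal.add_mem _ (J_anti h (hx s)) ih
  have : ∀ e : Fin (n - 1) →₀ ℕ, ∃ L : W, ∀ r, (p : W) ^ (r - e.degree) ∣
      L - MvPowerSeries.coeff e (x r) := by
    intro e
    obtain ⟨L, hL⟩ := (inferInstance : IsAdicComplete (Ideal.span {(p : W)}) W).prec'
      (fun s ↦ MvPowerSeries.coeff e (x (s + e.degree))) (by
        intro a b hab
        rw [SModEq.sub_mem, smul_eq_mul, Ideal.mul_top, Ideal.span_singleton_pow,
          Ideal.mem_span_singleton, ← dvd_neg, neg_sub, ← map_sub]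
        have := hmono (a + e.degree) (b + e.degree) (by omega) e
        rwa [Nat.add_sub_cancel] at this)
    refine ⟨L, fun r ↦ ?_⟩
    rcases Nat.lt_or_ge r e.degree with h | h
    · rw [show r - e.degree = 0 by omega, pow_zero]; exact one_dvd _
    · have := hL (r - e.degree)
      rw [SModEq.sub_mem, smul_eq_mul, Ideal.mul_top, Ideal.span_singleton_pow,
        Ideal.mem_span_singleton, ← dvd_neg, neg_sub, Nat.sub_add_cancel h] at this
      exact this
  choose L hL using this
  refine ⟨(L : LTRing p n), fun r e ↦ (hL e r).trans (dvd_of_eq ?_)⟩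
  exact (map_sub (MvPowerSeries.coeff e) (L : LTRing p n) (x r)).symm

variable (p n)

/-- The variable attached to a coordinate index. -/
def xb (x : ℕ → LTRing p n) (i : ℕ) : LTRing p n :=
  if i = n then 1 else if i ≠ 0 ∧ i < n then x i else 0

/-- Evaluation of the universal equations at a coordinate vector
(`b i = x i` for `i < n`, `t j = x (n + j)`). -/
def evx (x : ℕ → LTRing p n) : U →+* LTRing p n :=
  MvPolynomial.eval₂Hom (Int.castRingHom _) fun
    | .u i => if i = 0 then 0 else ltParam p n i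
    | .b i => xb p n x i
    | .t j => x (n + j)

/-- The `m`-th equation. -/
def eqn (x : ℕ → LTRing p n) (m : ℕ) : LTRing p n := evx p n x (eU p m)

variable {p n}

omit hp in
theorem ltParam_of_ne [Fact p.Prime] (_hn : n ≠ 0) (i : ℕ) :
    ltParam p n (i + 1) = if h : i < n - 1 then MvPowerSeries.X ⟨i, h⟩
      else if i + 1 = n then 1 else 0 := by
  rw [ltParam, if_neg (Nat.succ_ne_zero i)]
  simp only [Nat.add_sub_cancel]

theorem evx_u (x : ℕ → LTRing p n) (i : ℕ) : evx p n x (uV (i + 1)) = ltParam p n (i + 1) := by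
  simp [evx]

theorem evx_b (x : ℕ → LTRing p n) (i : ℕ) : evx p n x (bV i) = xb p n x i := by
  simp [evx]

theorem evx_t (x : ℕ → LTRing p n) (j : ℕ) : evx p n x (tV j) = x (n + j) := by
  simp [evx]

theorem evx_congr {x y : ℕ → LTRing p n} {m : ℕ}
    (h : ∀ v, v ≠ 0 → v ≤ n + m → x v = y v) (hn : n ≠ 0) : eqn p n x m = eqn p n y m := by
  rw [eqn, eqn, ← cut_eU p (le_refl m)]
  refine RingHom.congr_fun (f := (evx p n x).comp (cut m)) (g := (evx p n y).comp (cut m)) ?_ _
  refine MvPolynomial.ringHom_ext (fun r ↦ by simp) fun v ↦ ?_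
  rw [RingHom.comp_apply, RingHom.comp_apply]
  by_cases hv : v.idx ≤ m
  · rw [cut_X hv]
    rcases v with i | i | j
    · simp [evx]
    · rw [evx_b, evx_b, xb, xb]
      split_ifs with h1 h2
      · rfl
      · exact h i h2.1 (by omega)
      · rfl
    · rw [evx_t, evx_t]
      simp only [UV.idx] at hv
      exact h _ (by omega) (by omega)
  · simp [cut, hv]

theorem hom_sub_mem (I : Ideal (LTRing p n)) {f g : U →+* LTRing p n}
    (h : ∀ v, f (MvPolynomial.X v) - g (MvPolynomial.X v) ∈ I) (P : U) : f P - g P ∈ I := by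
  have : (Ideal.Quotient.mk I).comp f = (Ideal.Quotient.mk I).comp g :=
    MvPolynomial.ringHom_ext (fun r ↦ by simp) fun v ↦ Ideal.Quotient.eq.mpr (h v)
  exact Ideal.Quotient.eq.mp (RingHom.congr_fun this P)

theorem evx_sub_mem (I : Ideal (LTRing p n)) {x y : ℕ → LTRing p n}
    (h : ∀ v, y v - x v ∈ I) (P : U) : evx p n y P - evx p n x P ∈ I := by
  refine hom_sub_mem I (fun v ↦ ?_) P
  rcases v with i | i | j
  · simp [evx]
  · rw [evx_b, evx_b, xb, xb]
    split_ifs <;> simp [h]
  · rw [evx_t, evx_t]; exact h _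

theorem taylor (I : Ideal (LTRing p n)) {f g : U →+* LTRing p n} (s : Finset UV)
    (hs : ∀ v ∉ s, f (MvPolynomial.X v) = g (MvPolynomial.X v))
    (hI : ∀ v, f (MvPolynomial.X v) - g (MvPolynomial.X v) ∈ I) (P : U) :
    f P - g P - ∑ v ∈ s, g (MvPolynomial.pderiv v P) *
      (f (MvPolynomial.X v) - g (MvPolynomial.X v)) ∈ I * I := by
  induction P using MvPolynomial.induction_on with
  | C c =>
    have : f (MvPolynomial.C c) = g (MvPolynomial.C c) := RingHom.congr_fun
      (Subsingleton.elim (f.comp MvPolynomial.C) (g.comp MvPolynomial.C)) c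
    rw [this]
    simp
  | add P Q hP hQ =>
    convert Ideal.add_mem _ hP hQ using 1
    simp only [map_add, add_mul, sum_add_distrib]
    ring
  | mul_X P w hP =>
    have hPw := Ideal.mul_mem_right (g (MvPolynomial.X w)) _ hP
    have hd := Ideal.mul_mem_mul (hom_sub_mem I hI P) (hI w)
    convert Ideal.add_mem _ hPw hd using 1
    have hsum : ∑ v ∈ s, g (MvPolynomial.pderiv v (P * MvPolynomial.X w)) *
        (f (MvPolynomial.X v) - g (MvPolynomial.X v)) =
        (∑ v ∈ s, g (MvPolynomial.pderiv v P) *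
          (f (MvPolynomial.X v) - g (MvPolynomial.X v))) * g (MvPolynomial.X w) +
          g P * (f (MvPolynomial.X w) - g (MvPolynomial.X w)) := by
      rw [sum_mul]
      have : g P * (f (MvPolynomial.X w) - g (MvPolynomial.X w)) = ∑ v ∈ s,
          if v = w then g P * (f (MvPolynomial.X v) - g (MvPolynomial.X v)) else 0 := by
        rw [sum_ite_eq']
        split_ifs with h
        · rfl
        · rw [hs w h, sub_self, mul_zero]
      rw [this, ← sum_add_distrib]
      refine sum_congr rfl fun v _ ↦ ?_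
      rw [MvPolynomial.pderiv_mul, map_add g, map_mul g, map_mul g, MvPolynomial.pderiv_X]
      by_cases h : v = w
      · subst h; rw [Pi.single_eq_same, map_one, if_pos rfl]; ring
      · rw [Pi.single_eq_of_ne' h, map_zero, if_neg h]; ring
    rw [hsum, map_mul, map_mul]
    ring

theorem resLT_ltParam (hn : n ≠ 0) (i : ℕ) :
    resLT p n (ltParam p n (i + 1)) = if i + 1 = n then 1 else 0 := by
  rw [ltParam_of_ne hn]
  split_ifs with h1 h2
  · omega
  · rw [resLT_apply, MvPowerSeries.constantCoeff_X, WittVector.zero_coeff]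
  · exact map_one _
  · exact map_zero _

theorem resLT_xb {x : ℕ → LTRing p n} (hx : ∀ v, v ≠ 0 → v < n → resLT p n (x v) = 0) (i : ℕ) :
    resLT p n (xb p n x (i + 1)) = if i + 1 = n then 1 else 0 := by
  rw [xb]
  split_ifs with h1 h2
  · exact map_one _
  · exact hx _ h2.1 h2.2
  · exact map_zero _

theorem res_pow (hn : n ≠ 0) (c : GaloisField p n) : c ^ p ^ n = c := by
  have : Fintype (GaloisField p n) := Fintype.ofFinite _
  have hc : Fintype.card (GaloisField p n) = p ^ n := by
    rw [Fintype.card_eq_nat_card, GaloisField.card p n hn]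
  rw [← hc, FiniteField.pow_card]

theorem resLT_eqn_eq_zero (hn : n ≠ 0) {x : ℕ → LTRing p n}
    (hx : ∀ v, v ≠ 0 → v < n → resLT p n (x v) = 0) (m : ℕ) :
    resLT p n (eqn p n x m) = 0 := by
  let W := WittVector p (GaloisField p n)
  let χ : U →+* W := MvPolynomial.eval₂Hom (Int.castRingHom W) fun
    | .u i => if i = n then 1 else 0
    | .b i => if i = n then 1 else 0
    | .t j => WittVector.teichmuller p (resLT p n (x (n + j)))
  have hd := dvd_chi_eU p (n := n) (WittVector.p_nonzero p (GaloisField p n)) χ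
    (fun i ↦ by simp [χ]) (fun i ↦ by simp [χ])
    (fun j ↦ by simp [χ, ← map_pow, res_pow hn]) m
  have key : (resLT p n).comp (evx p n x) = WittVector.constantCoeff.comp χ := by
    refine MvPolynomial.ringHom_ext (fun r ↦ by simp) fun v ↦ ?_
    rw [RingHom.comp_apply, RingHom.comp_apply]
    rcases v with i | i | j
    · rcases i with _ | i
      · simp [evx, χ, Ne.symm hn]
      · rw [evx_u, resLT_ltParam hn]
        simp only [χ, MvPolynomial.eval₂Hom_X']
        split_ifs <;> simp
    · rcases i with _ | i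
      · simp [evx, xb, χ, Ne.symm hn]
      · rw [evx_b, resLT_xb hx]
        simp only [χ, MvPolynomial.eval₂Hom_X']
        split_ifs <;> simp
    · rw [evx_t]
      simp [χ]
  rw [eqn, ← RingHom.comp_apply, key, RingHom.comp_apply]
  rw [← Ideal.mem_span_singleton, WittVector.mem_span_p_iff_coeff_zero_eq_zero] at hd
  exact hd

/-- The pivot. -/
def piv (x : ℕ → LTRing p n) (m : ℕ) : LTRing p n := if m < n then x n else 1

theorem key_step (hn : n ≠ 0) {x y : ℕ → LTRing p n} {r m B : ℕ} (hr : r ≠ 0) (hm : m ≠ 0)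
    (hx : ∀ v, v ≠ 0 → v < n → resLT p n (x v) = 0)
    (hB : ∀ v, B ≤ v → y v = x v) (hd : ∀ v, y v - x v ∈ J p n r)
    (hlow : ∀ v, v ≠ 0 → v < m → y v - x v ∈ J p n (r + 1)) :
    eqn p n y m - eqn p n x m + piv x m * (y m - x m) ∈ J p n (r + 1) := by
  classical
  set s : Finset UV := (range (B + m + 1)).image UV.b ∪ (range (B + m + 1)).image UV.t with hsdef
  set f := evx p n y with hf
  set g := evx p n x with hg
  have hI : ∀ v, f (MvPolynomial.X v) - g (MvPolynomial.X v) ∈ J p n r := by
    intro v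
    rcases v with i | i | j
    · simp [hf, hg, evx]
    · rw [hf, hg, evx_b, evx_b, xb, xb]
      split_ifs <;> simp [hd]
    · rw [hf, hg, evx_t, evx_t]; exact hd _
  have hs : ∀ v ∉ s, f (MvPolynomial.X v) = g (MvPolynomial.X v) := by
    intro v hv
    simp only [hsdef, mem_union, mem_image, mem_range, not_or, not_exists, not_and] at hv
    rcases v with i | i | j
    · simp [hf, hg, evx]
    · rw [hf, hg, evx_b, evx_b, xb, xb]
      have : ¬ i < B + m + 1 := fun h ↦ hv.1 i h rfl
      rw [hB i (by omega)]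
    · rw [hf, hg, evx_t, evx_t]
      have : ¬ j < B + m + 1 := fun h ↦ hv.2 j h rfl
      rw [hB _ (by omega)]
  have ht := taylor (J p n r) s hs hI (eU p m)
  have ht' : eqn p n y m - eqn p n x m - ∑ v ∈ s, g (MvPolynomial.pderiv v (eU p m)) *
      (f (MvPolynomial.X v) - g (MvPolynomial.X v)) ∈ J p n (r + 1) :=
    J_anti (by omega) (J_mul r r ht)
  set χ := (resLT p n).comp g with hχ
  have hp0 : (p : GaloisField p n) = 0 := CharP.cast_eq_zero _ p
  have he : ∀ k, χ (eU p k) = 0 := fun k ↦ resLT_eqn_eq_zero hn hx k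
  have hb : ∀ i, χ (bV (i + 1)) = if i + 1 = n then 1 else 0 := by
    intro i
    rw [hχ, RingHom.comp_apply, hg, evx_b, resLT_xb hx]
  have ht0 : χ (tV 0) = resLT p n (x n) := by simp [hχ, hg, evx_t]
  have hres : ∀ v, χ (MvPolynomial.pderiv v (eU p m)) = 0 →
      g (MvPolynomial.pderiv v (eU p m)) * (f (MvPolynomial.X v) - g (MvPolynomial.X v)) ∈
        J p n (r + 1) := fun v h ↦
    mul_mem_J (mem_J_one.mpr h) (hI v) (by omega)
  let vs : UV := if m < n then UV.b m else UV.t (m - n)
  have hvs : vs ∈ s := by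
    simp only [vs]
    split_ifs
    · exact mem_union_left _ (mem_image_of_mem _ (mem_range.mpr (by omega)))
    · exact mem_union_right _ (mem_image_of_mem _ (mem_range.mpr (by omega)))
  have hrest : ∀ v ∈ s.erase vs, g (MvPolynomial.pderiv v (eU p m)) *
      (f (MvPolynomial.X v) - g (MvPolynomial.X v)) ∈ J p n (r + 1) := by
    intro v hv
    have hne := (mem_erase.mp hv).1
    rcases v with i | i | j
    · simp [hf, hg, evx]
    · rw [hf, hg, evx_b, evx_b, xb, xb]
      split_ifs with h1 h2
      · simp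
      · rcases lt_trichotomy i m with h | h | h
        · exact Ideal.mul_mem_left _ _ (hlow i h2.1 h)
        · exact absurd (show UV.b i = vs by simp [vs, h ▸ h2.2, h]) hne
        · obtain ⟨i, rfl⟩ : ∃ i', i = i' + 1 := ⟨i - 1, by omega⟩
          refine mul_mem_J (mem_J_one.mpr ?_) (hd _) (by omega : r + 1 ≤ 1 + r)
          show χ _ = 0
          rw [chi_pderiv_b p χ hp0 he hb h1, if_neg (by omega)]
      · simp
    · rcases lt_trichotomy (n + j) m with h | h | h
      · rw [hf, hg, evx_t, evx_t]
        exact Ideal.mul_mem_left _ _ (hlow _ (by omega) h)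
      · exact absurd (show UV.t j = vs by simp [vs, show ¬ m < n by omega]; omega) hne
      · refine hres _ ?_
        rw [chi_pderiv_t p χ hn hp0 he hb h.le, if_neg (by omega)]
  have hmain : g (MvPolynomial.pderiv vs (eU p m)) *
      (f (MvPolynomial.X vs) - g (MvPolynomial.X vs)) + piv x m * (y m - x m) ∈
        J p n (r + 1) := by
    have hfg : f (MvPolynomial.X vs) - g (MvPolynomial.X vs) = y m - x m := by
      simp only [vs]
      split_ifs with h
      · rw [hf, hg, evx_b, evx_b, xb, xb, if_neg (show m ≠ n by omega), if_neg (show m ≠ n by omega),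
          if_pos (show m ≠ 0 ∧ m < n from ⟨hm, h⟩), if_pos (show m ≠ 0 ∧ m < n from ⟨hm, h⟩)]
      · rw [hf, hg, evx_t, evx_t, show n + (m - n) = m by omega]
    rw [hfg, ← add_mul]
    refine mul_mem_J (mem_J_one.mpr ?_) (hd m) (by omega : r + 1 ≤ 1 + r)
    rw [map_add]
    show χ (MvPolynomial.pderiv vs (eU p m)) + _ = 0
    simp only [vs, piv]
    split_ifs with h
    · obtain ⟨i, rfl⟩ : ∃ i', m = i' + 1 := ⟨m - 1, by omega⟩
      rw [chi_pderiv_b p χ hp0 he hb (by omega), if_pos rfl, ht0, neg_add_cancel]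
    · rw [chi_pderiv_t p χ hn hp0 he hb (by omega), if_pos (by omega), map_one, neg_add_cancel]
  rw [← add_sum_erase _ _ hvs] at ht'
  have := Ideal.add_mem _ (Ideal.add_mem _ ht' hmain) (Ideal.sum_mem _ hrest)
  convert this using 1
  ring

theorem isUnit_piv {x : ℕ → LTRing p n} (hx : resLT p n (x n) ≠ 0) (m : ℕ) :
    IsUnit (piv x m) := by
  rw [piv]
  split_ifs
  · exact isUnit_iff_resLT.mpr hx
  · exact isUnit_one

/-- One Newton step. -/
def newton (x : ℕ → LTRing p n) : ℕ → LTRing p n
  | v => if v = 0 then x 0 else x v + Ring.inverse (piv x v) *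
      eqn p n (fun w ↦ if h : w < v then newton x w else x w) v
  decreasing_by exact h

theorem newton_spec (hn : n ≠ 0) {x : ℕ → LTRing p n} {r : ℕ} (hr : r ≠ 0)
    (hx : ∀ v, v ≠ 0 → v < n → resLT p n (x v) = 0) (hxn : resLT p n (x n) ≠ 0)
    (he : ∀ m, m ≠ 0 → eqn p n x m ∈ J p n r) :
    (∀ v, newton x v - x v ∈ J p n r) ∧ ∀ m, m ≠ 0 → eqn p n (newton x) m ∈ J p n (r + 1) := by
  classical
  have h1 : ∀ v, newton x v - x v ∈ J p n r := by
    intro v
    induction v using Nat.strong_induction_on with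
    | _ v ih =>
      rw [newton]
      split_ifs with h
      · rw [h, sub_self]; exact zero_mem _
      · rw [add_sub_cancel_left]
        refine Ideal.mul_mem_left _ _ ?_
        have h2 : eqn p n (fun w ↦ if hw : w < v then newton x w else x w) v - eqn p n x v ∈
            J p n r := evx_sub_mem _ (fun w ↦ by
              show (if hw : w < v then _ else _) - _ ∈ _
              split_ifs with hw
              · exact ih w hw
              · simp) _
        simpa using Ideal.add_mem _ h2 (he v h)
  refine ⟨h1, fun m hm ↦ ?_⟩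
  set mix : ℕ → LTRing p n := fun w ↦ if w < m then newton x w else x w with hmix
  set y : ℕ → LTRing p n := fun w ↦ if w < n + m + 1 then newton x w else mix w with hy
  have hxmix : ∀ v, v ≠ 0 → v < n → resLT p n (mix v) = 0 := by
    intro v hv hvn
    have : mix v - x v ∈ J p n 1 := by
      simp only [hmix]
      split_ifs
      · exact J_anti (by omega) (h1 v)
      · simp
    rw [mem_J_one, map_sub, hx v hv hvn, sub_zero] at this
    exact this
  have hk := key_step hn hr hm hxmix (y := y) (B := n + m + 1)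
    (fun v hv ↦ by simp only [hy]; rw [if_neg (by omega)]) (fun v ↦ by
      simp only [hy, hmix]
      split_ifs <;> simp [h1 v]) (fun v _ hv ↦ by
      simp only [hy, hmix]; rw [if_pos (by omega), if_pos hv, sub_self]; exact zero_mem _)
  have e1 : eqn p n y m = eqn p n (newton x) m :=
    evx_congr (fun v _ hv ↦ by simp only [hy]; rw [if_pos (by omega)]) hn
  have e2 : y m - mix m = Ring.inverse (piv x m) * eqn p n mix m := by
    simp only [hy, hmix, show m < n + m + 1 by omega, if_pos, lt_irrefl, if_false]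
    rw [newton, if_neg hm, add_sub_cancel_left]
    simp only [dite_eq_ite]
  have e3 : piv mix m = piv x m := by
    simp only [piv, hmix]
    split_ifs <;> first | rfl | omega
  rw [e1, e2, e3, Ring.mul_inverse_cancel_left _ _ (isUnit_piv hxn m), sub_add_cancel] at hk
  exact hk

/-- Existence of roots with prescribed residues. -/
theorem exists_root (hn : n ≠ 0) (x₀ : ℕ → GaloisField p n)
    (h0 : ∀ v, v ≠ 0 → v < n → x₀ v = 0) (h0n : x₀ n ≠ 0) :
    ∃ x : ℕ → LTRing p n, (∀ v, resLT p n (x v) = x₀ v) ∧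
      ∀ m, m ≠ 0 → eqn p n x m = 0 := by
  let X₁ : ℕ → LTRing p n := fun v ↦ MvPowerSeries.C (WittVector.teichmuller p (x₀ v))
  let X : ℕ → ℕ → LTRing p n := fun r ↦ (newton^[r]) X₁
  have hX₁ : ∀ v, resLT p n (X₁ v) = x₀ v := fun v ↦ by
    simp [X₁, resLT_apply, WittVector.teichmuller_coeff_zero]
  have hinv : ∀ r, (∀ v, resLT p n (X r v) = x₀ v) ∧
      ∀ m, m ≠ 0 → eqn p n (X r) m ∈ J p n (r + 1) := by
    intro r
    induction r with
    | zero =>
      exact ⟨hX₁, fun m _ ↦ mem_J_one.mpr (resLT_eqn_eq_zero hn (fun v hv hvn ↦ by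
        rw [show X 0 v = X₁ v from rfl, hX₁, h0 v hv hvn]) m)⟩
    | succ r ih =>
      have h := newton_spec hn (Nat.succ_ne_zero r) (fun v hv hvn ↦ by rw [ih.1, h0 v hv hvn])
        (by rw [ih.1]; exact h0n) ih.2
      rw [show X (r + 1) = newton (X r) from Function.iterate_succ_apply' _ _ _]
      refine ⟨fun v ↦ ?_, h.2⟩
      have := mem_J_one.mp (J_anti (by omega) (h.1 v))
      rwa [map_sub, sub_eq_zero, ih.1] at this
  have hstep : ∀ r v, X (r + 1) v - X r v ∈ J p n (r + 1) := by
    intro r v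
    rw [show X (r + 1) = newton (X r) from Function.iterate_succ_apply' _ _ _]
    exact (newton_spec hn (Nat.succ_ne_zero r) (fun v hv hvn ↦ by rw [(hinv r).1, h0 v hv hvn])
      (by rw [(hinv r).1]; exact h0n) (hinv r).2).1 v
  choose x hx using fun v ↦ J_complete (fun r ↦ X r v) fun r ↦ J_anti (by omega) (hstep r v)
  refine ⟨x, fun v ↦ ?_, fun m hm ↦ eq_of_sub_mem_J fun r ↦ ?_⟩
  · have := mem_J_one.mp (hx v 1)
    rwa [map_sub, sub_eq_zero, (hinv 1).1] at this
  · rw [sub_zero, ← sub_add_cancel (eqn p n x m) (eqn p n (X r) m)]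
    exact Ideal.add_mem _ (evx_sub_mem _ (fun v ↦ hx v r) _) (J_anti (by omega) ((hinv r).2 m hm))

/-- Roots agreeing modulo `J r` up to `M + n` agree modulo `J (r+1)` up to `M`. -/
theorem root_step (hn : n ≠ 0) {x y : ℕ → LTRing p n} {r : ℕ} (hr : r ≠ 0)
    (hx : ∀ v, v ≠ 0 → v < n → resLT p n (x v) = 0) (hxn : resLT p n (x n) ≠ 0)
    (hex : ∀ m, m ≠ 0 → eqn p n x m = 0) (hey : ∀ m, m ≠ 0 → eqn p n y m = 0) {M : ℕ}
    (hd : ∀ v, v ≠ 0 → v ≤ M + n → y v - x v ∈ J p n r) :
    ∀ v, v ≠ 0 → v ≤ M → y v - x v ∈ J p n (r + 1) := by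
  classical
  intro m
  induction m using Nat.strong_induction_on with
  | _ m ih =>
    intro hm hmM
    set y' : ℕ → LTRing p n := fun w ↦ if w ≠ 0 ∧ w ≤ n + m then y w else x w with hy'
    have hk := key_step hn hr hm hx (y := y') (B := n + m + 1)
      (fun v hv ↦ by simp [hy', show ¬ v ≤ n + m by omega]) (fun v ↦ by
        simp only [hy']
        split_ifs with h
        · exact hd v h.1 (by omega)
        · simp) (fun v hv hvm ↦ by
        simp only [hy', if_pos (show v ≠ 0 ∧ v ≤ n + m from ⟨hv, by omega⟩)]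
        exact ih v hvm hv (by omega))
    have e1 : eqn p n y' m = eqn p n y m :=
      evx_congr (fun v hv hvm ↦ by simp [hy', hv, hvm]) hn
    have e2 : y' m = y m := by simp [hy', hm]
    rw [e1, e2, hey m hm, hex m hm, sub_zero, zero_add] at hk
    have h3 := Ideal.mul_mem_left _ (Ring.inverse (piv x m)) hk
    rwa [Ring.inverse_mul_cancel_left _ _ (isUnit_piv hxn m)] at h3

/-- Roots whose residues agree up to `M + n r` agree modulo `J (r+1)` up to `M`. -/
theorem root_close (hn : n ≠ 0) {x y : ℕ → LTRing p n}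
    (hx : ∀ v, v ≠ 0 → v < n → resLT p n (x v) = 0) (hxn : resLT p n (x n) ≠ 0)
    (hex : ∀ m, m ≠ 0 → eqn p n x m = 0) (hey : ∀ m, m ≠ 0 → eqn p n y m = 0) :
    ∀ r M, (∀ v, v ≠ 0 → v ≤ M + n * r → resLT p n (y v) = resLT p n (x v)) →
      ∀ v, v ≠ 0 → v ≤ M → y v - x v ∈ J p n (r + 1) := by
  intro r
  induction r with
  | zero =>
    intro M h v hv hvM
    rw [mem_J_one, map_sub, h v hv (by omega), sub_self]
  | succ r ih =>
    intro M h
    refine root_step hn (Nat.succ_ne_zero r) hx hxn hex hey fun v hv hvM ↦ ih (M + n) ?_ v hv hvM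
    intro w hw hwM
    exact h w hw (by rw [Nat.mul_succ]; omega)

theorem root_unique (hn : n ≠ 0) {x y : ℕ → LTRing p n}
    (hx : ∀ v, v ≠ 0 → v < n → resLT p n (x v) = 0) (hxn : resLT p n (x n) ≠ 0)
    (hex : ∀ m, m ≠ 0 → eqn p n x m = 0) (hey : ∀ m, m ≠ 0 → eqn p n y m = 0)
    (hres : ∀ v, v ≠ 0 → resLT p n (y v) = resLT p n (x v)) :
    ∀ v, v ≠ 0 → y v = x v := fun v hv ↦ eq_of_sub_mem_J fun r ↦
  J_anti (Nat.le_succ r) (root_close hn hx hxn hex hey r v (fun w hw _ ↦ hres w hw) v hv le_rfl)

end Vale.Agent.P217.LT
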