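import Vale.Agent.P217.Honda

/-!
Shared definitions for the main argument of P217: the moves, points, shifts and the limit map.
-/

noncomputable section

open MvPowerSeries Filter
open scoped MvPowerSeries.WithPiTopology Topology

namespace Vale.Agent.P217

variable (p n : ℕ) [hp : Fact p.Prime]

/-- The series `X +_Γ [p^M] δ` over the residue field. -/
def gSeries (δ : PowerSeries (GaloisField p n)) (M : ℕ) : PowerSeries (GaloisField p n) :=
  MvPowerSeries.subst ![(PowerSeries.X : PowerSeries (GaloisField p n)), δ ^ (p ^ n) ^ M]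
    (honda p n (GaloisField p n)).toPowerSeries

/-- Every lift of every `X +_Γ [p^M] δ`, for `M` large, maps the ideal into itself. -/
def MovesInto (P : Ideal (LTRing p n)) : Prop :=
  ∃ M₀ : ℕ, ∀ M ≥ M₀, ∀ δ : PowerSeries (GaloisField p n),
    IsFGHom (honda p n (GaloisField p n)) (honda p n (GaloisField p n)) δ →
    ∀ φ : LTRing p n ≃+* LTRing p n, (∀ w, φ (MvPowerSeries.C w) = MvPowerSeries.C w) →
    ∀ θ : PowerSeries (LTRing p n), IsFGIso (lawLT p n) ((lawLT p n).map φ.toRingHom) θ →
      θ.map (resLT p n) = gSeries p n δ M → ∀ f ∈ P, φ f ∈ P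

variable {p n}

theorem gSeries_isFGIso (hn : n ≠ 0) {δ : PowerSeries (GaloisField p n)}
    (hδ : IsFGHom (honda p n (GaloisField p n)) (honda p n (GaloisField p n)) δ) {M : ℕ}
    (hM : M ≠ 0) :
    IsFGIso (honda p n (GaloisField p n)) (honda p n (GaloisField p n)) (gSeries p n δ M) := by
  have hQ : 1 < (p ^ n) ^ M :=
    Nat.one_lt_pow hM (Nat.one_lt_pow hn hp.out.one_lt)
  have hX : IsFGHom (honda p n (GaloisField p n)) (honda p n (GaloisField p n))
      (PowerSeries.X : PowerSeries (GaloisField p n)) := by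
    simpa using honda_endo (p := p) (n := n) (R := GaloisField p n) hn (one_pow (p ^ n)) 0
  have hpow : IsFGHom (honda p n (GaloisField p n)) (honda p n (GaloisField p n))
      (δ ^ (p ^ n) ^ M) := by
    have h := hδ.comp (honda_endo (p := p) (n := n) (R := GaloisField p n) hn (one_pow (p ^ n))
      (n * M))
    rwa [map_one, one_mul, PowerSeries.subst_pow (PowerSeries.HasSubst.of_constantCoeff_zero' hδ.1),
      PowerSeries.subst_X (PowerSeries.HasSubst.of_constantCoeff_zero' hδ.1), pow_mul] at h
  obtain ⟨h0, h1⟩ := hX.add hpow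
  refine ⟨h0, ?_, h1⟩
  have ha : MvPowerSeries.constantCoeff
      (PowerSeries.X : PowerSeries (GaloisField p n)) = 0 := hX.1
  have hb : MvPowerSeries.constantCoeff (δ ^ (p ^ n) ^ M) = 0 := hpow.1
  have h := coeff_law_subst_low (honda p n (GaloisField p n)) ha hb (one_le_order ha)
    (one_le_order hb) (d := Finsupp.single () 1) (by simp)
  rw [← PowerSeries.coeff_def rfl, Finsupp.single_eq_same] at h
  rw [gSeries, h, PowerSeries.coeff_one_X]
  have hz : PowerSeries.coeff 1 (δ ^ (p ^ n) ^ M) = 0 := by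
    refine PowerSeries.coeff_of_lt_order 1 (lt_of_lt_of_le (b := (((p ^ n) ^ M : ℕ) : ℕ∞))
      (by exact_mod_cast hQ) (PowerSeries.le_order_pow_of_constantCoeff_eq_zero _ hδ.1))
  rw [hz, add_zero]
  exact isUnit_one

section points

variable {R : Type*} [CommRing R] [UniformSpace R] [CLRing R]

/-- The point of the parameter space with coordinates `a`. -/
def pointHom (a : Fin (n - 1) → R) : Haz.A n →+* R :=
  MvPolynomial.eval₂Hom (Int.castRingHom R) a

/-- Evaluation of the Lubin-Tate ring at a point. -/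
def chi (ι : WittVector p (GaloisField p n) →+* R) {a : Fin (n - 1) → R} (ha : IsSmall a) :
    LTRing p n →+* R :=
  (evHom ha).comp (MvPowerSeries.map ι)

theorem chi_apply (ι : WittVector p (GaloisField p n) →+* R) {a : Fin (n - 1) → R}
    (ha : IsSmall a) (f : LTRing p n) : chi ι ha f = ev (MvPowerSeries.map ι f) a := by
  rw [chi, RingHom.comp_apply, evHom_apply]

theorem chi_comp_toLT (ι : WittVector p (GaloisField p n) →+* R) {a : Fin (n - 1) → R}
    (ha : IsSmall a) : (chi ι ha).comp (toLT p n) = pointHom a := by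
  apply MvPolynomial.ringHom_ext <;> intro <;> simp [toLT, pointHom, chi_apply]

variable (n)

/-- The coordinates of `a + V`, where `V` moves the `d` parameters after the first `h - 1`. -/
def shiftPoint (h d : ℕ) (φ : Haz.A n →+* R) : Fin (n - 1) → MvPowerSeries (Fin d) R := fun i ↦
  MvPowerSeries.C (φ (MvPolynomial.X i)) +
    if hi : h ≤ i.1 + 1 ∧ i.1 + 1 - h < d then MvPowerSeries.X ⟨i.1 + 1 - h, hi.2⟩ else 0

/-- The parameter map of `a + V`. -/
def shiftHom (h d : ℕ) (φ : Haz.A n →+* R) : Haz.A n →+* MvPowerSeries (Fin d) R :=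
  pointHom (shiftPoint n h d φ)

end points

section limit

variable (p n) {Ω : Type*} [NontriviallyNormedField Ω] [IsUltrametricDist Ω] [IsAlgClosed Ω]
  [CompleteSpace Ω]

/-- The universal cover map `x ↦ lim [p^N](x^(q^(-N)))`. -/
def prLim (φ : Haz.A n →+* intRing Ω) (x : intRing Ω) : intRing Ω :=
  limUnder atTop (prSeq p n φ x)

/-- `y` is a basis of the kernel of the cover map, seen through the kernel of `[p]`. -/
structure IsTateBasis (d : ℕ) (φ : Haz.A n →+* intRing Ω)
    (y : Fin d → Haz.Pt p (zeroSpec n (intRing Ω))) : Prop where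
  /-- each member is killed by the cover map -/
  pr_zero : ∀ j, prLim p n φ (y j).val = 0
  /-- primitive combinations are bounded below -/
  lower : ∃ c > (0 : ℝ), ∀ a : Fin d → ℤ, (∃ j, ¬ (p : ℤ) ∣ a j) →
    c ≤ ‖((∑ j, a j • y j).val : Ω)‖
  /-- the first level members span the kernel of multiplication by `p` -/
  span : ∀ z : Haz.Pt p φ, p • z = 0 → ∀ z₁ : Fin d → Haz.Pt p φ,
    (∀ j, (z₁ j).val = prLim p n φ (intRoot (p ^ n) (y j).val)) →
      ∃ a : Fin d → ℤ, z = ∑ j, a j • z₁ j
  /-- multiplication by `p` has `p^d` distinct roots -/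
  card : Nat.card {z : Haz.Pt p φ // p • z = 0} = p ^ d

end limit

end Vale.Agent.P217
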