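import Mathlib.RingTheory.FormalGroup.Basic
import Mathlib.RingTheory.WittVector.Frobenius
import Mathlib.RingTheory.WittVector.Domain
import Mathlib.FieldTheory.Finite.GaloisField
import Mathlib.RingTheory.Localization.FractionRing
import Mathlib.RingTheory.MvPowerSeries.NoZeroDivisors

/-!
Definitions for P217: the Lubin-Tate ring, its universal deformation in Hazewinkel
coordinates, the image of the extended Morava stabilizer group, and the height ideals.
-/

noncomputable section

namespace Vale.Agent.P217

variable (p n : ℕ) [Fact p.Prime]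

/-- The Lubin-Tate ring `W(F_{p^n})[[u_1, ..., u_{n-1}]]`. -/
abbrev LTRing : Type :=
  MvPowerSeries (Fin (n - 1)) (WittVector p (GaloisField p n))

/-- `ltParam 0 = p`, `ltParam i = u_i` for `1 ≤ i < n`, `ltParam n = 1`, and `0` beyond. -/
def ltParam (i : ℕ) : LTRing p n :=
  if i = 0 then (p : LTRing p n)
  else if h : i - 1 < n - 1 then MvPowerSeries.X ⟨i - 1, h⟩
  else if i = n then 1 else 0

/-- The height ideal `I_h = (p, u_1, ..., u_{h-1})`; `I_0 = 0`. -/
def heightIdeal (h : ℕ) : Ideal (LTRing p n) :=
  Ideal.span (ltParam p n '' Set.Iio h)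

/-- `l` is the sequence of coefficients of Hazewinkel's logarithm:
`l 0 = 1` and `p * l (k+1) = ∑_{i=0..k} l (k-i) * u_{i+1}^(p^(k-i))`. -/
def IsLogSeq (l : ℕ → FractionRing (LTRing p n)) : Prop :=
  l 0 = 1 ∧ ∀ k : ℕ, (p : FractionRing (LTRing p n)) * l (k + 1) =
    ∑ i ∈ Finset.range (k + 1),
      l (k - i) * algebraMap (LTRing p n) _ (ltParam p n (i + 1)) ^ (p ^ (k - i))

/-- `L` is the power series `∑ l k X^(p^k)` attached to a sequence `l`. -/
def IsPTypicalSeries {R : Type} [Semiring R] (l : ℕ → R) (L : PowerSeries R) : Prop :=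
  (∀ k : ℕ, PowerSeries.coeff (p ^ k) L = l k) ∧
    ∀ m : ℕ, (∀ k : ℕ, m ≠ p ^ k) → PowerSeries.coeff m L = 0

/-- `F` is the universal deformation of the Honda formal group of height `n`, written in
Hazewinkel coordinates: its logarithm is Hazewinkel's series. -/
def IsUniversalDeformation (F : FormalGroup (LTRing p n)) : Prop :=
  ∃ (l : ℕ → FractionRing (LTRing p n)) (L : PowerSeries (FractionRing (LTRing p n))),
    IsLogSeq p n l ∧ IsPTypicalSeries p l L ∧
      PowerSeries.subst (F.toPowerSeries.map
          (algebraMap (LTRing p n) (FractionRing (LTRing p n)))) L =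
        PowerSeries.subst (MvPowerSeries.X (0 : Fin 2)) L +
          PowerSeries.subst (MvPowerSeries.X (1 : Fin 2)) L

/-- `θ` is an isomorphism of formal group laws `F → G` over a ring. -/
def IsFGIso {R : Type} [CommRing R] (F G : FormalGroup R) (θ : PowerSeries R) : Prop :=
  PowerSeries.constantCoeff θ = 0 ∧ IsUnit (PowerSeries.coeff 1 θ) ∧
    PowerSeries.subst F.toPowerSeries θ =
      MvPowerSeries.subst
        ![PowerSeries.subst (MvPowerSeries.X (0 : Fin 2)) θ,
          PowerSeries.subst (MvPowerSeries.X (1 : Fin 2)) θ] G.toPowerSeries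

/-- The automorphisms of the Lubin-Tate ring carrying the universal deformation to an
isomorphic one: the image of the extended stabilizer group `G_n`. -/
def stabilizerImage (F : FormalGroup (LTRing p n)) : Set (LTRing p n ≃+* LTRing p n) :=
  {φ | ∃ θ : PowerSeries (LTRing p n), IsFGIso F (F.map φ.toRingHom) θ}

/-- An ideal is invariant if every element of the image of `G_n` maps it onto itself. -/
def IsInvariantIdeal (F : FormalGroup (LTRing p n)) (J : Ideal (LTRing p n)) : Prop :=
  ∀ φ ∈ stabilizerImage p n F, Ideal.map φ.toRingHom J = J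

end Vale.Agent.P217
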