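import Vale.Agent.P217.FieldBasic
import Mathlib.RingTheory.MvPowerSeries.Derivative
import Mathlib.RingTheory.MvPowerSeries.Trunc
import Mathlib.RingTheory.MvPowerSeries.NoZeroDivisors

/-!
Estimates for evaluation of power series, first order expansions, and implicit functions.
-/

noncomputable section

open Filter
open scoped Topology MvPowerSeries.WithPiTopology

namespace Vale.Agent.P217

variable {Ω : Type*} [NontriviallyNormedField Ω] [IsUltrametricDist Ω] [CompleteSpace Ω]
  {σ : Type*} [Fintype σ]

omit [CompleteSpace Ω] in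
theorem norm_monomial_le (a : σ → intRing Ω) {c : ℝ} (hc : ∀ i, ‖(a i : Ω)‖ ≤ c)
    (d : σ →₀ ℕ) :
    ‖((d.prod fun s e ↦ a s ^ e : intRing Ω) : Ω)‖ ≤ c ^ d.degree := by
  rw [Finsupp.prod, SubmonoidClass.coe_finsetProd, norm_prod, Finsupp.degree_apply,
    ← Finset.prod_pow_eq_pow_sum]
  refine Finset.prod_le_prod (fun i _ ↦ norm_nonneg _) fun i _ ↦ ?_
  rw [SubmonoidClass.coe_pow, norm_pow]
  exact pow_le_pow_left₀ (norm_nonneg _) (hc i) _

/-- Evaluation differs from the truncation in total degree `D` by at most `c ^ D`. -/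
theorem norm_ev_sub_truncTotal_le (f : MvPowerSeries σ (intRing Ω)) {a : σ → intRing Ω} {c : ℝ}
    (hc0 : 0 ≤ c) (hc1 : c < 1) (hc : ∀ i, ‖(a i : Ω)‖ ≤ c) (D : ℕ) :
    ‖((ev f a : intRing Ω) : Ω)
      - ((MvPolynomial.eval a (MvPowerSeries.truncTotal D f) : intRing Ω) : Ω)‖ ≤ c ^ D := by
  classical
  have ha : IsSmall a := fun i ↦ isTopologicallyNilpotent_intRing.mpr ((hc i).trans_lt hc1)
  have h : ev f a - MvPolynomial.eval a (MvPowerSeries.truncTotal D f)
      = ev (f - (MvPowerSeries.truncTotal D f : MvPowerSeries σ (intRing Ω))) a := by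
    rw [ev_sub ha, ev_coe]
  rw [← AddSubgroupClass.coe_sub, h]
  have hclosed : IsClosed {x : intRing Ω | ‖(x : Ω)‖ ≤ c ^ D} :=
    isClosed_le (continuous_norm.comp continuous_subtype_val) continuous_const
  refine hclosed.mem_of_tendsto (hasSum_ev ha _) (Eventually.of_forall fun s ↦ ?_)
  show ‖((∑ d ∈ s, _ : intRing Ω) : Ω)‖ ≤ c ^ D
  rw [AddSubmonoidClass.coe_finsetSum]
  refine IsUltrametricDist.norm_sum_le_of_forall_le_of_nonneg (by positivity) fun d _ ↦ ?_
  rw [MulMemClass.coe_mul, norm_mul]
  rcases lt_or_ge d.degree D with hd | hd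
  · rw [map_sub, MvPolynomial.coeff_coe, MvPowerSeries.coeff_truncTotal f hd, sub_self,
      ZeroMemClass.coe_zero, norm_zero, zero_mul]
    positivity
  · exact (mul_le_of_le_one_left (norm_nonneg _) (mem_intRing.mp (Subtype.prop _))).trans
      ((norm_monomial_le a hc d).trans (pow_le_pow_of_le_one hc0 hc1.le hd))

/-- Evaluation of integral series is `1`-Lipschitz. -/
theorem norm_ev_sub_ev_le (f : MvPowerSeries σ (intRing Ω)) {a b : σ → intRing Ω}
    (ha : ∀ i, ‖(a i : Ω)‖ < 1) (hb : ∀ i, ‖(b i : Ω)‖ < 1) {r : ℝ} (hr : 0 ≤ r)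
    (hab : ∀ i, ‖(a i : Ω) - b i‖ ≤ r) :
    ‖((ev f a : intRing Ω) : Ω) - (ev f b : intRing Ω)‖ ≤ r := by
  classical
  have hpoly : ∀ P : MvPolynomial σ (intRing Ω),
      ‖((MvPolynomial.eval a P : intRing Ω) : Ω) - (MvPolynomial.eval b P : intRing Ω)‖ ≤ r := by
    intro P
    induction P using MvPolynomial.induction_on with
    | C c => simpa using hr
    | add P Q hP hQ =>
      simp only [map_add, AddMemClass.coe_add]
      rw [add_sub_add_comm]
      exact (IsUltrametricDist.norm_add_le_max _ _).trans (max_le hP hQ)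
    | mul_X P i hP =>
      simp only [map_mul, MvPolynomial.eval_X, MulMemClass.coe_mul]
      have e : ((MvPolynomial.eval a P : intRing Ω) : Ω) * a i
          - (MvPolynomial.eval b P : intRing Ω) * b i
          = (((MvPolynomial.eval a P : intRing Ω) : Ω) - (MvPolynomial.eval b P : intRing Ω)) * a i
            + (MvPolynomial.eval b P : intRing Ω) * ((a i : Ω) - b i) := by ring
      rw [e]
      refine (IsUltrametricDist.norm_add_le_max _ _).trans (max_le ?_ ?_)
      · rw [norm_mul]
        exact (mul_le_of_le_one_right (norm_nonneg _) (ha i).le).trans hP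
      · rw [norm_mul]
        exact (mul_le_of_le_one_left (norm_nonneg _)
          (mem_intRing.mp (MvPolynomial.eval b P).2)).trans (hab i)
  have hSa : IsSmall a := fun i ↦ isTopologicallyNilpotent_intRing.mpr (ha i)
  have hSb : IsSmall b := fun i ↦ isTopologicallyNilpotent_intRing.mpr (hb i)
  have hclosed : IsClosed {g : MvPowerSeries σ (intRing Ω) |
      ‖((ev g a : intRing Ω) : Ω) - (ev g b : intRing Ω)‖ ≤ r} :=
    isClosed_le (continuous_norm.comp ((continuous_subtype_val.comp (continuous_ev hSa)).sub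
      (continuous_subtype_val.comp (continuous_ev hSb)))) continuous_const
  exact MvPowerSeries.WithPiTopology.denseRange_toMvPowerSeries.induction_on f hclosed
    fun P ↦ by rw [show MvPolynomial.toMvPowerSeries P = (P : MvPowerSeries σ (intRing Ω)) from rfl,
      ev_coe, ev_coe]; exact hpoly P

section firstOrder

variable {R : Type*} [CommRing R] [UniformSpace R] [CLRing R] {τ : Type*}

theorem coeff_single_mul [DecidableEq τ] (f g : MvPowerSeries τ R) (j : τ) :
    MvPowerSeries.coeff (Finsupp.single j 1) (f * g) =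
      MvPowerSeries.constantCoeff f * MvPowerSeries.coeff (Finsupp.single j 1) g +
        MvPowerSeries.coeff (Finsupp.single j 1) f * MvPowerSeries.constantCoeff g := by
  rw [MvPowerSeries.coeff_mul, Finsupp.antidiagonal_single,
    show Finset.antidiagonal 1 = ({(0, 1), (1, 0)} : Finset (ℕ × ℕ)) from rfl]
  simp [Finset.map_insert, Finset.sum_pair (show ((0 : τ →₀ ℕ), Finsupp.single j 1) ≠
    (Finsupp.single j 1, 0) from fun h ↦ Finsupp.single_ne_zero.mpr one_ne_zero (Prod.ext_iff.mp h).1.symm)]

/-- The constant coefficient of a composite. -/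
theorem constantCoeff_ev [Finite τ] {b : σ → MvPowerSeries τ R} (hb : IsSmall b)
    (hb0 : IsSmall fun i ↦ MvPowerSeries.constantCoeff (b i)) (f : MvPowerSeries σ R) :
    MvPowerSeries.constantCoeff (ev (MvPowerSeries.map MvPowerSeries.C f) b)
      = ev f fun i ↦ MvPowerSeries.constantCoeff (b i) := by
  rw [map_ev hb (MvPowerSeries.WithPiTopology.continuous_constantCoeff R)]
  congr 1

/-- The first order coefficients of a composite. -/
theorem coeff_single_ev [DecidableEq τ] [Finite τ] {b : σ → MvPowerSeries τ R} (hb : IsSmall b)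
    (hb0 : IsSmall fun i ↦ MvPowerSeries.constantCoeff (b i)) (f : MvPowerSeries σ R) (j : τ) :
    MvPowerSeries.coeff (Finsupp.single j 1) (ev (MvPowerSeries.map MvPowerSeries.C f) b)
      = ∑ k, ev (MvPowerSeries.pderiv R k f) (fun i ↦ MvPowerSeries.constantCoeff (b i))
          * MvPowerSeries.coeff (Finsupp.single j 1) (b k) := by
  classical
  set c := fun i ↦ MvPowerSeries.constantCoeff (b i)
  have hder : ∀ k, Continuous fun g : MvPowerSeries σ R ↦ MvPowerSeries.pderiv R k g := by
    intro k
    refine continuous_pi fun e ↦ ?_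
    show Continuous fun g : MvPowerSeries σ R ↦ MvPowerSeries.coeff e (MvPowerSeries.pderiv R k g)
    simp only [MvPowerSeries.coeff_pderiv]
    exact (MvPowerSeries.WithPiTopology.continuous_coeff R _).mul continuous_const
  have hmap : Continuous fun g : MvPowerSeries σ R ↦
      MvPowerSeries.map (MvPowerSeries.C (σ := τ)) g :=
    continuous_pi fun e ↦ MvPowerSeries.WithPiTopology.continuous_C.comp
      (MvPowerSeries.WithPiTopology.continuous_coeff R e)
  have hpoly : ∀ P : MvPolynomial σ R,
      MvPowerSeries.coeff (Finsupp.single j 1)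
          (ev (MvPowerSeries.map MvPowerSeries.C (P : MvPowerSeries σ R)) b)
        = ∑ k, ev (MvPowerSeries.pderiv R k (P : MvPowerSeries σ R)) c
            * MvPowerSeries.coeff (Finsupp.single j 1) (b k) := by
    intro P
    induction P using MvPolynomial.induction_on with
    | C r =>
      simp [ev_zero hb0, c, MvPowerSeries.coeff_C]
    | add P Q hP hQ =>
      simp only [MvPolynomial.coe_add, map_add, ev_add hb, hP, hQ, ev_add hb0, c, add_mul,
        Finset.sum_add_distrib]
    | mul_X P i hP =>
      simp only [MvPolynomial.coe_mul, MvPolynomial.coe_X, map_mul, MvPowerSeries.map_X, ev_mul hb,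
        ev_X, coeff_single_mul, hP, constantCoeff_ev hb hb0, Derivation.leibniz, smul_eq_mul,
        MvPowerSeries.pderiv_X, map_add, ev_add hb0, ev_mul hb0, c, add_mul, Finset.sum_add_distrib,
        Finset.sum_mul]
      congr 1
      · rw [Finset.sum_eq_single i]
        · rw [Pi.single_eq_same, ← map_one MvPowerSeries.C, ev_C, mul_one]
        · intro k _ hk
          rw [Pi.single_eq_of_ne (Ne.symm hk), ev_zero hb0, mul_zero, zero_mul]
        · simp
      · exact Finset.sum_congr rfl fun k _ ↦ by ring
  exact MvPowerSeries.WithPiTopology.denseRange_toMvPowerSeries.induction_on f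
    (isClosed_eq ((MvPowerSeries.WithPiTopology.continuous_coeff R _).comp
        ((continuous_ev hb).comp hmap))
      (continuous_finsetSum _ fun k _ ↦ ((continuous_ev hb0).comp (hder k)).mul continuous_const))
    hpoly

end firstOrder

section implicit

variable {C : Type*} [CommRing C] {d : ℕ}

variable {υ : Type*}

/-- Series of order at least `k`. -/
def ordIdeal (C : Type*) [CommRing C] (υ : Type*) (k : ℕ) : Ideal (MvPowerSeries υ C) where
  carrier := {f | ∀ e : υ →₀ ℕ, e.degree < k → MvPowerSeries.coeff e f = 0}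
  add_mem' {f g} hf hg e he := by rw [map_add, hf e he, hg e he, add_zero]
  zero_mem' e _ := map_zero _
  smul_mem' f g hg e he := by
    classical
    rw [smul_eq_mul, MvPowerSeries.coeff_mul]
    refine Finset.sum_eq_zero fun x hx ↦ ?_
    rw [hg x.2 ?_, mul_zero]
    rw [Finset.mem_antidiagonal] at hx
    rw [← hx, map_add] at he
    omega

theorem mul_mem_ordIdeal {f g : MvPowerSeries υ C} {k l : ℕ} (hf : f ∈ ordIdeal C υ k)
    (hg : g ∈ ordIdeal C υ l) : f * g ∈ ordIdeal C υ (k + l) := by
  classical
  intro e he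
  rw [MvPowerSeries.coeff_mul]
  refine Finset.sum_eq_zero fun x hx ↦ ?_
  rw [Finset.mem_antidiagonal] at hx
  rw [← hx, map_add] at he
  rcases lt_or_ge x.1.degree k with h | h
  · rw [hf x.1 h, zero_mul]
  · rw [hg x.2 (by omega), mul_zero]

theorem mem_ordIdeal_one {f : MvPowerSeries υ C}
    (hf : MvPowerSeries.constantCoeff f = 0) : f ∈ ordIdeal C υ 1 := fun e he ↦ by
  rw [(Finsupp.degree_eq_zero_iff e).mp (by omega), MvPowerSeries.coeff_zero_eq_constantCoeff_apply,
    hf]

theorem subst_mem_ordIdeal {τ : Type*} [Finite τ] {b : τ → MvPowerSeries υ C}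
    (hb : ∀ i, MvPowerSeries.constantCoeff (b i) = 0) {f : MvPowerSeries τ C} {k : ℕ}
    (hf : ∀ e : τ →₀ ℕ, e.degree < k → MvPowerSeries.coeff e f = 0) :
    MvPowerSeries.subst b f ∈ ordIdeal C υ k := by
  classical
  intro e he
  rw [MvPowerSeries.coeff_subst (MvPowerSeries.hasSubst_of_constantCoeff_zero hb)]
  refine finsum_eq_zero_of_forall_eq_zero fun x ↦ ?_
  rcases lt_or_ge x.degree k with h | h
  · rw [hf x h, zero_smul]
  · have hmem : ∀ x : τ →₀ ℕ, (x.prod fun s n ↦ b s ^ n) ∈ ordIdeal C υ x.degree := by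
      intro x
      induction x using Finsupp.induction with
      | zero => intro e he; simp at he
      | single_add i n x hi hn ih =>
        rw [Finsupp.prod_add_index' (fun _ ↦ pow_zero _) (fun _ _ _ ↦ pow_add _ _ _),
          Finsupp.prod_single_index (h := fun s n ↦ b s ^ n) (pow_zero (b i)), map_add,
          Finsupp.degree_single]
        refine mul_mem_ordIdeal ?_ ih
        clear hn
        induction n with
        | zero => intro e he; omega
        | succ n ihn => rw [pow_succ]; exact mul_mem_ordIdeal ihn (mem_ordIdeal_one (hb i))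
    rw [hmem x e (lt_of_lt_of_le he h), smul_zero]

/-- First order difference of two substitutions differing in one variable, for polynomials. -/
theorem aeval_sub_aeval_mem {τ : Type*} [DecidableEq τ] (i : τ)
    {b b' : τ → MvPowerSeries (Fin d) C} (hb : ∀ l, MvPowerSeries.constantCoeff (b l) = 0)
    (hb' : ∀ l, MvPowerSeries.constantCoeff (b' l) = 0) {k : ℕ}
    (hbb : ∀ l, l ≠ i → b l = b' l) (hk : b i - b' i ∈ ordIdeal C (Fin d) k) (P : MvPolynomial τ C) :
    MvPolynomial.aeval b P - MvPolynomial.aeval b' P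
      - MvPowerSeries.C (P.coeff (Finsupp.single i 1)) * (b i - b' i) ∈ ordIdeal C (Fin d) (k + 1) := by
  induction P using MvPolynomial.induction_on with
  | C r =>
    have : (Finsupp.single i 1 : τ →₀ ℕ) ≠ 0 := Finsupp.single_ne_zero.mpr one_ne_zero
    simp [MvPolynomial.coeff_C, this.symm]
  | add P Q hP hQ =>
    simp only [map_add, MvPolynomial.coeff_add]
    have e : MvPolynomial.aeval b P + MvPolynomial.aeval b Q -
        (MvPolynomial.aeval b' P + MvPolynomial.aeval b' Q) -
        (MvPowerSeries.C (P.coeff (Finsupp.single i 1)) +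
          MvPowerSeries.C (Q.coeff (Finsupp.single i 1))) * (b i - b' i)
        = (MvPolynomial.aeval b P - MvPolynomial.aeval b' P
            - MvPowerSeries.C (P.coeff (Finsupp.single i 1)) * (b i - b' i))
          + (MvPolynomial.aeval b Q - MvPolynomial.aeval b' Q
            - MvPowerSeries.C (Q.coeff (Finsupp.single i 1)) * (b i - b' i)) := by ring
    rw [e]
    exact add_mem hP hQ
  | mul_X P l hP =>
    have hΔ : MvPolynomial.aeval b P - MvPolynomial.aeval b' P ∈ ordIdeal C (Fin d) k := by
      have h1 : ordIdeal C (Fin d) (k + 1) ≤ ordIdeal C (Fin d) k := fun f hf e he ↦ hf e (by omega)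
      have := add_mem (h1 hP) ((ordIdeal C (Fin d) k).mul_mem_left
        (MvPowerSeries.C (P.coeff (Finsupp.single i 1))) hk)
      rwa [sub_add_cancel] at this
    have h1 := mul_mem_ordIdeal hΔ (mem_ordIdeal_one (hb l))
    simp only [map_mul, MvPolynomial.aeval_X]
    by_cases hl : l = i
    · subst hl
      have h0 : MvPowerSeries.constantCoeff
          (MvPolynomial.aeval b' P - MvPowerSeries.C (MvPolynomial.constantCoeff P)) = 0 := by
        rw [map_sub, MvPowerSeries.constantCoeff_C, sub_eq_zero]
        clear hP hΔ h1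
        induction P using MvPolynomial.induction_on with
        | C r => simp [MvPowerSeries.algebraMap_apply]
        | add P Q hP hQ => simp_all
        | mul_X P m _ => simp [hb' m]
      have h2 := mul_mem_ordIdeal (mem_ordIdeal_one h0) hk
      rw [add_comm 1 k] at h2
      have hc : (P * MvPolynomial.X l).coeff (Finsupp.single l 1) = MvPolynomial.constantCoeff P := by
        rw [MvPolynomial.coeff_mul_X']
        simp [MvPolynomial.constantCoeff_eq]
      rw [hc]
      have e : MvPolynomial.aeval b P * b l - MvPolynomial.aeval b' P * b' l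
          - MvPowerSeries.C (MvPolynomial.constantCoeff P) * (b l - b' l)
          = (MvPolynomial.aeval b P - MvPolynomial.aeval b' P) * b l
            + (MvPolynomial.aeval b' P - MvPowerSeries.C (MvPolynomial.constantCoeff P))
              * (b l - b' l) := by ring
      rw [e]
      exact add_mem h1 h2
    · have hc : (P * MvPolynomial.X l).coeff (Finsupp.single i 1) = 0 := by
        rw [MvPolynomial.coeff_mul_X']
        simp [hl]
      rw [hc, map_zero, zero_mul, sub_zero, ← hbb l hl, ← sub_mul]
      exact h1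

/-- Series version of the first order difference. -/
theorem subst_sub_subst_mem {τ : Type*} [Finite τ] [DecidableEq τ] (i : τ)
    {b b' : τ → MvPowerSeries (Fin d) C} (hb : ∀ l, MvPowerSeries.constantCoeff (b l) = 0)
    (hb' : ∀ l, MvPowerSeries.constantCoeff (b' l) = 0) {k : ℕ}
    (hbb : ∀ l, l ≠ i → b l = b' l) (hk : b i - b' i ∈ ordIdeal C (Fin d) k) (f : MvPowerSeries τ C) :
    MvPowerSeries.subst b f - MvPowerSeries.subst b' f
      - MvPowerSeries.C (MvPowerSeries.coeff (Finsupp.single i 1) f) * (b i - b' i)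
        ∈ ordIdeal C (Fin d) (k + 1) := by
  classical
  set P := MvPowerSeries.truncTotal (k + 2) f
  have hP := aeval_sub_aeval_mem i hb hb' hbb hk P
  have hc : P.coeff (Finsupp.single i 1) = MvPowerSeries.coeff (Finsupp.single i 1) f :=
    MvPowerSeries.coeff_truncTotal f (by simp)
  rw [hc] at hP
  have hrest : ∀ {b : τ → MvPowerSeries (Fin d) C},
      (∀ l, MvPowerSeries.constantCoeff (b l) = 0) →
      MvPowerSeries.subst b f - MvPolynomial.aeval b P ∈ ordIdeal C (Fin d) (k + 1) := by
    intro b hb
    have hs := MvPowerSeries.hasSubst_of_constantCoeff_zero hb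
    rw [← MvPowerSeries.subst_coe (R := C), ← MvPowerSeries.coe_substAlgHom hs,
      ← map_sub, MvPowerSeries.coe_substAlgHom hs]
    refine subst_mem_ordIdeal hb fun e he ↦ ?_
    rw [map_sub, MvPolynomial.coeff_coe, MvPowerSeries.coeff_truncTotal f (by omega), sub_self]
  have := add_mem (sub_mem (hrest hb) (hrest hb')) hP
  refine Set.mem_of_eq_of_mem ?_ this
  ring

/-- Substituting `φ` for the variable `i`. -/
def graphPt (i : Fin (d + 1)) (φ : MvPowerSeries (Fin d) C) :
    Fin (d + 1) → MvPowerSeries (Fin d) C :=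
  Fin.insertNth i φ MvPowerSeries.X

theorem constantCoeff_graphPt (i : Fin (d + 1)) {φ : MvPowerSeries (Fin d) C}
    (hφ : MvPowerSeries.constantCoeff φ = 0) :
    ∀ l, MvPowerSeries.constantCoeff (graphPt i φ l) = 0 := by
  intro l
  rcases Fin.eq_self_or_eq_succAbove i l with rfl | ⟨l', rfl⟩
  · simpa [graphPt] using hφ
  · simp [graphPt]

/-- Formal implicit function theorem. -/
theorem exists_implicit (i : Fin (d + 1)) (f : MvPowerSeries (Fin (d + 1)) C)
    (hf0 : MvPowerSeries.constantCoeff f = 0)
    (hu : IsUnit (MvPowerSeries.coeff (Finsupp.single i 1) f)) :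
    ∃ φ : MvPowerSeries (Fin d) C, MvPowerSeries.constantCoeff φ = 0 ∧
      MvPowerSeries.subst (graphPt i φ) f = 0 := by
  classical
  obtain ⟨c, hc⟩ := hu
  let Φ : MvPowerSeries (Fin d) C → MvPowerSeries (Fin d) C := fun φ ↦
    φ - MvPowerSeries.C (↑c⁻¹ : C) * MvPowerSeries.subst (graphPt i φ) f
  have hΦ0 : ∀ φ, MvPowerSeries.constantCoeff φ = 0 → MvPowerSeries.constantCoeff (Φ φ) = 0 := by
    intro φ hφ
    rw [map_sub, map_mul, hφ, MvPowerSeries.constantCoeff_subst_eq_zero
      (MvPowerSeries.hasSubst_of_constantCoeff_zero (constantCoeff_graphPt i hφ))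
      (constantCoeff_graphPt i hφ) hf0, mul_zero, sub_zero]
  have hcontr : ∀ φ ψ k, MvPowerSeries.constantCoeff φ = 0 → MvPowerSeries.constantCoeff ψ = 0 →
      φ - ψ ∈ ordIdeal C (Fin d) k → Φ φ - Φ ψ ∈ ordIdeal C (Fin d) (k + 1) := by
    intro φ ψ k hφ hψ hk
    have h := subst_sub_subst_mem i (constantCoeff_graphPt i hφ) (constantCoeff_graphPt i hψ)
      (k := k) (fun l hl ↦ by
        rcases Fin.eq_self_or_eq_succAbove i l with rfl | ⟨l', rfl⟩
        · exact absurd rfl hl
        · simp [graphPt]) (by simpa [graphPt] using hk) f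
    simp only [graphPt, Fin.insertNth_apply_same, ← hc] at h
    have e : Φ φ - Φ ψ = -(MvPowerSeries.C (↑c⁻¹ : C)) *
        (MvPowerSeries.subst (graphPt i φ) f - MvPowerSeries.subst (graphPt i ψ) f
          - MvPowerSeries.C (↑c : C) * (φ - ψ)) := by
      have hcc : MvPowerSeries.C (↑c⁻¹ : C) * MvPowerSeries.C (↑c : C)
          = (1 : MvPowerSeries (Fin d) C) := by rw [← map_mul, Units.inv_mul, map_one]
      simp only [Φ]
      linear_combination -(φ - ψ) * hcc
    rw [e]
    exact Ideal.mul_mem_left _ _ h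
  let it : ℕ → MvPowerSeries (Fin d) C := fun k ↦ Φ^[k] 0
  have hit0 : ∀ k, MvPowerSeries.constantCoeff (it k) = 0 := by
    intro k
    induction k with
    | zero => simp [it]
    | succ k ih => simp only [it, Function.iterate_succ_apply']; exact hΦ0 _ ih
  have hstep : ∀ k, it (k + 1) - it k ∈ ordIdeal C (Fin d) (k + 1) := by
    intro k
    induction k with
    | zero => exact mem_ordIdeal_one (by rw [map_sub, hit0, hit0, sub_zero])
    | succ k ih =>
      have := hcontr _ _ _ (hit0 (k + 1)) (hit0 k) ih
      simpa only [it, Function.iterate_succ_apply'] using this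
  have hstab : ∀ k l (e : Fin d →₀ ℕ), e.degree ≤ k → k ≤ l →
      MvPowerSeries.coeff e (it l) = MvPowerSeries.coeff e (it k) := by
    intro k l e he hkl
    induction l, hkl using Nat.le_induction with
    | base => rfl
    | succ l hkl ih =>
      have := hstep l e (by omega)
      rw [map_sub, sub_eq_zero] at this
      rw [this, ih]
  let φ : MvPowerSeries (Fin d) C := fun e ↦ MvPowerSeries.coeff e (it e.degree)
  have hφ : ∀ k, φ - it k ∈ ordIdeal C (Fin d) (k + 1) := by
    intro k e he
    rw [map_sub, sub_eq_zero]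
    exact (hstab e.degree k e le_rfl (by omega)).symm
  have hφ0 : MvPowerSeries.constantCoeff φ = 0 := by
    rw [← MvPowerSeries.coeff_zero_eq_constantCoeff_apply]
    show MvPowerSeries.coeff 0 (it (Finsupp.degree (0 : Fin d →₀ ℕ))) = 0
    rw [MvPowerSeries.coeff_zero_eq_constantCoeff_apply, hit0]
  refine ⟨φ, hφ0, MvPowerSeries.ext fun e ↦ ?_⟩
  have e1 : it (e.degree + 1) = Φ (it e.degree) := Function.iterate_succ_apply' Φ _ _
  have h := sub_mem (show φ - it (e.degree + 1) ∈ ordIdeal C (Fin d) (e.degree + 1 + 1) from hφ _)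
    (hcontr φ (it e.degree) _ hφ0 (hit0 _) (hφ e.degree))
  rw [e1] at h
  have e2 : φ - Φ (it e.degree) - (Φ φ - Φ (it e.degree))
      = MvPowerSeries.C (↑c⁻¹ : C) * MvPowerSeries.subst (graphPt i φ) f := by
    simp only [Φ]; ring
  rw [e2] at h
  have h3 := h e (by omega)
  rw [MvPowerSeries.coeff_C_mul] at h3
  rw [map_zero]
  exact (IsUnit.mul_right_eq_zero c⁻¹.isUnit).mp h3

end implicit

/-- At a point, a series with an invertible linear term determines that coordinate. -/
theorem norm_ev_first_order (f : MvPowerSeries σ (intRing Ω)) (i : σ) [DecidableEq σ]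
    {a b : σ → intRing Ω} {ρ : ℝ} (hρ : ρ < 1) (hρ0 : 0 ≤ ρ) (ha : ∀ l, ‖(a l : Ω)‖ ≤ ρ)
    (hb : ∀ l, ‖(b l : Ω)‖ ≤ ρ) (hab : ∀ l, l ≠ i → a l = b l) :
    ‖((ev f a : intRing Ω) : Ω) - (ev f b : intRing Ω)
      - (MvPowerSeries.coeff (Finsupp.single i 1) f : intRing Ω) * ((a i : Ω) - b i)‖
      ≤ ρ * ‖(a i : Ω) - b i‖ := by
  have hpoly : ∀ P : MvPolynomial σ (intRing Ω),
      ‖((MvPolynomial.eval a P : intRing Ω) : Ω) - (MvPolynomial.eval b P : intRing Ω)
        - (P.coeff (Finsupp.single i 1) : intRing Ω) * ((a i : Ω) - b i)‖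
        ≤ ρ * ‖(a i : Ω) - b i‖ := by
    intro P
    induction P using MvPolynomial.induction_on with
    | C r =>
      have : (Finsupp.single i 1 : σ →₀ ℕ) ≠ 0 := Finsupp.single_ne_zero.mpr one_ne_zero
      simp [MvPolynomial.coeff_C, this.symm]
      positivity
    | add P Q hP hQ =>
      simp only [map_add, MvPolynomial.coeff_add, AddMemClass.coe_add]
      refine le_trans (le_of_eq (congrArg _ ?_)) ((IsUltrametricDist.norm_add_le_max _ _).trans
        (max_le hP hQ))
      ring
    | mul_X P l hP =>
      simp only [map_mul, MvPolynomial.eval_X, MulMemClass.coe_mul]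
      set Δ := ((MvPolynomial.eval a P : intRing Ω) : Ω) - (MvPolynomial.eval b P : intRing Ω) with hΔ
      have hΔn : ‖Δ‖ ≤ ‖(a i : Ω) - b i‖ := by
        have e : Δ = (Δ - (P.coeff (Finsupp.single i 1) : intRing Ω) * ((a i : Ω) - b i))
            + (P.coeff (Finsupp.single i 1) : intRing Ω) * ((a i : Ω) - b i) := by ring
        rw [e]
        refine (IsUltrametricDist.norm_add_le_max _ _).trans (max_le
          (hP.trans (mul_le_of_le_one_left (norm_nonneg _) hρ.le)) ?_)
        rw [norm_mul]
        exact mul_le_of_le_one_left (norm_nonneg _) (mem_intRing.mp (Subtype.prop _))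
      have h1 : ‖Δ * (a l : Ω)‖ ≤ ρ * ‖(a i : Ω) - b i‖ := by
        rw [norm_mul, mul_comm ρ]
        exact mul_le_mul hΔn (ha l) (norm_nonneg _) (norm_nonneg _)
      by_cases hl : l = i
      · subst hl
        have hc : (P * MvPolynomial.X l).coeff (Finsupp.single l 1) = P.coeff 0 := by
          rw [MvPolynomial.coeff_mul_X']; simp
        rw [hc]
        have h2 : ‖((MvPolynomial.eval b P : intRing Ω) : Ω) - (P.coeff 0 : intRing Ω)‖ ≤ ρ := by
          have h0 : MvPolynomial.eval (0 : σ → intRing Ω) P = P.coeff 0 := by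
            simp [MvPolynomial.eval_zero, MvPolynomial.constantCoeff_eq]
          have := norm_ev_sub_ev_le (P : MvPowerSeries σ (intRing Ω)) (a := b) (b := 0)
            (fun k ↦ (hb k).trans_lt hρ) (fun k ↦ by simp) hρ0 (fun k ↦ by simpa using hb k)
          rwa [ev_coe, ev_coe, h0] at this
        refine le_trans (le_of_eq (congrArg _ ?_)) ((IsUltrametricDist.norm_add_le_max (Δ * (a l : Ω))
          ((((MvPolynomial.eval b P : intRing Ω) : Ω) - (P.coeff 0 : intRing Ω))
            * ((a l : Ω) - b l))).trans (max_le h1 ?_))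
        · rw [hΔ]; ring
        · rw [norm_mul]
          exact mul_le_mul_of_nonneg_right h2 (norm_nonneg _)
      · have hc : (P * MvPolynomial.X l).coeff (Finsupp.single i 1) = 0 := by
          rw [MvPolynomial.coeff_mul_X']; simp [hl]
        rw [hc, ZeroMemClass.coe_zero, zero_mul, sub_zero, ← hab l hl, ← sub_mul, ← hΔ]
        exact h1
  have hSa : IsSmall a := fun l ↦ isTopologicallyNilpotent_intRing.mpr ((ha l).trans_lt hρ)
  have hSb : IsSmall b := fun l ↦ isTopologicallyNilpotent_intRing.mpr ((hb l).trans_lt hρ)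
  have hclosed : IsClosed {g : MvPowerSeries σ (intRing Ω) |
      ‖((ev g a : intRing Ω) : Ω) - (ev g b : intRing Ω)
      - (MvPowerSeries.coeff (Finsupp.single i 1) g : intRing Ω) * ((a i : Ω) - b i)‖
      ≤ ρ * ‖(a i : Ω) - b i‖} :=
    isClosed_le (continuous_norm.comp (((continuous_subtype_val.comp (continuous_ev hSa)).sub
      (continuous_subtype_val.comp (continuous_ev hSb))).sub
      ((continuous_subtype_val.comp (MvPowerSeries.WithPiTopology.continuous_coeff _ _)).mul
        continuous_const))) continuous_const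
  exact MvPowerSeries.WithPiTopology.denseRange_toMvPowerSeries.induction_on f hclosed
    fun P ↦ by rw [show MvPolynomial.toMvPowerSeries P = (P : MvPowerSeries σ (intRing Ω)) from rfl,
      ev_coe, ev_coe, MvPolynomial.coeff_coe]; exact hpoly P

end Vale.Agent.P217
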