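import Vale.Agent.P217.Shared
import Vale.Agent.P217.SeriesTools
import Mathlib.LinearAlgebra.Matrix.Determinant.Basic
import Mathlib.LinearAlgebra.Matrix.NonsingularInverse

/-!
Formal inversion and truncation estimates.
-/

noncomputable section

open Filter MvPowerSeries
open scoped MvPowerSeries.WithPiTopology Topology

namespace Vale.Agent.P217

section inversion

variable {C : Type*} [CommRing C] {υ : Type*}

/-- Monomials in series congruent to the variables. -/
theorem prod_pow_mem_ordIdeal {b : υ → MvPowerSeries υ C} (hb : ∀ i, constantCoeff (b i) = 0)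
    (hb2 : ∀ i, b i - X i ∈ ordIdeal C υ 2) (x : υ →₀ ℕ) :
    (x.prod fun s n ↦ b s ^ n) ∈ ordIdeal C υ x.degree ∧
      (x.prod fun s n ↦ b s ^ n) - (x.prod fun s n ↦ (X s : MvPowerSeries υ C) ^ n)
        ∈ ordIdeal C υ (x.degree + 1) := by
  classical
  induction x using Finsupp.induction with
  | zero =>
    refine ⟨fun e he ↦ by simp at he, ?_⟩
    simp only [Finsupp.prod_zero_index, sub_self]
    exact zero_mem _
  | single_add i n x hi hn ih =>
    clear hn hi
    rw [Finsupp.prod_add_index' (fun _ ↦ pow_zero _) (fun _ _ _ ↦ pow_add _ _ _),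
      Finsupp.prod_add_index' (h := fun s n ↦ (X s : MvPowerSeries υ C) ^ n) (fun _ ↦ pow_zero _)
        (fun _ _ _ ↦ pow_add _ _ _),
      Finsupp.prod_single_index (h := fun s n ↦ b s ^ n) (pow_zero (b i)),
      Finsupp.prod_single_index (h := fun s n ↦ (X s : MvPowerSeries υ C) ^ n) (pow_zero _),
      map_add, Finsupp.degree_single]
    induction n with
    | zero => simpa using ih
    | succ n ihn =>
      obtain ⟨h1, h2⟩ := ihn
      refine ⟨?_, ?_⟩
      · have h := mul_mem_ordIdeal (mem_ordIdeal_one (hb i)) h1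
        have e : b i ^ (n + 1) * (x.prod fun s n ↦ b s ^ n)
            = b i * (b i ^ n * x.prod fun s n ↦ b s ^ n) := by ring
        rw [e, show n + 1 + x.degree = 1 + (n + x.degree) by omega]
        exact h
      · have e : b i ^ (n + 1) * (x.prod fun s n ↦ b s ^ n)
              - (X i : MvPowerSeries υ C) ^ (n + 1) * (x.prod fun s n ↦ (X s : MvPowerSeries υ C) ^ n)
            = (b i - X i) * (b i ^ n * x.prod fun s n ↦ b s ^ n)
              + X i * (b i ^ n * (x.prod fun s n ↦ b s ^ n)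
                - (X i : MvPowerSeries υ C) ^ n
                  * (x.prod fun s n ↦ (X s : MvPowerSeries υ C) ^ n)) := by ring
        rw [e]
        have ha := mul_mem_ordIdeal (hb2 i) h1
        have hb' := mul_mem_ordIdeal (mem_ordIdeal_one (C := C) (constantCoeff_X i)) h2
        rw [show n + 1 + x.degree + 1 = 2 + (n + x.degree) by omega]
        rw [show 1 + (n + x.degree + 1) = 2 + (n + x.degree) by omega] at hb'
        exact add_mem ha hb'

/-- A series of order `k` is fixed up to order `k + 1` by a substitution tangent to the identity. -/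
theorem subst_sub_self_mem [Finite υ] {b : υ → MvPowerSeries υ C}
    (hb : ∀ i, constantCoeff (b i) = 0) (hb2 : ∀ i, b i - X i ∈ ordIdeal C υ 2) {k : ℕ}
    {f : MvPowerSeries υ C} (hf : f ∈ ordIdeal C υ k) :
    MvPowerSeries.subst b f - f ∈ ordIdeal C υ (k + 1) := by
  classical
  set P := truncTotal (k + 1) f
  have hs := hasSubst_of_constantCoeff_zero hb
  have hsX := hasSubst_of_constantCoeff_zero
    (fun i : υ ↦ (constantCoeff_X i : constantCoeff (X i : MvPowerSeries υ C) = 0))
  have hdiff : ∀ {c : υ → MvPowerSeries υ C}, (∀ i, constantCoeff (c i) = 0) →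
      MvPowerSeries.subst c f - MvPolynomial.aeval c P ∈ ordIdeal C υ (k + 1) := by
    intro c hc
    have hsc := hasSubst_of_constantCoeff_zero hc
    rw [← subst_coe (R := C), ← coe_substAlgHom hsc, ← map_sub, coe_substAlgHom hsc]
    refine subst_mem_ordIdeal hc fun e he ↦ ?_
    rw [map_sub, MvPolynomial.coeff_coe, coeff_truncTotal f he, sub_self]
  have hP : MvPolynomial.aeval b P - MvPolynomial.aeval (fun i ↦ (X i : MvPowerSeries υ C)) P
      ∈ ordIdeal C υ (k + 1) := by
    rw [MvPolynomial.aeval_def, MvPolynomial.aeval_def, MvPolynomial.eval₂_eq, MvPolynomial.eval₂_eq,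
      ← Finset.sum_sub_distrib]
    refine Ideal.sum_mem _ fun x hx ↦ ?_
    rw [← mul_sub]
    rcases lt_or_ge x.degree k with hlt | hge
    · have : P.coeff x = 0 := by
        rw [coeff_truncTotal f (by omega)]
        exact hf x hlt
      rw [this, map_zero, zero_mul]
      exact zero_mem _
    · refine Ideal.mul_mem_left _ _ fun e he ↦ ?_
      exact (prod_pow_mem_ordIdeal hb hb2 x).2 e (by omega)
  have h1 := add_mem (sub_mem (hdiff hb) (hdiff fun i : υ ↦ constantCoeff_X i)) hP
  rw [MvPowerSeries.subst_self (R := C), id_eq] at h1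
  refine Set.mem_of_eq_of_mem ?_ h1
  ring

/-- Substitution by a tuple tangent to the identity is surjective. -/
theorem exists_subst_eq [Finite υ] {b : υ → MvPowerSeries υ C}
    (hb : ∀ i, constantCoeff (b i) = 0) (hb2 : ∀ i, b i - X i ∈ ordIdeal C υ 2)
    (F : MvPowerSeries υ C) : ∃ H : MvPowerSeries υ C, MvPowerSeries.subst b H = F := by
  classical
  have hs := hasSubst_of_constantCoeff_zero hb
  let it : ℕ → MvPowerSeries υ C := fun k ↦
    k.rec (0 : MvPowerSeries υ C) fun _ (H : MvPowerSeries υ C) ↦ H - (MvPowerSeries.subst b H - F)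
  have hit : ∀ k, it (k + 1) = it k - (MvPowerSeries.subst b (it k) - F) := fun _ ↦ rfl
  have hdef : ∀ k, MvPowerSeries.subst b (it k) - F ∈ ordIdeal C υ k := by
    intro k
    induction k with
    | zero => intro e he; omega
    | succ k ih =>
      have h := subst_sub_self_mem hb hb2 ih
      rw [hit, ← coe_substAlgHom hs, map_sub, coe_substAlgHom hs]
      refine Set.mem_of_eq_of_mem ?_ (neg_mem h)
      ring
  have hstab : ∀ k l (e : υ →₀ ℕ), e.degree < k → k ≤ l →
      coeff e (it l) = coeff e (it k) := by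
    intro k l e he hkl
    induction l, hkl using Nat.le_induction with
    | base => rfl
    | succ l hkl ih =>
      rw [hit, map_sub, hdef l e (by omega), sub_zero, ih]
  let H : MvPowerSeries υ C := fun e ↦ coeff e (it (e.degree + 1))
  refine ⟨H, MvPowerSeries.ext fun e ↦ ?_⟩
  have hH : ∀ x : υ →₀ ℕ, x.degree < e.degree + 1 → coeff x (H - it (e.degree + 1)) = 0 := by
    intro x hx
    rw [map_sub, sub_eq_zero]
    exact (hstab (x.degree + 1) (e.degree + 1) x (by omega) (by omega)).symm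
  have h1 := subst_mem_ordIdeal hb hH e (by omega)
  rw [← coe_substAlgHom hs, map_sub, coe_substAlgHom hs, map_sub, sub_eq_zero] at h1
  have h2 := hdef (e.degree + 1) e (by omega)
  rw [map_sub, sub_eq_zero] at h2
  exact h1.trans h2

end inversion

theorem exists_comp_inverse {K : Type*} [Field K] {d : ℕ} (ξ : Fin d → MvPowerSeries (Fin d) K)
    (h0 : ∀ j, constantCoeff (ξ j) = 0)
    (hdet : (Matrix.of fun j i ↦ coeff (Finsupp.single i 1) (ξ j)).det ≠ 0)
    (F : MvPowerSeries (Fin d) K) : ∃ H : MvPowerSeries (Fin d) K, MvPowerSeries.subst ξ H = F := by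
  classical
  set A := Matrix.of fun j i ↦ coeff (Finsupp.single i 1) (ξ j) with hA
  let L : Fin d → MvPowerSeries (Fin d) K := fun k ↦ ∑ j, MvPowerSeries.C (A⁻¹ k j) * X j
  let b : Fin d → MvPowerSeries (Fin d) K := fun k ↦ ∑ j, MvPowerSeries.C (A⁻¹ k j) * ξ j
  have hb : ∀ i, constantCoeff (b i) = 0 := fun i ↦ by simp [b, h0]
  have hL : ∀ i, constantCoeff (L i) = 0 := fun i ↦ by simp [L]
  have hinv : A⁻¹ * A = 1 := Matrix.nonsing_inv_mul A (Ne.isUnit hdet)
  have hb2 : ∀ i, b i - X i ∈ ordIdeal K (Fin d) 2 := by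
    intro k e he
    rcases Nat.eq_zero_or_pos e.degree with h | h
    · rw [(Finsupp.degree_eq_zero_iff e).mp h, coeff_zero_eq_constantCoeff_apply, map_sub, hb k,
        constantCoeff_X, sub_zero]
    · obtain ⟨i, rfl⟩ : ∃ i, Finsupp.single i 1 = e := by
        obtain ⟨i, hi⟩ := Finsupp.support_nonempty_iff.mpr (fun h0 : e = 0 ↦ by simp [h0] at h)
        refine ⟨i, ?_⟩
        have hle : Finsupp.single i 1 ≤ e :=
          Finsupp.single_le_iff.mpr (Nat.one_le_iff_ne_zero.mpr (Finsupp.mem_support_iff.mp hi))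
        obtain ⟨e', rfl⟩ := exists_add_of_le hle
        rw [map_add, Finsupp.degree_single] at he
        rw [(Finsupp.degree_eq_zero_iff e').mp (by omega), add_zero]
      have h1 : ∑ j, A⁻¹ k j * A j i = (1 : Matrix (Fin d) (Fin d) K) k i := by
        rw [← hinv, Matrix.mul_apply]
      rw [Matrix.one_apply] at h1
      simp only [b, map_sub, map_sum, coeff_C_mul]
      rw [show (∑ j, A⁻¹ k j * coeff (Finsupp.single i 1) (ξ j)) = _ from h1, coeff_index_single_X,
        sub_eq_zero]
      simp [eq_comm]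
  obtain ⟨H, hH⟩ := exists_subst_eq hb hb2 F
  refine ⟨MvPowerSeries.subst L H, ?_⟩
  rw [subst_comp_subst_apply (hasSubst_of_constantCoeff_zero hL)
    (hasSubst_of_constantCoeff_zero h0), ← hH]
  congr 1
  funext k
  have hs := hasSubst_of_constantCoeff_zero h0
  simp only [L, b, ← coe_substAlgHom hs, map_sum, map_mul, substAlgHom_X hs]
  refine Finset.sum_congr rfl fun j _ ↦ ?_
  congr 1
  exact (substAlgHom (S := K) hs).commutes (A⁻¹ k j)

theorem truncTotal_map_gen {R S : Type*} [CommRing R] [CommRing S] {τ : Type*} [Finite τ]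
    (f : R →+* S) (F : MvPowerSeries τ R) (D : ℕ) :
    truncTotal D (MvPowerSeries.map f F) = MvPolynomial.map f (truncTotal D F) := by
  ext e
  by_cases he : e.degree < D
  · rw [MvPolynomial.coeff_map, coeff_truncTotal _ he, coeff_truncTotal _ he, coeff_map]
  · rw [MvPolynomial.coeff_map, coeff_truncTotal_eq_zero _ (not_lt.mp he),
      coeff_truncTotal_eq_zero _ (not_lt.mp he), map_zero]

section norms

variable {Ω : Type} [NontriviallyNormedField Ω] [IsUltrametricDist Ω]

theorem norm_ev_sub_truncTotal [CompleteSpace Ω] {τ : Type*} [Fintype τ]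
    (f : MvPowerSeries τ (intRing Ω)) (D : ℕ) (v : τ → intRing Ω) (hv : IsSmall v) :
    ‖((ev f v : intRing Ω) : Ω) - MvPolynomial.eval (fun i ↦ (v i : Ω))
      (MvPowerSeries.truncTotal (R := Ω) D (MvPowerSeries.map (intRing Ω).subtype f))‖
        ≤ ‖fun i ↦ (v i : Ω)‖ ^ D := by
  have hlt : ‖fun i ↦ (v i : Ω)‖ < 1 :=
    (pi_norm_lt_iff one_pos).mpr fun i ↦ isTopologicallyNilpotent_intRing.mp (hv i)
  have h := norm_ev_sub_truncTotal_le f (a := v) (norm_nonneg _) hlt
    (fun i ↦ norm_le_pi_norm (fun i ↦ (v i : Ω)) i) D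
  rw [truncTotal_map_gen, MvPolynomial.eval_map]
  refine le_of_eq_of_le (congrArg norm (congrArg _ ?_)) h
  exact (MvPolynomial.eval₂_comp (intRing Ω).subtype v _).symm

theorem norm_le_mul_norm_ev [CompleteSpace Ω] {d : ℕ} (ξ : Fin d → MvPowerSeries (Fin d) (intRing Ω))
    (h0 : ∀ j, constantCoeff (ξ j) = 0)
    (hdet : (Matrix.of fun j i ↦ ((coeff (Finsupp.single i 1) (ξ j) : intRing Ω) : Ω)).det ≠ 0) :
    ∃ C > (0 : ℝ), ∃ r > (0 : ℝ), ∀ (v : Fin d → intRing Ω) (_hv : IsSmall v),
      ‖fun i ↦ (v i : Ω)‖ ≤ r →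
        ‖fun i ↦ (v i : Ω)‖ ≤ C * ‖fun j ↦ ((ev (ξ j) v : intRing Ω) : Ω)‖ := by
  classical
  set A := Matrix.of fun j i ↦ ((coeff (Finsupp.single i 1) (ξ j) : intRing Ω) : Ω) with hA
  have hinv : A⁻¹ * A = 1 := Matrix.nonsing_inv_mul A (Ne.isUnit hdet)
  set S := 1 + ∑ k, ∑ j, ‖A⁻¹ k j‖ with hS
  have hS1 : 1 ≤ S := le_add_of_nonneg_right (by positivity)
  refine ⟨S, by linarith, 1 / (2 * S), by positivity, fun v hv hvr ↦ ?_⟩
  set V : Fin d → Ω := fun i ↦ (v i : Ω)
  set W : Fin d → Ω := fun j ↦ ((ev (ξ j) v : intRing Ω) : Ω)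
  have hlin : ∀ j, ‖W j - (A.mulVec V) j‖ ≤ ‖V‖ ^ 2 := by
    intro j
    have h := norm_ev_sub_truncTotal (ξ j) 2 v hv
    refine le_of_eq_of_le ?_ h
    congr 2
    have ht : truncTotal (R := Ω) 2 (MvPowerSeries.map (intRing Ω).subtype (ξ j))
        = ∑ i, MvPolynomial.C (A j i) * MvPolynomial.X i := by
      ext e
      rw [MvPolynomial.coeff_sum]
      simp only [MvPolynomial.coeff_C_mul, MvPolynomial.coeff_X']
      by_cases he : e.degree < 2
      · rw [coeff_truncTotal _ he, coeff_map]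
        rcases Nat.eq_zero_or_pos e.degree with h | h
        · rw [(Finsupp.degree_eq_zero_iff e).mp h, coeff_zero_eq_constantCoeff_apply, h0 j]
          simp
        · obtain ⟨i, rfl⟩ : ∃ i, Finsupp.single i 1 = e := by
            obtain ⟨i, hi⟩ := Finsupp.support_nonempty_iff.mpr (fun h0 : e = 0 ↦ by simp [h0] at h)
            refine ⟨i, ?_⟩
            have hle : Finsupp.single i 1 ≤ e :=
              Finsupp.single_le_iff.mpr (Nat.one_le_iff_ne_zero.mpr (Finsupp.mem_support_iff.mp hi))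
            obtain ⟨e', rfl⟩ := exists_add_of_le hle
            rw [map_add, Finsupp.degree_single] at he
            rw [(Finsupp.degree_eq_zero_iff e').mp (by omega), add_zero]
          rw [Finset.sum_eq_single i (fun i' _ hi' ↦ by
            rw [if_neg (fun h ↦ hi' (Finsupp.single_left_injective one_ne_zero h)), mul_zero])
            (fun h ↦ absurd (Finset.mem_univ i) h), if_pos rfl, mul_one]
          rfl
      · rw [coeff_truncTotal_eq_zero _ (not_lt.mp he)]
        refine (Finset.sum_eq_zero fun i _ ↦ ?_).symm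
        rw [if_neg (fun h ↦ he (by rw [← h, Finsupp.degree_single]; norm_num)), mul_zero]
    rw [ht, map_sum]
    simp [Matrix.mulVec, dotProduct, V]
  have hVeq : V = A⁻¹.mulVec (A.mulVec V) := by
    rw [Matrix.mulVec_mulVec, hinv, Matrix.one_mulVec]
  have hAV : ∀ j, ‖(A.mulVec V) j‖ ≤ max ‖W‖ (‖V‖ ^ 2) := fun j ↦ by
    have e : (A.mulVec V) j = W j + -(W j - (A.mulVec V) j) := by ring
    rw [e]
    refine (IsUltrametricDist.norm_add_le_max _ _).trans ?_
    rw [norm_neg]
    exact max_le_max (norm_le_pi_norm W j) (hlin j)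
  have hV : ‖V‖ ≤ S * max ‖W‖ (‖V‖ ^ 2) := by
    refine (pi_norm_le_iff_of_nonneg (by positivity)).mpr fun k ↦ ?_
    rw [congrFun hVeq k, Matrix.mulVec, dotProduct]
    refine (norm_sum_le _ _).trans ?_
    calc ∑ j, ‖A⁻¹ k j * (A.mulVec V) j‖ ≤ ∑ j, ‖A⁻¹ k j‖ * max ‖W‖ (‖V‖ ^ 2) :=
          Finset.sum_le_sum fun j _ ↦ by rw [norm_mul]; gcongr; exact hAV j
      _ = (∑ j, ‖A⁻¹ k j‖) * max ‖W‖ (‖V‖ ^ 2) := (Finset.sum_mul _ _ _).symm
      _ ≤ S * max ‖W‖ (‖V‖ ^ 2) := by
        gcongr
        exact (Finset.single_le_sum (f := fun k ↦ ∑ j, ‖A⁻¹ k j‖) (fun _ _ ↦ by positivity)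
          (Finset.mem_univ k)).trans (le_add_of_nonneg_left zero_le_one)
  rcases le_total (‖V‖ ^ 2) ‖W‖ with h | h
  · rwa [max_eq_left h] at hV
  · rw [max_eq_right h] at hV
    have h2 : S * ‖V‖ ≤ 1 / 2 := by
      calc S * ‖V‖ ≤ S * (1 / (2 * S)) := by gcongr
        _ = 1 / 2 := by field_simp
    have h3 : ‖V‖ ≤ 0 := by nlinarith [norm_nonneg V]
    exact h3.trans (by positivity)

variable {σ τ : Type*}

omit [IsUltrametricDist Ω] in
/-- Bound used for polynomial evaluation. -/
theorem norm_prod_pow_le {x : σ → Ω} {R : ℝ} (hx : ∀ i, ‖x i‖ ≤ R) (d : σ →₀ ℕ) :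
    ‖d.prod fun i k ↦ x i ^ k‖ ≤ R ^ d.degree := by
  rw [Finsupp.prod, norm_prod, Finsupp.degree_apply, ← Finset.prod_pow_eq_pow_sum]
  refine Finset.prod_le_prod (fun i _ ↦ norm_nonneg _) fun i _ ↦ ?_
  rw [norm_pow]
  exact pow_le_pow_left₀ (norm_nonneg _) (hx i) _

theorem exists_bound_eval [Fintype σ] (T : MvPolynomial σ Ω) {R : ℝ} (hR : 1 ≤ R) :
    ∃ C : ℝ, 0 ≤ C ∧
      (∀ x : σ → Ω, ‖x‖ ≤ R → ‖MvPolynomial.eval x T‖ ≤ C) ∧
      ∀ x y : σ → Ω, ‖x‖ ≤ R → ‖y‖ ≤ R →
        ‖MvPolynomial.eval x T - MvPolynomial.eval y T‖ ≤ C * ‖fun i ↦ x i - y i‖ := by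
  induction T using MvPolynomial.induction_on with
  | C r => exact ⟨‖r‖, norm_nonneg r, fun x _ ↦ by simp, fun x y _ _ ↦ by simp; positivity⟩
  | add P Q hP hQ =>
    obtain ⟨a, ha, ha1, ha2⟩ := hP
    obtain ⟨b, hb, hb1, hb2⟩ := hQ
    refine ⟨a + b, by positivity, fun x hx ↦ ?_, fun x y hx hy ↦ ?_⟩
    · rw [map_add]
      exact (norm_add_le _ _).trans (add_le_add (ha1 x hx) (hb1 x hx))
    · rw [map_add, map_add, add_sub_add_comm, add_mul]
      exact (norm_add_le _ _).trans (add_le_add (ha2 x y hx hy) (hb2 x y hx hy))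
  | mul_X P i hP =>
    obtain ⟨a, ha, ha1, ha2⟩ := hP
    refine ⟨a * R + a, by positivity, fun x hx ↦ ?_, fun x y hx hy ↦ ?_⟩
    · rw [map_mul, MvPolynomial.eval_X, norm_mul]
      exact (mul_le_mul (ha1 x hx) ((norm_le_pi_norm x i).trans hx) (norm_nonneg _) ha).trans
        (le_add_of_nonneg_right ha)
    · rw [map_mul, map_mul, MvPolynomial.eval_X, MvPolynomial.eval_X]
      have e : MvPolynomial.eval x P * x i - MvPolynomial.eval y P * y i
          = (MvPolynomial.eval x P - MvPolynomial.eval y P) * x i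
            + MvPolynomial.eval y P * (x i - y i) := by ring
      rw [e, add_mul]
      refine (norm_add_le _ _).trans (add_le_add ?_ ?_)
      · rw [norm_mul, mul_right_comm]
        exact mul_le_mul (ha2 x y hx hy) ((norm_le_pi_norm x i).trans hx) (norm_nonneg _)
          (by positivity)
      · rw [norm_mul]
        exact mul_le_mul (ha1 y hy) (norm_le_pi_norm (fun i ↦ x i - y i) i) (norm_nonneg _) ha

/-- Coefficient bound of a composite of polynomials. -/
theorem exists_bound_bind [Fintype σ] (T : MvPolynomial σ Ω) {R : ℝ} (hR : 1 ≤ R) :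
    ∃ C : ℝ, 0 ≤ C ∧ ∀ g : σ → MvPolynomial τ Ω, (∀ s e, ‖(g s).coeff e‖ ≤ R) →
      ∀ e, ‖(MvPolynomial.bind₁ g T).coeff e‖ ≤ C := by
  classical
  induction T using MvPolynomial.induction_on with
  | C r =>
    refine ⟨‖r‖, norm_nonneg r, fun g _ e ↦ ?_⟩
    rw [MvPolynomial.bind₁_C_right, MvPolynomial.coeff_C]
    split_ifs <;> simp
  | add P Q hP hQ =>
    obtain ⟨a, ha, ha1⟩ := hP
    obtain ⟨b, hb, hb1⟩ := hQ
    refine ⟨max a b, le_max_of_le_left ha, fun g hg e ↦ ?_⟩
    rw [map_add, MvPolynomial.coeff_add]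
    exact (IsUltrametricDist.norm_add_le_max _ _).trans (max_le_max (ha1 g hg e) (hb1 g hg e))
  | mul_X P i hP =>
    obtain ⟨a, ha, ha1⟩ := hP
    refine ⟨a * R, by positivity, fun g hg e ↦ ?_⟩
    rw [map_mul, MvPolynomial.bind₁_X_right, MvPolynomial.coeff_mul]
    refine IsUltrametricDist.norm_sum_le_of_forall_le_of_nonneg (by positivity) fun z _ ↦ ?_
    rw [norm_mul]
    exact mul_le_mul (ha1 g hg _) (hg i _) (norm_nonneg _) ha

theorem truncation_estimate {σ τ : Type*} [Fintype σ] [Fintype τ] (H : MvPowerSeries σ Ω) (D : ℕ)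
    (B : ℝ) :
    ∃ C : ℝ, ∀ (G : σ → MvPowerSeries τ Ω), (∀ s, constantCoeff (G s) = 0) →
      (∀ s e, e.degree < D → ‖coeff e (G s)‖ ≤ B) →
      ∀ (x : τ → Ω) (z : σ → Ω), ‖x‖ ≤ 1 → ‖z‖ ≤ 1 →
        ‖MvPolynomial.eval z (MvPowerSeries.truncTotal D H) -
          MvPolynomial.eval x (MvPowerSeries.truncTotal D (MvPowerSeries.subst G H))‖ ≤
        C * max (‖x‖ ^ D)
          ‖fun s ↦ z s - MvPolynomial.eval x (MvPowerSeries.truncTotal D (G s))‖ := by
  classical
  set R := max 1 B with hRdef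
  have hR : 1 ≤ R := le_max_left _ _
  set T := truncTotal D H
  obtain ⟨C₁, hC₁, -, hLip⟩ := exists_bound_eval T hR
  obtain ⟨C₂, hC₂, hbind⟩ := exists_bound_bind (τ := τ) T hR
  refine ⟨C₁ + C₂, fun G hG hB x z hx hz ↦ ?_⟩
  set g : σ → MvPolynomial τ Ω := fun s ↦ truncTotal D (G s)
  set w : σ → Ω := fun s ↦ MvPolynomial.eval x (g s)
  have hgR : ∀ s e, ‖(g s).coeff e‖ ≤ R := by
    intro s e
    by_cases he : e.degree < D
    · rw [coeff_truncTotal _ he]
      exact (hB s e he).trans (le_max_right _ _)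
    · rw [coeff_truncTotal_eq_zero _ (not_lt.mp he), norm_zero]
      exact le_trans zero_le_one hR
  have hwR : ‖w‖ ≤ R := by
    refine (pi_norm_le_iff_of_nonneg (le_trans zero_le_one hR)).mpr fun s ↦ ?_
    simp only [w]
    rw [MvPolynomial.eval_eq]
    refine IsUltrametricDist.norm_sum_le_of_forall_le_of_nonneg (le_trans zero_le_one hR)
      fun e _ ↦ ?_
    rw [norm_mul]
    refine (mul_le_mul (hgR s e) ?_ (norm_nonneg _) (le_trans zero_le_one hR)).trans_eq (mul_one R)
    exact (norm_prod_pow_le (fun i ↦ (norm_le_pi_norm x i).trans hx) e).trans_eq (one_pow _)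
  set Q := MvPolynomial.bind₁ g T
  have hQeval : MvPolynomial.eval x Q = MvPolynomial.eval w T := by
    simp only [Q, w, MvPolynomial.eval, MvPolynomial.coe_eval₂Hom]
    exact MvPolynomial.eval₂Hom_bind₁ _ _ _ _
  have hcoeff : ∀ e : τ →₀ ℕ, e.degree < D →
      Q.coeff e = coeff e (MvPowerSeries.subst G H) := by
    intro e he
    have hg0 : ∀ s, constantCoeff (g s : MvPowerSeries τ Ω) = 0 := by
      intro s
      rcases Nat.eq_zero_or_pos D with h | h
      · omega
      · rw [← coeff_zero_eq_constantCoeff_apply, MvPolynomial.coeff_coe,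
          coeff_truncTotal _ (by simpa using h), coeff_zero_eq_constantCoeff_apply, hG s]
    have hsG := hasSubst_of_constantCoeff_zero hG
    have h1 : MvPowerSeries.subst G H - MvPolynomial.aeval G T ∈ ordIdeal Ω τ D := by
      rw [← subst_coe (R := Ω), ← coe_substAlgHom hsG, ← map_sub, coe_substAlgHom hsG]
      refine subst_mem_ordIdeal hG fun e he ↦ ?_
      rw [map_sub, MvPolynomial.coeff_coe, coeff_truncTotal H he, sub_self]
    have h2 : ∀ P : MvPolynomial σ Ω, MvPolynomial.aeval G P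
        - ((MvPolynomial.bind₁ g P : MvPolynomial τ Ω) : MvPowerSeries τ Ω) ∈ ordIdeal Ω τ D := by
      intro P
      induction P using MvPolynomial.induction_on with
      | C r => simp [MvPowerSeries.algebraMap_apply]
      | add P P' hP hP' =>
        rw [map_add, map_add, MvPolynomial.coe_add, add_sub_add_comm]
        exact add_mem hP hP'
      | mul_X P i hP =>
        rw [map_mul, map_mul, MvPolynomial.aeval_X, MvPolynomial.bind₁_X_right,
          MvPolynomial.coe_mul]
        have hgi : G i - (g i : MvPowerSeries τ Ω) ∈ ordIdeal Ω τ D := fun e he ↦ by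
          rw [map_sub, MvPolynomial.coeff_coe, coeff_truncTotal (G i) he, sub_self]
        refine Set.mem_of_eq_of_mem ?_ (add_mem (Ideal.mul_mem_right (G i) _ hP)
          (Ideal.mul_mem_left _ ((MvPolynomial.bind₁ g P : MvPolynomial τ Ω) :
            MvPowerSeries τ Ω) hgi))
        ring
    have h3 := add_mem h1 (h2 T)
    rw [sub_add_sub_cancel] at h3
    have h4 := h3 e he
    rw [map_sub, MvPolynomial.coeff_coe, sub_eq_zero] at h4
    exact h4.symm
  set U := truncTotal D (MvPowerSeries.subst G H)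
  have h5 : ‖MvPolynomial.eval x Q - MvPolynomial.eval x U‖ ≤ C₂ * ‖x‖ ^ D := by
    rw [← map_sub, MvPolynomial.eval_eq]
    refine IsUltrametricDist.norm_sum_le_of_forall_le_of_nonneg (by positivity) fun e _ ↦ ?_
    rw [MvPolynomial.coeff_sub]
    by_cases he : e.degree < D
    · rw [hcoeff e he, coeff_truncTotal _ he, sub_self, zero_mul, norm_zero]
      positivity
    · rw [coeff_truncTotal_eq_zero _ (not_lt.mp he), sub_zero, norm_mul]
      exact mul_le_mul (hbind g hgR e) ((norm_prod_pow_le (fun i ↦ norm_le_pi_norm x i) e).trans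
        (pow_le_pow_of_le_one (norm_nonneg _) hx (not_lt.mp he))) (norm_nonneg _) hC₂
  have h6 := hLip z w (hz.trans hR) hwR
  rw [← hQeval] at h6
  calc ‖MvPolynomial.eval z T - MvPolynomial.eval x U‖
      = ‖(MvPolynomial.eval z T - MvPolynomial.eval x Q)
          + (MvPolynomial.eval x Q - MvPolynomial.eval x U)‖ := by rw [sub_add_sub_cancel]
    _ ≤ C₁ * ‖fun s ↦ z s - w s‖ + C₂ * ‖x‖ ^ D := (norm_add_le _ _).trans (add_le_add h6 h5)
    _ ≤ _ := by
      rw [add_mul]
      exact add_le_add (mul_le_mul_of_nonneg_left (le_max_right _ _) hC₁)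
        (mul_le_mul_of_nonneg_left (le_max_left _ _) hC₂)

end norms

end Vale.Agent.P217
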