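import Mathlib.RingTheory.MvPowerSeries.Substitution
import Mathlib.RingTheory.MvPowerSeries.LinearTopology
import Mathlib.RingTheory.MvPowerSeries.Evaluation
import Mathlib.RingTheory.PowerSeries.Substitution

/-!
Evaluation of power series with coefficients in a complete linearly topologized ring.
-/

noncomputable section

open scoped MvPowerSeries.WithPiTopology Topology
open Filter

namespace Vale.Agent.P217

/-- A complete Hausdorff linearly topologized commutative ring. -/
class CLRing (R : Type*) [CommRing R] [UniformSpace R] : Prop extends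
  IsUniformAddGroup R, IsTopologicalRing R, IsLinearTopology R R, T2Space R, CompleteSpace R

variable {R S : Type*} [CommRing R] [UniformSpace R] [CLRing R]
  [CommRing S] [UniformSpace S] [CLRing S] {σ τ : Type*}

instance instCLRingMvPowerSeries : CLRing (MvPowerSeries σ R) where

/-- Topologically nilpotent points of affine space. -/
def IsSmall (a : σ → R) : Prop := ∀ i, IsTopologicallyNilpotent (a i)

omit [CLRing R] in
theorem IsSmall.hasEval [Finite σ] {a : σ → R} (ha : IsSmall a) : MvPowerSeries.HasEval a :=
  ⟨ha, by rw [cofinite_eq_bot]; exact tendsto_bot⟩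

/-- Evaluation of a power series at a small point. -/
def ev (f : MvPowerSeries σ R) (a : σ → R) : R := MvPowerSeries.eval₂ (RingHom.id R) a f

/-- Evaluation at a small point as a ring homomorphism. -/
def evHom [Finite σ] {a : σ → R} (ha : IsSmall a) : MvPowerSeries σ R →+* R :=
  MvPowerSeries.eval₂Hom (φ := RingHom.id R) continuous_id ha.hasEval

theorem evHom_apply [Finite σ] {a : σ → R} (ha : IsSmall a) (f : MvPowerSeries σ R) :
    evHom ha f = ev f a :=
  congr_fun (MvPowerSeries.coe_eval₂Hom (φ := RingHom.id R) continuous_id ha.hasEval) f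

section basic

variable [Finite σ] {a : σ → R} (ha : IsSmall a)
include ha

theorem ev_add (f g : MvPowerSeries σ R) : ev (f + g) a = ev f a + ev g a := by
  simp only [← evHom_apply ha, map_add]

theorem ev_sub (f g : MvPowerSeries σ R) : ev (f - g) a = ev f a - ev g a := by
  simp only [← evHom_apply ha, map_sub]

theorem ev_mul (f g : MvPowerSeries σ R) : ev (f * g) a = ev f a * ev g a := by
  simp only [← evHom_apply ha, map_mul]

theorem ev_pow (f : MvPowerSeries σ R) (k : ℕ) : ev (f ^ k) a = ev f a ^ k := by
  simp only [← evHom_apply ha, map_pow]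

theorem ev_zero : ev (0 : MvPowerSeries σ R) a = 0 := by
  simp only [← evHom_apply ha, map_zero]

theorem ev_sum {ι : Type*} (s : Finset ι) (f : ι → MvPowerSeries σ R) :
    ev (∑ i ∈ s, f i) a = ∑ i ∈ s, ev (f i) a := by
  simp only [← evHom_apply ha, map_sum]

theorem continuous_ev : Continuous fun f : MvPowerSeries σ R ↦ ev f a :=
  MvPowerSeries.continuous_eval₂ (φ := RingHom.id R) continuous_id ha.hasEval

theorem hasSum_ev (f : MvPowerSeries σ R) :
    HasSum (fun d : σ →₀ ℕ ↦ MvPowerSeries.coeff d f * d.prod fun s e ↦ a s ^ e) (ev f a) :=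
  MvPowerSeries.hasSum_eval₂ (φ := RingHom.id R) continuous_id ha.hasEval f

theorem ev_unique {ε : MvPowerSeries σ R → R} (hε : Continuous ε)
    (h : ∀ P : MvPolynomial σ R, ε P = MvPolynomial.eval a P) (f : MvPowerSeries σ R) :
    ε f = ev f a :=
  congr_fun (MvPowerSeries.eval₂_unique (φ := RingHom.id R) continuous_id ha.hasEval hε h) f

end basic

omit [CLRing R] in
@[simp]
theorem ev_X (a : σ → R) (i : σ) : ev (MvPowerSeries.X i) a = a i :=
  MvPowerSeries.eval₂_X _ _ _

omit [CLRing R] in
@[simp]
theorem ev_C (a : σ → R) (r : R) : ev (MvPowerSeries.C r) a = r :=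
  MvPowerSeries.eval₂_C _ _ _

omit [CLRing R] in
theorem ev_coe (a : σ → R) (P : MvPolynomial σ R) :
    ev (P : MvPowerSeries σ R) a = MvPolynomial.eval a P :=
  MvPowerSeries.eval₂_coe _ _ P

/-- A continuous ring map commutes with evaluation. -/
theorem map_ev [Finite σ] {a : σ → R} (ha : IsSmall a) {φ : R →+* S} (hφ : Continuous φ)
    (f : MvPowerSeries σ R) :
    φ (ev f a) = ev (MvPowerSeries.map φ f) (φ ∘ a) := by
  have hb : IsSmall (φ ∘ a) := fun i ↦ (ha i).map hφ
  have h1 := (hasSum_ev ha f).map φ hφ
  have h2 := hasSum_ev hb (MvPowerSeries.map φ f)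
  refine h1.unique ?_
  convert h2 using 1
  funext d
  simp [map_finsuppProd]

/-- The topologically nilpotent elements form a closed set. -/
theorem isClosed_topNilpotent : IsClosed {x : R | IsTopologicallyNilpotent x} := by
  refine isClosed_of_closure_subset fun x hx ↦ ?_
  refine (IsLinearTopology.hasBasis_open_ideal (R := R)).tendsto_right_iff.mpr ?_
  intro I hI
  have hopen : IsOpen {z : R | z - x ∈ I} :=
    hI.preimage (continuous_id.sub continuous_const)
  obtain ⟨y, hy, hy'⟩ := mem_closure_iff.mp hx _ hopen (by simp)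
  have hI' : (I : Set R) ∈ 𝓝 (0 : R) := hI.mem_nhds I.zero_mem
  obtain ⟨N, hN⟩ := IsTopologicallyNilpotent.exists_pow_mem_of_mem_nhds hy' hI'
  refine eventually_atTop.mpr ⟨N, fun m hm ↦ ?_⟩
  have h1 : y ^ m ∈ I := by
    rw [← Nat.sub_add_cancel hm, pow_add]
    exact I.mul_mem_left _ hN
  obtain ⟨c, hc⟩ := sub_dvd_pow_sub_pow x y m
  have h2 : x ^ m - y ^ m ∈ I := by
    rw [hc]
    exact I.mul_mem_right _ (by simpa using I.neg_mem hy)
  simpa using I.add_mem h2 h1

/-- Evaluation of a series with small constant term is small. -/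
theorem ev_small [Finite σ] {a : σ → R} (ha : IsSmall a) {f : MvPowerSeries σ R}
    (hf : IsTopologicallyNilpotent (MvPowerSeries.constantCoeff f)) :
    IsTopologicallyNilpotent (ev f a) := by
  classical
  refine isClosed_topNilpotent.mem_of_tendsto (hasSum_ev ha f) (Eventually.of_forall fun s ↦ ?_)
  refine Finset.sum_induction _ IsTopologicallyNilpotent (fun x y ↦ IsTopologicallyNilpotent.add)
    IsTopologicallyNilpotent.zero fun d _ ↦ ?_
  by_cases hd : d = 0
  · subst hd; simpa [Finsupp.prod_zero_index] using hf
  · obtain ⟨i, hi⟩ := Finsupp.support_nonempty_iff.mpr hd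
    refine IsTopologicallyNilpotent.mul_left _ ?_
    rw [Finsupp.prod, ← Finset.mul_prod_erase _ _ hi]
    refine IsTopologicallyNilpotent.mul_right ?_ _
    obtain ⟨k, hk⟩ : ∃ k, d i = k + 1 :=
      ⟨d i - 1, by have := Finsupp.mem_support_iff.mp hi; omega⟩
    rw [hk, pow_succ']
    exact (ha i).mul_right _

theorem continuous_subst_of_finite [Finite σ] [Finite τ] {b : σ → MvPowerSeries τ R}
    (hb : ∀ i, MvPowerSeries.constantCoeff (b i) = 0) :
    Continuous fun f : MvPowerSeries σ R ↦ MvPowerSeries.subst b f := by
  classical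
  have := Fintype.ofFinite σ
  have hs := MvPowerSeries.hasSubst_of_constantCoeff_zero hb
  refine continuous_pi fun e ↦ ?_
  have key : ∀ f : MvPowerSeries σ R, MvPowerSeries.coeff e (MvPowerSeries.subst b f) =
      ∑ d ∈ (Finset.range (e.degree + 1)).biUnion
          (fun m ↦ Finset.finsuppAntidiag (Finset.univ : Finset σ) m),
        MvPowerSeries.coeff d f * MvPowerSeries.coeff e (d.prod fun s k ↦ b s ^ k) := by
    intro f
    rw [MvPowerSeries.coeff_subst hs, finsum_eq_sum_of_support_subset]
    · rfl
    · intro d hd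
      simp only [Function.mem_support, smul_eq_mul] at hd
      have hlt : d.degree ≤ e.degree := by
        by_contra hcon
        push Not at hcon
        refine hd (mul_eq_zero_of_right _ (MvPowerSeries.coeff_of_lt_order ?_))
        have h1 : ∀ (x : σ) (k : ℕ), (k : ℕ∞) ≤ (b x ^ k).order := fun x k ↦ by
          refine le_trans ?_ (MvPowerSeries.le_order_pow k)
          rw [nsmul_eq_mul]
          have : (1 : ℕ∞) ≤ (b x).order :=
            MvPowerSeries.one_le_order_iff_constCoeff_eq_zero.mpr (hb x)
          calc (k : ℕ∞) = k * 1 := (mul_one _).symm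
            _ ≤ k * (b x).order := by gcongr
        have h2 : (d.degree : ℕ∞) ≤ (d.prod fun s k ↦ b s ^ k).order := by
          refine le_trans ?_ (MvPowerSeries.le_order_prod _ _)
          rw [Finsupp.degree_apply]
          push_cast
          exact Finset.sum_le_sum fun x _ ↦ h1 x (d x)
        exact lt_of_lt_of_le (by exact_mod_cast hcon) h2
      simp only [Finset.coe_biUnion, Finset.coe_range, Set.mem_iUnion, Finset.mem_coe,
        Finset.mem_finsuppAntidiag]
      refine ⟨d.degree, by simpa [Nat.lt_succ_iff] using hlt, ?_, by simp⟩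
      rw [Finsupp.degree_apply]
      exact (Finset.sum_subset (Finset.subset_univ _) (by simp)).symm
  show Continuous fun f ↦ MvPowerSeries.coeff e (MvPowerSeries.subst b f)
  simp only [key]
  exact continuous_finsetSum _ fun d _ ↦
    (MvPowerSeries.WithPiTopology.continuous_coeff R d).mul continuous_const

/-- Evaluation turns substitution into composition. -/
theorem ev_subst [Finite σ] [Finite τ] {b : σ → MvPowerSeries τ R}
    (hb : ∀ i, MvPowerSeries.constantCoeff (b i) = 0) {a : τ → R} (ha : IsSmall a)
    (f : MvPowerSeries σ R) :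
    ev (MvPowerSeries.subst b f) a = ev f fun i ↦ ev (b i) a := by
  have hsmall : IsSmall fun i ↦ ev (b i) a := fun i ↦
    ev_small ha (by rw [hb i]; exact IsTopologicallyNilpotent.zero)
  refine ev_unique hsmall ((continuous_ev ha).comp (continuous_subst_of_finite hb)) (fun P ↦ ?_) f
  simp only [Function.comp_apply]
  rw [MvPowerSeries.subst_coe, ← evHom_apply ha, MvPolynomial.aeval_def,
    MvPolynomial.hom_eval₂]
  simp only [Function.comp_def, evHom_apply]
  rw [MvPolynomial.eval]
  simp only [MvPolynomial.coe_eval₂Hom]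
  congr 1
  ext r
  simp [evHom_apply, MvPowerSeries.algebraMap_apply]

end Vale.Agent.P217
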