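import Mathlib.RingTheory.MvPowerSeries.Expand
import Mathlib.RingTheory.PowerSeries.Substitution
import Mathlib.RingTheory.MvPowerSeries.Order
import Mathlib.Algebra.CharP.Quotient
import Mathlib.Algebra.CharP.Lemmas
import Mathlib.NumberTheory.Basic
import Mathlib.Algebra.Field.Subfield.Basic

/-!
The functional equation lemma (Hazewinkel) in one variable of arbitrary source.
-/

noncomputable section

open MvPowerSeries Finset

namespace Vale.Agent.P217

/-- Data of a functional equation: a subring of integers, a Frobenius lift and parameters,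
and a series `L` satisfying `L(X) = X + ∑ (u i / p) σ^i L (X^(p^i))`. -/
structure FESetting (p : ℕ) (K : Type*) [Field K] where
  A : Subring K
  nonunit : (p : A) ∈ nonunits A
  σ : K →+* K
  σ_mem : ∀ a ∈ A, σ a ∈ A
  frob : ∀ a ∈ A, ∃ b ∈ A, σ a = a ^ p + p * b
  u : ℕ → K
  u_mem : ∀ i, u i ∈ A
  L : PowerSeries K
  L_zero : PowerSeries.constantCoeff L = 0
  L_one : PowerSeries.coeff 1 L = 1
  L_typ : ∀ m, (∀ k, m ≠ p ^ k) → PowerSeries.coeff m L = 0
  fe : ∀ k, (p : K) * PowerSeries.coeff (p ^ (k + 1)) L =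
    ∑ i ∈ range (k + 1), u (i + 1) * (σ ^ (i + 1)) (PowerSeries.coeff (p ^ (k - i)) L)

namespace FESetting

variable {p : ℕ} [hp : Fact p.Prime] {K : Type*} [Field K] (S : FESetting p K) {τ : Type*}

omit hp in
theorem σ_pow_mem (i : ℕ) {a : K} (ha : a ∈ S.A) : (S.σ ^ i) a ∈ S.A := by
  induction i with
  | zero => simpa using ha
  | succ k ih => rw [pow_succ']; exact S.σ_mem _ ih

/-- `σ` restricted to the integers. -/
def σA : S.A →+* S.A := S.σ.restrict S.A S.A S.σ_mem

omit hp in
theorem den (k : ℕ) : (p : K) ^ k * PowerSeries.coeff (p ^ k) S.L ∈ S.A := by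
  induction k using Nat.strong_induction_on with
  | _ k ih =>
    rcases k with _ | k
    · simp [S.L_one, S.A.one_mem]
    · rw [pow_succ, mul_assoc, S.fe, mul_sum]
      refine S.A.sum_mem fun i hi ↦ ?_
      have hi' : i ≤ k := by simpa [Nat.lt_succ_iff] using hi
      have h1 : (p : K) ^ i * (S.u (i + 1) * (S.σ ^ (i + 1))
          ((p : K) ^ (k - i) * PowerSeries.coeff (p ^ (k - i)) S.L)) ∈ S.A :=
        S.A.mul_mem (pow_mem (natCast_mem S.A p) _)
          (S.A.mul_mem (S.u_mem _) (S.σ_pow_mem _ (ih _ (by omega))))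
      convert h1 using 1
      rw [map_mul, map_pow, map_natCast]
      calc (p : K) ^ k * (S.u (i + 1) * (S.σ ^ (i + 1)) (PowerSeries.coeff (p ^ (k - i)) S.L))
          = (p : K) ^ (i + (k - i)) *
            (S.u (i + 1) * (S.σ ^ (i + 1)) (PowerSeries.coeff (p ^ (k - i)) S.L)) := by
            rw [Nat.add_sub_cancel' hi']
        _ = _ := by ring

omit hp in
theorem σA_pow_coe (i : ℕ) (a : S.A) : ((S.σA ^ i) a : K) = (S.σ ^ i) a := by
  induction i generalizing a with
  | zero => simp
  | succ l ih => rw [pow_succ, pow_succ, RingHom.coe_mul, RingHom.coe_mul, Function.comp_apply,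
      Function.comp_apply, ih]; rfl

/-- `f ↦ σ^i_* f (X^(p^i))`. -/
def twist (i : ℕ) : MvPowerSeries τ K →+* MvPowerSeries τ K :=
  (expand (p ^ i) (pow_ne_zero i hp.out.ne_zero)).toRingHom.comp (MvPowerSeries.map (S.σ ^ i))

theorem twist_congr (i : ℕ) (g : MvPowerSeries τ S.A) :
    ∃ r : MvPowerSeries τ S.A, MvPowerSeries.map S.A.subtype g ^ p ^ i -
      S.twist i (MvPowerSeries.map S.A.subtype g) = (p : MvPowerSeries τ K) *
        MvPowerSeries.map S.A.subtype r := by
  classical
  let I : Ideal S.A := Ideal.span {(p : S.A)}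
  let π : S.A →+* S.A ⧸ I := Ideal.Quotient.mk I
  have : CharP (S.A ⧸ I) p := CharP.quotient S.A p S.nonunit
  have hfrob : ∀ a : S.A, π (S.σA a) = π a ^ p := by
    intro a
    obtain ⟨b, hb, hab⟩ := S.frob a a.2
    rw [← map_pow, Ideal.Quotient.eq, Ideal.mem_span_singleton]
    refine ⟨⟨b, hb⟩, ?_⟩
    apply Subtype.ext
    simp [σA, hab]
  have hfrob' : ∀ (j : ℕ) (a : S.A), π ((S.σA ^ j) a) = π a ^ p ^ j := by
    intro j
    induction j with
    | zero => simp
    | succ j ih =>
      intro a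
      rw [pow_succ', RingHom.coe_mul, Function.comp_apply, hfrob, ih, ← pow_mul, ← pow_succ]
  have key : MvPowerSeries.map π (g ^ p ^ i) = MvPowerSeries.map π
      (expand (p ^ i) (pow_ne_zero i hp.out.ne_zero) (MvPowerSeries.map (S.σA ^ i) g)) := by
    rw [map_pow, ← map_iterateFrobenius_expand p hp.out.ne_zero, map_expand, map_expand]
    congr 1
    ext d
    simp [iterateFrobenius_def, -RingHom.coe_pow, hfrob']
  have hdvd : ∀ d, (p : S.A) ∣ MvPowerSeries.coeff d (g ^ p ^ i -
      expand (p ^ i) (pow_ne_zero i hp.out.ne_zero) (MvPowerSeries.map (S.σA ^ i) g)) := by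
    intro d
    rw [← Ideal.mem_span_singleton, ← Ideal.Quotient.eq_zero_iff_mem]
    have := congr_arg (MvPowerSeries.coeff d) key
    simp only [MvPowerSeries.coeff_map] at this
    rw [map_sub, map_sub, sub_eq_zero]
    exact this
  choose r hr using hdvd
  let rS : MvPowerSeries τ S.A := fun d ↦ r d
  refine ⟨rS, ?_⟩
  have e1 : g ^ p ^ i - expand (p ^ i) (pow_ne_zero i hp.out.ne_zero)
      (MvPowerSeries.map (S.σA ^ i) g) = (p : MvPowerSeries τ S.A) * rS := by
    ext1 d
    rw [hr d, ← map_natCast (MvPowerSeries.C (σ := τ) (R := S.A)), MvPowerSeries.coeff_C_mul]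
    rfl
  have e2 := congr_arg (MvPowerSeries.map S.A.subtype) e1
  rw [map_sub, map_pow, map_mul, map_natCast, map_expand] at e2
  rw [← e2]
  congr 1
  simp only [twist, RingHom.coe_comp, Function.comp_apply]
  show expand _ _ _ = expand _ _ _
  congr 1
  ext d
  simp [σA_pow_coe, -RingHom.coe_pow]

omit hp in
theorem coeff_pow_congr {f g : MvPowerSeries τ K} (hf : constantCoeff f = 0)
    (hg : constantCoeff g = 0) {N : ℕ} (h : ∀ d, d.degree < N → coeff d f = coeff d g)
    {m : ℕ} (hm : 2 ≤ m) (d : τ →₀ ℕ) (hd : d.degree ≤ N) :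
    coeff d (f ^ m) = coeff d (g ^ m) := by
  have h0 : coeff d (f ^ m - g ^ m) = 0 := by
    rw [← (Commute.all f g).geom_sum₂_mul]
    refine coeff_of_lt_order (lt_of_lt_of_le ?_ le_order_mul)
    have h1 : (1 : ℕ∞) ≤ (∑ i ∈ range m, f ^ i * g ^ (m - 1 - i)).order := by
      rw [one_le_order_iff_constCoeff_eq_zero, map_sum]
      refine sum_eq_zero fun i hi ↦ ?_
      rw [map_mul, map_pow, map_pow, hf, hg]
      rcases Nat.eq_zero_or_pos i with rfl | hi'
      · rw [zero_pow (by omega : m - 1 - 0 ≠ 0), mul_zero]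
      · rw [zero_pow hi'.ne', zero_mul]
    have h2 : (N : ℕ∞) ≤ (f - g).order := le_order fun e he ↦ by
      rw [map_sub, sub_eq_zero]; exact h e (by exact_mod_cast he)
    calc (d.degree : ℕ∞) < (1 : ℕ∞) + N := by
          have : d.degree < 1 + N := by omega
          exact_mod_cast this
      _ ≤ _ := add_le_add h1 h2
  rwa [map_sub, sub_eq_zero] at h0

omit hp in
theorem coeff_pow_eq_zero {f : MvPowerSeries τ K} (hf : constantCoeff f = 0) {m : ℕ}
    {d : τ →₀ ℕ} (hd : d.degree < m) : coeff d (f ^ m) = 0 := by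
  refine coeff_of_lt_order (lt_of_lt_of_le (b := (m : ℕ∞)) (by exact_mod_cast hd) ?_)
  exact le_order_pow_of_constantCoeff_eq_zero m hf

/-- A coefficient of `f(a)` only involves the coefficients of index `≤` its degree. -/
theorem coeff_subst_eq_sum (f : PowerSeries K) (_hf : PowerSeries.constantCoeff f = 0)
    (htyp : ∀ m, (∀ k, m ≠ p ^ k) → PowerSeries.coeff m f = 0) {a : MvPowerSeries τ K}
    (ha : constantCoeff a = 0) {d : τ →₀ ℕ} {N : ℕ} (hd : d.degree ≤ N) :
    coeff d (PowerSeries.subst a f) =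
      ∑ k ∈ range (N + 1), PowerSeries.coeff (p ^ k) f * coeff d (a ^ p ^ k) := by
  classical
  rw [PowerSeries.coeff_subst (PowerSeries.HasSubst.of_constantCoeff_zero ha)]
  have himage : ∀ k ∈ range (N + 1), ∀ l ∈ range (N + 1), p ^ k = p ^ l → k = l :=
    fun k _ l _ h ↦ Nat.pow_right_injective hp.out.two_le h
  rw [finsum_eq_sum_of_support_subset _ (s := (range (N + 1)).image fun k ↦ p ^ k),
    sum_image himage]
  · simp [smul_eq_mul]
  · intro m hm
    simp only [Function.mem_support, smul_eq_mul, ne_eq, mul_eq_zero, not_or] at hm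
    obtain ⟨h1, h2⟩ := hm
    obtain ⟨k, rfl⟩ : ∃ k, m = p ^ k := by
      by_contra hcon
      push Not at hcon
      exact h1 (htyp m hcon)
    have hk : p ^ k ≤ N := by
      by_contra hcon
      exact h2 (coeff_pow_eq_zero ha (by omega))
    have hkN : k < N + 1 := by
      have := Nat.lt_pow_self (n := k) hp.out.one_lt
      omega
    exact mem_coe.mpr (mem_image.mpr ⟨k, mem_range.mpr hkN, rfl⟩)

/-- The operator `f ↦ p f - ∑ u i σ^i f (X^(p^i))` in degrees at most `N`. -/
def op (N : ℕ) (f : MvPowerSeries τ K) : MvPowerSeries τ K :=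
  (p : MvPowerSeries τ K) * f -
    ∑ i ∈ range N, MvPowerSeries.C (S.u (i + 1)) * S.twist (i + 1) f

theorem key_congr {G : MvPowerSeries τ K} (hG : constantCoeff G = 0) {N : ℕ}
    (hint : ∀ d, d.degree < N → coeff d G ∈ S.A) {d : τ →₀ ℕ} (hd : d.degree ≤ N) :
    ∃ b ∈ S.A, coeff d (S.op N (PowerSeries.subst G S.L)) - (p : K) * coeff d G = (p : K) * b := by
  classical
  let gA : MvPowerSeries τ S.A := fun e ↦
    if h : e.degree < N then ⟨coeff e G, hint e h⟩ else 0
  let g := MvPowerSeries.map S.A.subtype gA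
  have hgG : ∀ e, e.degree < N → coeff e G = coeff e g := by
    intro e he
    show coeff e G = coeff e (MvPowerSeries.map S.A.subtype gA)
    rw [MvPowerSeries.coeff_map]
    have : MvPowerSeries.coeff e gA = ⟨coeff e G, hint e he⟩ := by
      show gA e = _
      simp [gA, he]
    rw [this]
    rfl
  have hg0 : constantCoeff g = 0 := by
    rcases Nat.eq_zero_or_pos N with rfl | hN
    · rw [← MvPowerSeries.coeff_zero_eq_constantCoeff_apply]
      show coeff 0 (MvPowerSeries.map S.A.subtype gA) = 0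
      rw [MvPowerSeries.coeff_map]
      have : MvPowerSeries.coeff 0 gA = 0 := by
        show gA 0 = _
        simp [gA]
      rw [this, map_zero]
    · rw [← coeff_zero_eq_constantCoeff_apply, ← hgG 0 (by simpa using hN),
        coeff_zero_eq_constantCoeff_apply, hG]
  have htw : ∀ i j, coeff d ((S.twist (i + 1) G) ^ p ^ j) =
      coeff d ((S.twist (i + 1) g) ^ p ^ j) := by
    intro i j
    have hP : 2 ≤ p ^ (i + 1) := le_trans hp.out.two_le (Nat.le_self_pow (by omega) p)
    rw [← map_pow, ← map_pow]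
    simp only [twist, RingHom.coe_comp, Function.comp_apply]
    show coeff d (expand _ _ _) = coeff d (expand _ _ _)
    by_cases hdiv : ∀ s, p ^ (i + 1) ∣ d s
    · obtain ⟨e, rfl⟩ : ∃ e, d = p ^ (i + 1) • e :=
        ⟨d.mapRange (· / p ^ (i + 1)) (by simp), by
          ext s; simp [Nat.mul_div_cancel' (hdiv s)]⟩
      rw [coeff_expand_smul, coeff_expand_smul, MvPowerSeries.coeff_map, MvPowerSeries.coeff_map]
      congr 1
      rw [map_nsmul, smul_eq_mul] at hd
      rcases Nat.eq_zero_or_pos e.degree with he | he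
      · rw [Finsupp.degree_eq_zero_iff] at he
        subst he
        simp [coeff_zero_eq_constantCoeff_apply, hG, hg0]
      · have hlt : e.degree < N := by
          calc e.degree < 2 * e.degree := by omega
            _ ≤ p ^ (i + 1) * e.degree := Nat.mul_le_mul_right _ hP
            _ ≤ N := hd
        rcases Nat.lt_or_ge (p ^ j) 2 with hj | hj
        · have : p ^ j = 1 := by have := pow_pos hp.out.pos j; omega
          simp [this, hgG e hlt]
        · exact coeff_pow_congr hG hg0 hgG hj e (by omega)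
    · push Not at hdiv
      obtain ⟨s, hs⟩ := hdiv
      rw [coeff_expand_of_not_dvd _ _ _ hs, coeff_expand_of_not_dvd _ _ _ hs]
  have hpow : ∀ i j, coeff d (G ^ p ^ (i + 1 + j)) = coeff d (g ^ p ^ (i + 1 + j)) := fun i j ↦
    coeff_pow_congr hG hg0 hgG (le_trans hp.out.two_le (Nat.le_self_pow (by omega) p)) d hd
  have hdiff : ∀ i j, ∃ b ∈ S.A, S.u (i + 1) * (S.σ ^ (i + 1)) (PowerSeries.coeff (p ^ j) S.L) *
      (coeff d (G ^ p ^ (i + 1 + j)) - coeff d ((S.twist (i + 1) G) ^ p ^ j)) = (p : K) * b := by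
    intro i j
    rw [htw, hpow, show g ^ p ^ (i + 1 + j) = (g ^ p ^ (i + 1)) ^ p ^ j by rw [← pow_mul, ← pow_add]]
    obtain ⟨r, hr⟩ := S.twist_congr (i + 1) gA
    let hA : MvPowerSeries τ S.A :=
      expand (p ^ (i + 1)) (pow_ne_zero _ hp.out.ne_zero) (MvPowerSeries.map (S.σA ^ (i + 1)) gA)
    have hh : MvPowerSeries.map S.A.subtype hA = S.twist (i + 1) g := by
      simp only [hA, g, twist, RingHom.coe_comp, Function.comp_apply, map_expand]
      show expand _ _ _ = expand _ _ _
      congr 1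
      ext e
      simp [σA_pow_coe, -RingHom.coe_pow]
    have hdvd : (p : MvPowerSeries τ S.A) ∣ gA ^ p ^ (i + 1) - hA := by
      refine ⟨r, ?_⟩
      have h2 : MvPowerSeries.map S.A.subtype (gA ^ p ^ (i + 1) - hA) =
          MvPowerSeries.map S.A.subtype ((p : MvPowerSeries τ S.A) * r) := by
        rw [map_sub, map_pow, hh, map_mul, map_natCast]
        exact hr
      ext1 e
      have := congr_arg (MvPowerSeries.coeff e) h2
      rw [MvPowerSeries.coeff_map, MvPowerSeries.coeff_map] at this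
      exact Subtype.val_injective this
    obtain ⟨w, hw⟩ := dvd_sub_pow_of_dvd_sub hdvd j
    refine ⟨S.u (i + 1) * (S.σ ^ (i + 1)) ((p : K) ^ j * PowerSeries.coeff (p ^ j) S.L) *
      coeff d (MvPowerSeries.map S.A.subtype w), S.A.mul_mem (S.A.mul_mem (S.u_mem _)
        (S.σ_pow_mem _ (S.den j))) ?_, ?_⟩
    · rw [MvPowerSeries.coeff_map]; exact (MvPowerSeries.coeff d w).2
    · have e := congr_arg (MvPowerSeries.map S.A.subtype) hw
      rw [map_sub, map_pow, map_pow, map_pow, hh, map_mul, map_pow, map_natCast] at e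
      rw [← map_sub (coeff d), e, ← map_natCast (MvPowerSeries.C (σ := τ) (R := K)), ← map_pow,
        coeff_C_mul]
      simp only [map_mul, map_pow, map_natCast]
      ring
  choose b hb hbeq using hdiff
  refine ⟨∑ q ∈ (range N ×ˢ range (N + 1)), b q.1 q.2, S.A.sum_mem fun q _ ↦ hb _ _, ?_⟩
  have hsubst : ∀ i, coeff d (S.twist (i + 1) (PowerSeries.subst G S.L)) =
      ∑ j ∈ range (N + 1), (S.σ ^ (i + 1)) (PowerSeries.coeff (p ^ j) S.L) *
        coeff d ((S.twist (i + 1) G) ^ p ^ j) := by
    intro i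
    simp only [twist, RingHom.coe_comp, Function.comp_apply]
    show coeff d (expand _ _ _) = ∑ j ∈ range (N + 1), _ * coeff d ((expand _ _ _) ^ _)
    simp only [← map_pow]
    by_cases hdiv : ∀ s, p ^ (i + 1) ∣ d s
    · obtain ⟨e, rfl⟩ : ∃ e, d = p ^ (i + 1) • e :=
        ⟨d.mapRange (· / p ^ (i + 1)) (by simp), by
          ext s; simp [Nat.mul_div_cancel' (hdiv s)]⟩
      have hed : e.degree ≤ N := by
        refine le_trans ?_ hd
        rw [map_nsmul, smul_eq_mul]
        exact Nat.le_mul_of_pos_left _ (pow_pos hp.out.pos _)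
      simp only [coeff_expand_smul, MvPowerSeries.coeff_map]
      rw [coeff_subst_eq_sum S.L S.L_zero S.L_typ hG hed, map_sum]
      simp [map_mul]
    · push Not at hdiv
      obtain ⟨s, hs⟩ := hdiv
      rw [coeff_expand_of_not_dvd _ _ _ hs]
      refine (sum_eq_zero fun x _ ↦ ?_).symm
      rw [coeff_expand_of_not_dvd _ _ _ hs, mul_zero]
  have hL : (p : K) * coeff d (PowerSeries.subst G S.L) = (p : K) * coeff d G +
      ∑ k ∈ range N, ∑ i ∈ range (k + 1), S.u (i + 1) *
        (S.σ ^ (i + 1)) (PowerSeries.coeff (p ^ (k - i)) S.L) * coeff d (G ^ p ^ (k + 1)) := by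
    rw [coeff_subst_eq_sum S.L S.L_zero S.L_typ hG hd, mul_sum, sum_range_succ', add_comm]
    congr 1
    · simp [S.L_one]
    · refine sum_congr rfl fun k _ ↦ ?_
      rw [← mul_assoc, S.fe, sum_mul]
  rw [op, map_sub, ← map_natCast (MvPowerSeries.C (σ := τ) (R := K)), coeff_C_mul, hL, map_sum]
  simp only [coeff_C_mul, hsubst, mul_sum, sum_product]
  rw [← sum_congr rfl fun i _ ↦ sum_congr rfl fun j _ ↦ (hbeq i j)]
  simp only [mul_sub, sum_sub_distrib, mul_assoc]
  have hre : ∑ k ∈ range N, ∑ i ∈ range (k + 1), S.u (i + 1) *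
        ((S.σ ^ (i + 1)) (PowerSeries.coeff (p ^ (k - i)) S.L) * coeff d (G ^ p ^ (k + 1))) =
      ∑ i ∈ range N, ∑ j ∈ range (N + 1), S.u (i + 1) *
        ((S.σ ^ (i + 1)) (PowerSeries.coeff (p ^ j) S.L) * coeff d (G ^ p ^ (i + 1 + j))) := by
    rw [sum_sigma', sum_sigma']
    refine sum_bij_ne_zero (fun q _ _ ↦ ⟨q.2, q.1 - q.2⟩) ?_ ?_ ?_ ?_
    · intro q hq _
      simp only [mem_sigma, mem_range] at hq ⊢
      omega
    · intro q hq _ q' hq' _ he
      simp only [mem_sigma, mem_range] at hq hq'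
      obtain ⟨a, b⟩ := q
      obtain ⟨a', b'⟩ := q'
      simp only [Sigma.mk.inj_iff, heq_eq_eq] at he
      simp only at hq hq'
      obtain ⟨he1, he2⟩ := he
      subst he1
      have : a = a' := by omega
      subst this
      rfl
    · rintro ⟨i, j⟩ hq hne
      simp only [mem_sigma, mem_range] at hq
      have hle : i + j < N := by
        by_contra hcon
        apply hne
        rw [coeff_pow_eq_zero hG, mul_zero, mul_zero]
        calc d.degree ≤ N := hd
          _ < i + 1 + j := by omega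
          _ < p ^ (i + 1 + j) := Nat.lt_pow_self hp.out.one_lt
      refine ⟨⟨i + j, i⟩, by simp only [mem_sigma, mem_range]; omega, ?_, by
        simp⟩
      simp only [Nat.add_sub_cancel_left]
      rw [show i + j + 1 = i + 1 + j by ring]
      exact hne
    · rintro ⟨k, i⟩ hq _
      simp only [mem_sigma, mem_range] at hq
      rw [show i + 1 + (k - i) = k + 1 by omega]
  rw [hre]
  ring

/-- The functional equation lemma. -/
theorem integral {G : MvPowerSeries τ K} (hp0 : (p : K) ≠ 0) (hG : constantCoeff G = 0)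
    (h : ∀ d : τ →₀ ℕ, ∃ b ∈ S.A,
      coeff d (S.op d.degree (PowerSeries.subst G S.L)) = (p : K) * b) :
    ∀ d, coeff d G ∈ S.A := by
  suffices ∀ N, ∀ d : τ →₀ ℕ, d.degree = N → coeff d G ∈ S.A from fun d ↦ this _ d rfl
  intro N
  induction N using Nat.strong_induction_on with
  | _ N ih =>
    intro d hd
    obtain ⟨b, hb, hbe⟩ := S.key_congr hG (fun e he ↦ ih _ he e rfl) (le_of_eq hd)
    obtain ⟨c, hc, hce⟩ := h d
    rw [hd] at hce
    have : coeff d G = c - b := by
      apply mul_left_cancel₀ hp0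
      rw [mul_sub, ← hce, ← hbe]
      ring
    rw [this]
    exact S.A.sub_mem hc hb

end FESetting

end Vale.Agent.P217
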