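import Vale.Agent.P217.GermSeries
import Vale.Agent.P217.Estimates

/-!
The bound on the transformed series at the powers of the orbit coordinates.
-/

noncomputable section

open MvPowerSeries Finset Filter
open scoped MvPowerSeries.WithPiTopology Topology

namespace Vale.Agent.P217

namespace Germ

section tools

variable {Ω : Type*} [NontriviallyNormedField Ω] [IsUltrametricDist Ω] {σ : Type*} [Fintype σ]

/-- A truncation supported on the powers of one variable. -/
theorem truncTotal_eq_sum_single {R : Type*} [CommRing R] (o : σ) (f : MvPowerSeries σ R) (D : ℕ)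
    (h : ∀ e : σ →₀ ℕ, e.degree < D → e ≠ Finsupp.single o (e o) → coeff e f = 0) :
    MvPowerSeries.truncTotal D f =
      ∑ m ∈ range D, MvPolynomial.monomial (Finsupp.single o m) (coeff (Finsupp.single o m) f) := by
  classical
  ext e
  rw [MvPolynomial.coeff_sum]
  simp only [MvPolynomial.coeff_monomial]
  by_cases he : e.degree < D
  · rw [MvPowerSeries.coeff_truncTotal f he]
    by_cases hs : e = Finsupp.single o (e o)
    · have hm : e o < D := by
        rw [hs, Finsupp.degree_single] at he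
        exact he
      rw [sum_eq_single (e o)]
      · rw [if_pos hs.symm, ← hs]
      · intro m _ hm'
        rw [if_neg]
        intro hse
        exact hm' (by rw [← hse, Finsupp.single_eq_same])
      · intro hn
        exact absurd (mem_range.mpr hm) hn
    · rw [h e he hs]
      refine (sum_eq_zero fun m _ ↦ if_neg ?_).symm
      intro hse
      exact hs (by rw [← hse, Finsupp.single_eq_same])
  · rw [MvPowerSeries.coeff_truncTotal_eq_zero f (not_lt.mp he)]
    refine (sum_eq_zero fun m hm ↦ if_neg ?_).symm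
    intro hse
    apply he
    rw [← hse, Finsupp.degree_single]
    exact mem_range.mp hm

theorem eval_sum_single {R : Type*} [CommRing R] (o : σ) (c : ℕ → R) (D : ℕ) (x : σ → R) :
    MvPolynomial.eval x (∑ m ∈ range D, MvPolynomial.monomial (Finsupp.single o m) (c m)) =
      ∑ m ∈ range D, c m * x o ^ m := by
  rw [map_sum]
  refine sum_congr rfl fun m _ ↦ ?_
  rw [MvPolynomial.eval_monomial, Finsupp.prod_single_index (h := fun i k ↦ x i ^ k) (pow_zero _)]

/-- Bound for a polynomial without terms below degree `D`. -/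
theorem norm_eval_le_of_low (P : MvPolynomial σ Ω) (D : ℕ)
    (hP : ∀ e : σ →₀ ℕ, e.degree < D → P.coeff e = 0) :
    ∃ B : ℝ, 0 ≤ B ∧ ∀ z : σ → Ω, ‖z‖ ≤ 1 → ‖MvPolynomial.eval z P‖ ≤ B * ‖z‖ ^ D := by
  classical
  refine ⟨∑ e ∈ P.support, ‖P.coeff e‖, sum_nonneg fun _ _ ↦ norm_nonneg _, fun z hz ↦ ?_⟩
  rw [MvPolynomial.eval_eq, sum_mul]
  refine (norm_sum_le _ _).trans (sum_le_sum fun e _ ↦ ?_)
  rw [norm_mul]
  refine mul_le_mul_of_nonneg_left ?_ (norm_nonneg _)
  rcases lt_or_ge e.degree D with hd | hd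
  · rename_i he
    exact absurd (hP e hd) (MvPolynomial.mem_support_iff.mp he)
  · rw [norm_prod]
    calc (∏ i ∈ e.support, ‖z i ^ e i‖) ≤ ∏ i ∈ e.support, ‖z‖ ^ e i :=
          prod_le_prod (fun i _ ↦ norm_nonneg _) fun i _ ↦ by
            rw [norm_pow]; exact pow_le_pow_left₀ (norm_nonneg _) (norm_le_pi_norm z i) _
      _ = ‖z‖ ^ e.degree := by rw [prod_pow_eq_pow_sum, Finsupp.degree_apply]
      _ ≤ ‖z‖ ^ D := pow_le_pow_of_le_one (norm_nonneg _) hz hd

variable [CompleteSpace Ω]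

/-- Values of series all of whose terms contain a given variable. -/
theorem norm_ev_le_of_var (f : MvPowerSeries σ (intRing Ω)) (o : σ)
    (hf : ∀ e : σ →₀ ℕ, e o = 0 → coeff e f = 0) {a : σ → intRing Ω} (ha : IsSmall a) :
    ‖((ev f a : intRing Ω) : Ω)‖ ≤ ‖(a o : Ω)‖ := by
  classical
  have hclosed : IsClosed {x : intRing Ω | ‖(x : Ω)‖ ≤ ‖(a o : Ω)‖} :=
    isClosed_le (continuous_norm.comp continuous_subtype_val) continuous_const
  refine hclosed.mem_of_tendsto (hasSum_ev ha f) (Eventually.of_forall fun s ↦ ?_)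
  show ‖((∑ e ∈ s, _ : intRing Ω) : Ω)‖ ≤ ‖(a o : Ω)‖
  rw [AddSubmonoidClass.coe_finsetSum]
  refine IsUltrametricDist.norm_sum_le_of_forall_le_of_nonneg (norm_nonneg _) fun e _ ↦ ?_
  by_cases he : e o = 0
  · rw [hf e he, zero_mul, ZeroMemClass.coe_zero, norm_zero]
    exact norm_nonneg _
  · rw [MulMemClass.coe_mul, norm_mul, Finsupp.prod, ← mul_prod_erase _ _
      (Finsupp.mem_support_iff.mpr he), MulMemClass.coe_mul, norm_mul, SubmonoidClass.coe_pow,
      norm_pow]
    have h1 : ‖(a o : Ω)‖ ^ e o ≤ ‖(a o : Ω)‖ :=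
      pow_le_of_le_one (norm_nonneg _) (mem_intRing.mp (a o).2) he
    calc _ ≤ 1 * (‖(a o : Ω)‖ * 1) := by
          gcongr
          · exact mem_intRing.mp (Subtype.prop _)
          · exact mem_intRing.mp (Subtype.prop _)
      _ = _ := by ring

theorem norm_ev_unit_sub_sum (f : PowerSeries (intRing Ω)) (x : intRing Ω) (hx : ‖(x : Ω)‖ < 1)
    (D : ℕ) :
    ‖((ev f fun _ ↦ x : intRing Ω) : Ω) -
      ∑ m ∈ range D, ((PowerSeries.coeff m f : intRing Ω) : Ω) * (x : Ω) ^ m‖ ≤
        ‖(x : Ω)‖ ^ D := by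
  have h := norm_ev_sub_truncTotal_le f (a := fun _ : Unit ↦ x) (norm_nonneg (x : Ω)) hx
    (fun _ ↦ le_rfl) D
  rw [truncTotal_eq_sum_single (σ := Unit) () f D (fun e _ he ↦ absurd (Finsupp.ext fun u ↦ by
    simp) he), eval_sum_single, AddSubmonoidClass.coe_finsetSum] at h
  refine le_of_eq_of_le (congrArg (fun t ↦ ‖_ - t‖) (sum_congr rfl fun m _ ↦ ?_)) h
  rw [MulMemClass.coe_mul, SubmonoidClass.coe_pow]
  rfl

end tools

variable {p n h d : ℕ} [hp : Fact p.Prime]
  {Ω : Type} [NontriviallyNormedField Ω] [IsUltrametricDist Ω] [GoodField p Ω]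

theorem flatHom_eval (φ : Haz.A n →+* intRing Ω) {v : Fin d → intRing Ω} (hv : IsSmall v)
    (x : intRing Ω) (ha : IsSmall fun o : Option (Fin d) ↦ o.elim x v) :
    (evHom ha).comp (flatHom n h d φ) = (evHom hv).comp (shiftHom n h d φ) := by
  apply MvPolynomial.ringHom_ext
  · intro r; simp
  · intro i
    simp only [RingHom.comp_apply, flatHom, shiftHom, pointHom, MvPolynomial.eval₂Hom_X',
      flatPoint, shiftPoint, map_add, evHom_apply]
    rw [ev_C, ev_C]
    congr 1
    split_ifs with hi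
    · rw [ev_X, ev_X]; rfl
    · rw [ev_zero ha, ev_zero hv]

/-- The transformed series is tiny at the powers of the orbit coordinates. -/
theorem germ_bound (hh : 0 < h) (φ : Haz.A n →+* intRing Ω)
    (hlow : ∀ i, 0 < i → i < h → φ (Haz.uA n i) = 0)
    (ξ : Fin d → MvPowerSeries (Fin d) (intRing Ω)) (hξ0 : ∀ j, constantCoeff (ξ j) = 0)
    (hdet : (Matrix.of fun j i ↦
      ((coeff (Finsupp.single i 1) (ξ j) : intRing Ω) : Ω)).det ≠ 0)
    (hWle : ∀ x : intRing Ω, ‖(x : Ω)‖ < 1 → ∀ (v : Fin d → intRing Ω) (hv : IsSmall v),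
      ‖((prLim p n ((evHom hv).comp (shiftHom n h d φ)) x - prLim p n φ x : intRing Ω) : Ω)‖
        ≤ ‖fun i ↦ (v i : Ω)‖)
    (ψ : PowerSeries (intRing Ω)) (hψ0 : PowerSeries.constantCoeff ψ = 0)
    (Ψ : MvPowerSeries (Option (Fin d)) Ω)
    (hΨψ : ∀ m, coeff (Finsupp.single none m) Ψ = ((PowerSeries.coeff m ψ : intRing Ω) : Ω))
    (hΨ : MvPowerSeries.subst (fun o ↦ o.elim
      (MvPowerSeries.map (intRing Ω).subtype (powSeries p h d φ 1)) fun i ↦ X (some i)) Ψ =
        Ψ ^ p ^ h)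
    (hΨ0 : constantCoeff Ψ = 0)
    (F : MvPowerSeries (Fin d) (intRing Ω)) (H : MvPowerSeries (Fin d) Ω)
    (hH : MvPowerSeries.subst (fun j ↦ MvPowerSeries.subst
        (fun o ↦ o.elim (MvPowerSeries.map (intRing Ω).subtype (ξ j)) X) Ψ) H =
      MvPowerSeries.map (intRing Ω).subtype F)
    (w : Fin d → intRing Ω) (hw : ∀ j, ‖(w j : Ω)‖ < 1)
    (hw0 : ∀ j, ‖(prLim p n φ (w j) : Ω)‖ < 1)
    (horb : ∀ ε : ℝ, 0 < ε → ∀ᶠ M in atTop, ∃ (v : Fin d → intRing Ω) (hv : IsSmall v),
      ‖fun i ↦ (v i : Ω)‖ ≤ ε ∧ ev F v = 0 ∧ ∀ j, ev (ξ j) v =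
        ev (MvPowerSeries.map ((evHom hv).comp (shiftHom n h d φ))
            (Haz.mulSeries p n ((p ^ M : ℕ) : ℤ)))
          (fun _ ↦ prLim p n ((evHom hv).comp (shiftHom n h d φ)) (w j))) :
    ∀ D : ℕ, ∃ C : ℝ, ∀ᶠ M in atTop,
      ‖MvPolynomial.eval (fun j ↦ ((ev ψ fun _ ↦ prLim p n φ (w j) : intRing Ω) : Ω) ^ p ^ (h * M))
          (MvPowerSeries.truncTotal (R := Ω) D H)‖ ≤
        C * ((‖fun j ↦ ((ev ψ fun _ ↦ prLim p n φ (w j) : intRing Ω) : Ω)‖) ^ p ^ (h * M)) ^ D := by
  classical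
  have hcharΩ : CharP Ω p := GoodField.charP
  have hexp : ExpChar Ω p := ExpChar.prime hp.out
  have : CharP (intRing Ω) p := RingHom.charP (intRing Ω).subtype Subtype.coe_injective p
  intro D
  set w0 : Fin d → intRing Ω := fun j ↦ prLim p n φ (w j)
  set Ξ : Fin d → Ω := fun j ↦ ((ev ψ fun _ ↦ w0 j : intRing Ω) : Ω) with hΞ
  set η : ℝ := ‖fun j ↦ (w0 j : Ω)‖ with hη
  have hη1 : η < 1 := (pi_norm_lt_iff one_pos).mpr hw0
  have hη0 : 0 ≤ η := norm_nonneg _
  have hΞle : ∀ j, ‖Ξ j‖ ≤ η := fun j ↦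
    (norm_ev_le_of_var ψ () (fun e he ↦ by
      have : e = 0 := Finsupp.ext fun u ↦ by simpa using he
      subst this
      rw [coeff_zero_eq_constantCoeff_apply]; exact hψ0)
      (fun _ ↦ isTopologicallyNilpotent_intRing.mpr (hw0 j))).trans
      (norm_le_pi_norm (fun j ↦ (w0 j : Ω)) j)
  set s : ℝ := ‖fun j ↦ Ξ j‖ with hs
  have hs0 : 0 ≤ s := norm_nonneg _
  have hsη : s ≤ η := (pi_norm_le_iff_of_nonneg hη0).mpr hΞle
  set ξΩ : Fin d → Option (Fin d) → MvPowerSeries (Fin d) (intRing Ω) :=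
    fun j o ↦ o.elim (ξ j) X
  have hξΩ0 : ∀ j o, constantCoeff (ξΩ j o) = 0 := by
    intro j o
    rcases o with _ | i
    · exact hξ0 j
    · exact constantCoeff_X _
  set hat : Fin d → MvPowerSeries (Fin d) Ω := fun j ↦ MvPowerSeries.subst
    (fun o ↦ o.elim (MvPowerSeries.map (intRing Ω).subtype (ξ j)) X) Ψ with hhat
  have hξΩmap : ∀ j, (fun o ↦ o.elim (MvPowerSeries.map (intRing Ω).subtype (ξ j)) X :
      Option (Fin d) → MvPowerSeries (Fin d) Ω) =
      fun o ↦ MvPowerSeries.map (intRing Ω).subtype (ξΩ j o) := by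
    intro j
    funext o
    rcases o with _ | i <;> simp [ξΩ]
  have hhat0 : ∀ j, constantCoeff (hat j) = 0 := by
    intro j
    simp only [hhat]
    rw [hξΩmap j]
    refine MvPowerSeries.constantCoeff_subst_eq_zero
      (hasSubst_of_constantCoeff_zero fun o ↦ ?_) (fun o ↦ ?_) hΨ0 <;>
      rw [MvPowerSeries.constantCoeff_map, hξΩ0, map_zero]
  rcases eq_or_lt_of_le hs0 with hs' | hspos
  · -- all coordinates vanish
    refine ⟨0, Eventually.of_forall fun M ↦ ?_⟩
    rw [zero_mul]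
    have hz : (fun j ↦ Ξ j ^ p ^ (h * M)) = 0 := by
      funext j
      have : Ξ j = 0 := norm_le_zero_iff.mp (le_of_le_of_eq (norm_le_pi_norm Ξ j) hs'.symm)
      rw [this, zero_pow (pow_ne_zero _ hp.out.ne_zero), Pi.zero_apply]
    show ‖MvPolynomial.eval (fun j ↦ Ξ j ^ p ^ (h * M)) _‖ ≤ 0
    rw [hz, MvPolynomial.eval_zero, MvPolynomial.constantCoeff_eq, norm_le_zero_iff]
    rcases Nat.eq_zero_or_pos D with rfl | hD
    · exact MvPowerSeries.coeff_truncTotal_eq_zero _ (Nat.zero_le _)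
    rw [MvPowerSeries.coeff_truncTotal _ (by simpa using hD), coeff_zero_eq_constantCoeff_apply]
    have hF0 : constantCoeff F = 0 := by
      refine Subtype.ext (norm_le_zero_iff.mp (le_of_forall_pos_le_add fun ε hε ↦ ?_))
      obtain ⟨M', N, hv, hvε, hFv, -⟩ := (horb (min ε (1 / 2)) (lt_min hε (by norm_num))).exists
      have h1 := norm_ev_sub_truncTotal F 1 N hv
      rw [hFv, ZeroMemClass.coe_zero, zero_sub, norm_neg, pow_one] at h1
      have h2 : MvPolynomial.eval (fun i ↦ (N i : Ω))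
          (MvPowerSeries.truncTotal 1 (MvPowerSeries.map (intRing Ω).subtype F)) =
          ((constantCoeff F : intRing Ω) : Ω) := by
        rw [show MvPowerSeries.truncTotal 1 (MvPowerSeries.map (intRing Ω).subtype F) =
          MvPolynomial.C ((constantCoeff F : intRing Ω) : Ω) from ?_, MvPolynomial.eval_C]
        ext e
        rw [MvPolynomial.coeff_C]
        rcases eq_or_ne e 0 with rfl | he
        · rw [if_pos rfl, MvPowerSeries.coeff_truncTotal _ (by simp),
            coeff_zero_eq_constantCoeff_apply, MvPowerSeries.constantCoeff_map]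
          rfl
        · rw [if_neg (Ne.symm he), MvPowerSeries.coeff_truncTotal_eq_zero _ ?_]
          exact Nat.one_le_iff_ne_zero.mpr fun h0 ↦ he ((Finsupp.degree_eq_zero_iff e).mp h0)
      rw [h2] at h1
      rw [zero_add]
      exact h1.trans (hvε.trans (min_le_left _ _))
    have hcc := congrArg constantCoeff hH
    rw [MvPowerSeries.constantCoeff_map, hF0, map_zero] at hcc
    have hsub := MvPowerSeries.constantCoeff_subst
      (hasSubst_of_constantCoeff_zero hhat0) H
    rw [hsub, finsum_eq_single _ 0] at hcc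
    · simpa using hcc
    · intro e he
      obtain ⟨i, hi⟩ := Finsupp.support_nonempty_iff.mpr he
      rw [Finsupp.prod, map_prod, prod_eq_zero hi (by
        rw [map_pow, hhat0, zero_pow (Finsupp.mem_support_iff.mp hi)]), smul_zero]
  have hηpos : 0 < η := hspos.trans_le hsη
  -- working precision
  obtain ⟨D₀, hD₀⟩ := exists_pow_lt_of_lt_one (pow_pos hspos D) hη1
  set D' := max (D + 1) D₀
  have hD' : η ^ D' ≤ s ^ D :=
    (pow_le_pow_of_le_one hη0 hη1.le (le_max_right _ _)).trans hD₀.le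
  obtain ⟨Cξ, hCξ, rξ, hrξ, hlowb⟩ := norm_le_mul_norm_ev ξ hξ0 hdet
  obtain ⟨C₁, hC₁⟩ := truncation_estimate (τ := Option (Fin d)) Ψ D' 1
  obtain ⟨C₃, hC₃⟩ := truncation_estimate (τ := Fin d) Ψ D' 1
  obtain ⟨B₂, hB₂⟩ : ∃ B : ℝ, ∀ j, ∀ e : Fin d →₀ ℕ, e.degree < D' → ‖coeff e (hat j)‖ ≤ B := by
    refine ⟨∑ j, ∑ e ∈ ((range D').biUnion fun m ↦ finsuppAntidiag (univ : Finset (Fin d)) m),
      ‖coeff e (hat j)‖, fun j e he ↦ ?_⟩
    refine le_trans ?_ (single_le_sum (fun j _ ↦ sum_nonneg fun e _ ↦ norm_nonneg _) (mem_univ j))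
    refine single_le_sum (f := fun e ↦ ‖coeff e (hat j)‖) (fun e _ ↦ norm_nonneg _) ?_
    rw [mem_biUnion]
    refine ⟨e.degree, mem_range.mpr he, ?_⟩
    rw [mem_finsuppAntidiag]
    refine ⟨?_, subset_univ _⟩
    rw [Finsupp.degree_apply]
    exact (sum_subset (subset_univ _) (by simp)).symm
  obtain ⟨C₂, hC₂⟩ := truncation_estimate (τ := Fin d) H D' B₂
  obtain ⟨B, hB0, hBb⟩ := norm_eval_le_of_low
    (MvPowerSeries.truncTotal (R := Ω) D H - MvPowerSeries.truncTotal (R := Ω) D' H) D (by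
      intro e he
      rw [MvPolynomial.coeff_sub, MvPowerSeries.coeff_truncTotal H he,
        MvPowerSeries.coeff_truncTotal H (lt_of_lt_of_le he (le_trans (Nat.le_succ D)
          (le_max_left _ _))), sub_self])
  set K : ℝ := max 1 (max |C₁| |C₃|)
  set L : ℝ := max 1 Cξ
  have hK1 : 1 ≤ K := le_max_left _ _
  have hL1 : 1 ≤ L := le_max_left _ _
  refine ⟨max B ((max 1 (|C₂| * K)) * L ^ D'), ?_⟩
  set ε : ℝ := min rξ (η ^ D')
  have hε : 0 < ε := lt_min hrξ (pow_pos hηpos _)
  have hQev : ∀ᶠ M in atTop, D' ≤ p ^ (h * M) := by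
    refine eventually_atTop.mpr ⟨D', fun M hM ↦ hM.trans ?_⟩
    exact le_trans (Nat.le_mul_of_pos_left M hh) (Nat.lt_pow_self hp.out.one_lt).le
  filter_upwards [horb ε hε, hQev] with M hM hQ
  obtain ⟨v, hv, hvε, hFv, hξv⟩ := hM
  set Q := p ^ (h * M) with hQdef
  have hQ0 : Q ≠ 0 := pow_ne_zero _ hp.out.ne_zero
  have hD'0 : D' ≠ 0 := by
    have := le_max_left (D + 1) D₀
    omega
  have hvη : ‖fun i ↦ (v i : Ω)‖ ≤ η ^ D' := hvε.trans (min_le_right _ _)
  have hvη1 : ‖fun i ↦ (v i : Ω)‖ ≤ η := hvη.trans (pow_le_of_le_one hη0 hη1.le hD'0)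
  set φv := (evHom hv).comp (shiftHom n h d φ) with hφv
  set W : Fin d → intRing Ω := fun j ↦ prLim p n φv (w j)
  have hWd : ∀ j, ‖((W j : Ω) - w0 j)‖ ≤ ‖fun i ↦ (v i : Ω)‖ := fun j ↦ by
    rw [← AddSubgroupClass.coe_sub]
    exact hWle (w j) (hw j) v hv
  have hWη : ∀ j, ‖(W j : Ω)‖ ≤ η := fun j ↦ by
    have := IsUltrametricDist.norm_add_le_max ((W j : Ω) - w0 j) (w0 j)
    rw [sub_add_cancel] at this
    exact this.trans (max_le ((hWd j).trans hvη1) (norm_le_pi_norm (fun j ↦ (w0 j : Ω)) j))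
  have hWsmall : ∀ j, IsTopologicallyNilpotent (W j) := fun j ↦
    isTopologicallyNilpotent_intRing.mpr ((hWη j).trans_lt hη1)
  set G := contractNone Q (powSeries p h d φ M) with hG
  set GO : Option (Fin d) → MvPowerSeries (Option (Fin d)) (intRing Ω) :=
    fun o ↦ o.elim G fun i ↦ X (some i)
  set GX : Fin d → Option (Fin d) → intRing Ω := fun j o ↦ o.elim (W j ^ Q) v with hGX
  have hGXsmall : ∀ j, IsSmall (GX j) := by
    intro j o
    rcases o with _ | i
    · refine isTopologicallyNilpotent_intRing.mpr ?_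
      show ‖((W j ^ Q : intRing Ω) : Ω)‖ < 1
      rw [SubmonoidClass.coe_pow, norm_pow]
      exact pow_lt_one₀ (norm_nonneg _) ((hWη j).trans_lt hη1) hQ0
    · exact hv i
  have hξG : ∀ j, ev (ξ j) v = ev G (GX j) := by
    intro j
    have ha : IsSmall fun o : Option (Fin d) ↦ o.elim (W j) v := by
      intro o
      rcases o with _ | i
      · exact hWsmall j
      · exact hv i
    have h1 := ev_contract φ hh hlow M ha ⟨W j, hWsmall j⟩ rfl
    rw [Haz.nsmul_val] at h1
    simp only [flatHom_eval φ hv (W j) ha] at h1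
    rw [hξv j]
    exact h1.symm
  have hξle : ∀ j, ‖((ev (ξ j) v : intRing Ω) : Ω)‖ ≤ η ^ Q := by
    intro j
    rw [hξG j]
    refine (norm_ev_le_of_var G none (fun e he ↦ ?_) (hGXsmall j)).trans ?_
    · rw [hG, coeff_contractNone]
      exact powSeries_vanish φ M (by rw [scaleNone_none, he, mul_zero])
    · show ‖((W j ^ Q : intRing Ω) : Ω)‖ ≤ η ^ Q
      rw [SubmonoidClass.coe_pow, norm_pow]
      exact pow_le_pow_left₀ (norm_nonneg _) (hWη j) _
  have hvQ : ‖fun i ↦ (v i : Ω)‖ ≤ L * η ^ Q := by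
    refine (hlowb v hv (hvε.trans (min_le_left _ _))).trans ?_
    exact mul_le_mul (le_max_right _ _) ((pi_norm_le_iff_of_nonneg (by positivity)).mpr hξle)
      (norm_nonneg _) (by positivity)
  set μ : ℝ := L * η ^ Q
  have hμ0 : 0 ≤ μ := by positivity
  have hμQ : η ^ Q ≤ μ := le_mul_of_one_le_left (by positivity) hL1
  -- the composite in the contracted variable
  have hA : ∀ j, ‖Ξ j ^ Q - MvPolynomial.eval (fun i ↦ (v i : Ω))
      (MvPowerSeries.truncTotal D' (hat j))‖ ≤ K * μ ^ D' := by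
    intro j
    set z : Option (Fin d) → Ω :=
      fun o ↦ o.elim ((ev (ξ j) v : intRing Ω) : Ω) fun i ↦ (v i : Ω)
    set x : Option (Fin d) → Ω := fun o ↦ (GX j o : Ω)
    have hxμ : ‖x‖ ≤ μ := by
      refine (pi_norm_le_iff_of_nonneg hμ0).mpr fun o ↦ ?_
      rcases o with _ | i
      · show ‖((W j ^ Q : intRing Ω) : Ω)‖ ≤ μ
        rw [SubmonoidClass.coe_pow, norm_pow]
        exact (pow_le_pow_left₀ (norm_nonneg _) (hWη j) _).trans hμQ
      · exact (norm_le_pi_norm (fun i ↦ (v i : Ω)) i).trans hvQ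
    have hx1 : ‖x‖ ≤ 1 :=
      (pi_norm_le_iff_of_nonneg zero_le_one).mpr fun o ↦ mem_intRing.mp (Subtype.prop _)
    have hz1 : ‖z‖ ≤ 1 := by
      refine (pi_norm_le_iff_of_nonneg zero_le_one).mpr fun o ↦ ?_
      rcases o with _ | i <;> exact mem_intRing.mp (Subtype.prop _)
    -- first estimate
    have e1 : ‖MvPolynomial.eval z (MvPowerSeries.truncTotal D' Ψ) -
        MvPolynomial.eval x (MvPowerSeries.truncTotal D' (MvPowerSeries.subst
          (fun o ↦ MvPowerSeries.map (intRing Ω).subtype (GO o)) Ψ))‖ ≤ |C₁| * μ ^ D' := by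
      refine (hC₁ _ (fun o ↦ ?_) (fun o e _ ↦ ?_) x z hx1 hz1).trans ?_
      · rw [MvPowerSeries.constantCoeff_map]
        rcases o with _ | i
        · show (intRing Ω).subtype (constantCoeff G) = 0
          rw [hG, constantCoeff_contract, map_zero]
        · simp [GO]
      · rw [MvPowerSeries.coeff_map]
        exact mem_intRing.mp (Subtype.prop _)
      · refine (mul_le_mul_of_nonneg_right (le_abs_self C₁) (le_max_of_le_left (by positivity))).trans
          (mul_le_mul_of_nonneg_left (max_le (pow_le_pow_left₀ (norm_nonneg _) hxμ _) ?_)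
            (abs_nonneg _))
        refine (pi_norm_le_iff_of_nonneg (by positivity)).mpr fun o ↦ ?_
        have h1 := norm_ev_sub_truncTotal (GO o) D' (GX j) (hGXsmall j)
        refine le_trans (le_of_eq ?_) (h1.trans (pow_le_pow_left₀ (norm_nonneg _) hxμ _))
        congr 2
        rcases o with _ | i
        · simp [z, GO, hξG j]
        · simp [z, GO, GX]
    -- second estimate
    have e2 : MvPolynomial.eval x (MvPowerSeries.truncTotal D' (MvPowerSeries.subst
        (fun o ↦ MvPowerSeries.map (intRing Ω).subtype (GO o)) Ψ)) =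
        (∑ m ∈ range D', ((PowerSeries.coeff m ψ : intRing Ω) : Ω) * (W j : Ω) ^ m) ^ Q := by
      have hb : (fun o ↦ MvPowerSeries.map (intRing Ω).subtype (GO o)) =
          fun o : Option (Fin d) ↦ o.elim (MvPowerSeries.map (intRing Ω).subtype G)
            fun i ↦ X (some i) := by
        funext o
        rcases o with _ | i <;> simp [GO]
      rw [hb, truncTotal_eq_sum_single none _ D' (fun e he hes ↦ by
        rw [coeff_composite φ (intRing Ω).subtype Ψ hΨ hh hlow M (lt_of_lt_of_le he hQ),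
          if_neg hes]), eval_sum_single, sum_pow_char_pow p (h * M)]
      refine sum_congr rfl fun m hm ↦ ?_
      rw [coeff_composite φ (intRing Ω).subtype Ψ hΨ hh hlow M
        (by rw [Finsupp.degree_single]; exact lt_of_lt_of_le (mem_range.mp hm) hQ),
        Finsupp.single_eq_same, if_pos rfl, hΨψ, mul_pow]
      congr 1
      show ((W j ^ Q : intRing Ω) : Ω) ^ m = _
      rw [SubmonoidClass.coe_pow, ← pow_mul, ← pow_mul, mul_comm]
    have e3 : ‖(∑ m ∈ range D', ((PowerSeries.coeff m ψ : intRing Ω) : Ω) * (W j : Ω) ^ m) ^ Q -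
        Ξ j ^ Q‖ ≤ μ ^ D' := by
      rw [hQdef, ← sub_pow_char_pow, norm_pow]
      have hWj : ‖(W j : Ω)‖ < 1 := (hWη j).trans_lt hη1
      have h1 : ‖(∑ m ∈ range D', ((PowerSeries.coeff m ψ : intRing Ω) : Ω) * (W j : Ω) ^ m) -
          ((ev ψ fun _ ↦ W j : intRing Ω) : Ω)‖ ≤ η ^ D' := by
        rw [norm_sub_rev]
        exact (norm_ev_unit_sub_sum ψ (W j) hWj D').trans
          (pow_le_pow_left₀ (norm_nonneg _) (hWη j) _)
      have h2 : ‖((ev ψ fun _ ↦ W j : intRing Ω) : Ω) - Ξ j‖ ≤ η ^ D' := by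
        refine norm_ev_sub_ev_le ψ (fun _ ↦ hWj) (fun _ ↦ hw0 j) (by positivity) fun _ ↦ ?_
        exact (hWd j).trans hvη
      have h3 := (IsUltrametricDist.norm_add_le_max _ _).trans (max_le h1 h2)
      rw [sub_add_sub_cancel] at h3
      refine (pow_le_pow_left₀ (norm_nonneg _) h3 _).trans ?_
      rw [← pow_mul, mul_comm, pow_mul]
      exact pow_le_pow_left₀ (by positivity) hμQ _
    -- third estimate
    have e4 : ‖MvPolynomial.eval z (MvPowerSeries.truncTotal D' Ψ) -
        MvPolynomial.eval (fun i ↦ (v i : Ω)) (MvPowerSeries.truncTotal D' (hat j))‖ ≤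
          |C₃| * μ ^ D' := by
      have hv1 : ‖fun i ↦ (v i : Ω)‖ ≤ 1 := hvη1.trans hη1.le
      simp only [hhat]
      rw [hξΩmap j]
      refine (hC₃ _ (fun o ↦ ?_) (fun o e _ ↦ ?_) _ z hv1 hz1).trans ?_
      · rw [MvPowerSeries.constantCoeff_map, hξΩ0, map_zero]
      · rw [MvPowerSeries.coeff_map]
        exact mem_intRing.mp (Subtype.prop _)
      · refine (mul_le_mul_of_nonneg_right (le_abs_self C₃) (le_max_of_le_left (by positivity))).trans
          (mul_le_mul_of_nonneg_left (max_le (pow_le_pow_left₀ (norm_nonneg _) hvQ _) ?_)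
            (abs_nonneg _))
        refine (pi_norm_le_iff_of_nonneg (by positivity)).mpr fun o ↦ ?_
        have h1 := norm_ev_sub_truncTotal (ξΩ j o) D' v hv
        refine le_trans (le_of_eq ?_) (h1.trans (pow_le_pow_left₀ (norm_nonneg _) hvQ _))
        congr 2
        rcases o with _ | i
        · simp [z, ξΩ]
        · simp [z, ξΩ]
    rw [e2] at e1
    have h12 : ‖Ξ j ^ Q - MvPolynomial.eval z (MvPowerSeries.truncTotal D' Ψ)‖ ≤ K * μ ^ D' := by
      rw [norm_sub_rev]
      have := (IsUltrametricDist.norm_add_le_max _ _).trans (max_le_max e1 e3)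
      rw [sub_add_sub_cancel] at this
      refine this.trans (max_le ?_ ?_)
      · exact mul_le_mul_of_nonneg_right
          ((le_max_left _ _).trans (le_max_right _ _)) (by positivity)
      · exact le_mul_of_one_le_left (by positivity) hK1
    have := (IsUltrametricDist.norm_add_le_max _ _).trans (max_le h12 (e4.trans
      (mul_le_mul_of_nonneg_right ((le_max_right _ _).trans (le_max_right _ _)) (by positivity))))
    rwa [sub_add_sub_cancel] at this
  -- transfer to `H`
  set Z : Fin d → Ω := fun j ↦ Ξ j ^ Q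
  have hZs : ‖Z‖ ≤ s ^ Q := (pi_norm_le_iff_of_nonneg (by positivity)).mpr fun j ↦ by
    rw [norm_pow]; exact pow_le_pow_left₀ (norm_nonneg _) (norm_le_pi_norm Ξ j) _
  have hs1 : s ≤ 1 := hsη.trans hη1.le
  have hZ1 : ‖Z‖ ≤ 1 := hZs.trans (pow_le_one₀ hs0 hs1)
  have hbig : ‖MvPolynomial.eval Z (MvPowerSeries.truncTotal (R := Ω) D' H)‖ ≤
      max 1 (|C₂| * K) * μ ^ D' := by
    have h1 : ‖MvPolynomial.eval Z (MvPowerSeries.truncTotal (R := Ω) D' H) -
        MvPolynomial.eval (fun i ↦ (v i : Ω))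
          (MvPowerSeries.truncTotal D' (MvPowerSeries.map (intRing Ω).subtype F))‖ ≤
          |C₂| * (K * μ ^ D') := by
      rw [← hH]
      refine (hC₂ hat hhat0 hB₂ _ Z (hvη1.trans hη1.le) hZ1).trans ?_
      refine (mul_le_mul_of_nonneg_right (le_abs_self C₂) (le_max_of_le_left (by positivity))).trans
        (mul_le_mul_of_nonneg_left (max_le ?_ ?_) (abs_nonneg _))
      · exact (pow_le_pow_left₀ (norm_nonneg _) hvQ _).trans
          (le_mul_of_one_le_left (by positivity) hK1)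
      · exact (pi_norm_le_iff_of_nonneg (by positivity)).mpr hA
    have h2 : ‖MvPolynomial.eval (fun i ↦ (v i : Ω))
        (MvPowerSeries.truncTotal D' (MvPowerSeries.map (intRing Ω).subtype F))‖ ≤ μ ^ D' := by
      have := norm_ev_sub_truncTotal F D' v hv
      rw [hFv, ZeroMemClass.coe_zero, zero_sub, norm_neg] at this
      exact this.trans (pow_le_pow_left₀ (norm_nonneg _) hvQ _)
    have h3 := (IsUltrametricDist.norm_add_le_max _ _).trans (max_le_max h1 h2)
    rw [sub_add_cancel] at h3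
    refine h3.trans (max_le ?_ ?_)
    · rw [← mul_assoc]
      exact mul_le_mul_of_nonneg_right (le_max_right _ _) (by positivity)
    · exact le_mul_of_one_le_left (by positivity) (le_max_left _ _)
  have hμD : μ ^ D' ≤ L ^ D' * (s ^ Q) ^ D := by
    rw [mul_pow]
    refine mul_le_mul_of_nonneg_left ?_ (by positivity)
    rw [← pow_mul, mul_comm, pow_mul, ← pow_mul s, mul_comm Q D, pow_mul]
    exact pow_le_pow_left₀ (by positivity) hD' _
  have hdiff := hBb Z hZ1
  have h4 := (IsUltrametricDist.norm_add_le_max _ _).trans (max_le_max hdiff hbig)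
  rw [map_sub, sub_add_cancel] at h4
  refine h4.trans (max_le ?_ ?_)
  · refine mul_le_mul (le_max_left _ _) ?_ (by positivity) (le_max_of_le_left hB0)
    exact pow_le_pow_left₀ (norm_nonneg _) hZs _
  · refine le_trans (mul_le_mul_of_nonneg_left hμD (by positivity)) ?_
    rw [← mul_assoc]
    exact mul_le_mul_of_nonneg_right (le_max_right _ _) (by positivity)

end Germ

end Vale.Agent.P217
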