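import Vale.Agent.P217.Shared
import Mathlib.RingTheory.MvPowerSeries.Expand
import Mathlib.Algebra.CharP.Algebra

/-!
Multiplication by powers of `p` on the shifted law, as series in the shift and the coordinate.
-/

noncomputable section

open MvPowerSeries Finset
open scoped MvPowerSeries.WithPiTopology Topology

namespace Vale.Agent.P217

namespace Germ

section generic

variable {σ : Type*} {R : Type*} [CommRing R]

/-- Multiply the exponent of the distinguished variable by `Q`. -/
def scaleNone (Q : ℕ) (e : Option σ →₀ ℕ) : Option σ →₀ ℕ := e.update none (Q * e none)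

theorem scaleNone_none (Q : ℕ) (e : Option σ →₀ ℕ) : scaleNone Q e none = Q * e none := by
  classical
  simp [scaleNone]

theorem scaleNone_some (Q : ℕ) (e : Option σ →₀ ℕ) (i : σ) :
    scaleNone Q e (some i) = e (some i) := by
  classical
  simp [scaleNone]

theorem scaleNone_injective {Q : ℕ} (hQ : Q ≠ 0) :
    Function.Injective (scaleNone (σ := σ) Q) := by
  intro e f hef
  refine Finsupp.ext fun o ↦ ?_
  rcases o with _ | i
  · have := congrArg (fun g : Option σ →₀ ℕ ↦ g none) hef
    simp only [scaleNone_none] at this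
    exact mul_left_cancel₀ hQ this
  · have := congrArg (fun g : Option σ →₀ ℕ ↦ g (some i)) hef
    simpa only [scaleNone_some] using this

/-- Substitute `X^Q` for the distinguished variable. -/
def expandNone (Q : ℕ) (f : MvPowerSeries (Option σ) R) : MvPowerSeries (Option σ) R :=
  MvPowerSeries.subst (fun o ↦ o.elim (X none ^ Q) fun i ↦ X (some i)) f

variable (σ R) in
theorem hasSubst_expandNone [Finite σ] {Q : ℕ} (hQ : Q ≠ 0) :
    HasSubst (fun o : Option σ ↦ o.elim (X none ^ Q : MvPowerSeries (Option σ) R)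
      fun i ↦ X (some i)) := by
  refine hasSubst_of_constantCoeff_zero fun o ↦ ?_
  rcases o with _ | i
  · simp [zero_pow hQ]
  · simp

/-- Read a series in `X^Q` as a series in `X`. -/
def contractNone (Q : ℕ) (f : MvPowerSeries (Option σ) R) : MvPowerSeries (Option σ) R :=
  fun e ↦ coeff (scaleNone Q e) f

theorem coeff_contractNone (Q : ℕ) (f : MvPowerSeries (Option σ) R) (e : Option σ →₀ ℕ) :
    coeff e (contractNone Q f) = coeff (scaleNone Q e) f := rfl

/-- Only exponents of the distinguished variable divisible by `Q` occur. -/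
def NoneDvd (Q : ℕ) (f : MvPowerSeries (Option σ) R) : Prop :=
  ∀ e : Option σ →₀ ℕ, ¬ Q ∣ e none → coeff e f = 0

theorem prod_expandNone [Finite σ] (Q : ℕ) (x : Option σ →₀ ℕ) :
    (x.prod fun o k ↦ (o.elim (X none ^ Q : MvPowerSeries (Option σ) R) fun i ↦ X (some i)) ^ k) =
      monomial (scaleNone Q x) 1 := by
  classical
  have := Fintype.ofFinite σ
  rw [monomial_eq', map_one, one_mul, Finsupp.prod_fintype _ _ (fun _ ↦ pow_zero _),
    Finsupp.prod_fintype _ _ (fun _ ↦ pow_zero _)]
  refine prod_congr rfl fun o _ ↦ ?_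
  rcases o with _ | i
  · simp [scaleNone_none, ← pow_mul]
  · simp [scaleNone_some]

theorem coeff_expandNone_scale [Finite σ] {Q : ℕ} (hQ : Q ≠ 0) (f : MvPowerSeries (Option σ) R)
    (e : Option σ →₀ ℕ) : coeff (scaleNone Q e) (expandNone Q f) = coeff e f := by
  classical
  rw [expandNone, coeff_subst (hasSubst_expandNone σ R hQ), finsum_eq_single _ e]
  · rw [prod_expandNone, coeff_monomial, if_pos rfl, smul_eq_mul, mul_one]
  · intro x hx
    rw [prod_expandNone, coeff_monomial, if_neg (fun h ↦ hx (scaleNone_injective hQ h).symm),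
      smul_zero]

theorem noneDvd_expandNone [Finite σ] {Q : ℕ} (hQ : Q ≠ 0) (f : MvPowerSeries (Option σ) R) :
    NoneDvd Q (expandNone Q f) := by
  classical
  intro e he
  rw [expandNone, coeff_subst (hasSubst_expandNone σ R hQ)]
  refine finsum_eq_zero_of_forall_eq_zero fun x ↦ ?_
  rw [prod_expandNone, coeff_monomial, if_neg (fun h ↦ he ⟨x none, by rw [h, scaleNone_none]⟩),
    smul_zero]

theorem expandNone_contractNone [Finite σ] {Q : ℕ} (hQ : Q ≠ 0) {f : MvPowerSeries (Option σ) R}
    (hf : NoneDvd Q f) : expandNone Q (contractNone Q f) = f := by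
  classical
  refine MvPowerSeries.ext fun e ↦ ?_
  by_cases he : Q ∣ e none
  · obtain ⟨m, hm⟩ := he
    have hes : e = scaleNone Q (e.update none m) := by
      refine Finsupp.ext fun o ↦ ?_
      rcases o with _ | i <;> simp [scaleNone_none, scaleNone_some, hm]
    rw [hes, coeff_expandNone_scale hQ, coeff_contractNone, ← hes]
  · rw [noneDvd_expandNone hQ _ e he, hf e he]

theorem noneDvd_mul {Q : ℕ} {f g : MvPowerSeries (Option σ) R} (hf : NoneDvd Q f)
    (hg : NoneDvd Q g) : NoneDvd Q (f * g) := by
  classical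
  intro e he
  rw [coeff_mul]
  refine sum_eq_zero fun x hx ↦ ?_
  rw [Finset.mem_antidiagonal] at hx
  by_cases h1 : Q ∣ x.1 none
  · by_cases h2 : Q ∣ x.2 none
    · exact absurd (by rw [← hx, Finsupp.add_apply]; exact dvd_add h1 h2) he
    · rw [hg _ h2, mul_zero]
  · rw [hf _ h1, zero_mul]

theorem noneDvd_C (Q : ℕ) (r : R) : NoneDvd Q (C r : MvPowerSeries (Option σ) R) := by
  classical
  intro e he
  rw [coeff_C, if_neg]
  rintro rfl
  simp at he

theorem noneDvd_X_some (Q : ℕ) (i : σ) : NoneDvd Q (X (some i) : MvPowerSeries (Option σ) R) := by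
  classical
  intro e he
  rw [coeff_X, if_neg]
  rintro rfl
  simp at he

theorem noneDvd_pow {Q : ℕ} {f : MvPowerSeries (Option σ) R} (hf : NoneDvd Q f) :
    ∀ k, NoneDvd Q (f ^ k)
  | 0 => by rw [pow_zero, ← map_one C]; exact noneDvd_C Q 1
  | k + 1 => by rw [pow_succ]; exact noneDvd_mul (noneDvd_pow hf k) hf

theorem noneDvd_pow_char {p : ℕ} [Fact p.Prime] [CharP R p] {Q : ℕ}
    {f : MvPowerSeries (Option σ) R} (hf : NoneDvd Q f) (k : ℕ) :
    NoneDvd (Q * p ^ k) (f ^ p ^ k) := by
  classical
  have := ExpChar.prime (R := R) (Fact.out : p.Prime)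
  have hp0 : p ≠ 0 := (Fact.out : p.Prime).ne_zero
  intro e he
  rw [← map_iterateFrobenius_expand p hp0 f k, MvPowerSeries.coeff_map]
  by_cases hdiv : ∀ o, p ^ k ∣ e o
  · obtain ⟨m, rfl⟩ : ∃ m, e = p ^ k • m :=
      ⟨e.mapRange (· / p ^ k) (by simp), by ext o; simp [Nat.mul_div_cancel' (hdiv o)]⟩
    rw [coeff_expand_smul, hf m ?_, map_zero]
    intro hm
    refine he ?_
    rw [Finsupp.smul_apply, smul_eq_mul, mul_comm Q]
    exact Nat.mul_dvd_mul_left _ hm
  · push Not at hdiv
    obtain ⟨o, ho⟩ := hdiv
    rw [coeff_expand_of_not_dvd _ _ _ ho, map_zero]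

end generic

section cl

variable {σ : Type*} [Finite σ] {R : Type*} [CommRing R] [UniformSpace R] [CLRing R]

theorem isClosed_noneDvd (Q : ℕ) :
    IsClosed {f : MvPowerSeries (Option σ) R | NoneDvd Q f} := by
  simp only [NoneDvd, Set.setOf_forall]
  refine isClosed_iInter fun e ↦ isClosed_iInter fun _ ↦ ?_
  exact isClosed_eq (MvPowerSeries.WithPiTopology.continuous_coeff R e) continuous_const

theorem coeff_ev_eq_zero {τ : Type*} [Finite τ] {a : τ → MvPowerSeries (Option σ) R}
    (ha : IsSmall a) (f : MvPowerSeries τ (MvPowerSeries (Option σ) R)) (e : Option σ →₀ ℕ)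
    (h : ∀ x : τ →₀ ℕ, coeff e (coeff x f * x.prod fun s k ↦ a s ^ k) = 0) :
    coeff e (ev f a) = 0 := by
  refine (isClosed_eq (MvPowerSeries.WithPiTopology.continuous_coeff R e)
    continuous_const).mem_of_tendsto (hasSum_ev ha f) (Filter.Eventually.of_forall fun s ↦ ?_)
  show coeff e (∑ x ∈ s, _) = 0
  rw [map_sum]
  exact sum_eq_zero fun x _ ↦ h x

theorem noneDvd_ev {Q : ℕ} {τ : Type*} [Finite τ] {a : τ → MvPowerSeries (Option σ) R}
    (ha : IsSmall a) {f : MvPowerSeries τ (MvPowerSeries (Option σ) R)}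
    (h : ∀ x : τ →₀ ℕ, NoneDvd Q (coeff x f * x.prod fun s k ↦ a s ^ k)) :
    NoneDvd Q (ev f a) :=
  fun e he ↦ coeff_ev_eq_zero ha f e fun x ↦ h x e he

theorem small_var (o : Option σ) :
    IsTopologicallyNilpotent (X o : MvPowerSeries (Option σ) R) :=
  MvPowerSeries.WithPiTopology.isTopologicallyNilpotent_of_constantCoeff_isNilpotent (by simp)

end cl

variable {p n h d : ℕ} [hp : Fact p.Prime] {R : Type*} [CommRing R]

/-- The shifted parameters, as series in the shift and the coordinate. -/
def flatPoint (n h d : ℕ) (φ : Haz.A n →+* R) : Fin (n - 1) → MvPowerSeries (Option (Fin d)) R :=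
  fun i ↦ C (φ (MvPolynomial.X i)) +
    if hi : h ≤ i.1 + 1 ∧ i.1 + 1 - h < d then X (some ⟨i.1 + 1 - h, hi.2⟩) else 0

/-- The parameter map of the shifted law. -/
def flatHom (n h d : ℕ) (φ : Haz.A n →+* R) : Haz.A n →+* MvPowerSeries (Option (Fin d)) R :=
  MvPolynomial.eval₂Hom (Int.castRingHom _) (flatPoint n h d φ)

theorem flatHom_uA_low (φ : Haz.A n →+* R)
    (hlow : ∀ i, 0 < i → i < h → φ (Haz.uA n i) = 0) {i : ℕ} (hi0 : 0 < i) (hi : i < h) :
    flatHom n h d φ (Haz.uA n i) = 0 := by
  have h1 := hlow i hi0 hi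
  unfold Haz.uA at h1 ⊢
  by_cases hv : i ≠ 0 ∧ i - 1 < n - 1
  · rw [dif_pos hv] at h1 ⊢
    simp only [flatHom, MvPolynomial.eval₂Hom_X', flatPoint]
    rw [h1, map_zero, zero_add, dif_neg]
    rintro ⟨h2, -⟩
    omega
  · rw [dif_neg hv] at h1 ⊢
    split_ifs at h1 ⊢ with hin
    · have : Subsingleton R := subsingleton_of_zero_eq_one (by rw [← h1, map_one])
      exact MvPowerSeries.ext fun _ ↦ Subsingleton.elim _ _
    · exact map_zero _

theorem noneDvd_flatHom (φ : Haz.A n →+* R) (Q : ℕ) (a : Haz.A n) :
    NoneDvd Q (flatHom n h d φ a) := by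
  classical
  induction a using MvPolynomial.induction_on with
  | C r =>
    rw [flatHom, MvPolynomial.eval₂Hom_C, eq_intCast,
      ← map_intCast (C (σ := Option (Fin d)) (R := R))]
    exact noneDvd_C Q _
  | add f g hf hg =>
    intro e he
    rw [map_add, map_add, hf e he, hg e he, add_zero]
  | mul_X f i hf =>
    rw [map_mul]
    refine noneDvd_mul hf fun e he ↦ ?_
    simp only [flatHom, MvPolynomial.eval₂Hom_X', flatPoint, map_add]
    rw [noneDvd_C Q _ e he, zero_add]
    split_ifs with hi
    · exact noneDvd_X_some Q _ e he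
    · exact map_zero _

section cl

variable [UniformSpace R] [CLRing R]

/-- The coordinate as a point of the shifted law. -/
def coordPt (φ : Haz.A n →+* R) : Haz.Pt p (flatHom n h d φ) := ⟨X none, small_var none⟩

/-- `[p^M]` applied to the coordinate. -/
def powSeries (p h d : ℕ) [Fact p.Prime] (φ : Haz.A n →+* R) (M : ℕ) :
    MvPowerSeries (Option (Fin d)) R :=
  ((p ^ M) • (coordPt φ : Haz.Pt p (flatHom n h d φ))).val

theorem powSeries_vanish (φ : Haz.A n →+* R) (M : ℕ) {e : Option (Fin d) →₀ ℕ} (he : e none = 0) :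
    coeff e (powSeries p h d φ M) = 0 := by
  classical
  rw [powSeries, Haz.nsmul_val]
  refine coeff_ev_eq_zero (fun _ : Unit ↦ small_var none) _ e fun x ↦ ?_
  rcases Nat.eq_zero_or_pos (x ()) with hx | hx
  · have : x = 0 := Finsupp.ext fun u ↦ by simp [hx]
    subst this
    rw [MvPowerSeries.coeff_zero_eq_constantCoeff_apply, MvPowerSeries.constantCoeff_map,
      Haz.constantCoeff_mulSeries, map_zero, zero_mul, map_zero]
  · rw [Finsupp.prod_fintype _ _ (fun _ ↦ pow_zero _), univ_unique, prod_singleton, coeff_mul]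
    refine sum_eq_zero fun q hq ↦ mul_eq_zero_of_right _ ?_
    rw [coeff_X_pow, if_neg]
    intro hq2
    rw [Finset.mem_antidiagonal] at hq
    have : e none = q.1 none + x () := by
      rw [← hq, Finsupp.add_apply, hq2, Finsupp.single_eq_same]
    omega

theorem constantCoeff_powSeries (φ : Haz.A n →+* R) (M : ℕ) :
    constantCoeff (powSeries p h d φ M) = 0 := by
  rw [← coeff_zero_eq_constantCoeff_apply]
  exact powSeries_vanish φ M rfl

variable [CharP R p] (φ : Haz.A n →+* R) (hh : 0 < h)
  (hlow : ∀ i, 0 < i → i < h → φ (Haz.uA n i) = 0)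
include hh hlow

theorem noneDvd_powSeries (M : ℕ) : NoneDvd (p ^ (h * M)) (powSeries p h d φ M) := by
  classical
  induction M with
  | zero => intro e he; simp at he
  | succ M ih =>
    have : CharP (MvPowerSeries (Option (Fin d)) R) p :=
      charP_of_injective_ringHom (f := C)
        (fun a b hab ↦ by simpa using congrArg constantCoeff hab) p
    have hP : p ^ h ≠ 0 := pow_ne_zero h hp.out.ne_zero
    obtain ⟨Φ, -, -, hΦ⟩ := Haz.mulSeries_p_height (flatHom n h d φ)
      (CharP.cast_eq_zero _ p) (fun i hi0 hi ↦ flatHom_uA_low φ hlow hi0 hi) hh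
    set z := (p ^ M) • (coordPt φ : Haz.Pt p (flatHom n h d φ))
    have hval : powSeries p h d φ (M + 1) =
        ev (MvPowerSeries.expand (p ^ h) hP Φ) fun _ : Unit ↦ z.val := by
      rw [powSeries, pow_succ', mul_smul, Haz.nsmul_val, hΦ]
    have hΦc : ∀ x : Unit →₀ ℕ,
        NoneDvd (p ^ (h * (M + 1))) (coeff x (MvPowerSeries.expand (p ^ h) hP Φ)) := by
      intro x
      rw [← hΦ, MvPowerSeries.coeff_map]
      exact noneDvd_flatHom φ _ _
    have hzP : NoneDvd (p ^ (h * (M + 1))) (z.val ^ p ^ h) := by
      have := noneDvd_pow_char (p := p) (ih : NoneDvd _ z.val) h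
      rwa [← pow_add, ← Nat.mul_succ] at this
    rw [hval]
    refine noneDvd_ev (fun _ ↦ z.small) fun x ↦ ?_
    by_cases hx : p ^ h ∣ x ()
    · obtain ⟨m, hm⟩ := hx
      refine noneDvd_mul (hΦc x) ?_
      rw [Finsupp.prod_fintype _ _ (fun _ ↦ pow_zero _), univ_unique, prod_singleton,
        show x default = p ^ h * m from hm,
        show z.val ^ (p ^ h * m) = (z.val ^ p ^ h) ^ m from pow_mul _ _ _]
      exact noneDvd_pow hzP m
    · rw [MvPowerSeries.coeff_expand_of_not_dvd _ _ _ hx, zero_mul]
      intro e _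
      exact map_zero _

/-- `[p^M]` in the variables shift and `p^(hM)`-th power of the coordinate. -/
theorem expandNone_contract (M : ℕ) :
    expandNone (p ^ (h * M)) (contractNone (p ^ (h * M)) (powSeries p h d φ M)) =
      powSeries p h d φ M :=
  expandNone_contractNone (pow_ne_zero _ hp.out.ne_zero) (noneDvd_powSeries φ hh hlow M)

omit hh hlow in
theorem constantCoeff_contract (M : ℕ) :
    constantCoeff (contractNone (p ^ (h * M)) (powSeries p h d φ M)) = 0 := by
  rw [← coeff_zero_eq_constantCoeff_apply, coeff_contractNone]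
  exact powSeries_vanish φ M (by rw [scaleNone_none]; simp)

/-- Evaluation of `[p^M]` through the contracted series. -/
theorem ev_contract (M : ℕ) {a : Option (Fin d) → R} (ha : IsSmall a)
    (w : Haz.Pt p ((evHom ha).comp (flatHom n h d φ))) (hw : w.val = a none) :
    ev (contractNone (p ^ (h * M)) (powSeries p h d φ M))
        (fun o ↦ o.elim (a none ^ p ^ (h * M)) fun i ↦ a (some i)) = ((p ^ M) • w).val := by
  have hQ : p ^ (h * M) ≠ 0 := pow_ne_zero _ hp.out.ne_zero
  have h1 : ev (powSeries p h d φ M) a = ((p ^ M) • w).val := by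
    have hc : Continuous (evHom ha) := by
      rw [show (evHom ha : MvPowerSeries (Option (Fin d)) R → R) = fun f ↦ ev f a from
        funext fun f ↦ evHom_apply ha f]
      exact continuous_ev ha
    have e1 : Haz.mapPt p (flatHom n h d φ) hc (coordPt φ) = w :=
      Haz.Pt.ext (by rw [Haz.mapPt_val, hw, evHom_apply]; exact ev_X _ _)
    rw [← e1, ← map_nsmul, Haz.mapPt_val, evHom_apply]
    rfl
  rw [← expandNone_contract φ hh hlow M, expandNone, ev_subst (fun o ↦ by
    rcases o with _ | i
    · simp [zero_pow hQ]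
    · simp) ha] at h1
  rw [← h1]
  congr 1
  funext o
  rcases o with _ | i
  · simp [ev_pow ha]
  · simp

omit hh hlow [CharP R p] in
/-- `[p^(M+1)]` is `[p^M]` composed with `[p]`. -/
theorem powSeries_succ (M : ℕ) : powSeries p h d φ (M + 1) =
    MvPowerSeries.subst (fun o ↦ o.elim (powSeries p h d φ 1) fun i ↦ X (some i))
      (powSeries p h d φ M) := by
  classical
  set b : Option (Fin d) → MvPowerSeries (Option (Fin d)) R :=
    fun o ↦ o.elim (powSeries p h d φ 1) fun i ↦ X (some i)
  have hb : ∀ o, constantCoeff (b o) = 0 := by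
    intro o
    rcases o with _ | i
    · exact constantCoeff_powSeries φ 1
    · exact constantCoeff_X _
  have hs := hasSubst_of_constantCoeff_zero hb
  let ε : MvPowerSeries (Option (Fin d)) R →+* MvPowerSeries (Option (Fin d)) R :=
    (substAlgHom hs).toRingHom
  have hεapp : ∀ f, ε f = MvPowerSeries.subst b f := fun f ↦ substAlgHom_apply hs f
  have hε : Continuous ε := by
    rw [show (ε : MvPowerSeries (Option (Fin d)) R → MvPowerSeries (Option (Fin d)) R) =
      fun f ↦ MvPowerSeries.subst b f from funext hεapp]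
    exact continuous_subst_of_finite hb
  have hfix : ε.comp (flatHom n h d φ) = flatHom n h d φ := by
    apply MvPolynomial.ringHom_ext
    · intro r; simp
    · intro i
      simp only [RingHom.comp_apply, flatHom, MvPolynomial.eval₂Hom_X', flatPoint, hεapp]
      rw [subst_add hs, subst_C]
      congr 1
      split_ifs with hi
      · rw [subst_X hs]; rfl
      · rw [← coe_substAlgHom hs, map_zero]
  have key : ∀ (m : ℕ), (MvPowerSeries.subst b
      (((m : ℕ) • (coordPt φ : Haz.Pt p (flatHom n h d φ))).val)) =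
      ((m * p) • (coordPt φ : Haz.Pt p (flatHom n h d φ))).val := by
    intro m
    rw [← hεapp, ← Haz.mapPt_val p (flatHom n h d φ) hε, map_nsmul, Haz.nsmul_val,
      mul_smul, Haz.nsmul_val p (flatHom n h d φ) (p • coordPt φ)]
    simp only [Haz.mapPt_val, hfix]
    congr 1
    funext _
    show ε (X none) = _
    rw [hεapp, subst_X hs]
    show powSeries p h d φ 1 = _
    rw [powSeries, pow_one]
  rw [powSeries, powSeries, key, ← pow_succ]

end cl

section iterate

variable [UniformSpace R] [CLRing R] {K : Type*} [Field K] [CharP K p] (φ : Haz.A n →+* R)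
  (j : R →+* K) (Ψ : MvPowerSeries (Option (Fin d)) K)
  (hΨ : MvPowerSeries.subst (fun o ↦ o.elim (MvPowerSeries.map j (powSeries p h d φ 1))
    fun i ↦ X (some i)) Ψ = Ψ ^ p ^ h)

omit [CharP K p] in
theorem constantCoeff_elim (M : ℕ) :
    ∀ o : Option (Fin d), constantCoeff (o.elim (MvPowerSeries.map j (powSeries p h d φ M))
      fun i ↦ (X (some i) : MvPowerSeries (Option (Fin d)) K)) = 0 := by
  intro o
  rcases o with _ | i
  · show constantCoeff (MvPowerSeries.map j _) = 0
    rw [MvPowerSeries.constantCoeff_map, constantCoeff_powSeries, map_zero]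
  · exact constantCoeff_X _

include hΨ

omit [CharP K p] in
theorem iterate (M : ℕ) :
    MvPowerSeries.subst (fun o ↦ o.elim (MvPowerSeries.map j (powSeries p h d φ M))
      fun i ↦ X (some i)) Ψ = Ψ ^ p ^ (h * M) := by
  induction M with
  | zero =>
    conv_rhs => rw [mul_zero, pow_zero, pow_one, ← id_eq Ψ, ← MvPowerSeries.subst_self]
    congr 1
    funext o
    rcases o with _ | i
    · simp [powSeries, coordPt]
    · rfl
  | succ M ih =>
    set b : Option (Fin d) → MvPowerSeries (Option (Fin d)) K :=
      fun o ↦ o.elim (MvPowerSeries.map j (powSeries p h d φ 1)) fun i ↦ X (some i)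
    have hs := hasSubst_of_constantCoeff_zero (constantCoeff_elim (p := p) φ j 1 : ∀ o,
      constantCoeff (b o) = 0)
    have hM := hasSubst_of_constantCoeff_zero (constantCoeff_elim (p := p) (h := h) (d := d) φ j M)
    have hb' : ∀ o : Option (Fin d), constantCoeff (o.elim (powSeries p h d φ 1)
        fun i ↦ (X (some i) : MvPowerSeries (Option (Fin d)) R)) = 0 := by
      intro o
      rcases o with _ | i
      · exact constantCoeff_powSeries φ 1
      · exact constantCoeff_X _
    have e1 := congrArg (MvPowerSeries.subst b) ih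
    rw [subst_pow hs, hΨ, ← pow_mul, ← pow_add, subst_comp_subst_apply hM hs] at e1
    rw [show h * (M + 1) = h + h * M by ring, ← e1]
    congr 1
    funext o
    rcases o with _ | i
    · show MvPowerSeries.map j (powSeries p h d φ (M + 1)) =
        MvPowerSeries.subst b (MvPowerSeries.map j (powSeries p h d φ M))
      rw [powSeries_succ, MvPowerSeries.map_subst (hasSubst_of_constantCoeff_zero hb')]
      congr 1
      funext o
      rcases o with _ | i
      · rfl
      · exact MvPowerSeries.map_X _ _
    · show X (some i) = MvPowerSeries.subst b (X (some i))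
      rw [subst_X hs]
      rfl

/-- Below degree `p^(hM)` the composite depends on the constant part in the shift only. -/
theorem coeff_composite [CharP R p] (hh : 0 < h)
    (hlow : ∀ i, 0 < i → i < h → φ (Haz.uA n i) = 0) (M : ℕ) {e : Option (Fin d) →₀ ℕ}
    (he : e.degree < p ^ (h * M)) :
    coeff e (MvPowerSeries.subst (fun o ↦ o.elim
        (MvPowerSeries.map j (contractNone (p ^ (h * M)) (powSeries p h d φ M)))
        fun i ↦ X (some i)) Ψ) =
      if e = Finsupp.single none (e none)
        then coeff (Finsupp.single none (e none)) Ψ ^ p ^ (h * M) else 0 := by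
  classical
  have := ExpChar.prime (R := K) hp.out
  have hp0 : p ≠ 0 := hp.out.ne_zero
  set Q := p ^ (h * M) with hQdef
  have hQ : Q ≠ 0 := pow_ne_zero _ hp0
  set G : MvPowerSeries (Option (Fin d)) K :=
    MvPowerSeries.map j (contractNone Q (powSeries p h d φ M))
  have hG0 : ∀ o : Option (Fin d), constantCoeff
      (o.elim G fun i ↦ (X (some i) : MvPowerSeries (Option (Fin d)) K)) = 0 := by
    intro o
    rcases o with _ | i
    · show constantCoeff G = 0
      rw [MvPowerSeries.constantCoeff_map, constantCoeff_contract, map_zero]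
    · exact constantCoeff_X _
  have hexp : expandNone Q (MvPowerSeries.subst (fun o ↦ o.elim G fun i ↦ X (some i)) Ψ) =
      Ψ ^ Q := by
    rw [expandNone, subst_comp_subst_apply (hasSubst_of_constantCoeff_zero hG0)
      (hasSubst_expandNone (Fin d) K hQ), hQdef, ← iterate φ j Ψ hΨ M]
    congr 1
    funext o
    rcases o with _ | i
    · show MvPowerSeries.subst _ G = MvPowerSeries.map j _
      conv_rhs => rw [← expandNone_contract φ hh hlow M, expandNone,
        MvPowerSeries.map_subst (hasSubst_expandNone (Fin d) R hQ)]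
      congr 1
      funext o
      rcases o with _ | i <;> simp [Q]
    · show MvPowerSeries.subst _ (X (some i)) = X (some i)
      rw [subst_X (hasSubst_expandNone (Fin d) K hQ)]
      rfl
  rw [← coeff_expandNone_scale hQ, hexp, hQdef, ← map_iterateFrobenius_expand p hp0 Ψ (h * M),
    MvPowerSeries.coeff_map]
  split_ifs with hes
  · have hsc : scaleNone (p ^ (h * M)) e = p ^ (h * M) • Finsupp.single none (e none) := by
      refine Finsupp.ext fun o ↦ ?_
      rcases o with _ | i
      · simp [scaleNone_none]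
      · have : e (some i) = 0 := by rw [hes]; simp
        simp [scaleNone_some, this]
    rw [hsc, coeff_expand_smul, iterateFrobenius_def]
  · obtain ⟨i, hi⟩ : ∃ i, e (some i) ≠ 0 := by
      by_contra hcon
      push Not at hcon
      refine hes (Finsupp.ext fun o ↦ ?_)
      rcases o with _ | i
      · simp
      · simp [hcon i]
    rw [coeff_expand_of_not_dvd _ _ _ (i := some i), map_zero]
    rw [scaleNone_some]
    intro hdvd
    have h1 : e (some i) ≤ e.degree := Finsupp.le_degree _ _
    have h2 := Nat.le_of_dvd (Nat.pos_of_ne_zero hi) hdvd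
    omega

end iterate

end Germ

end Vale.Agent.P217
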