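import Vale.Agent.P217.Haz
import Vale.Agent.P217.Eval

/-!
Points of Hazewinkel's formal group law in complete linearly topologized rings.
-/

noncomputable section

open MvPowerSeries Finset
open scoped MvPowerSeries.WithPiTopology Topology

namespace Vale.Agent.P217

namespace Haz

variable (p n : ℕ) [hp : Fact p.Prime]

/-- The log of a series over the parameter ring. -/
def logOf {τ : Type*} (f : MvPowerSeries τ (A n)) : MvPowerSeries τ (K n) :=
  PowerSeries.subst (MvPowerSeries.map (algebraMap (A n) (K n)) f) (setting p n).L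

theorem constantCoeff_mapK {τ : Type*} {f : MvPowerSeries τ (A n)} (hf : constantCoeff f = 0) :
    constantCoeff (MvPowerSeries.map (algebraMap (A n) (K n)) f) = 0 := by
  rw [MvPowerSeries.constantCoeff_map, hf, map_zero]

theorem logOf_injective {τ : Type*} {f g : MvPowerSeries τ (A n)} (hf : constantCoeff f = 0)
    (hg : constantCoeff g = 0) (h : logOf p n f = logOf p n g) : f = g :=
  map_alg_injective n ((setting p n).log_injective (constantCoeff_mapK n hf)
    (constantCoeff_mapK n hg) h)

/-- The formal sum `F(a, b)`. -/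
def fsum {τ : Type*} (a b : MvPowerSeries τ (A n)) : MvPowerSeries τ (A n) :=
  MvPowerSeries.subst ![a, b] (law p n).toPowerSeries

theorem constantCoeff_pair {R : Type*} [CommRing R] {τ : Type*} {a b : MvPowerSeries τ R}
    (ha : constantCoeff a = 0) (hb : constantCoeff b = 0) :
    ∀ i, constantCoeff (![a, b] i) = 0 := by
  intro i; fin_cases i <;> assumption

theorem constantCoeff_fsum {τ : Type*} {a b : MvPowerSeries τ (A n)} (ha : constantCoeff a = 0)
    (hb : constantCoeff b = 0) : constantCoeff (fsum p n a b) = 0 :=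
  MvPowerSeries.constantCoeff_subst_eq_zero
    (MvPowerSeries.hasSubst_of_constantCoeff_zero (constantCoeff_pair ha hb))
    (constantCoeff_pair ha hb) (law p n).zero_constantCoeff

theorem logOf_fsum {τ : Type*} {a b : MvPowerSeries τ (A n)} (ha : constantCoeff a = 0)
    (hb : constantCoeff b = 0) : logOf p n (fsum p n a b) = logOf p n a + logOf p n b := by
  have h0 := constantCoeff_pair ha hb
  rw [logOf, fsum, MvPowerSeries.map_subst (MvPowerSeries.hasSubst_of_constantCoeff_zero h0),
    law_map, (setting p n).log_lawSeries_subst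
      (b := fun i ↦ MvPowerSeries.map (algebraMap (A n) (K n)) (![a, b] i))
      (fun i ↦ constantCoeff_mapK n (h0 i))]
  rfl

theorem fsum_comm {τ : Type*} {a b : MvPowerSeries τ (A n)} (ha : constantCoeff a = 0)
    (hb : constantCoeff b = 0) : fsum p n a b = fsum p n b a := by
  refine logOf_injective p n (constantCoeff_fsum p n ha hb) (constantCoeff_fsum p n hb ha) ?_
  rw [logOf_fsum p n ha hb, logOf_fsum p n hb ha, add_comm]

instance law_isComm : (law p n).IsComm where
  comm := by
    have h := fsum_comm p n (constantCoeff_X (R := A n) (0 : Fin 2))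
      (constantCoeff_X (R := A n) (1 : Fin 2))
    rw [fsum, fsum] at h
    have hid : (![X 0, X 1] : Fin 2 → MvPowerSeries (Fin 2) (A n)) = X := by
      funext i; fin_cases i <;> rfl
    rw [hid, MvPowerSeries.subst_self] at h
    exact h

/-- The series of multiplication by an integer. -/
def mulSeries (m : ℤ) : PowerSeries (A n) :=
  toA n ((setting p n).comb ({()} : Finset Unit) (fun _ ↦ m) fun _ ↦ MvPowerSeries.X ())

theorem mulSeries_map (m : ℤ) : MvPowerSeries.map (algebraMap (A n) (K n)) (mulSeries p n m) =
    (setting p n).comb ({()} : Finset Unit) (fun _ ↦ m) fun _ ↦ MvPowerSeries.X () := by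
  classical
  refine map_toA p n ((setting p n).comb_integral (p_ne_zero p n) _ _ _
    (fun i _ ↦ MvPowerSeries.constantCoeff_X ()) fun i _ d ↦ ?_)
  rw [MvPowerSeries.coeff_X]
  split_ifs
  · exact Subring.one_mem _
  · exact Subring.zero_mem _

theorem constantCoeff_mulSeries (m : ℤ) : constantCoeff (mulSeries p n m) = 0 := by
  apply IsFractionRing.injective (A n) (K n)
  rw [map_zero, ← MvPowerSeries.constantCoeff_map, mulSeries_map]
  exact (setting p n).constantCoeff_comb _ _ _ fun i _ ↦ MvPowerSeries.constantCoeff_X ()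

theorem logOf_mulSeries (m : ℤ) :
    logOf p n (mulSeries p n m) = m • logOf p n (MvPowerSeries.X ()) := by
  rw [logOf, mulSeries_map, (setting p n).log_comb _ _ _ fun i _ ↦ MvPowerSeries.constantCoeff_X (),
    sum_singleton, logOf, MvPowerSeries.map_X]

theorem logOf_zero {τ : Type*} : logOf p n (0 : MvPowerSeries τ (A n)) = 0 := by
  rw [logOf, map_zero]
  exact PowerSeries.subst_zero_of_constantCoeff_zero (setting p n).L_zero

theorem mulSeries_add (a b : ℤ) :
    mulSeries p n (a + b) = fsum p n (mulSeries p n a) (mulSeries p n b) := by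
  refine logOf_injective p n (constantCoeff_mulSeries p n _)
    (constantCoeff_fsum p n (constantCoeff_mulSeries p n a) (constantCoeff_mulSeries p n b)) ?_
  rw [logOf_fsum p n (constantCoeff_mulSeries p n a) (constantCoeff_mulSeries p n b),
    logOf_mulSeries, logOf_mulSeries, logOf_mulSeries, add_zsmul]

theorem mulSeries_zero : mulSeries p n 0 = 0 := by
  refine logOf_injective p n (constantCoeff_mulSeries p n _) (map_zero _) ?_
  rw [logOf_mulSeries, zero_zsmul, logOf_zero]

theorem mulSeries_one : mulSeries p n 1 = MvPowerSeries.X () := by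
  refine logOf_injective p n (constantCoeff_mulSeries p n _) (constantCoeff_X ()) ?_
  rw [logOf_mulSeries, one_zsmul]

section points

variable {R : Type*} [CommRing R] [UniformSpace R] [CLRing R]
  {S : Type*} [CommRing S] [UniformSpace S] [CLRing S]

theorem ev_map_subst {σ τ : Type*} [Finite σ] [Finite τ] (φ : A n →+* R)
    {b : σ → MvPowerSeries τ (A n)} (hb : ∀ i, constantCoeff (b i) = 0)
    {a : τ → R} (ha : IsSmall a) (f : MvPowerSeries σ (A n)) :
    ev (MvPowerSeries.map φ (MvPowerSeries.subst b f)) a =
      ev (MvPowerSeries.map φ f) fun i ↦ ev (MvPowerSeries.map φ (b i)) a := by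
  rw [MvPowerSeries.map_subst (MvPowerSeries.hasSubst_of_constantCoeff_zero hb)]
  exact ev_subst (fun i ↦ by rw [MvPowerSeries.constantCoeff_map, hb i, map_zero]) ha _

end points

/-- Points of the formal group of `φ` in a complete linearly topologized ring. -/
@[ext]
structure Pt (q : ℕ) {m : ℕ} {R : Type*} [CommRing R] [UniformSpace R] (φ : A m →+* R) where
  /-- the coordinate -/
  val : R
  small : IsTopologicallyNilpotent val

section points

variable {n} {R : Type*} [CommRing R] [UniformSpace R] [CLRing R]
  {S : Type*} [CommRing S] [UniformSpace S] [CLRing S] (φ : A n →+* R)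

omit [CLRing R] in
theorem isSmall_pair {x y : R} (hx : IsTopologicallyNilpotent x)
    (hy : IsTopologicallyNilpotent y) : IsSmall ![x, y] := by
  intro i; fin_cases i <;> assumption

instance : Zero (Pt p φ) := ⟨⟨0, IsTopologicallyNilpotent.zero⟩⟩

omit hp [CLRing R] in
theorem zero_val : (0 : Pt p φ).val = 0 := rfl

/-- Addition of points. -/
def addVal (x y : R) : R :=
  ev (MvPowerSeries.map φ (law p n).toPowerSeries) ![x, y]

theorem addVal_small {x y : R} (hx : IsTopologicallyNilpotent x)
    (hy : IsTopologicallyNilpotent y) : IsTopologicallyNilpotent (addVal p φ x y) := by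
  refine ev_small (isSmall_pair hx hy) ?_
  rw [MvPowerSeries.constantCoeff_map, (law p n).zero_constantCoeff, map_zero]
  exact IsTopologicallyNilpotent.zero

/-- Negation of points. -/
def negVal (x : R) : R :=
  ev (MvPowerSeries.map φ (mulSeries p n (-1))) fun _ ↦ x

theorem negVal_small {x : R} (hx : IsTopologicallyNilpotent x) :
    IsTopologicallyNilpotent (negVal p φ x) := by
  refine ev_small (fun _ ↦ hx) ?_
  rw [MvPowerSeries.constantCoeff_map, constantCoeff_mulSeries, map_zero]
  exact IsTopologicallyNilpotent.zero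

theorem addVal_assoc {x y z : R} (hx : IsTopologicallyNilpotent x)
    (hy : IsTopologicallyNilpotent y) (hz : IsTopologicallyNilpotent z) :
    addVal p φ (addVal p φ x y) z = addVal p φ x (addVal p φ y z) := by
  have h := congr_arg (fun f ↦ ev (MvPowerSeries.map φ f) ![x, y, z]) (law p n).assoc
  have hsm : IsSmall ![x, y, z] := by intro i; fin_cases i <;> assumption
  have hX : ∀ i : Fin 3, constantCoeff (X i : MvPowerSeries (Fin 3) (A n)) = 0 := constantCoeff_X
  have hf01 : constantCoeff (MvPowerSeries.subst ![X 0, X 1] (law p n).toPowerSeries :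
      MvPowerSeries (Fin 3) (A n)) = 0 := constantCoeff_fsum p n (hX 0) (hX 1)
  have hf12 : constantCoeff (MvPowerSeries.subst ![X 1, X 2] (law p n).toPowerSeries :
      MvPowerSeries (Fin 3) (A n)) = 0 := constantCoeff_fsum p n (hX 1) (hX 2)
  rw [ev_map_subst n φ (constantCoeff_pair hf01 (hX 2)) hsm,
    ev_map_subst n φ (constantCoeff_pair (hX 0) hf12) hsm] at h
  have e1 : (fun i ↦ ev (MvPowerSeries.map φ
      (![MvPowerSeries.subst ![X 0, X 1] (law p n).toPowerSeries, X 2] i)) ![x, y, z]) =
      ![addVal p φ x y, z] := by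
    funext i
    fin_cases i
    · simp only [Fin.zero_eta, Matrix.cons_val_zero]
      rw [ev_map_subst n φ (constantCoeff_pair (hX 0) (hX 1)) hsm, addVal]
      congr 1
      funext j; fin_cases j <;> simp
    · simp
  have e2 : (fun i ↦ ev (MvPowerSeries.map φ
      (![X 0, MvPowerSeries.subst ![X 1, X 2] (law p n).toPowerSeries] i)) ![x, y, z]) =
      ![x, addVal p φ y z] := by
    funext i
    fin_cases i
    · simp
    · simp only [Fin.mk_one, Matrix.cons_val_one, Matrix.cons_val_fin_one]
      rw [ev_map_subst n φ (constantCoeff_pair (hX 1) (hX 2)) hsm, addVal]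
      congr 1
      funext j; fin_cases j <;> simp
  rw [e1, e2] at h
  exact h

theorem addVal_comm {x y : R} (hx : IsTopologicallyNilpotent x)
    (hy : IsTopologicallyNilpotent y) : addVal p φ x y = addVal p φ y x := by
  have hsm : IsSmall ![x, y] := isSmall_pair hx hy
  have h := congr_arg (fun f ↦ ev (MvPowerSeries.map φ f) ![x, y])
    (fsum_comm p n (constantCoeff_X (R := A n) (0 : Fin 2)) (constantCoeff_X (1 : Fin 2)))
  simp only [fsum] at h
  rw [ev_map_subst n φ (constantCoeff_pair (constantCoeff_X _) (constantCoeff_X _)) hsm,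
    ev_map_subst n φ (constantCoeff_pair (constantCoeff_X _) (constantCoeff_X _)) hsm] at h
  rw [addVal, addVal]
  convert h using 2 <;> funext i <;> fin_cases i <;> simp

theorem addVal_zero {x : R} (hx : IsTopologicallyNilpotent x) : addVal p φ 0 x = x := by
  have hsm : IsSmall (fun _ : Unit ↦ x) := fun _ ↦ hx
  have hz : FormalGroup.zeroX (law p n) = PowerSeries.X := FormalGroup.zeroX_eq_X _
  have h := congr_arg (fun f ↦ ev (MvPowerSeries.map φ f) fun _ : Unit ↦ x) hz
  simp only [FormalGroup.zeroX] at h
  rw [ev_map_subst n φ (constantCoeff_pair (map_zero _) (by exact constantCoeff_X ())) hsm] at h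
  have hR : ev (MvPowerSeries.map φ (PowerSeries.X : PowerSeries (A n))) (fun _ : Unit ↦ x) = x := by
    rw [PowerSeries.X, MvPowerSeries.map_X, ev_X]
  rw [hR] at h
  conv_rhs => rw [← h]
  rw [addVal]
  congr 1
  funext i
  fin_cases i
  · simp [ev_zero hsm]
  · simp only [Fin.mk_one, Matrix.cons_val_one, Matrix.cons_val_fin_one, hR]

theorem negVal_add {x : R} (hx : IsTopologicallyNilpotent x) :
    addVal p φ (negVal p φ x) x = 0 := by
  have hsm : IsSmall (fun _ : Unit ↦ x) := fun _ ↦ hx
  have h0 : fsum p n (mulSeries p n (-1)) (MvPowerSeries.X ()) = 0 := by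
    rw [← mulSeries_one p n, ← mulSeries_add, neg_add_cancel, mulSeries_zero]
  have h := congr_arg (fun f ↦ ev (MvPowerSeries.map φ f) fun _ : Unit ↦ x) h0
  simp only [fsum, map_zero] at h
  rw [ev_map_subst n φ (constantCoeff_pair (constantCoeff_mulSeries p n _) (constantCoeff_X ())) hsm,
    ev_zero hsm] at h
  rw [addVal, negVal]
  convert h using 2
  funext i
  fin_cases i <;> simp

instance : Add (Pt p φ) := ⟨fun x y ↦ ⟨addVal p φ x.val y.val, addVal_small p φ x.small y.small⟩⟩

instance : Neg (Pt p φ) := ⟨fun x ↦ ⟨negVal p φ x.val, negVal_small p φ x.small⟩⟩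

theorem add_val (x y : Pt p φ) : (x + y).val = addVal p φ x.val y.val := rfl

theorem neg_val (x : Pt p φ) : (-x).val = negVal p φ x.val := rfl

instance : AddCommGroup (Pt p φ) where
  add_assoc x y z := Pt.ext (addVal_assoc p φ x.small y.small z.small)
  zero_add x := Pt.ext (addVal_zero p φ x.small)
  add_zero x := Pt.ext (by
    rw [add_val, addVal_comm p φ x.small (0 : Pt p φ).small]
    exact addVal_zero p φ x.small)
  neg_add_cancel x := Pt.ext (negVal_add p φ x.small)
  add_comm x y := Pt.ext (addVal_comm p φ x.small y.small)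
  nsmul := nsmulRec
  zsmul := zsmulRec

theorem nsmul_val (x : Pt p φ) (m : ℕ) :
    (m • x).val = ev (MvPowerSeries.map φ (mulSeries p n m)) fun _ ↦ x.val := by
  have hsm : IsSmall fun _ : Unit ↦ x.val := fun _ ↦ x.small
  induction m with
  | zero => rw [Nat.cast_zero, mulSeries_zero, map_zero, ev_zero hsm, zero_nsmul]; rfl
  | succ m ih =>
    rw [succ_nsmul, add_val, ih, Nat.cast_succ, mulSeries_add, fsum, addVal,
      ev_map_subst n φ (constantCoeff_pair (constantCoeff_mulSeries p n _)
        (constantCoeff_mulSeries p n _)) hsm]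
    congr 1
    funext i
    fin_cases i
    · rfl
    · simp [mulSeries_one]

/-- Continuous ring maps induce maps of points. -/
def mapPt {ε : R →+* S} (hε : Continuous ε) : Pt p φ →+ Pt p (ε.comp φ) where
  toFun x := ⟨ε x.val, x.small.map hε⟩
  map_zero' := Pt.ext (map_zero ε)
  map_add' x y := Pt.ext <| by
    show ε (addVal p φ x.val y.val) = addVal p (ε.comp φ) (ε x.val) (ε y.val)
    rw [addVal, addVal, map_ev (isSmall_pair x.small y.small) hε, MvPowerSeries.map_map]
    congr 1
    funext i; fin_cases i <;> rfl

theorem mapPt_val {ε : R →+* S} (hε : Continuous ε) (x : Pt p φ) :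
    (mapPt p φ hε x).val = ε x.val := rfl

end points

end Haz

end Vale.Agent.P217
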