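import Vale.Agent.P217.Law
import Vale.Agent.P217.Defs
import Mathlib.Algebra.MvPolynomial.Expand
import Mathlib.RingTheory.Localization.FractionRing
import Mathlib.FieldTheory.Finite.Polynomial

/-!
Hazewinkel's universal formal group law of height at most `n` over `ℤ[u_1, ..., u_{n-1}]`.
-/

noncomputable section

open Finset

namespace Vale.Agent.P217

namespace Haz

variable (p n : ℕ) [hp : Fact p.Prime]

/-- The parameter ring. -/
abbrev A : Type := MvPolynomial (Fin (n - 1)) ℤ

/-- Its fraction field. -/
abbrev K : Type := FractionRing (A n)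

/-- `u i` for `i ≥ 1`: a variable, `1` at `n`, `0` beyond. -/
def uA (i : ℕ) : A n :=
  if h : i ≠ 0 ∧ i - 1 < n - 1 then MvPolynomial.X ⟨i - 1, h.2⟩
  else if i = n then 1 else 0

/-- `u i` in the field. -/
def uK (i : ℕ) : K n := algebraMap (A n) (K n) (uA n i)

/-- The endomorphism `u ↦ u^p` of the parameter ring. -/
def σA : A n →+* A n := (MvPolynomial.expand p).toRingHom

theorem σA_injective : Function.Injective (σA p n) :=
  MvPolynomial.expand_injective hp.out.pos

/-- The endomorphism `u ↦ u^p` of the fraction field. -/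
def σK : K n →+* K n :=
  IsFractionRing.map (A := A n) (B := A n) (K := K n) (L := K n) (σA_injective p n)

theorem σK_algebraMap (a : A n) : σK p n (algebraMap (A n) (K n) a) = algebraMap _ _ (σA p n a) :=
  IsLocalization.map_eq (M := nonZeroDivisors (A n)) (T := nonZeroDivisors (A n))
    (S := K n) (Q := K n) (g := σA p n)
    (nonZeroDivisors_le_comap_nonZeroDivisors_of_injective (σA p n) (σA_injective p n)) a

theorem σA_uA (i : ℕ) : σA p n (uA n i) = uA n i ^ p := by
  unfold uA σA
  split_ifs <;> simp [hp.out.ne_zero]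

theorem σK_pow_uK (i j : ℕ) : (σK p n ^ j) (uK n i) = uK n i ^ p ^ j := by
  induction j with
  | zero => simp
  | succ j ih =>
    rw [pow_succ', RingHom.coe_mul, Function.comp_apply, ih, map_pow, uK, σK_algebraMap, σA_uA,
      map_pow, ← pow_mul, ← pow_succ']

theorem p_ne_zero : (p : K n) ≠ 0 := Nat.cast_ne_zero.mpr hp.out.ne_zero

/-- Hazewinkel's logarithm coefficients. -/
def ell : ℕ → K n
  | 0 => 1
  | k + 1 => (∑ i : Fin (k + 1),
      ell (k - (i : ℕ)) * uK n (i + 1) ^ p ^ (k - (i : ℕ))) / (p : K n)

omit hp in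
theorem ell_zero : ell p n 0 = 1 := by rw [ell]

theorem ell_succ (k : ℕ) : (p : K n) * ell p n (k + 1) =
    ∑ i ∈ range (k + 1), ell p n (k - i) * uK n (i + 1) ^ p ^ (k - i) := by
  rw [ell, mul_div_cancel₀ _ (p_ne_zero p n),
    Fin.sum_univ_eq_sum_range fun i ↦ ell p n (k - i) * uK n (i + 1) ^ p ^ (k - i)]

theorem ell_fe (k : ℕ) : (p : K n) * ell p n (k + 1) =
    ∑ i ∈ range (k + 1), uK n (i + 1) * (σK p n ^ (i + 1)) (ell p n (k - i)) := by
  induction k using Nat.strong_induction_on with
  | _ k ih =>
    apply mul_left_cancel₀ (p_ne_zero p n)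
    rw [ell_succ, mul_sum, mul_sum, sum_range_succ, sum_range_succ (fun i ↦ (p : K n) * _) k,
      Nat.sub_self, ell_zero, pow_zero, pow_one, one_mul, map_one, mul_one, add_left_inj]
    have h1 : ∀ i ∈ range k, (p : K n) * (ell p n (k - i) * uK n (i + 1) ^ p ^ (k - i)) =
        ∑ j ∈ range (k - i), uK n (j + 1) *
          (σK p n ^ (j + 1)) (ell p n (k - i - 1 - j)) * uK n (i + 1) ^ p ^ (k - i) := by
      intro i hi
      have hi' : i < k := mem_range.mp hi
      obtain ⟨m, hm⟩ : ∃ m, k - i = m + 1 := ⟨k - i - 1, by omega⟩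
      rw [hm, ← mul_assoc, ih m (by omega), sum_mul]
      simp
    have h2 : ∀ j ∈ range k, (p : K n) * (uK n (j + 1) * (σK p n ^ (j + 1)) (ell p n (k - j))) =
        ∑ i ∈ range (k - j), uK n (j + 1) *
          (σK p n ^ (j + 1)) (ell p n (k - j - 1 - i)) * uK n (i + 1) ^ p ^ (k - i) := by
      intro j hj
      have hj' : j < k := mem_range.mp hj
      obtain ⟨m, hm⟩ : ∃ m, k - j = m + 1 := ⟨k - j - 1, by omega⟩
      rw [hm, mul_left_comm, show (p : K n) = (σK p n ^ (j + 1)) (p : K n) from (map_natCast _ p).symm,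
        ← map_mul, ell_succ, map_sum, mul_sum]
      refine sum_congr rfl fun i hi ↦ ?_
      have hi' : i < m + 1 := mem_range.mp hi
      rw [map_mul, map_pow, σK_pow_uK, ← pow_mul, ← pow_add, mul_assoc, add_comm (j + 1) (m - i)]
      rw [show m - i + (j + 1) = k - i by omega, Nat.add_sub_cancel]
    rw [sum_congr rfl h1, sum_congr rfl h2]
    rw [sum_comm' (t' := range k) (s' := fun j ↦ range (k - j))]
    · refine sum_congr rfl fun j _ ↦ sum_congr rfl fun i _ ↦ ?_
      rw [show k - i - 1 - j = k - j - 1 - i by omega]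
    · intro i j
      simp only [mem_range]
      omega

theorem p_notUnit : ¬ IsUnit ((p : A n)) := by
  intro h
  have := h.map (MvPolynomial.constantCoeff (σ := Fin (n - 1)) (R := ℤ))
  simp only [map_natCast] at this
  rw [Int.isUnit_iff_natAbs_eq] at this
  simp only [Int.natAbs_natCast] at this
  exact hp.out.ne_one this

theorem frobA (a : A n) : ∃ b, σA p n a = a ^ p + (p : A n) * b := by
  have h : MvPolynomial.map (Int.castRingHom (ZMod p)) (σA p n a - a ^ p) = 0 := by
    rw [map_sub, map_pow]
    simp only [σA, AlgHom.toRingHom_eq_coe, RingHom.coe_coe, MvPolynomial.map_expand]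
    rw [MvPolynomial.expand_zmod, sub_self]
  have h2 : MvPolynomial.C (p : ℤ) ∣ σA p n a - a ^ p := by
    rw [MvPolynomial.C_dvd_iff_dvd_coeff]
    intro d
    have := congr_arg (MvPolynomial.coeff d) h
    rw [MvPolynomial.coeff_map, MvPolynomial.coeff_zero] at this
    exact (ZMod.intCast_zmod_eq_zero_iff_dvd _ _).mp this
  obtain ⟨b, hb⟩ := h2
  refine ⟨b, ?_⟩
  rw [map_natCast] at hb
  linear_combination hb

/-- The logarithm series. -/
def logSeries : PowerSeries (K n) := by
  classical
  exact PowerSeries.mk fun m ↦ if h : ∃ k, m = p ^ k then ell p n h.choose else 0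

theorem coeff_logSeries (k : ℕ) : PowerSeries.coeff (p ^ k) (logSeries p n) = ell p n k := by
  classical
  rw [logSeries, PowerSeries.coeff_mk, dif_pos ⟨k, rfl⟩]
  congr 1
  exact (Nat.pow_right_injective hp.out.two_le (⟨k, rfl⟩ : ∃ l, p ^ k = p ^ l).choose_spec).symm

omit hp in
theorem coeff_logSeries_ne (m : ℕ) (h : ∀ k, m ≠ p ^ k) :
    PowerSeries.coeff m (logSeries p n) = 0 := by
  classical
  rw [logSeries, PowerSeries.coeff_mk, dif_neg (by simpa using h)]

theorem mem_range_iff {x : K n} :
    x ∈ (algebraMap (A n) (K n)).range ↔ ∃ a, algebraMap (A n) (K n) a = x := Iff.rfl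

/-- The functional equation setting of Hazewinkel's series. -/
def setting : FESetting p (K n) where
  A := (algebraMap (A n) (K n)).range
  nonunit := by
    intro hu
    obtain ⟨⟨u, v, huv, _⟩, hu'⟩ := hu
    simp only at hu'
    obtain ⟨b, hb⟩ := v.2
    have h1 := congr_arg Subtype.val huv
    rw [hu'] at h1
    simp only [Subring.coe_mul, Subring.coe_natCast, Subring.coe_one, ← hb] at h1
    rw [← map_natCast (algebraMap (A n) (K n)), ← map_mul, ← map_one (algebraMap (A n) (K n))] at h1
    exact p_notUnit p n (IsUnit.of_mul_eq_one _ (IsFractionRing.injective _ _ h1))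
  σ := σK p n
  σ_mem := by
    rintro _ ⟨a, rfl⟩
    exact ⟨σA p n a, (σK_algebraMap p n a).symm⟩
  frob := by
    rintro _ ⟨a, rfl⟩
    obtain ⟨b, hb⟩ := frobA p n a
    refine ⟨algebraMap _ _ b, ⟨b, rfl⟩, ?_⟩
    rw [σK_algebraMap, hb, map_add, map_pow, map_mul, map_natCast]
  u := uK n
  u_mem i := ⟨uA n i, rfl⟩
  L := logSeries p n
  L_zero := by
    rw [← PowerSeries.coeff_zero_eq_constantCoeff_apply]
    exact coeff_logSeries_ne p n 0 fun k ↦ (pow_pos hp.out.pos k).ne
  L_one := by simpa [ell_zero] using coeff_logSeries p n 0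
  L_typ := coeff_logSeries_ne p n
  fe k := by simpa [coeff_logSeries] using ell_fe p n k

/-- A series over `K` with coefficients in `A`, seen over `A`. -/
def toA {τ : Type*} (G : MvPowerSeries τ (K n)) : MvPowerSeries τ (A n) := fun d ↦
  Function.invFun (algebraMap (A n) (K n)) (MvPowerSeries.coeff d G)

theorem map_toA {τ : Type*} {G : MvPowerSeries τ (K n)}
    (h : ∀ d, MvPowerSeries.coeff d G ∈ (setting p n).A) :
    MvPowerSeries.map (algebraMap (A n) (K n)) (toA n G) = G := by
  ext d
  exact Function.invFun_eq (h d)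

theorem map_alg_injective {τ : Type*} :
    Function.Injective (MvPowerSeries.map (σ := τ) (algebraMap (A n) (K n))) := by
  intro f g h
  ext1 d
  exact IsFractionRing.injective (A n) (K n) (by
    simpa using congr_arg (MvPowerSeries.coeff d) h)

theorem lawK_integral (d : Fin 2 →₀ ℕ) :
    MvPowerSeries.coeff d (setting p n).lawSeries ∈ (setting p n).A := by
  classical
  refine (setting p n).comb_integral (p_ne_zero p n) _ _ _
    (fun i _ ↦ MvPowerSeries.constantCoeff_X i) (fun i _ d ↦ ?_) d
  rw [MvPowerSeries.coeff_X]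
  split_ifs
  · exact Subring.one_mem _
  · exact Subring.zero_mem _

/-- Hazewinkel's formal group law over the parameter ring. -/
def law : FormalGroup (A n) where
  toPowerSeries := toA n (setting p n).lawSeries
  zero_constantCoeff := by
    apply IsFractionRing.injective (A n) (K n)
    rw [map_zero, ← MvPowerSeries.constantCoeff_map, map_toA p n (lawK_integral p n)]
    exact (setting p n).lawSeries_zero
  lin_coeff_X := by
    apply IsFractionRing.injective (A n) (K n)
    rw [map_one, ← MvPowerSeries.coeff_map, map_toA p n (lawK_integral p n)]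
    exact (setting p n).lawK.lin_coeff_X
  lin_coeff_Y := by
    apply IsFractionRing.injective (A n) (K n)
    rw [map_one, ← MvPowerSeries.coeff_map, map_toA p n (lawK_integral p n)]
    exact (setting p n).lawK.lin_coeff_Y
  assoc := by
    set g := algebraMap (A n) (K n)
    set f := toA n (setting p n).lawSeries with hf
    have hmap : MvPowerSeries.map g f = (setting p n).lawSeries :=
      map_toA p n (lawK_integral p n)
    have hf0 : MvPowerSeries.constantCoeff f = 0 := by
      apply IsFractionRing.injective (A n) (K n)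
      rw [map_zero, ← MvPowerSeries.constantCoeff_map, hmap]
      exact (setting p n).lawSeries_zero
    have key : ∀ a b : MvPowerSeries (Fin 3) (A n), MvPowerSeries.constantCoeff a = 0 →
        MvPowerSeries.constantCoeff b = 0 →
        MvPowerSeries.map g (MvPowerSeries.subst ![a, b] f) =
          MvPowerSeries.subst ![MvPowerSeries.map g a, MvPowerSeries.map g b]
            (setting p n).lawSeries := by
      intro a b ha hb
      have h0 : ∀ i, MvPowerSeries.constantCoeff (![a, b] i) = 0 := by
        intro i; fin_cases i <;> assumption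
      rw [MvPowerSeries.map_subst (MvPowerSeries.hasSubst_of_constantCoeff_zero h0), hmap]
      congr 1
      funext i; fin_cases i <;> rfl
    have hc : ∀ a b : MvPowerSeries (Fin 3) (A n), MvPowerSeries.constantCoeff a = 0 →
        MvPowerSeries.constantCoeff b = 0 →
        MvPowerSeries.constantCoeff (MvPowerSeries.subst ![a, b] f) = 0 := fun a b ha hb ↦ by
      have h0 : ∀ i, MvPowerSeries.constantCoeff (![a, b] i) = 0 := by
        intro i; fin_cases i <;> assumption
      exact MvPowerSeries.constantCoeff_subst_eq_zero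
        (MvPowerSeries.hasSubst_of_constantCoeff_zero h0) h0 hf0
    apply map_alg_injective n
    rw [key _ _ (hc _ _ (MvPowerSeries.constantCoeff_X 0) (MvPowerSeries.constantCoeff_X 1))
      (MvPowerSeries.constantCoeff_X 2), key _ _ (MvPowerSeries.constantCoeff_X 0)
      (hc _ _ (MvPowerSeries.constantCoeff_X 1) (MvPowerSeries.constantCoeff_X 2)),
      key _ _ (MvPowerSeries.constantCoeff_X 0) (MvPowerSeries.constantCoeff_X 1),
      key _ _ (MvPowerSeries.constantCoeff_X 1) (MvPowerSeries.constantCoeff_X 2)]
    simp only [MvPowerSeries.map_X]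
    exact (setting p n).lawK.assoc

theorem law_map : MvPowerSeries.map (algebraMap (A n) (K n)) (law p n).toPowerSeries =
    (setting p n).lawSeries :=
  map_toA p n (lawK_integral p n)

end Haz

end Vale.Agent.P217
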