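import Vale.Agent.P217.Universal
import Mathlib.RingTheory.RootsOfUnity.Complex
import Mathlib.Algebra.CharP.Lemmas

/-!
The law near the origin at a point of height at least `h`, endomorphisms of Honda's law.
-/

noncomputable section

open MvPowerSeries Finset

namespace Vale.Agent.P217

variable {p n : ℕ} [hp : Fact p.Prime]

theorem ellInt_map_low {S : Type*} [CommRing S] (ψ : Haz.A n →+* S) {h : ℕ}
    (hu : ∀ i, 0 < i → i < h → ψ (Haz.uA n i) = 0) {k : ℕ} (hk0 : k ≠ 0) (hk : k < h) :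
    ψ (Haz.ellInt p n k) = 0 := by
  obtain ⟨k, rfl⟩ : ∃ m, k = m + 1 := ⟨k - 1, by omega⟩
  rw [Haz.ellInt_succ, map_sum]
  refine sum_eq_zero fun i hi ↦ ?_
  have hi' : i < k + 1 := mem_range.mp hi
  rw [map_mul, map_pow ψ, hu (i + 1) (by omega) (by omega),
    zero_pow (pow_ne_zero _ hp.out.ne_zero), mul_zero]

theorem ellInt_map_honda {S : Type*} [CommRing S] (ψ : Haz.A n →+* S)
    (hu : ∀ i, 0 < i → i < n → ψ (Haz.uA n i) = 0) :
    ∀ k, ¬ n ∣ k → ψ (Haz.ellInt p n k) = 0 := by
  intro k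
  induction k using Nat.strong_induction_on with
  | _ k ih =>
    intro hk
    obtain ⟨k, rfl⟩ : ∃ m, k = m + 1 := ⟨k - 1, by
      rcases Nat.eq_zero_or_pos k with rfl | h
      · simp at hk
      · omega⟩
    rw [Haz.ellInt_succ, map_sum]
    refine sum_eq_zero fun i hi ↦ ?_
    have hi' : i < k + 1 := mem_range.mp hi
    rw [map_mul, map_mul, map_pow ψ (Haz.uA n (i + 1))]
    rcases Nat.lt_trichotomy (i + 1) n with hlt | heq | hgt
    · rw [hu _ (by omega) hlt, zero_pow (pow_ne_zero _ hp.out.ne_zero), mul_zero]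
    · rw [ih (k - i) (by omega) ?_, mul_zero, zero_mul]
      intro hdvd
      refine hk ?_
      rw [show k + 1 = (k - i) + (i + 1) by omega]
      exact dvd_add hdvd (dvd_of_eq heq.symm)
    · rw [Haz.uA_eq_zero n hgt, map_zero, zero_pow (pow_ne_zero _ hp.out.ne_zero), mul_zero]

/-- Below degree `p^h` the law is additive when the first parameters vanish. -/
theorem law_low {R : Type*} [CommRing R] (φ : Haz.A n →+* R) {h : ℕ}
    (hu : ∀ i, 0 < i → i < h → φ (Haz.uA n i) = 0) {d : Fin 2 →₀ ℕ} (hd : d.degree < p ^ h) :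
    coeff d ((Haz.law p n).map φ).toPowerSeries = coeff d (X 0 + X 1) := by
  classical
  let π : Haz.A n →+* Haz.A n :=
    MvPolynomial.eval₂Hom (Int.castRingHom _) fun i : Fin (n - 1) ↦
      if i.1 + 1 < h then 0 else MvPolynomial.X i
  have hπu : ∀ i, 0 < i → i < h → φ (Haz.uA n i) = 0 → (i = n → False) →
      π (Haz.uA n i) = 0 := by
    intro i hi0 hih _ hin
    unfold Haz.uA
    split_ifs with h1
    · simp only [π, MvPolynomial.eval₂Hom_X']
      rw [if_pos (by omega)]
    · simp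
  have hφπ : φ.comp π = φ := by
    apply MvPolynomial.ringHom_ext
    · intro r; simp
    · intro i
      simp only [RingHom.comp_apply, π, MvPolynomial.eval₂Hom_X']
      split_ifs with hi
      · rw [map_zero]
        have := hu (i.1 + 1) (by omega) hi
        rw [Haz.uA, dif_pos ⟨Nat.succ_ne_zero _, by simp⟩] at this
        simpa using this.symm
      · rfl
  by_cases hnh : 0 < n ∧ n < h
  · -- here `φ (u_n) = 1` vanishes, so `R` is trivial
    have h1 : φ (Haz.uA n n) = 0 := hu n hnh.1 hnh.2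
    rw [Haz.uA, dif_neg (by omega), if_pos rfl, map_one] at h1
    have : Subsingleton R := subsingleton_of_zero_eq_one h1.symm
    exact Subsingleton.elim _ _
  have hK := Haz.algK_charZero (n := n)
  let ψ := (algebraMap (Haz.A n) (Haz.K n)).comp π
  have hψ : ∀ i, 0 < i → i < h → ψ (Haz.uA n i) = 0 := fun i h0 hih ↦ by
    rw [RingHom.comp_apply, hπu i h0 hih (hu i h0 hih) (by omega), map_zero]
  have hcoef : ∀ {τ : Type} (G : MvPowerSeries τ (Haz.K n)) (e : τ →₀ ℕ),
      constantCoeff G = 0 → e.degree < p ^ h →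
      coeff e (PowerSeries.subst G (Haz.logAt p ψ)) = coeff e G := by
    intro τ G e hG he
    rw [FESetting.coeff_subst_eq_sum (p := p) _ (Haz.logAt_zero _) (Haz.coeff_logAt_ne _) hG le_rfl,
      sum_range_succ', sum_eq_zero, zero_add]
    · simp [Haz.logAt_one]
    · intro k _
      rw [Haz.coeff_logAt]
      rcases Nat.lt_or_ge (k + 1) h with hk | hk
      · rw [Haz.ellAt, ellInt_map_low ψ hψ (Nat.succ_ne_zero k) hk, zero_div, zero_mul]
      · rw [FESetting.coeff_pow_eq_zero hG
          (lt_of_lt_of_le he (Nat.pow_le_pow_right hp.out.pos hk)), mul_zero]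
  have h1 := congr_arg (coeff d) (Haz.logAt_law (p := p) ψ)
  rw [map_add, hcoef _ _ (constantCoeff_X _) hd, hcoef _ _ (constantCoeff_X _) hd,
    hcoef _ _ ((Haz.law p n).map ψ).zero_constantCoeff hd, ← map_add] at h1
  have hA : π (coeff d (Haz.law p n).toPowerSeries) = coeff d (X 0 + X 1) := by
    apply IsFractionRing.injective (Haz.A n) (Haz.K n)
    rw [← RingHom.comp_apply, ← MvPowerSeries.coeff_map, ← MvPowerSeries.coeff_map]
    simpa [ψ] using h1
  rw [FormalGroup.map_toPowerSeries, MvPowerSeries.coeff_map]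
  conv_lhs => rw [← hφπ, RingHom.comp_apply, hA, ← MvPowerSeries.coeff_map]
  simp

theorem logAt_scale {ψ : Haz.A n →+* ℂ} (hu : ∀ i, 0 < i → i < n → ψ (Haz.uA n i) = 0) {ζ : ℂ}
    (hζ : ζ ^ p ^ n = ζ) {τ : Type} (G : MvPowerSeries τ ℂ) (hG : constantCoeff G = 0) :
    PowerSeries.subst (MvPowerSeries.C ζ * G) (Haz.logAt p ψ) =
      MvPowerSeries.C ζ * PowerSeries.subst G (Haz.logAt p ψ) := by
  have hq : ∀ j, ζ ^ p ^ (n * j) = ζ := by
    intro j
    induction j with
    | zero => simp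
    | succ j ih => rw [Nat.mul_succ, pow_add, pow_mul, ih, hζ]
  refine MvPowerSeries.ext fun e ↦ ?_
  rw [coeff_C_mul, FESetting.coeff_subst_eq_sum (p := p) _ (Haz.logAt_zero _)
    (Haz.coeff_logAt_ne _) (by simp [hG]) le_rfl,
    FESetting.coeff_subst_eq_sum (p := p) _ (Haz.logAt_zero _) (Haz.coeff_logAt_ne _) hG le_rfl,
    mul_sum]
  refine sum_congr rfl fun k _ ↦ ?_
  rw [mul_pow, ← map_pow (MvPowerSeries.C (σ := τ) (R := ℂ)), coeff_C_mul, Haz.coeff_logAt]
  by_cases hk : n ∣ k
  · obtain ⟨j, rfl⟩ := hk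
    rw [hq j]; ring
  · rw [Haz.ellAt, ellInt_map_honda ψ hu k hk]
    ring

theorem zeroSpec_uA {R : Type*} [CommRing R] {i : ℕ} (hi : 0 < i) (hin : i < n) :
    zeroSpec n R (Haz.uA n i) = 0 := by
  rw [Haz.uA, dif_pos ⟨hi.ne', by omega⟩]
  simp [zeroSpec]

theorem zeroSpec_eq_cast (R : Type*) [CommRing R] :
    zeroSpec n R = (Int.castRingHom R).comp (zeroSpec n ℤ) := by
  apply MvPolynomial.ringHom_ext <;> intro <;> simp [zeroSpec]

theorem honda_coeff_scale {ζ : ℂ} (hζ : ζ ^ p ^ n = ζ) (d : Fin 2 →₀ ℕ) :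
    ζ ^ d.degree * (zeroSpec n ℤ (coeff d (Haz.law p n).toPowerSeries) : ℂ) =
      ζ * (zeroSpec n ℤ (coeff d (Haz.law p n).toPowerSeries) : ℂ) := by
  classical
  have hu : ∀ i, 0 < i → i < n → zeroSpec n ℂ (Haz.uA n i) = 0 := fun i ↦ zeroSpec_uA
  set ψ : Haz.A n →+* ℂ := zeroSpec n ℂ with hψ
  let b : Fin 2 → MvPowerSeries (Fin 2) ℂ := fun i ↦ MvPowerSeries.C ζ * X i
  have hb : ∀ i, constantCoeff (b i) = 0 := fun i ↦ by simp [b]
  have hF0 : constantCoeff ((Haz.law p n).map ψ).toPowerSeries = 0 :=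
    ((Haz.law p n).map ψ).zero_constantCoeff
  have heq : MvPowerSeries.subst b ((Haz.law p n).map ψ).toPowerSeries =
      MvPowerSeries.C ζ * ((Haz.law p n).map ψ).toPowerSeries := by
    refine ps_subst_cancel (Haz.logAt_zero (p := p) ψ) (by rw [Haz.logAt_one]; exact isUnit_one)
      (MvPowerSeries.constantCoeff_subst_eq_zero (hasSubst_of_constantCoeff_zero hb) hb hF0)
      (by rw [map_mul, hF0, mul_zero]) ?_
    rw [logAt_scale hu hζ _ hF0, Haz.logAt_law_subst ψ hb, Haz.logAt_law ψ,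
      logAt_scale hu hζ _ (constantCoeff_X 0), logAt_scale hu hζ _ (constantCoeff_X 1), mul_add]
  have hbr : b = (fun _ : Fin 2 ↦ ζ) • (X : Fin 2 → MvPowerSeries (Fin 2) ℂ) := by
    funext i
    simp [b, MvPowerSeries.smul_eq_C_mul]
  have hc1 := congr_arg (coeff d) heq
  rw [hbr, ← rescale_eq_subst, coeff_rescale, coeff_C_mul, FormalGroup.map_toPowerSeries,
    MvPowerSeries.coeff_map, Finsupp.prod, prod_pow_eq_pow_sum, ← Finsupp.degree_apply, hψ,
    zeroSpec_eq_cast ℂ] at hc1
  exact hc1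

/-- Honda's law commutes with scaling by elements fixed by the `p^n`-th power map. -/
theorem honda_scale {R : Type*} [CommRing R] (hn : n ≠ 0) {c : R} (hc : c ^ p ^ n = c)
    (d : Fin 2 →₀ ℕ) :
    c ^ d.degree * coeff d (honda p n R).toPowerSeries =
      c * coeff d (honda p n R).toPowerSeries := by
  set s := p ^ n - 1 with hs
  have hpn : 2 ≤ p ^ n := le_trans hp.out.two_le (Nat.le_self_pow hn p)
  have hcoeff : coeff d (honda p n R).toPowerSeries =
      (zeroSpec n ℤ (coeff d (Haz.law p n).toPowerSeries) : R) := by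
    rw [honda, FormalGroup.map_toPowerSeries, MvPowerSeries.coeff_map, zeroSpec_eq_cast R]
    rfl
  by_cases hd : d.degree % s = 1 % s ∧ d.degree ≠ 0
  · obtain ⟨m, hm⟩ : ∃ m, d.degree = s * m + 1 := by
      have hdiv : s ∣ d.degree - 1 := (Nat.modEq_iff_dvd' (by omega)).mp hd.1.symm
      obtain ⟨m, hm⟩ := hdiv
      exact ⟨m, by omega⟩
    have hcm : ∀ m : ℕ, c ^ (s * m + 1) = c := by
      intro m
      induction m with
      | zero => simp
      | succ m ih =>
        rw [show s * (m + 1) + 1 = (s * m + 1) + s by ring, pow_add, ih, ← pow_succ',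
          show s + 1 = p ^ n by omega, hc]
    rw [hm, hcm]
  suffices ha : zeroSpec n ℤ (coeff d (Haz.law p n).toPowerSeries) = 0 by simp [hcoeff, ha]
  by_cases h0 : d.degree = 0
  · rw [Finsupp.degree_eq_zero_iff] at h0
    subst h0
    simp [(Haz.law p n).zero_constantCoeff]
  let ζ : ℂ := Complex.exp (2 * Real.pi * Complex.I / s)
  have hζ : IsPrimitiveRoot ζ s := Complex.isPrimitiveRoot_exp s (by omega)
  have hζpow : ζ ^ p ^ n = ζ := by
    rw [show p ^ n = s + 1 by omega, pow_succ, hζ.pow_eq_one, one_mul]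
  by_contra ha
  have hζd : ζ ^ d.degree = ζ ^ 1 := by
    rw [pow_one]
    exact mul_right_cancel₀ (Int.cast_ne_zero.mpr ha) (honda_coeff_scale hζpow d)
  obtain ⟨D, hD⟩ : ∃ D, d.degree = D + 1 := ⟨d.degree - 1, by omega⟩
  have hζ0 : ζ ≠ 0 := Complex.exp_ne_zero _
  have hone : ζ ^ D = 1 := by
    rw [hD, pow_succ, pow_one] at hζd
    exact mul_right_cancel₀ hζ0 (by rw [one_mul]; exact hζd)
  refine hd ⟨((Nat.modEq_iff_dvd' (by omega)).mpr ?_).symm, h0⟩
  rw [hD, Nat.add_sub_cancel]
  exact hζ.dvd_of_pow_eq_one D hone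

theorem IsFGHom.add {R : Type*} [CommRing R] {F G : FormalGroup R} [G.IsComm] {H H' : PowerSeries R}
    (hH : IsFGHom F G H) (hH' : IsFGHom F G H') :
    IsFGHom F G (MvPowerSeries.subst ![H, H'] G.toPowerSeries) := by
  have h0 : MvPowerSeries.constantCoeff H = 0 := hH.1
  have h0' : MvPowerSeries.constantCoeff H' = 0 := hH'.1
  refine ⟨constantCoeff_subst_pair h0 h0' G.zero_constantCoeff, ?_⟩
  have hpair := Haz.constantCoeff_pair h0 h0'
  have key : ∀ (c : MvPowerSeries (Fin 2) R), constantCoeff c = 0 →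
      PowerSeries.subst c (MvPowerSeries.subst ![H, H'] G.toPowerSeries : PowerSeries R) =
        MvPowerSeries.subst ![PowerSeries.subst c H, PowerSeries.subst c H'] G.toPowerSeries := by
    intro c hc
    rw [PowerSeries.subst, MvPowerSeries.subst_comp_subst_apply
      (hasSubst_of_constantCoeff_zero hpair) (hasSubst_of_constantCoeff_zero fun _ ↦ hc)]
    congr 1
    funext i
    fin_cases i <;> rfl
  have hs : ∀ (i : Fin 2) {K : PowerSeries R}, PowerSeries.constantCoeff K = 0 →
      PowerSeries.HasSubst (PowerSeries.subst (X i : MvPowerSeries (Fin 2) R) K) := fun i K hK ↦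
    PowerSeries.HasSubst.of_constantCoeff_zero (constantCoeff_ps_subst (constantCoeff_X i) hK)
  rw [key _ F.zero_constantCoeff, hH.2, hH'.2, key _ (constantCoeff_X 0),
    key _ (constantCoeff_X 1)]
  let x : G.Point (Fin 2) := ⟨_, hs 0 hH.1⟩
  let y : G.Point (Fin 2) := ⟨_, hs 1 hH.1⟩
  let z : G.Point (Fin 2) := ⟨_, hs 0 hH'.1⟩
  let w : G.Point (Fin 2) := ⟨_, hs 1 hH'.1⟩
  exact congr_arg Subtype.val (add_add_add_comm x y z w)

theorem IsFGHom.comp {R : Type*} [CommRing R] {F G K : FormalGroup R} {H H' : PowerSeries R}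
    (hH : IsFGHom F G H) (hH' : IsFGHom G K H') :
    IsFGHom F K (PowerSeries.subst H H') := by
  have h0 : MvPowerSeries.constantCoeff H = 0 := hH.1
  have hX : ∀ i : Fin 2, constantCoeff (PowerSeries.subst (X i : MvPowerSeries (Fin 2) R) H) = 0 :=
    fun i ↦ constantCoeff_ps_subst (constantCoeff_X i) hH.1
  refine ⟨constantCoeff_ps_subst h0 hH'.1, ?_⟩
  rw [ps_subst_subst hH.1 F.zero_constantCoeff, hH.2,
    ps_subst_subst hH.1 (constantCoeff_X 0), ps_subst_subst hH.1 (constantCoeff_X 1),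
    ← mv_subst_ps_subst G.zero_constantCoeff
      (hasSubst_of_constantCoeff_zero (Haz.constantCoeff_pair (hX 0) (hX 1))), hH'.2,
    MvPowerSeries.subst_comp_subst_apply (hasSubst_of_constantCoeff_zero (Haz.constantCoeff_pair
      (constantCoeff_ps_subst (constantCoeff_X 0) hH'.1)
      (constantCoeff_ps_subst (constantCoeff_X 1) hH'.1)))
      (hasSubst_of_constantCoeff_zero (Haz.constantCoeff_pair (hX 0) (hX 1)))]
  congr 1
  funext i
  have hs := hasSubst_of_constantCoeff_zero (Haz.constantCoeff_pair (hX 0) (hX 1))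
  fin_cases i
  · simp [mv_subst_ps_subst (constantCoeff_X (0 : Fin 2)) hs, MvPowerSeries.subst_X hs]
  · simp [mv_subst_ps_subst (constantCoeff_X (1 : Fin 2)) hs, MvPowerSeries.subst_X hs]

theorem isComm_map {R S : Type*} [CommRing R] [CommRing S] (F : FormalGroup R) [F.IsComm]
    (f : R →+* S) : (F.map f).IsComm where
  comm := by
    rw [FormalGroup.map_toPowerSeries]
    conv_lhs => rw [FormalGroup.IsComm.comm (F := F)]
    rw [MvPowerSeries.map_subst MvPowerSeries.HasSubst.X_X]
    congr 1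
    funext i
    fin_cases i <;> simp

instance honda_isComm (R : Type*) [CommRing R] : (honda p n R).IsComm :=
  isComm_map _ _

/-- `c X^(p^i)` is an endomorphism of Honda's law. -/
theorem honda_endo {R : Type*} [CommRing R] [CharP R p] (hn : n ≠ 0) {c : R} (hc : c ^ p ^ n = c)
    (i : ℕ) :
    IsFGHom (honda p n R) (honda p n R) (PowerSeries.C c * PowerSeries.X ^ p ^ i) := by
  classical
  have := ExpChar.prime (R := R) hp.out
  set F := honda p n R with hF
  have hpi : p ^ i ≠ 0 := pow_ne_zero i hp.out.ne_zero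
  refine ⟨by simp [zero_pow hpi], ?_⟩
  have hsub : ∀ {a : MvPowerSeries (Fin 2) R}, constantCoeff a = 0 →
      PowerSeries.subst a (PowerSeries.C c * PowerSeries.X ^ p ^ i) =
        MvPowerSeries.C c * a ^ p ^ i := by
    intro a ha
    have hs := PowerSeries.HasSubst.of_constantCoeff_zero ha
    rw [PowerSeries.subst_mul hs, PowerSeries.subst_pow hs, PowerSeries.subst_C,
      PowerSeries.subst_X hs]
  rw [hsub F.zero_constantCoeff, hsub (constantCoeff_X 0), hsub (constantCoeff_X 1)]
  have hfrob : MvPowerSeries.map (iterateFrobenius R p i) F.toPowerSeries = F.toPowerSeries := by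
    refine MvPowerSeries.ext fun d ↦ ?_
    simp only [hF, honda, FormalGroup.map_toPowerSeries, MvPowerSeries.coeff_map,
      zeroSpec_eq_cast (n := n) R,
      RingHom.comp_apply, eq_intCast, map_intCast]
  have hpow : F.toPowerSeries ^ p ^ i = MvPowerSeries.expand (p ^ i) hpi F.toPowerSeries := by
    rw [← MvPowerSeries.map_iterateFrobenius_expand p hp.out.ne_zero F.toPowerSeries i,
      MvPowerSeries.map_expand, hfrob]
  have hscale : MvPowerSeries.C c * F.toPowerSeries = MvPowerSeries.subst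
      (fun j ↦ MvPowerSeries.C c * X j) F.toPowerSeries := by
    rw [show (fun j ↦ MvPowerSeries.C c * X j) =
        (fun _ : Fin 2 ↦ c) • (X : Fin 2 → MvPowerSeries (Fin 2) R) by
      funext j; simp [MvPowerSeries.smul_eq_C_mul], ← rescale_eq_subst]
    refine MvPowerSeries.ext fun d ↦ ?_
    rw [coeff_rescale, coeff_C_mul, Finsupp.prod, prod_pow_eq_pow_sum, ← Finsupp.degree_apply]
    exact (honda_scale hn hc d).symm
  rw [hpow, ← MvPowerSeries.expand_C (p ^ i) hpi c, ← map_mul, hscale,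
    MvPowerSeries.expand_subst (p ^ i) hpi (hasSubst_of_constantCoeff_zero fun j ↦ by simp)]
  congr 1
  funext j
  fin_cases j <;> simp [MvPowerSeries.expand_C]

/-- `X +_Γ c X^(p^i)` is an automorphism of Honda's law for `i ≥ 1`. -/
theorem honda_auto {R : Type} [CommRing R] [CharP R p] (hn : n ≠ 0) {c : R} (hc : c ^ p ^ n = c)
    {i : ℕ} (hi : i ≠ 0) :
    IsFGIso (honda p n R) (honda p n R) (MvPowerSeries.subst
      ![(PowerSeries.X : PowerSeries R), PowerSeries.C c * PowerSeries.X ^ p ^ i]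
      (honda p n R).toPowerSeries) := by
  have hid : IsFGHom (honda p n R) (honda p n R) (PowerSeries.X : PowerSeries R) := by
    simpa using honda_endo (p := p) (n := n) (R := R) hn (one_pow (p ^ n)) 0
  have he := honda_endo (p := p) (n := n) hn hc i
  obtain ⟨h0, h1⟩ := hid.add he
  refine ⟨h0, ?_, h1⟩
  have ha : MvPowerSeries.constantCoeff (PowerSeries.X : PowerSeries R) = 0 := hid.1
  have hb : MvPowerSeries.constantCoeff (PowerSeries.C c * PowerSeries.X ^ p ^ i) = 0 := he.1
  have h := coeff_law_subst_low (honda p n R) ha hb (one_le_order ha) (one_le_order hb)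
    (d := Finsupp.single () 1) (by simp)
  rw [← PowerSeries.coeff_def rfl, Finsupp.single_eq_same] at h
  rw [h, PowerSeries.coeff_one_X, PowerSeries.coeff_C_mul, PowerSeries.coeff_X_pow,
    if_neg (Nat.one_lt_pow hi hp.out.one_lt).ne, mul_zero, add_zero]
  exact isUnit_one

/-- Multiplication by `p` on Honda's law in characteristic `p`. -/
theorem honda_p {R : Type*} [CommRing R] (hR : (p : R) = 0) (hn : n ≠ 0) :
    MvPowerSeries.map (zeroSpec n R) (Haz.mulSeries p n p) = MvPowerSeries.X () ^ p ^ n := by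
  exact Haz.mulSeries_p_full (zeroSpec n R) hR hn fun i ↦ zeroSpec_uA

end Vale.Agent.P217
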