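import Vale.Agent.P217.Indep.Newton
import Vale.Agent.P217.Indep.Expand
import Mathlib.LinearAlgebra.Matrix.Adjugate
import Mathlib.Analysis.Real.Cardinality
import Mathlib.Topology.Algebra.Module.Cardinality
import Mathlib.Data.Nat.Factorization.Basic
import Mathlib.Analysis.SpecialFunctions.Log.Basic

/-!
Independence of the cover maps: homomorphisms to a height `h` Honda law that kill the images of
`d` independent points and of all their multiples vanish on the whole image of the cover.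
-/

noncomputable section

namespace Vale.Agent.P217

open Filter Finset
open scoped Topology

namespace Indep

variable {p : ℕ} [hp : Fact p.Prime] {Ω : Type} [NontriviallyNormedField Ω] [IsUltrametricDist Ω]
  [GoodField p Ω] {ρ : Rad} {n : ℕ}

omit [IsUltrametricDist Ω] in
theorem norm_natCast_one {k : ℕ} (hk : ¬ p ∣ k) : ‖(k : Ω)‖ = 1 := by
  have h0 : (k : Ω) ≠ 0 := fun h ↦ hk ((CharP.cast_eq_zero_iff Ω p k).mp h)
  have h1 : (k : Ω) ^ p = (k : Ω) := map_natCast (frobenius Ω p) k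
  have h2 := congrArg norm h1
  rw [norm_pow] at h2
  rcases lt_trichotomy ‖(k : Ω)‖ 1 with hlt | heq | hgt
  · exact absurd h2 (pow_lt_self_of_lt_one₀ (norm_pos_iff.mpr h0) hlt hp.out.one_lt).ne
  · exact heq
  · exact absurd h2 (lt_self_pow₀ hgt hp.out.one_lt).ne'

theorem intCast_mul_eq_zero {u : ℤ} (hu : u ≠ 0) {z : BB p Ω ρ}
    (h : (u : BB p Ω ρ) * z = 0) : z = 0 := by
  obtain ⟨v, k, hk, hv⟩ := Nat.exists_eq_pow_mul_and_not_dvd (Int.natAbs_ne_zero.mpr hu) p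
    hp.out.ne_one
  have hnat : ((u.natAbs : ℕ) : BB p Ω ρ) * z = 0 := by
    rcases Int.natAbs_eq u with he | he <;> rw [he] at h
    · rwa [Int.cast_natCast] at h
    · rwa [Int.cast_neg, neg_mul, neg_eq_zero, Int.cast_natCast] at h
  rw [hv, Nat.cast_mul, Nat.cast_pow, ← pz_nat, mul_assoc] at hnat
  have h1 : (k : BB p Ω ρ) * z = 0 := by
    rw [← one_mul ((k : BB p Ω ρ) * z), ← pz_zero, ← neg_add_cancel (v : ℤ), pz_add, mul_assoc,
      hnat, mul_zero]
  have hclose : ‖(k : BB p Ω ρ) - tch ρ (k : intRing Ω)‖ < ‖((k : intRing Ω) : Ω)‖ := by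
    have h2 := norm_sub_tch_res (p := p) (ρ := ρ) (k : WI p Ω ρ)
    rw [map_natCast, map_natCast] at h2
    push_cast
    rw [norm_natCast_one hk]
    exact h2.trans_lt ρ.lt_one
  have h3 := norm_mul_of_close hclose z
  rw [h1, norm_zero] at h3
  push_cast at h3
  rw [norm_natCast_one hk, one_mul] at h3
  exact norm_eq_zero.mp h3.symm

theorem exists_generic {ι : Type*} [Countable ι] (f : ι → ℝ) :
    ∃ R : ℝ, 0 < R ∧ ∀ i, f i ≠ R := by
  obtain ⟨R, hR, hR0⟩ :=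
    ((Set.countable_range f).dense_compl ℝ).exists_mem_open (isOpen_Ioi (a := (0 : ℝ))) ⟨1, one_pos (α := ℝ)⟩
  exact ⟨R, hR0, fun i hi ↦ hR ⟨i, hi⟩⟩

/-- Shifting the index of a periodic coefficient family. -/
theorem periodic_shift (Q : ℤ → BB p Ω ρ) (hQ : ∀ τ, Q (τ - n) = pz p Ω ρ 1 * Q τ) (τ l : ℤ) :
    Q (τ + n * l) = pz p Ω ρ (-l) * Q τ := by
  induction l using Int.induction_on with
  | zero => simp [pz_zero]
  | succ i ih =>
    have h := hQ (τ + n * ((i : ℤ) + 1))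
    rw [show τ + (n : ℤ) * ((i : ℤ) + 1) - n = τ + n * (i : ℤ) by ring, ih] at h
    rw [show -((i : ℤ) + 1) = -1 + -(i : ℤ) by ring, pz_add, mul_assoc, h, ← mul_assoc, ← pz_add,
      neg_add_cancel, pz_zero, one_mul]
  | pred i ih =>
    rw [show τ + (n : ℤ) * (-(i : ℤ) - 1) = τ + n * (-(i : ℤ)) - n by ring, hQ, ih, ← mul_assoc,
      ← pz_add]
    congr 2
    ring

/-- The relations among the values force relations among the cover logarithms. -/
theorem lh_relation {d : ℕ} (hn : 0 < n) (Q : Fin d → ℤ → BB p Ω ρ)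
    (hQ : ∀ j τ, Q j (τ - n) = pz p Ω ρ 1 * Q j τ) (y : Fin d → intRing Ω)
    (hy : ∀ j, ‖(y j : Ω)‖ < 1)
    (hsum : ∀ c : intRing Ω, c ^ p ^ n = c → ∀ i : ℕ,
      HasSum (fun τ ↦ ∑ j, Q j τ * tch ρ (pw (p := p) τ (c * y j ^ p ^ i))) 0) (τ0 m : ℤ) :
    ∑ j, Q j τ0 * lh ρ n (pw (p := p) m (y j)) = 0 := by
  have hstep : ∀ i : ℕ, ∑ j, Q j τ0 * lh ρ n (pw (p := p) (τ0 + i) (y j)) = 0 := by
    intro i
    set g : ℤ → BB p Ω ρ := fun τ ↦ ∑ j, Q j τ * tch ρ (pw (p := p) (τ + i) (y j)) with hg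
    have hc : ∀ c ∈ units p Ω n,
        HasSum (fun τ ↦ g τ * tch ρ (pw (p := p) τ (c * 1))) ((fun _ ↦ 0) c) := by
      intro c hc
      refine (hsum c ((mem_units hn).mp hc).2 i).congr_fun fun τ ↦ ?_
      rw [hg, sum_mul]
      refine sum_congr rfl fun j _ ↦ ?_
      rw [mul_one, map_mul, map_mul, ← pw_nat, ← pw_add, mul_assoc,
        mul_comm (tch ρ (pw (p := p) τ c))]
    obtain ⟨u, hu, hu'⟩ := classSum hn τ0 hc le_rfl fun c _ ↦ norm_zero.le
    rw [norm_le_zero_iff.mp hu] at hu'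
    have hinj : Function.Injective fun l : ℤ ↦ τ0 + n * l := fun a b hab ↦ by
      simpa [hn.ne'] using hab
    have h1 := (hinj.hasSum_iff fun τ hτ ↦ if_neg fun hd ↦ hτ (by
      obtain ⟨l, hl⟩ := hd
      exact ⟨l, by show τ0 + n * l = τ; omega⟩)).mpr hu'
    refine HasSum.unique ?_ h1
    have h2 : HasSum (fun l ↦ ∑ j, Q j τ0 * lterm ρ n (pw (p := p) (τ0 + i) (y j)) l)
        (∑ j, Q j τ0 * lh ρ n (pw (p := p) (τ0 + i) (y j))) :=
      hasSum_sum fun j _ ↦ (hasSum_lh hn (norm_pw_lt (hy j) _)).mul_left _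
    refine h2.congr_fun fun l ↦ ?_
    simp only [Function.comp_apply]
    rw [if_pos ⟨l, by ring⟩, map_one, map_one, mul_one, hg]
    refine sum_congr rfl fun j _ ↦ ?_
    rw [periodic_shift (Q j) (hQ j), lterm, ← pw_add,
      show (n : ℤ) * l + (τ0 + i) = τ0 + n * l + i by ring]
    ring
  obtain ⟨K, i, hKi⟩ : ∃ K i : ℕ, m + n * (K : ℤ) = τ0 + i := by
    refine ⟨(τ0 - m).toNat, (m + n * ((τ0 - m).toNat : ℤ) - τ0).toNat, ?_⟩
    have h1 : ((τ0 - m).toNat : ℤ) ≤ n * ((τ0 - m).toNat : ℤ) :=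
      le_mul_of_one_le_left (Int.natCast_nonneg _) (by exact_mod_cast hn)
    omega
  have h1 := hstep i
  simp only [← hKi, add_comm m, pw_add, lh_pw_mul hn _ (norm_pw_lt (hy _) m)] at h1
  have h2 : pz p Ω ρ K * ∑ j, Q j τ0 * lh ρ n (pw (p := p) m (y j)) = 0 := by
    rw [mul_sum]
    exact (sum_congr rfl fun j _ ↦ mul_left_comm _ _ _).trans h1
  rw [← one_mul (∑ j, Q j τ0 * lh ρ n (pw (p := p) m (y j))), ← pz_zero,
    ← neg_add_cancel (K : ℤ), pz_add, mul_assoc, h2, mul_zero]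

end Indep

open Indep in
theorem cover_independence {p n h d : ℕ} [Fact p.Prime] (hh : 0 < h) (hd : 0 < d) (hn : h + d = n)
    {Ω : Type} [NontriviallyNormedField Ω] [IsUltrametricDist Ω] [GoodField p Ω]
    (φ : Haz.A n →+* intRing Ω)
    (hφ : ∀ i, ‖(φ (MvPolynomial.X i) : Ω)‖ < 1)
    (H : Fin d → PowerSeries (intRing Ω))
    (hH : ∀ j, IsFGHom ((Haz.law p n).map φ) (honda p h (intRing Ω)) (H j))
    (pr : intRing Ω → intRing Ω)
    (hpr : ∀ r : ℝ, r < 1 → ∀ ε : ℝ, 0 < ε → ∀ᶠ N in atTop, ∀ x : intRing Ω,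
      ‖(x : Ω)‖ ≤ r → ‖((prSeq p n φ x N - pr x : intRing Ω) : Ω)‖ ≤ ε)
    (y : Fin d → Haz.Pt p (zeroSpec n (intRing Ω)))
    (hy : ∃ c > (0 : ℝ), ∀ a : Fin d → ℤ, (∃ j, ¬ (p : ℤ) ∣ a j) →
      c ≤ ‖((∑ j, a j • y j).val : Ω)‖)
    (hrel : ∀ c : intRing Ω, c ^ p ^ n = c → ∀ i : ℕ,
      ∀ w : Fin d → Haz.Pt p (zeroSpec h (intRing Ω)),
        (∀ j, (w j).val = ev (H j) fun _ : Unit ↦ pr (c * (y j).val ^ p ^ i)) → ∑ j, w j = 0)
    (j : Fin d) (x : intRing Ω) (hx : ‖(x : Ω)‖ < 1) :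
    ev (H j) (fun _ : Unit ↦ pr x) = 0 := by
  classical
  have hdn : d < n := by omega
  have hn0 : 0 < n := by omega
  obtain ⟨b, c, E, M, hc0, -, hshell, hred, hdet, hM⟩ := exists_reduced (y := y) hn0 hd hy
  obtain ⟨R, hR, hgen⟩ := exists_generic fun q : Fin d × ℤ ↦
    ((p : ℝ) ^ n - 1) * (-Real.log (lv (b q.1))) * (p : ℝ) ^ q.2
  let ρ : Rad := ⟨Real.exp (-R), Real.exp_pos _, Real.exp_lt_one_iff.mpr (neg_lt_zero.mpr hR)⟩
  have hρ : -Real.log ρ.val = R := by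
    show -Real.log (Real.exp (-R)) = R
    rw [Real.log_exp, neg_neg]
  choose Q hQ hQsum using fun k ↦ exists_periodic (ρ := ρ) φ hh (hH k) pr hpr
  have hsum : ∀ u : intRing Ω, u ^ p ^ n = u → ∀ i : ℕ, HasSum
      (fun τ ↦ ∑ k, Q k τ * tch ρ (pw (p := p) τ (u * (y k).val ^ p ^ i))) 0 := by
    intro u hu i
    have hlt : ∀ k, ‖((u * (y k).val ^ p ^ i : intRing Ω) : Ω)‖ < 1 := fun k ↦ by
      rw [Subring.coe_mul, SubmonoidClass.coe_pow, norm_mul, norm_pow]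
      exact (mul_le_of_le_one_left (by positivity) u.2).trans_lt
        (pow_lt_one₀ (norm_nonneg _) (lt_of_small (y k).small)
          (pow_ne_zero _ (Fact.out : p.Prime).ne_zero))
    let w : Fin d → Haz.Pt p (zeroSpec h (intRing Ω)) := fun k ↦
      hPt φ (hH k) ⟨pr (u * (y k).val ^ p ^ i), small_of_lt (hQsum k _ (hlt k)).1⟩
    have h0 := congrArg (lhHom p Ω ρ hh) (hrel u hu i w fun k ↦ rfl)
    rw [map_sum, map_zero] at h0
    rw [← h0]
    exact hasSum_sum fun k _ ↦ (hQsum k _ (hlt k)).2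
  have hzero : ∀ τ k, Q k τ = 0 := by
    intro τ
    have hψ : ∀ m : ℤ, ∑ k, Q k τ * lhHom p Ω ρ hn0 (pwPt p Ω n m (y k)) = 0 := fun m ↦
      lh_relation hn0 Q hQ (fun k ↦ (y k).val) (fun k ↦ lt_of_small (y k).small) hsum τ m
    set β : Fin d → BB p Ω ρ := fun k ↦ Q k τ with hβ
    set Mc : Matrix (Fin d) (Fin d) (BB p Ω ρ) := M.map (Int.cast : ℤ → BB p Ω ρ) with hMc
    set β' := Matrix.vecMul β Mc.adjugate with hβ'
    have hback : Matrix.vecMul β' Mc = Mc.det • β := by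
      rw [hβ', Matrix.vecMul_vecMul, Matrix.adjugate_mul, Matrix.vecMul_smul, Matrix.vecMul_one]
    have hβ'0 : β' = 0 := by
      refine newton hdn b hc0 hshell hred
        (fun k m ↦ by rw [hρ]; exact hgen (k, m)) β' fun m ↦ ?_
      let ψ : Haz.Pt p (zeroSpec n (intRing Ω)) →+ BB p Ω ρ :=
        (lhHom p Ω ρ hn0).comp (pwPt p Ω n m)
      have hb : ∀ k, pz p Ω ρ E * ψ (b k) = ∑ l, Mc k l * ψ (y l) := fun k ↦ by
        rw [pz_nat, ← Nat.cast_pow, ← nsmul_eq_mul, ← map_nsmul, hM, map_sum]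
        exact sum_congr rfl fun l _ ↦ by rw [map_zsmul, zsmul_eq_mul]; rfl
      have h1 : pz p Ω ρ E * ∑ k, β' k * ψ (b k) = 0 := by
        calc pz p Ω ρ E * ∑ k, β' k * ψ (b k) = ∑ k, ∑ l, β' k * Mc k l * ψ (y l) := by
              rw [mul_sum]
              refine sum_congr rfl fun k _ ↦ ?_
              rw [mul_left_comm, hb, mul_sum]
              exact sum_congr rfl fun l _ ↦ (mul_assoc _ _ _).symm
          _ = ∑ l, Matrix.vecMul β' Mc l * ψ (y l) := by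
              rw [sum_comm]
              exact sum_congr rfl fun l _ ↦ (sum_mul _ _ _).symm
          _ = Mc.det * ∑ l, β l * ψ (y l) := by
              rw [hback, mul_sum]
              exact sum_congr rfl fun l _ ↦ mul_assoc _ _ _
          _ = 0 := by rw [show ∑ l, β l * ψ (y l) = 0 from hψ m, mul_zero]
      show ∑ k, β' k * ψ (b k) = 0
      rw [← one_mul (∑ k, β' k * ψ (b k)), ← pz_zero, ← neg_add_cancel (E : ℤ), pz_add,
        mul_assoc, h1, mul_zero]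
    intro k
    rw [hβ'0, Matrix.zero_vecMul] at hback
    have h2 : (M.det : BB p Ω ρ) * Q k τ = 0 := by
      have h3 : Mc.det = (M.det : BB p Ω ρ) := ((Int.castRingHom (BB p Ω ρ)).map_det M).symm
      rw [← h3]
      exact (congrFun hback k).symm
    exact intCast_mul_eq_zero hdet h2
  have h4 := (hQsum j x hx).2
  simp only [hzero, zero_mul] at h4
  let P : Haz.Pt p φ := ⟨pr x, small_of_lt (hQsum j x hx).1⟩
  exact lh_eq_zero hh (lt_of_small (hPt φ (hH j) P).small) (h4.unique hasSum_zero)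

end Vale.Agent.P217
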