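import Vale.Agent.P217.Torsion

/-!
Roots of power series with a unit coefficient, and the kernel of multiplication by `p` at a point
of height at least `h`.
-/

noncomputable section

open Filter MvPowerSeries Finset
open scoped MvPowerSeries.WithPiTopology Topology

set_option linter.unusedSectionVars false

namespace Vale.Agent.P217

namespace Torsion

section series

variable {Ω : Type} [NontriviallyNormedField Ω] [IsUltrametricDist Ω] [CompleteSpace Ω]

theorem small_const {z : intRing Ω} (hz : ‖(z : Ω)‖ < 1) : IsSmall (fun _ : Unit ↦ z) :=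
  fun _ ↦ isTopologicallyNilpotent_intRing.mpr hz

theorem ev_psC (z c : intRing Ω) :
    ev (PowerSeries.C c : PowerSeries (intRing Ω)) (fun _ : Unit ↦ z) = c :=
  ev_C _ _

theorem ev_psX (z : intRing Ω) :
    ev (PowerSeries.X : PowerSeries (intRing Ω)) (fun _ : Unit ↦ z) = z :=
  ev_X _ _

theorem norm_ev_sub_coeff_zero (f : PowerSeries (intRing Ω)) {z : intRing Ω}
    (hz : ‖(z : Ω)‖ < 1) :
    ‖((ev f (fun _ : Unit ↦ z) : intRing Ω) : Ω) - ((PowerSeries.coeff 0 f : intRing Ω) : Ω)‖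
      ≤ ‖(z : Ω)‖ := by
  have h := norm_ev_sub_trunc_le f hz 1
  rwa [PowerSeries.trunc_one_left, Polynomial.eval_C, pow_one] at h

/-- A root splits off a linear factor. -/
theorem exists_linear_factor (f : PowerSeries (intRing Ω)) {r : intRing Ω} (hr : ‖(r : Ω)‖ < 1)
    (h0 : ev f (fun _ : Unit ↦ r) = 0) {m : ℕ}
    (hm : ‖((PowerSeries.coeff (m + 1) f : intRing Ω) : Ω)‖ = 1)
    (hlt : ∀ i ≤ m, ‖((PowerSeries.coeff i f : intRing Ω) : Ω)‖ < 1) :
    ∃ g : PowerSeries (intRing Ω), ‖((PowerSeries.coeff m g : intRing Ω) : Ω)‖ = 1 ∧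
      (∀ i < m, ‖((PowerSeries.coeff i g : intRing Ω) : Ω)‖ < 1) ∧
      ∀ z : intRing Ω, ‖(z : Ω)‖ < 1 →
        ev f (fun _ : Unit ↦ z) = (z - r) * ev g (fun _ : Unit ↦ z) := by
  let S : ℕ → PowerSeries (intRing Ω) := fun k ↦
    PowerSeries.mk fun j ↦ PowerSeries.coeff (j + k) f
  let e : ℕ → intRing Ω := fun k ↦ ev (S k) (fun _ : Unit ↦ r)
  have hS : ∀ k, S k = PowerSeries.X * S (k + 1) + PowerSeries.C (PowerSeries.coeff k f) := by
    intro k
    refine PowerSeries.ext fun i ↦ ?_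
    rcases i with _ | i
    · simp [S]
    · simp [S, PowerSeries.coeff_succ_X_mul, Nat.add_comm k, Nat.add_left_comm, Nat.add_assoc]
  have hrec : ∀ k, e k = r * e (k + 1) + PowerSeries.coeff k f := by
    intro k
    show ev (S k) _ = _
    rw [hS k, ev_add (small_const hr), ev_mul (small_const hr), ev_psX, ev_psC]
  have he0 : e 0 = 0 := by
    show ev (S 0) _ = 0
    rw [show S 0 = f from PowerSeries.ext fun i ↦ by simp [S], h0]
  let g : PowerSeries (intRing Ω) := PowerSeries.mk fun k ↦ e (k + 1)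
  have hg : f = (PowerSeries.X - PowerSeries.C r) * g := by
    refine PowerSeries.ext fun i ↦ ?_
    rw [sub_mul, map_sub, PowerSeries.coeff_C_mul, PowerSeries.coeff_mk]
    rcases i with _ | i
    · rw [PowerSeries.coeff_zero_X_mul]
      linear_combination (hrec 0).symm.trans he0
    · rw [PowerSeries.coeff_succ_X_mul, PowerSeries.coeff_mk]
      linear_combination (hrec (i + 1)).symm
  have hclose : ∀ i, ‖((PowerSeries.coeff i g : intRing Ω) : Ω)
      - ((PowerSeries.coeff (i + 1) f : intRing Ω) : Ω)‖ ≤ ‖(r : Ω)‖ := by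
    intro i
    rw [PowerSeries.coeff_mk, hrec (i + 1), AddMemClass.coe_add, add_sub_cancel_right,
      MulMemClass.coe_mul, norm_mul]
    exact mul_le_of_le_one_right (norm_nonneg _) (mem_intRing.mp (Subtype.prop _))
  refine ⟨g, ?_, fun i hi ↦ ?_, fun z hz ↦ ?_⟩
  · rw [← sub_add_cancel ((PowerSeries.coeff m g : intRing Ω) : Ω)
      ((PowerSeries.coeff (m + 1) f : intRing Ω) : Ω)]
    have hb := hclose m
    rw [IsUltrametricDist.norm_add_eq_max_of_norm_ne_norm (by linarith), hm, max_eq_right]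
    linarith
  · rw [← sub_add_cancel ((PowerSeries.coeff i g : intRing Ω) : Ω)
      ((PowerSeries.coeff (i + 1) f : intRing Ω) : Ω)]
    exact (IsUltrametricDist.norm_add_le_max _ _).trans_lt
      (max_lt ((hclose i).trans_lt hr) (hlt (i + 1) hi))
  · conv_lhs => rw [hg]
    rw [ev_mul (small_const hz), ev_sub (small_const hz), ev_psX, ev_psC]

/-- A series whose first unit coefficient is in degree `m` has `m` roots in the open disc. -/
theorem exists_roots [IsAlgClosed Ω] : ∀ (m : ℕ) (f : PowerSeries (intRing Ω)),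
    ‖((PowerSeries.coeff m f : intRing Ω) : Ω)‖ = 1 →
    (∀ i < m, ‖((PowerSeries.coeff i f : intRing Ω) : Ω)‖ < 1) →
    ∃ s : Multiset (intRing Ω), s.card = m ∧ (∀ r ∈ s, ‖(r : Ω)‖ < 1) ∧
      ∀ z : intRing Ω, ‖(z : Ω)‖ < 1 →
        ‖((ev f (fun _ : Unit ↦ z) : intRing Ω) : Ω)‖ =
          (s.map fun r : intRing Ω ↦ ‖(z : Ω) - (r : Ω)‖).prod := by
  intro m
  induction m with
  | zero =>
    intro f hm _
    refine ⟨0, rfl, by simp, fun z hz ↦ ?_⟩
    have h := norm_ev_sub_coeff_zero f hz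
    rw [Multiset.map_zero, Multiset.prod_zero,
      ← sub_add_cancel ((ev f (fun _ : Unit ↦ z) : intRing Ω) : Ω)
        ((PowerSeries.coeff 0 f : intRing Ω) : Ω),
      IsUltrametricDist.norm_add_eq_max_of_norm_ne_norm (by linarith), hm, max_eq_right]
    linarith
  | succ m ih =>
    intro f hm hlt
    obtain ⟨r, hr, hr0⟩ := exists_root_series f m.succ_pos hm hlt
    obtain ⟨g, hgm, hglt, hgf⟩ :=
      exists_linear_factor f hr hr0 hm fun i hi ↦ hlt i (Nat.lt_succ_of_le hi)
    obtain ⟨s, hs, hsm, hsf⟩ := ih g hgm hglt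
    refine ⟨r ::ₘ s, by simp [hs], fun x hx ↦ ?_, fun z hz ↦ ?_⟩
    · rcases Multiset.mem_cons.mp hx with rfl | hx
      exacts [hr, hsm x hx]
    rw [hgf z hz, MulMemClass.coe_mul, norm_mul, hsf z hz, Multiset.map_cons, Multiset.prod_cons,
      AddSubgroupClass.coe_sub]

end series

section kernel

variable {p n h d : ℕ} [hp : Fact p.Prime]
  {Ω : Type} [NontriviallyNormedField Ω] [IsUltrametricDist Ω] [GoodField p Ω]
  {φ : Haz.A n →+* intRing Ω}

/-- Multiplication by `p` has exactly `p ^ d` roots. -/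
theorem card_kernel (hh : 0 < h) (hn : h + d = n)
    (hφ : ∀ i, ‖(φ (MvPolynomial.X i) : Ω)‖ < 1)
    (hlow : ∀ i, 0 < i → i < h → φ (Haz.uA n i) = 0) (hu : φ (Haz.uA n h) ≠ 0) :
    Nat.card {z : Haz.Pt p φ // p • z = 0} = p ^ d := by
  classical
  have : CharP Ω p := GoodField.charP
  have hn0 : n ≠ 0 := by omega
  obtain ⟨Φ, hΦ0, hΦ1, hΦ⟩ := Haz.mulSeries_p_height φ natCast_p hlow hh
  set P := p ^ h with hP
  have hP0 : P ≠ 0 := pow_ne_zero _ hp.out.ne_zero
  have hval : ∀ z : Haz.Pt p φ, (p • z).val = ev Φ (fun _ : Unit ↦ z.val ^ P) := by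
    intro z
    rw [Haz.nsmul_val, hΦ]
    simp only [MvPowerSeries.expand, MvPowerSeries.coe_substAlgHom]
    rw [ev_subst (fun _ ↦ by simp [hp.out.ne_zero]) (fun _ ↦ z.small)]
    simp only [ev_pow (fun _ ↦ z.small), ev_X]
    rfl
  have hcoef : ∀ j : ℕ, ‖((PowerSeries.coeff j Φ : intRing Ω) : Ω)
      - (if j = p ^ d then 1 else 0)‖ ≤ kap φ := by
    intro j
    have h1 : φ (coeff (P • Finsupp.single () j) (Haz.mulSeries p n (p : ℤ))) =
        PowerSeries.coeff j Φ := by
      rw [← MvPowerSeries.coeff_map, hΦ, MvPowerSeries.coeff_expand_smul]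
      rfl
    have hz : zeroSpec n (intRing Ω) (coeff (P • Finsupp.single () j) (Haz.mulSeries p n (p : ℤ)))
        = if j = p ^ d then 1 else 0 := by
      rw [← MvPowerSeries.coeff_map, honda_p natCast_p hn0, coeff_X_pow, Finsupp.smul_single,
        smul_eq_mul]
      have : P * j = p ^ n ↔ j = p ^ d := by
        rw [← hn, pow_add, hP]
        exact mul_right_inj' hP0
      simp [this]
    have h2 : φ (coeff (P • Finsupp.single () j) (Haz.mulSeries p n (p : ℤ))) -
        zeroSpec n (intRing Ω) (coeff (P • Finsupp.single () j) (Haz.mulSeries p n (p : ℤ)))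
          ∈ normIdeal (kap φ) (kap_nonneg φ) := phi_sub_zeroSpec _
    rw [h1, hz] at h2
    have e : ((if j = p ^ d then 1 else 0 : intRing Ω) : Ω) = if j = p ^ d then 1 else 0 := by
      split_ifs <;> simp
    rw [← e]
    exact h2
  have hkap := kap_lt_one hφ
  obtain ⟨s, hs, hsmall, hsf⟩ := exists_roots (p ^ d) Φ
    (by
      have hb := hcoef (p ^ d)
      rw [if_pos rfl] at hb
      rw [← sub_add_cancel ((PowerSeries.coeff (p ^ d) Φ : intRing Ω) : Ω) 1,
        IsUltrametricDist.norm_add_eq_max_of_norm_ne_norm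
          (by rw [norm_one]; exact (hb.trans_lt hkap).ne), norm_one, max_eq_right]
      exact hb.trans hkap.le)
    (fun i hi ↦ by simpa [hi.ne] using (hcoef i).trans_lt hkap)
  have hpow : ∀ z : Haz.Pt p φ, ‖((z.val ^ P : intRing Ω) : Ω)‖ < 1 := fun z ↦ by
    rw [SubmonoidClass.coe_pow, norm_pow]
    exact pow_lt_one₀ (norm_nonneg _) (norm_lt_one z.small) hP0
  have hker : ∀ z : Haz.Pt p φ, p • z = 0 ↔ z.val ^ P ∈ s := by
    intro z
    have h1 : p • z = 0 ↔ ‖((p • z).val : Ω)‖ = 0 := by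
      rw [norm_eq_zero, ZeroMemClass.coe_eq_zero, Haz.Pt.ext_iff, Haz.zero_val]
    rw [h1, hval, hsf _ (hpow z), Multiset.prod_eq_zero_iff, Multiset.mem_map]
    constructor
    · rintro ⟨r, hr, hr0⟩
      rw [norm_eq_zero, sub_eq_zero] at hr0
      rwa [Subtype.ext hr0]
    · exact fun hz ↦ ⟨_, hz, by simp⟩
  have hroot : ∀ r ∈ s, ∃ a : Haz.Pt p φ, a.val ^ P = r := fun r hr ↦
    ⟨⟨intRoot P r, intRoot_small hP0 (isTopologicallyNilpotent_intRing.mpr (hsmall r hr))⟩,
      intRoot_pow hP0 r⟩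
  have hnodup : s.Nodup := by
    rw [Multiset.nodup_iff_count_le_one]
    intro r
    by_contra hcount
    have hr : r ∈ s := Multiset.count_pos.mp (by omega)
    obtain ⟨t', ht'⟩ := Multiset.exists_cons_of_mem hr
    have hr' : r ∈ t' := Multiset.count_pos.mp (by
      rw [ht', Multiset.count_cons_self] at hcount
      omega)
    obtain ⟨t, rfl⟩ := Multiset.exists_cons_of_mem hr'
    obtain ⟨a, ha⟩ := hroot r hr
    have hupos : 0 < ‖(φ (Haz.uA n h) : Ω)‖ := norm_pos_iff.mpr (by simpa using hu)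
    obtain ⟨w0, hw0, hw1⟩ := NormedField.exists_norm_lt Ω hupos
    have hw01 : ‖w0‖ < 1 := hw1.trans_le (mem_intRing.mp (φ (Haz.uA n h)).2)
    let w : Haz.Pt p φ :=
      ⟨⟨w0, hw01.le⟩, isTopologicallyNilpotent_intRing.mpr hw01⟩
    set sw : ℝ := ‖w0‖ ^ P with hsw
    have hswpos : 0 < sw := pow_pos hw0 _
    have hswlt : sw < ‖(φ (Haz.uA n h) : Ω)‖ :=
      (pow_le_of_le_one (norm_nonneg _) hw01.le hP0).trans_lt hw1
    -- the value at `a + w` is linear in `w ^ P`
    have hlin : ‖((p • (a + w)).val : Ω)‖ = ‖(φ (Haz.uA n h) : Ω)‖ * sw := by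
      rw [smul_add, (hker a).mpr (ha ▸ hr), zero_add, hval]
      have hb := norm_ev_sub_trunc_le Φ (hpow w) 2
      have c0 : PowerSeries.coeff 0 Φ = 0 :=
        (PowerSeries.coeff_zero_eq_constantCoeff_apply Φ).trans hΦ0
      have c1 : PowerSeries.coeff 1 Φ = φ (Haz.uA n h) := hΦ1
      have htr : (PowerSeries.trunc 2 Φ).eval (w.val ^ P) = φ (Haz.uA n h) * w.val ^ P := by
        rw [PowerSeries.trunc_succ, PowerSeries.trunc_one_left, c0, c1]
        simp
      rw [htr, MulMemClass.coe_mul] at hb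
      have hwn : ‖((w.val ^ P : intRing Ω) : Ω)‖ = sw := by
        rw [SubmonoidClass.coe_pow, norm_pow]
      rw [hwn] at hb
      have hmain : ‖(φ (Haz.uA n h) : Ω) * ((w.val ^ P : intRing Ω) : Ω)‖ =
          ‖(φ (Haz.uA n h) : Ω)‖ * sw := by rw [norm_mul, hwn]
      have hlt : sw ^ 2 < ‖(φ (Haz.uA n h) : Ω)‖ * sw := by
        rw [sq]; exact mul_lt_mul_of_pos_right hswlt hswpos
      rw [← sub_add_cancel ((ev Φ (fun _ : Unit ↦ w.val ^ P) : intRing Ω) : Ω)
          ((φ (Haz.uA n h) : Ω) * ((w.val ^ P : intRing Ω) : Ω)),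
        IsUltrametricDist.norm_add_eq_max_of_norm_ne_norm (by linarith), max_eq_right (by linarith),
        hmain]
    have hup : ‖((p • (a + w)).val : Ω)‖ ≤ sw ^ 2 := by
      rw [hval, hsf _ (hpow _), ht', Multiset.map_cons, Multiset.map_cons, Multiset.prod_cons,
        Multiset.prod_cons, ← mul_assoc, sq]
      have hd : ‖(((a + w).val ^ P : intRing Ω) : Ω) - r‖ ≤ sw := by
        rw [← ha, SubmonoidClass.coe_pow, SubmonoidClass.coe_pow, hP, norm_sub_pow_char]
        refine pow_le_pow_left₀ (norm_nonneg _) ?_ _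
        have h2 := norm_add_val_sub a w a 0
        rw [add_zero] at h2
        refine h2.trans (max_le (by simp) ?_)
        simp [w, Haz.zero_val]
      refine (mul_le_of_le_one_right (by positivity) ?_).trans
        (mul_le_mul hd hd (norm_nonneg _) hswpos.le)
      have key : ∀ t : Multiset (intRing Ω),
          (t.map fun r : intRing Ω ↦ ‖(((a + w).val ^ P : intRing Ω) : Ω) - r‖).prod ≤ 1 := by
        intro t
        induction t using Multiset.induction with
        | empty => simp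
        | cons x t ih =>
          rw [Multiset.map_cons, Multiset.prod_cons]
          refine mul_le_one₀ ?_ (Multiset.prod_nonneg fun y hy ↦ ?_) ih
          · exact ((intRing Ω).sub_mem (Subtype.prop _) (Subtype.prop _))
          · obtain ⟨c, -, rfl⟩ := Multiset.mem_map.mp hy
            exact norm_nonneg _
      exact key t
    rw [hlin, sq] at hup
    exact (mul_lt_mul_of_pos_right hswlt hswpos).not_ge hup
  let e : {z : Haz.Pt p φ // p • z = 0} → {r // r ∈ s.toFinset} := fun z ↦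
    ⟨z.1.val ^ P, Multiset.mem_toFinset.mpr ((hker _).mp z.2)⟩
  have he : Function.Bijective e := by
    refine ⟨fun z z' hzz ↦ Subtype.ext (Haz.Pt.ext (eq_of_pow_eq (k := h) (Subtype.ext_iff.mp hzz))),
      fun r ↦ ?_⟩
    obtain ⟨a, ha⟩ := hroot r.1 (Multiset.mem_toFinset.mp r.2)
    exact ⟨⟨a, (hker a).mpr (ha ▸ Multiset.mem_toFinset.mp r.2)⟩, Subtype.ext ha⟩
  rw [Nat.card_eq_of_bijective e he, Nat.card_eq_finsetCard,
    Multiset.toFinset_card_of_nodup hnodup, hs]

end kernel

end Torsion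

end Vale.Agent.P217
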