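import Vale.Agent.P217.JacobianBase
import Vale.Agent.P217.TorsionRoots
import Mathlib.LinearAlgebra.Matrix.ToLinearEquiv
import Mathlib.Algebra.BigOperators.Field

/-!
Coordinates of the parameter space given by the cover map at a basis of its kernel: the
Jacobian is invertible.
-/

noncomputable section

open Filter MvPowerSeries Finset
open scoped MvPowerSeries.WithPiTopology Topology

set_option linter.unusedSectionVars false

namespace Vale.Agent.P217

variable {p n h d : ℕ} [hp : Fact p.Prime]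
  {Ω : Type} [NontriviallyNormedField Ω] [IsUltrametricDist Ω] [GoodField p Ω]

namespace Jac

/-- Series whose constant and later linear coefficients are at most `κ`. -/
def linIdeal (s : ℕ) (κ : ℝ) (h0 : 0 ≤ κ) : Ideal (MvPowerSeries (Fin d) (intRing Ω)) where
  carrier := {f | constantCoeff f ∈ normIdeal κ h0 ∧
    ∀ i : Fin d, s ≤ i.1 → coeff (Finsupp.single i 1) f ∈ normIdeal κ h0}
  add_mem' {f g} hf hg := ⟨by rw [map_add]; exact Ideal.add_mem _ hf.1 hg.1,
    fun i hi ↦ by rw [map_add]; exact Ideal.add_mem _ (hf.2 i hi) (hg.2 i hi)⟩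
  zero_mem' := ⟨by rw [map_zero]; exact Ideal.zero_mem _,
    fun i _ ↦ by rw [map_zero]; exact Ideal.zero_mem _⟩
  smul_mem' f g hg := ⟨by rw [smul_eq_mul, map_mul]; exact Ideal.mul_mem_left _ _ hg.1,
    fun i hi ↦ by
      rw [smul_eq_mul, coeff_single_mul]
      exact Ideal.add_mem _ (Ideal.mul_mem_left _ _ (hg.2 i hi)) (Ideal.mul_mem_left _ _ hg.1)⟩

section point

variable {φ : Haz.A n →+* intRing Ω} (hφ : ∀ i, ‖(φ (MvPolynomial.X i) : Ω)‖ < 1)

local instance instCharPOmega' : CharP Ω p := GoodField.charP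

theorem pow_pow_small {z : intRing Ω} (hz : IsTopologicallyNilpotent z) :
    IsTopologicallyNilpotent (z ^ p ^ h) :=
  small_pow hz (pow_ne_zero _ hp.out.ne_zero)

variable (φ) in
/-- A constant point over the parameter series. -/
def constPt (z : Haz.Pt p φ) : Haz.Pt p (shiftHom n h d φ) :=
  ⟨MvPowerSeries.C z.val, z.small.map MvPowerSeries.WithPiTopology.continuous_C⟩

/-- Modulo degree two the `p`-multiple only sees the constant term. -/
theorem coeff_single_p_smul (hh : 0 < h)
    {Φ : MvPowerSeries Unit (MvPowerSeries (Fin d) (intRing Ω))}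
    (hΦ : MvPowerSeries.map (shiftHom n h d φ) (Haz.mulSeries p n p) =
      MvPowerSeries.expand (p ^ h) (pow_ne_zero h hp.out.ne_zero) Φ)
    (s : Haz.Pt p (shiftHom n h d φ)) (i : Fin d) :
    coeff (Finsupp.single i 1) (p • s).val =
      ev (coeffSeries (Finsupp.single i 1) Φ) fun _ ↦ constantCoeff s.val ^ p ^ h := by
  have hc0 : IsTopologicallyNilpotent (constantCoeff s.val) :=
    s.small.map (MvPowerSeries.WithPiTopology.continuous_constantCoeff _)
  have hc : IsTopologicallyNilpotent (constantCoeff s.val ^ p ^ h) := pow_pow_small hc0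
  have hP0 : p ^ h ≠ 0 := pow_ne_zero h hp.out.ne_zero
  rw [← coeff_ev_C _ _ hc, Haz.nsmul_val, hΦ]
  simp only [MvPowerSeries.expand, MvPowerSeries.coe_substAlgHom]
  rw [ev_subst (fun _ ↦ by simp [hp.out.ne_zero]) (fun _ ↦ s.small)]
  simp only [ev_pow (fun _ ↦ s.small), ev_X]
  have : CharP (MvPowerSeries (Fin d) (intRing Ω)) p :=
    (CharP.charP_iff_prime_eq_zero hp.out).mpr natCast_p_series
  have hmem : ev Φ (fun _ : Unit ↦ s.val ^ p ^ h) -
      ev Φ (fun _ : Unit ↦ MvPowerSeries.C (constantCoeff s.val ^ p ^ h)) ∈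
        ordIdeal (intRing Ω) (Fin d) 2 := by
    refine ev_sub_mem (isClosed_ordIdeal 2) (fun _ ↦ small_pow s.small hP0)
      (fun _ ↦ hc.map MvPowerSeries.WithPiTopology.continuous_C) (fun _ ↦ ?_) Φ
    rw [map_pow, ← sub_pow_char_pow]
    obtain ⟨k, hk⟩ : ∃ k, p ^ h = 1 + 1 + k :=
      ⟨p ^ h - 2, by have := Nat.one_lt_pow hh.ne' hp.out.one_lt; omega⟩
    rw [hk, pow_add, pow_add, pow_one]
    refine Ideal.mul_mem_right _ _ ?_
    exact mul_mem_ordIdeal (k := 1) (l := 1) (mem_ordIdeal_one (by simp))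
      (mem_ordIdeal_one (by simp))
  have h2 := hmem (Finsupp.single i 1) (by simp)
  rwa [map_sub, sub_eq_zero] at h2

variable (φ h d) in
/-- Points over the parameter series reducing to the kernel of multiplication by `p`. -/
def torsionR : AddSubgroup (Haz.Pt p (shiftHom n h d φ)) :=
  (castPt (p := p) constantCoeff (MvPowerSeries.WithPiTopology.continuous_constantCoeff _)
    (constantCoeff_shift φ)).ker.comap (nsmulAddMonoidHom p)

theorem constantCoeff_p_smul (s : torsionR (p := p) h d φ) :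
    constantCoeff (p • (s : Haz.Pt p (shiftHom n h d φ))).val = 0 := by
  have h1 := s.2
  simp only [torsionR, AddSubgroup.mem_comap, AddMonoidHom.mem_ker, nsmulAddMonoidHom_apply] at h1
  have h2 := congr_arg Haz.Pt.val h1
  rwa [castPt_val, Haz.zero_val] at h2

variable (φ h) in
/-- The linear coefficient of the `p`-multiple, additive on such points. -/
def linHom (i : Fin d) : torsionR (p := p) h d φ →+ intRing Ω :=
  AddMonoidHom.mk' (fun s ↦ coeff (Finsupp.single i 1)
    (p • (s : Haz.Pt p (shiftHom n h d φ))).val) fun a b ↦ by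
    classical
    have e : (p • ((a + b : torsionR (p := p) h d φ) : Haz.Pt p (shiftHom n h d φ))).val =
        Haz.addVal p (shiftHom n h d φ) (p • (a : Haz.Pt p (shiftHom n h d φ))).val
          (p • (b : Haz.Pt p (shiftHom n h d φ))).val := by
      rw [AddSubgroup.coe_add, smul_add]
      rfl
    rw [e, Haz.addVal, coeff_single_ev_lin _
      (by rw [MvPowerSeries.constantCoeff_map, (Haz.law p n).zero_constantCoeff, map_zero])
      (Haz.isSmall_pair (p • (a : Haz.Pt p (shiftHom n h d φ))).small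
        (p • (b : Haz.Pt p (shiftHom n h d φ))).small)
      (fun k ↦ by fin_cases k <;> exact constantCoeff_p_smul _), Fin.sum_univ_two]
    simp [(Haz.law p n).lin_coeff_X, (Haz.law p n).lin_coeff_Y]

include hφ in
/-- No combination of the derivatives of multiplication by `p` vanishes on its kernel. -/
theorem exists_kernel_ne (hh : 0 < h) (hn : h + d = n)
    (hcard : Nat.card {z : Haz.Pt p φ // p • z = 0} = p ^ d)
    {Φ : MvPowerSeries Unit (MvPowerSeries (Fin d) (intRing Ω))}
    (hΦ : MvPowerSeries.map (shiftHom n h d φ) (Haz.mulSeries p n p) =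
      MvPowerSeries.expand (p ^ h) (pow_ne_zero h hp.out.ne_zero) Φ)
    (w : Fin d → intRing Ω) (hw : ∃ i, ‖(w i : Ω)‖ = 1) :
    ∃ z : Haz.Pt p φ, p • z = 0 ∧
      (∑ i, w i * ev (coeffSeries (Finsupp.single i 1) Φ) fun _ ↦ z.val ^ p ^ h) ≠ 0 := by
  classical
  by_contra hcon
  push Not at hcon
  have hk0 := Torsion.kap_nonneg φ
  have hk1 := Torsion.kap_lt_one hφ
  have hne : (univ.filter fun i ↦ ‖(w i : Ω)‖ = 1).Nonempty := by
    obtain ⟨i, hi⟩ := hw
    exact ⟨i, mem_filter.mpr ⟨mem_univ _, hi⟩⟩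
  set s := (univ.filter fun i ↦ ‖(w i : Ω)‖ = 1).min' hne with hs
  have hs1 : ‖(w s : Ω)‖ = 1 := (mem_filter.mp (min'_mem _ hne)).2
  have hlt : ∀ i < s, ‖(w i : Ω)‖ < 1 := fun i hi ↦
    lt_of_le_of_ne (mem_intRing.mp (w i).2) fun h1 ↦
      absurd (min'_le _ i (mem_filter.mpr ⟨mem_univ _, h1⟩)) (not_le.mpr hi)
  let R := MvPowerSeries (Fin d) (intRing Ω)
  -- the specialisation to the parameters from `h + s` on
  let ψ : Haz.A n →+* R := pointHom fun k ↦
    if hk : (h ≤ k.1 + 1 ∧ k.1 + 1 - h < d) ∧ s.1 ≤ k.1 + 1 - h then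
      MvPowerSeries.X ⟨k.1 + 1 - h, hk.1.2⟩ else 0
  have hψu : ∀ j, ∀ hj : 0 < j ∧ j < n, ψ (Haz.uA n j) =
      if hk : (h ≤ j ∧ j - h < d) ∧ s.1 ≤ j - h then
        MvPowerSeries.X ⟨j - h, hk.1.2⟩ else 0 := by
    intro j hj
    have hjj : j ≠ 0 ∧ j - 1 < n - 1 := ⟨by omega, by omega⟩
    simp only [Haz.uA, dif_pos hjj, ψ, pointHom, MvPolynomial.eval₂Hom_X']
    have : j - 1 + 1 = j := by omega
    simp only [this]
  have hsd := s.2
  have hψlow : ∀ j, 0 < j → j < h + s.1 → ψ (Haz.uA n j) = 0 := fun j h0 h1 ↦ by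
    rw [hψu j ⟨h0, by omega⟩, dif_neg (by omega)]
  have hψs : ψ (Haz.uA n (h + s.1)) = MvPowerSeries.X s := by
    rw [hψu _ ⟨by omega, by omega⟩, dif_pos (by omega)]
    congr 1
    exact Fin.ext (by simp)
  obtain ⟨Φψ, -, hΦψ1, hΦψ⟩ := Haz.mulSeries_p_height ψ natCast_p_series hψlow (by omega)
  have hcong : ∀ k, shiftHom n h d φ (MvPolynomial.X k) - ψ (MvPolynomial.X k) ∈
      linIdeal (d := d) s.1 (Torsion.kap φ) hk0 := by
    intro k
    have hX : ‖((φ (MvPolynomial.X k) : intRing Ω) : Ω)‖ ≤ Torsion.kap φ := Torsion.norm_X_le_kap φ k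
    simp only [shiftHom, ψ, pointHom, MvPolynomial.eval₂Hom_X', shiftPoint]
    refine ⟨?_, fun i hi ↦ ?_⟩
    · split_ifs <;> simp <;> exact hX
    · split_ifs with h1 h2 h2
      · simp [coeff_C]
      · have : Finsupp.single i 1 ≠ Finsupp.single (⟨k.1 + 1 - h, h1.2⟩ : Fin d) 1 := by
          intro he
          have := congr_arg Fin.val (Finsupp.single_left_injective one_ne_zero he)
          exact h2 ⟨h1, by simp only at this; omega⟩
        simp [coeff_C, coeff_X, this]
      · exact absurd h2.1 h1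
      · simp [coeff_C]
  have hexp : p ^ h • Finsupp.single () (p ^ s.1) = p ^ (h + s.1) • Finsupp.single () 1 := by
    simp [Finsupp.smul_single, pow_add]
  have hD : ∀ i : Fin d, s.1 ≤ i.1 →
      ‖((coeff (Finsupp.single i 1) (coeff (Finsupp.single () (p ^ s.1)) Φ) : intRing Ω) : Ω) -
        (if i = s then 1 else 0)‖ ≤ Torsion.kap φ := by
    intro i hi
    set c := coeff (p ^ (h + s.1) • Finsupp.single () 1) (Haz.mulSeries p n (p : ℤ))
    have h1 : shiftHom n h d φ c = coeff (Finsupp.single () (p ^ s.1)) Φ := by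
      rw [← MvPowerSeries.coeff_map, hΦ, ← hexp, MvPowerSeries.coeff_expand_smul]
    have h2 : ψ c = MvPowerSeries.X s := by
      rw [← hψs, ← hΦψ1, ← MvPowerSeries.coeff_map, hΦψ, MvPowerSeries.coeff_expand_smul]
    have h3 := (hom_sub_mem hcong c).2 i hi
    rw [h1, h2, map_sub, coeff_index_single_X] at h3
    have e : ((if i = s then 1 else 0 : intRing Ω) : Ω) = if i = s then 1 else 0 := by
      split_ifs <;> simp
    rw [← e]
    exact h3
  set G : PowerSeries (intRing Ω) :=
    ∑ i, MvPowerSeries.C (w i) * coeffSeries (Finsupp.single i 1) Φ with hG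
  have hGs : ‖((PowerSeries.coeff (p ^ s.1) G : intRing Ω) : Ω)‖ = 1 := by
    have hsum : ((PowerSeries.coeff (p ^ s.1) G : intRing Ω) : Ω) = ∑ i, (w i : Ω) *
        ((coeff (Finsupp.single i 1) (coeff (Finsupp.single () (p ^ s.1)) Φ) : intRing Ω) : Ω) := by
      rw [PowerSeries.coeff, hG, map_sum, AddSubmonoidClass.coe_finsetSum]
      refine sum_congr rfl fun i _ ↦ ?_
      rw [coeff_C_mul, MulMemClass.coe_mul]
      rfl
    have hclose : ‖((PowerSeries.coeff (p ^ s.1) G : intRing Ω) : Ω) - w s‖ < 1 := by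
      have hws : (w s : Ω) = ∑ i, (w i : Ω) * (if i = s then 1 else 0) := by simp
      rw [hsum, hws, ← sum_sub_distrib]
      refine (IsUltrametricDist.norm_sum_le_of_forall_le_of_nonneg (C := max (Torsion.kap φ)
        ((univ.sup fun i : Fin d ↦ if i < s then ‖(w i : Ω)‖₊ else 0 : NNReal) : ℝ))
        (le_max_of_le_left hk0) fun i _ ↦ ?_).trans_lt (max_lt hk1 ?_)
      · rw [← mul_sub, norm_mul]
        by_cases hi : i < s
        · refine le_max_of_le_right ((mul_le_of_le_one_right (norm_nonneg _) ?_).trans ?_)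
          · rw [if_neg hi.ne, sub_zero]
            exact mem_intRing.mp (Subtype.prop _)
          · have := le_sup (f := fun i : Fin d ↦ if i < s then ‖(w i : Ω)‖₊ else 0) (mem_univ i)
            rw [if_pos hi] at this
            exact_mod_cast this
        · exact le_max_of_le_left ((mul_le_of_le_one_left (norm_nonneg _)
            (mem_intRing.mp (w i).2)).trans (hD i (not_lt.mp hi)))
      · rw [← NNReal.coe_one, NNReal.coe_lt_coe, Finset.sup_lt_iff (by simp)]
        intro i _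
        split_ifs with hi
        · exact_mod_cast hlt i hi
        · exact one_pos
    rw [← sub_add_cancel ((PowerSeries.coeff (p ^ s.1) G : intRing Ω) : Ω) (w s : Ω),
      IsUltrametricDist.norm_add_eq_max_of_norm_ne_norm (by rw [hs1]; exact hclose.ne), hs1,
      max_eq_right hclose.le]
  have hex : ∃ m, ‖((PowerSeries.coeff m G : intRing Ω) : Ω)‖ = 1 := ⟨_, hGs⟩
  obtain ⟨t, ht, htsmall, htG⟩ := Torsion.exists_roots (Nat.find hex) G (Nat.find_spec hex)
    fun i hi ↦ lt_of_le_of_ne (mem_intRing.mp (Subtype.prop _)) (Nat.find_min hex hi)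
  have hz : ∀ z : {z : Haz.Pt p φ // p • z = 0}, z.1.val ^ p ^ h ∈ t := by
    intro z
    have hs' : IsTopologicallyNilpotent (z.1.val ^ p ^ h) := pow_pow_small z.1.small
    have h0 : ev G (fun _ : Unit ↦ z.1.val ^ p ^ h) = 0 := by
      rw [hG, ev_sum (fun _ ↦ hs')]
      refine Eq.trans (sum_congr rfl fun i _ ↦ ?_) (hcon z.1 z.2)
      rw [ev_mul (fun _ ↦ hs'), ev_C]
    have hn0 := htG _ (isTopologicallyNilpotent_intRing.mp hs')
    rw [h0, ZeroMemClass.coe_zero, norm_zero, eq_comm, Multiset.prod_eq_zero_iff,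
      Multiset.mem_map] at hn0
    obtain ⟨r, hr, hr0⟩ := hn0
    rw [norm_eq_zero, sub_eq_zero] at hr0
    rwa [Subtype.ext hr0]
  let f : {z : Haz.Pt p φ // p • z = 0} → {r // r ∈ t.toFinset} := fun z ↦
    ⟨_, Multiset.mem_toFinset.mpr (hz z)⟩
  have hf : Function.Injective f := fun z z' hzz ↦
    Subtype.ext (Haz.Pt.ext (Torsion.eq_of_pow_eq (k := h) (Subtype.ext_iff.mp hzz)))
  have h1 := Nat.card_le_card_of_injective f hf
  rw [hcard, Nat.card_eq_finsetCard] at h1
  have h2 := t.toFinset_card_le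
  have h3 : Nat.find hex ≤ p ^ s.1 := Nat.find_le hGs
  have h4 : p ^ s.1 < p ^ d := Nat.pow_lt_pow_right hp.out.one_lt hsd
  omega

end point

end Jac

theorem exists_coordinates (hh : 0 < h) (hd : 0 < d) (hn : h + d = n)
    (φ : Haz.A n →+* intRing Ω) (hφ : ∀ i, ‖(φ (MvPolynomial.X i) : Ω)‖ < 1)
    (hlow : ∀ i, 0 < i → i < h → φ (Haz.uA n i) = 0) (hu : φ (Haz.uA n h) ≠ 0)
    (y : Fin d → Haz.Pt p (zeroSpec n (intRing Ω))) (hy : IsTateBasis p n d φ y) :
    ∃ ξ : Fin d → MvPowerSeries (Fin d) (intRing Ω),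
      (∀ j, constantCoeff (ξ j) = 0) ∧
      (Matrix.of fun j i ↦ ((coeff (Finsupp.single i 1) (ξ j) : intRing Ω) : Ω)).det ≠ 0 ∧
      (∀ j, ∀ (v : Fin d → intRing Ω) (hv : IsSmall v),
        ev (ξ j) v = prLim p n ((evHom hv).comp (shiftHom n h d φ)) (y j).val) ∧
      ∀ x : intRing Ω, ‖(x : Ω)‖ < 1 → ∀ (v : Fin d → intRing Ω) (hv : IsSmall v),
        ‖((prLim p n ((evHom hv).comp (shiftHom n h d φ)) x - prLim p n φ x : intRing Ω) : Ω)‖
          ≤ ‖fun i ↦ (v i : Ω)‖ := by
  classical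
  have hn0 : n ≠ 0 := by omega
  have : CharP Ω p := GoodField.charP
  choose ξ hξ using fun j ↦ Jac.exists_limR (p := p) (h := h) (d := d) hφ hn0 (y j).small
  have hlow' : ∀ i, 0 < i → i < h → shiftHom n h d φ (Haz.uA n i) = 0 := by
    intro i h0 h1
    have hi : i ≠ 0 ∧ i - 1 < n - 1 := ⟨by omega, by omega⟩
    have h2 := hlow i h0 h1
    simp only [Haz.uA, dif_pos hi] at h2 ⊢
    simp only [shiftHom, pointHom, MvPolynomial.eval₂Hom_X', shiftPoint, h2, map_zero, zero_add]
    rw [dif_neg (by omega)]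
  obtain ⟨Φ, -, -, hΦ⟩ := Haz.mulSeries_p_height (shiftHom n h d φ) Jac.natCast_p_series hlow' hh
  have hq : p ^ n ≠ 0 := pow_ne_zero _ hp.out.ne_zero
  let x : Fin d → Haz.Pt p (zeroSpec n (intRing Ω)) := fun j ↦
    ⟨intRoot (p ^ n) (y j).val, Torsion.intRoot_small hq (y j).small⟩
  let z₁ : Fin d → Haz.Pt p φ := fun j ↦ Torsion.prHom hφ hn0 (x j)
  have hz₁ : ∀ j, p • z₁ j = 0 := by
    intro j
    have h1 := Torsion.prHom_pow hφ hn0 (x j) (y j) (intRoot_pow hq (y j).val).symm
    rw [← h1]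
    exact Haz.Pt.ext ((Torsion.prHom_val hφ hn0 (y j)).trans (hy.pr_zero j))
  -- the linear coefficients
  have hlin : ∀ j i, coeff (Finsupp.single i 1) (ξ j) =
      ev (Jac.coeffSeries (Finsupp.single i 1) Φ) fun _ ↦ (z₁ j).val ^ p ^ h := by
    intro j i
    have hT : Tendsto (fun N ↦ coeff (Finsupp.single i 1)
        (Jac.seqR (p := p) h d φ (y j).small (N + 1))) atTop
        (𝓝 (coeff (Finsupp.single i 1) (ξ j))) :=
      (((MvPowerSeries.WithPiTopology.continuous_coeff _ _).tendsto _).comp (hξ j)).comp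
        (tendsto_add_atTop_nat 1)
    refine tendsto_nhds_unique hT ?_
    have hval : ∀ N, coeff (Finsupp.single i 1) (Jac.seqR (p := p) h d φ (y j).small (N + 1)) =
        ev (Jac.coeffSeries (Finsupp.single i 1) Φ) fun _ ↦
          prSeq p n φ (x j).val N ^ p ^ h := by
      intro N
      rw [Jac.seqR, pow_succ', mul_smul, Jac.coeff_single_p_smul hh hΦ]
      have h1 : Jac.castPt (p := p) constantCoeff
          (MvPowerSeries.WithPiTopology.continuous_constantCoeff _) (Jac.constantCoeff_shift φ)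
          (Jac.rootR h d φ (y j).small (N + 1)) = Torsion.root φ (x j).small N := by
        refine Haz.Pt.ext ?_
        rw [Jac.castPt_val]
        refine (constantCoeff_C _).trans (Torsion.intRoot_of_pow (Torsion.qpow (N + 1)) ?_)
        show intRoot ((p ^ n) ^ N) (intRoot (p ^ n) (y j).val) ^ (p ^ n) ^ (N + 1) = (y j).val
        rw [pow_succ, pow_mul, intRoot_pow (pow_ne_zero _ hq), intRoot_pow hq]
      rw [Torsion.prSeq_eq (x j).small, ← h1, ← map_nsmul, Jac.castPt_val]
    simp only [hval]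
    rw [tendsto_subtype_rng]
    refine tendsto_iff_norm_sub_tendsto_zero.mpr (squeeze_zero (fun _ ↦ norm_nonneg _)
      (fun N ↦ ?_) (Torsion.tendsto_kap_pow (p := p) hφ))
    have hs1 : IsTopologicallyNilpotent (prSeq p n φ (x j).val N) := by
      rw [Torsion.prSeq_eq (x j).small]
      exact (p ^ N • Torsion.root φ (x j).small N).small
    refine (Torsion.norm_ev_sub_le _ (fun _ ↦ Jac.pow_pow_small hs1)
      (fun _ ↦ Jac.pow_pow_small (z₁ j).small) (by positivity) fun _ ↦ le_rfl).trans ?_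
    rw [SubmonoidClass.coe_pow, SubmonoidClass.coe_pow, Torsion.norm_sub_pow_char]
    have h2 := Torsion.norm_prSeq_sub_prLim hφ hn0 (x j).small N
    refine ((pow_le_of_le_one (norm_nonneg _) ?_ (pow_ne_zero h hp.out.ne_zero)).trans h2)
    exact h2.trans (pow_le_one₀ (Torsion.kap_nonneg φ) (Torsion.kap_lt_one hφ).le)
  refine ⟨ξ, fun j ↦ ?_, ?_, fun j v hv ↦ ?_,
    fun x hx v hv ↦ Jac.norm_prLim_shift_sub hφ hn0 hx hv⟩
  · refine (tendsto_nhds_unique
      (((MvPowerSeries.WithPiTopology.continuous_constantCoeff _).tendsto _).comp (hξ j)) ?_).trans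
      (hy.pr_zero j)
    exact (Torsion.tendsto_prSeq hφ hn0 (y j).small).congr fun N ↦
      (Jac.constantCoeff_seqR (y j).small N).symm
  · intro hdet
    obtain ⟨w, hw0, hw⟩ := Matrix.exists_mulVec_eq_zero_iff.mpr hdet
    have : Nonempty (Fin d) := ⟨⟨0, hd⟩⟩
    obtain ⟨i₀, hi₀⟩ := Finite.exists_max fun i ↦ ‖w i‖
    have hpos : w i₀ ≠ 0 := fun h0 ↦ hw0 (funext fun i ↦ norm_le_zero_iff.mp (by
      have h1 := hi₀ i
      simpa [h0] using h1))
    let w' : Fin d → intRing Ω := fun i ↦ ⟨w i / w i₀, by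
      rw [mem_intRing, norm_div, div_le_one (norm_pos_iff.mpr hpos)]
      exact hi₀ i⟩
    obtain ⟨z, hz, hne⟩ := Jac.exists_kernel_ne hφ hh hn hy.card hΦ w' ⟨i₀, by simp [w', hpos]⟩
    refine hne ?_
    obtain ⟨a, ha⟩ := hy.span z hz z₁ fun j ↦ rfl
    let sR : Fin d → Jac.torsionR (p := p) h d φ := fun j ↦ ⟨Jac.constPt φ (z₁ j), by
      simp only [Jac.torsionR, AddSubgroup.mem_comap, AddMonoidHom.mem_ker,
        nsmulAddMonoidHom_apply, map_nsmul]
      rw [show Jac.castPt (p := p) constantCoeff _ _ (Jac.constPt φ (z₁ j)) = z₁ j from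
        Haz.Pt.ext (constantCoeff_C _)]
      exact hz₁ j⟩
    have hzval : constantCoeff ((∑ j, a j • sR j : Jac.torsionR (p := p) h d φ) :
        Haz.Pt p (shiftHom n h d φ)).val = z.val := by
      let c : Haz.Pt p (shiftHom n h d φ) →+ Haz.Pt p φ := Jac.castPt (p := p) constantCoeff
        (MvPowerSeries.WithPiTopology.continuous_constantCoeff _) (Jac.constantCoeff_shift φ)
      show (c ((∑ j, a j • sR j : Jac.torsionR (p := p) h d φ) :
        Haz.Pt p (shiftHom n h d φ))).val = z.val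
      rw [AddSubgroup.val_finsetSum, map_sum, ha]
      congr 1
      refine Finset.sum_congr rfl fun j _ ↦ ?_
      rw [AddSubgroupClass.coe_zsmul, map_zsmul]
      congr 1
    have hL : ∀ i, (ev (Jac.coeffSeries (Finsupp.single i 1) Φ) fun _ ↦ z.val ^ p ^ h) =
        ∑ j, a j • coeff (Finsupp.single i 1) (ξ j) := by
      intro i
      rw [← hzval, ← Jac.coeff_single_p_smul hh hΦ]
      show Jac.linHom (p := p) h φ i (∑ j, a j • sR j) = _
      rw [map_sum]
      refine Finset.sum_congr rfl fun j _ ↦ ?_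
      rw [map_zsmul, hlin]
      congr 1
      refine (Jac.coeff_single_p_smul hh hΦ _ i).trans ?_
      congr 1
    simp only [hL, mul_sum, mul_smul_comm]
    rw [sum_comm]
    refine sum_eq_zero fun j _ ↦ ?_
    rw [← smul_sum]
    refine smul_eq_zero_of_right _ (Subtype.ext ?_)
    have h1 : ∑ i, ((coeff (Finsupp.single i 1) (ξ j) : intRing Ω) : Ω) * w i = 0 := by
      simpa [Matrix.mulVec, dotProduct] using congr_fun hw j
    rw [AddSubmonoidClass.coe_finsetSum, ZeroMemClass.coe_zero]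
    calc ∑ i, ((w' i * coeff (Finsupp.single i 1) (ξ j) : intRing Ω) : Ω)
        = (∑ i, ((coeff (Finsupp.single i 1) (ξ j) : intRing Ω) : Ω) * w i) / w i₀ := by
          rw [Finset.sum_div]
          refine sum_congr rfl fun i _ ↦ ?_
          simp only [MulMemClass.coe_mul, w']
          ring
      _ = 0 := by rw [h1, zero_div]
  · refine tendsto_nhds_unique (((continuous_ev hv).tendsto _).comp (hξ j)) ?_
    exact (Torsion.tendsto_prSeq (Jac.norm_ev_shift_lt hφ hv) hn0 (y j).small).congr fun N ↦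
      (Jac.ev_seqR (y j).small N hv).symm

end Vale.Agent.P217
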