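import Vale.Agent.P217.Torsion
import Vale.Agent.P217.SeriesTools

/-!
The cover map over the ring of power series in the moved parameters.
-/

noncomputable section

open Filter MvPowerSeries Finset
open scoped MvPowerSeries.WithPiTopology Topology

set_option linter.unusedSectionVars false

namespace Vale.Agent.P217

namespace Jac

section generic

variable {R : Type*} [CommRing R] [UniformSpace R] [CLRing R]

theorem small_pow {a : R} (ha : IsTopologicallyNilpotent a) {k : ℕ} (hk : k ≠ 0) :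
    IsTopologicallyNilpotent (a ^ k) := by
  obtain ⟨j, rfl⟩ : ∃ j, k = j + 1 := ⟨k - 1, by omega⟩
  rw [pow_succ']
  exact ha.mul_right _

/-- A series with coefficients in a closed ideal takes values in it. -/
theorem ev_mem {σ : Type*} [Finite σ] {I : Ideal R} (hI : IsClosed (I : Set R)) {a : σ → R}
    (ha : IsSmall a) {f : MvPowerSeries σ R} (h : ∀ e, coeff e f ∈ I) : ev f a ∈ I :=
  hI.mem_of_tendsto (hasSum_ev ha f) (Eventually.of_forall fun _ ↦
    I.sum_mem fun e _ ↦ I.mul_mem_right _ (h e))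

/-- Parameter maps congruent on the parameters are congruent. -/
theorem hom_sub_mem {m : ℕ} {S : Type*} [CommRing S] {f g : Haz.A m →+* S} {I : Ideal S}
    (h : ∀ i, f (MvPolynomial.X i) - g (MvPolynomial.X i) ∈ I) (a : Haz.A m) : f a - g a ∈ I := by
  rw [← Ideal.Quotient.eq]
  refine RingHom.congr_fun (f := (Ideal.Quotient.mk I).comp f) (g := (Ideal.Quotient.mk I).comp g)
    ?_ a
  apply MvPolynomial.ringHom_ext
  · intro r; simp
  · intro i; exact Ideal.Quotient.eq.mpr (h i)

/-- Congruent parameter maps give congruent values. -/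
theorem ev_map_sub_mem {m : ℕ} {σ : Type*} [Finite σ] {f g : Haz.A m →+* R} {I : Ideal R}
    (hI : IsClosed (I : Set R)) (h : ∀ i, f (MvPolynomial.X i) - g (MvPolynomial.X i) ∈ I)
    (F : MvPowerSeries σ (Haz.A m)) {a : σ → R} (ha : IsSmall a) :
    ev (MvPowerSeries.map f F) a - ev (MvPowerSeries.map g F) a ∈ I := by
  rw [← ev_sub ha]
  refine ev_mem hI ha fun e ↦ ?_
  rw [map_sub, MvPowerSeries.coeff_map, MvPowerSeries.coeff_map]
  exact hom_sub_mem h _

variable {S : Type*} [CommRing S] [UniformSpace S] [CLRing S]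

/-- Continuous ring maps move points, the target parameter map given up to equality. -/
def castPt {p m : ℕ} [Fact p.Prime] {f : Haz.A m →+* R} {g : Haz.A m →+* S} (ε : R →+* S)
    (hε : Continuous ε) (h : ε.comp f = g) : Haz.Pt p f →+ Haz.Pt p g :=
  AddMonoidHom.mk' (fun x ↦ ⟨ε x.val, x.small.map hε⟩) fun x y ↦ Haz.Pt.ext <| by
    show ε (Haz.addVal p f x.val y.val) = Haz.addVal p g (ε x.val) (ε y.val)
    rw [Haz.addVal, Haz.addVal, map_ev (Haz.isSmall_pair x.small y.small) hε,
      MvPowerSeries.map_map, h]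
    congr 1
    funext i; fin_cases i <;> rfl

theorem castPt_val {p m : ℕ} [Fact p.Prime] {f : Haz.A m →+* R} {g : Haz.A m →+* S}
    (ε : R →+* S) (hε : Continuous ε) (h : ε.comp f = g) (x : Haz.Pt p f) :
    (castPt ε hε h x).val = ε x.val := rfl

/-- Coefficient `e` of the coefficients of a one variable series. -/
def coeffSeries {τ : Type*} (e : τ →₀ ℕ) (F : MvPowerSeries Unit (MvPowerSeries τ R)) :
    MvPowerSeries Unit R := fun u ↦ coeff e (coeff u F)

theorem coeff_ev_C {τ : Type*} [Finite τ] (e : τ →₀ ℕ)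
    (F : MvPowerSeries Unit (MvPowerSeries τ R)) {c : R} (hc : IsTopologicallyNilpotent c) :
    coeff e (ev F fun _ ↦ MvPowerSeries.C c) = ev (coeffSeries e F) fun _ ↦ c := by
  have hC : IsSmall fun _ : Unit ↦ (MvPowerSeries.C c : MvPowerSeries τ R) := fun _ ↦
    hc.map MvPowerSeries.WithPiTopology.continuous_C
  have h := (hasSum_ev hC F).map (coeff e (R := R) (σ := τ))
    (MvPowerSeries.WithPiTopology.continuous_coeff R e)
  refine h.unique ?_
  convert hasSum_ev (fun _ ↦ hc) (coeffSeries e F) using 1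
  funext u
  simp only [Function.comp_apply, Finsupp.prod]
  rw [show (∏ x ∈ u.support, (MvPowerSeries.C c : MvPowerSeries τ R) ^ u x) =
      MvPowerSeries.C (∏ x ∈ u.support, c ^ u x) by simp [map_prod],
    mul_comm, MvPowerSeries.coeff_C_mul, mul_comm]
  rfl

/-- The linear part of the value of a series at a point without constant term. -/
theorem coeff_single_ev_lin {τ σ : Type*} [Finite τ] [Fintype σ]
    (G : MvPowerSeries σ (MvPowerSeries τ R)) (hG : constantCoeff G = 0)
    {b : σ → MvPowerSeries τ R} (hb : IsSmall b) (hb0 : ∀ k, constantCoeff (b k) = 0) (i : τ) :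
    coeff (Finsupp.single i 1) (ev G b) = ∑ k, constantCoeff (coeff (Finsupp.single k 1) G) *
      coeff (Finsupp.single i 1) (b k) := by
  classical
  have h := (hasSum_ev hb G).map (coeff (Finsupp.single i 1) (R := R) (σ := τ))
    (MvPowerSeries.WithPiTopology.continuous_coeff R _)
  let S : Finset (σ →₀ ℕ) := univ.image fun k ↦ Finsupp.single k 1
  have hzero : ∀ u ∉ S, (coeff (Finsupp.single i 1) (R := R) (σ := τ) ∘
      fun u : σ →₀ ℕ ↦ coeff u G * u.prod fun s e ↦ b s ^ e) u = 0 := by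
    intro u hu
    simp only [Function.comp_apply]
    rcases Nat.lt_or_ge u.degree 2 with hlt | hge
    · rcases Nat.eq_zero_or_pos u.degree with h0 | h0
      · rw [(Finsupp.degree_eq_zero_iff u).mp h0, coeff_zero_eq_constantCoeff_apply, hG,
          zero_mul, map_zero]
      · exfalso
        obtain ⟨k, hk⟩ := Finsupp.support_nonempty_iff.mpr (fun h : u = 0 ↦ by simp [h] at h0)
        have hle : Finsupp.single k 1 ≤ u :=
          Finsupp.single_le_iff.mpr (Nat.one_le_iff_ne_zero.mpr (Finsupp.mem_support_iff.mp hk))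
        obtain ⟨u', rfl⟩ := exists_add_of_le hle
        rw [map_add, Finsupp.degree_single] at hlt
        rw [(Finsupp.degree_eq_zero_iff u').mp (by omega), add_zero] at hu
        exact hu (mem_image.mpr ⟨k, mem_univ _, rfl⟩)
    · refine coeff_of_lt_order (lt_of_lt_of_le (b := ((2 : ℕ) : ℕ∞)) ?_ ?_)
      · rw [Finsupp.degree_single]; norm_num
      · refine le_trans ?_ (le_trans le_add_self (le_order_mul))
        have h1 := le_order_prod_pow (r := 1) (b := b)
          (fun k ↦ by simpa using one_le_order (hb0 k)) u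
        refine le_trans ?_ h1
        exact_mod_cast (by simpa using hge : 2 ≤ u.degree * 1)
  rw [h.unique (hasSum_sum_of_ne_finset_zero hzero), sum_image (fun a _ b _ h ↦
    Finsupp.single_left_injective one_ne_zero h)]
  refine sum_congr rfl fun k _ ↦ ?_
  simp only [Function.comp_apply]
  rw [show ((Finsupp.single k 1).prod fun s e ↦ b s ^ e) = b k by
      rw [Finsupp.prod_single_index (by rw [pow_zero]), pow_one],
    coeff_single_mul, hb0, mul_zero, add_zero]

end generic

section closedness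

variable {C : Type*} [CommRing C] [UniformSpace C] [CLRing C] {τ : Type*}

theorem isClosed_ordIdeal (k : ℕ) :
    IsClosed (ordIdeal C τ k : Set (MvPowerSeries τ C)) := by
  have : (ordIdeal C τ k : Set (MvPowerSeries τ C)) =
      ⋂ (e : τ →₀ ℕ) (_ : e.degree < k), {f | coeff e f = 0} := by
    ext f
    simp only [Set.mem_iInter, Set.mem_ofPred_eq]
    rfl
  rw [this]
  exact isClosed_iInter fun e ↦ isClosed_iInter fun _ ↦
    isClosed_eq (MvPowerSeries.WithPiTopology.continuous_coeff C e) continuous_const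

end closedness

section ball

variable {Ω : Type} [NontriviallyNormedField Ω] [IsUltrametricDist Ω] {τ : Type*}

/-- The ideal of series whose coefficient in degree `k` is at most `κ ^ (M - k)`. -/
def ball (κ : ℝ) (h0 : 0 ≤ κ) (h1 : κ ≤ 1) (M : ℕ) :
    Ideal (MvPowerSeries τ (intRing Ω)) where
  carrier := {f | ∀ e, coeff e f ∈ normIdeal (κ ^ (M - e.degree)) (pow_nonneg h0 _)}
  add_mem' {f g} hf hg e := by rw [map_add]; exact Ideal.add_mem _ (hf e) (hg e)
  zero_mem' e := by rw [map_zero]; exact Ideal.zero_mem _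
  smul_mem' f g hg e := by
    classical
    rw [smul_eq_mul, MvPowerSeries.coeff_mul]
    refine Ideal.sum_mem _ fun x hx ↦ Ideal.mul_mem_left _ _ ?_
    rw [mem_antidiagonal] at hx
    refine (hg x.2).trans (pow_le_pow_of_le_one h0 h1 ?_)
    rw [← hx, map_add]
    omega

variable {κ : ℝ} {h0 : 0 ≤ κ} {h1 : κ ≤ 1}

theorem mem_ball {M : ℕ} {f : MvPowerSeries τ (intRing Ω)} :
    f ∈ ball κ h0 h1 M ↔ ∀ e, ‖((coeff e f : intRing Ω) : Ω)‖ ≤ κ ^ (M - e.degree) := Iff.rfl

theorem mem_ball_one {f : MvPowerSeries τ (intRing Ω)}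
    (hf : ‖((constantCoeff f : intRing Ω) : Ω)‖ ≤ κ) : f ∈ ball κ h0 h1 1 := by
  rw [mem_ball]
  intro e
  rcases Nat.eq_zero_or_pos e.degree with he | he
  · rw [he, (Finsupp.degree_eq_zero_iff e).mp he, coeff_zero_eq_constantCoeff_apply,
      Nat.sub_zero, pow_one]
    exact hf
  · rw [show 1 - e.degree = 0 by omega, pow_zero]
    exact mem_intRing.mp (Subtype.prop _)

theorem mul_mem_ball {M K : ℕ} {f g : MvPowerSeries τ (intRing Ω)} (hf : f ∈ ball κ h0 h1 M)
    (hg : g ∈ ball κ h0 h1 K) : f * g ∈ ball κ h0 h1 (M + K) := by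
  classical
  intro e
  rw [MvPowerSeries.coeff_mul]
  refine Ideal.sum_mem _ fun x hx ↦ ?_
  rw [mem_antidiagonal] at hx
  show ‖((_ : intRing Ω) : Ω)‖ ≤ _
  rw [MulMemClass.coe_mul, norm_mul]
  refine (mul_le_mul (hf x.1) (hg x.2) (norm_nonneg _) (pow_nonneg h0 _)).trans ?_
  rw [← pow_add]
  refine pow_le_pow_of_le_one h0 h1 ?_
  rw [← hx, map_add]
  omega

theorem pow_mem_ball {M : ℕ} {f : MvPowerSeries τ (intRing Ω)} (hf : f ∈ ball κ h0 h1 M) :
    ∀ k : ℕ, f ^ k ∈ ball κ h0 h1 (k * M)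
  | 0 => by
    rw [pow_zero, zero_mul, mem_ball]
    intro e
    rw [Nat.zero_sub, pow_zero]
    exact mem_intRing.mp (Subtype.prop _)
  | k + 1 => by
    rw [pow_succ, add_mul, one_mul]
    exact mul_mem_ball (pow_mem_ball hf k) hf

theorem ball_antitone {M K : ℕ} (h : M ≤ K) {f : MvPowerSeries τ (intRing Ω)}
    (hf : f ∈ ball κ h0 h1 K) : f ∈ ball κ h0 h1 M :=
  fun e ↦ (hf e).trans (pow_le_pow_of_le_one h0 h1 (by omega))

variable [CompleteSpace Ω]

theorem isClosed_ball (M : ℕ) :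
    IsClosed ((ball (Ω := Ω) (τ := τ) κ h0 h1 M : Ideal (MvPowerSeries τ (intRing Ω))) :
      Set (MvPowerSeries τ (intRing Ω))) := by
  have : ((ball (Ω := Ω) (τ := τ) κ h0 h1 M : Ideal (MvPowerSeries τ (intRing Ω))) :
      Set (MvPowerSeries τ (intRing Ω))) =
      ⋂ e : τ →₀ ℕ, {f | ‖((coeff e f : intRing Ω) : Ω)‖ ≤ κ ^ (M - e.degree)} := by
    ext f
    simp only [Set.mem_iInter, Set.mem_ofPred_eq]
    rfl
  rw [this]
  exact isClosed_iInter fun e ↦ isClosed_le (continuous_norm.comp (continuous_subtype_val.comp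
    (MvPowerSeries.WithPiTopology.continuous_coeff _ e))) continuous_const

end ball

section main

variable {p n : ℕ} [hp : Fact p.Prime]
  {Ω : Type} [NontriviallyNormedField Ω] [IsUltrametricDist Ω] [GoodField p Ω] {h d : ℕ}
  (φ : Haz.A n →+* intRing Ω)

local instance instCharPOmega : CharP Ω p := GoodField.charP

theorem natCast_p_series : (p : MvPowerSeries (Fin d) (intRing Ω)) = 0 := by
  rw [← map_natCast (MvPowerSeries.C (σ := Fin d) (R := intRing Ω)), Torsion.natCast_p, map_zero]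

theorem constantCoeff_shift : (constantCoeff).comp (shiftHom n h d φ) = φ := by
  apply MvPolynomial.ringHom_ext
  · intro r; simp
  · intro i
    simp only [RingHom.comp_apply, shiftHom, pointHom, MvPolynomial.eval₂Hom_X', shiftPoint]
    split_ifs <;> simp

theorem ev_shift_X {v : Fin d → intRing Ω} (hv : IsSmall v) (i : Fin (n - 1)) :
    ((evHom hv).comp (shiftHom n h d φ)) (MvPolynomial.X i) = φ (MvPolynomial.X i) +
      if hi : h ≤ i.1 + 1 ∧ i.1 + 1 - h < d then v ⟨i.1 + 1 - h, hi.2⟩ else 0 := by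
  simp only [RingHom.comp_apply, shiftHom, pointHom, MvPolynomial.eval₂Hom_X', shiftPoint,
    evHom_apply, ev_add hv, ev_C]
  split_ifs
  · rw [ev_X]
  · rw [ev_zero hv]

variable {φ} (hφ : ∀ i, ‖(φ (MvPolynomial.X i) : Ω)‖ < 1)

include hφ in
theorem norm_ev_shift_lt {v : Fin d → intRing Ω} (hv : IsSmall v) (i : Fin (n - 1)) :
    ‖(((evHom hv).comp (shiftHom n h d φ)) (MvPolynomial.X i) : Ω)‖ < 1 := by
  rw [ev_shift_X, AddMemClass.coe_add]
  refine (IsUltrametricDist.norm_add_le_max _ _).trans_lt (max_lt (hφ i) ?_)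
  split_ifs
  · exact isTopologicallyNilpotent_intRing.mp (hv _)
  · simp

include hφ in
/-- The cover map depends on the parameters in a `1`-Lipschitz way. -/
theorem norm_prLim_shift_sub (hn : n ≠ 0) {x : intRing Ω} (hx : ‖(x : Ω)‖ < 1)
    {v : Fin d → intRing Ω} (hv : IsSmall v) :
    ‖((prLim p n ((evHom hv).comp (shiftHom n h d φ)) x - prLim p n φ x : intRing Ω) : Ω)‖
      ≤ ‖fun i ↦ (v i : Ω)‖ := by
  have hxs : IsTopologicallyNilpotent x := isTopologicallyNilpotent_intRing.mpr hx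
  set r : ℝ := ‖fun i ↦ (v i : Ω)‖
  have hI : ∀ i, ((evHom hv).comp (shiftHom n h d φ)) (MvPolynomial.X i) -
      φ (MvPolynomial.X i) ∈ normIdeal r (norm_nonneg _) := by
    intro i
    rw [ev_shift_X, add_sub_cancel_left]
    split_ifs with hi
    · exact norm_le_pi_norm (fun i ↦ (v i : Ω)) _
    · exact Ideal.zero_mem _
  refine le_of_tendsto' ((continuous_norm.comp continuous_subtype_val).tendsto _ |>.comp
    ((Torsion.tendsto_prSeq (norm_ev_shift_lt hφ hv) hn hxs).sub
      (Torsion.tendsto_prSeq hφ hn hxs))) fun N ↦ ?_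
  have hroot : IsSmall fun _ : Unit ↦ intRoot ((p ^ n) ^ N) x := fun _ ↦
    Torsion.intRoot_small (pow_ne_zero _ (pow_ne_zero _ hp.out.ne_zero)) hxs
  exact ev_map_sub_mem (Torsion.isClosed_normIdeal r (norm_nonneg _)) hI
    (Haz.mulSeries p n ((p : ℤ) ^ N)) hroot

/-- The constant point `x^(q^(-N))` over the parameter series. -/
def rootR (h d : ℕ) (φ : Haz.A n →+* intRing Ω) {x : intRing Ω}
    (hx : IsTopologicallyNilpotent x) (N : ℕ) : Haz.Pt p (shiftHom n h d φ) :=
  ⟨MvPowerSeries.C (intRoot ((p ^ n) ^ N) x),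
    (Torsion.intRoot_small (pow_ne_zero _ (pow_ne_zero _ hp.out.ne_zero)) hx).map
      MvPowerSeries.WithPiTopology.continuous_C⟩

/-- The approximation of the cover map over the parameter series. -/
def seqR (h d : ℕ) (φ : Haz.A n →+* intRing Ω) {x : intRing Ω}
    (hx : IsTopologicallyNilpotent x) (N : ℕ) : MvPowerSeries (Fin d) (intRing Ω) :=
  ((p ^ N : ℕ) • rootR (p := p) h d φ hx N).val

theorem ev_seqR {x : intRing Ω} (hx : IsTopologicallyNilpotent x) (N : ℕ) {v : Fin d → intRing Ω}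
    (hv : IsSmall v) :
    ev (seqR (p := p) h d φ hx N) v = prSeq p n ((evHom hv).comp (shiftHom n h d φ)) x N := by
  have hc : Continuous (evHom hv) := (continuous_ev hv).congr fun f ↦ (evHom_apply hv f).symm
  have h1 : castPt (p := p) (evHom hv) hc rfl (rootR h d φ hx N) =
      Torsion.root ((evHom hv).comp (shiftHom n h d φ)) hx N := Haz.Pt.ext (by
    rw [castPt_val, evHom_apply]
    exact ev_C _ _)
  rw [Torsion.prSeq_eq hx, seqR, ← evHom_apply hv, ← h1, ← map_nsmul, castPt_val]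

theorem constantCoeff_seqR {x : intRing Ω} (hx : IsTopologicallyNilpotent x) (N : ℕ) :
    constantCoeff (seqR (p := p) h d φ hx N) = prSeq p n φ x N := by
  have h1 : castPt (p := p) constantCoeff (MvPowerSeries.WithPiTopology.continuous_constantCoeff _)
      (constantCoeff_shift φ) (rootR h d φ hx N) = Torsion.root φ hx N := Haz.Pt.ext (by
    rw [castPt_val]
    exact constantCoeff_C _)
  rw [Torsion.prSeq_eq hx, seqR, ← h1, ← map_nsmul, castPt_val]

include hφ in
theorem p_smul_sub_pow_mem (hn : n ≠ 0) (z : Haz.Pt p (shiftHom n h d φ)) :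
    (p • z).val - z.val ^ p ^ n ∈
      ball (Torsion.kap φ) (Torsion.kap_nonneg φ) (Torsion.kap_lt_one hφ).le 1 := by
  have hz : IsSmall fun _ : Unit ↦ z.val := fun _ ↦ z.small
  have hI : ∀ i, shiftHom n h d φ (MvPolynomial.X i) -
      zeroSpec n (MvPowerSeries (Fin d) (intRing Ω)) (MvPolynomial.X i) ∈
        ball (Torsion.kap φ) (Torsion.kap_nonneg φ) (Torsion.kap_lt_one hφ).le 1 := by
    intro i
    refine mem_ball_one ?_
    have h1 := RingHom.congr_fun (constantCoeff_shift (h := h) (d := d) φ) (MvPolynomial.X i)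
    simp only [RingHom.comp_apply] at h1
    simp only [h1, zeroSpec, MvPolynomial.eval₂Hom_X', sub_zero, map_sub, map_zero]
    exact Torsion.norm_X_le_kap φ i
  have h := ev_map_sub_mem (isClosed_ball 1) hI (Haz.mulSeries p n (p : ℤ)) hz
  rwa [honda_p natCast_p_series hn, ev_pow hz, ev_X, ← Haz.nsmul_val p _ z p] at h

theorem p_smul_sub_mem {κ : ℝ} {h0 : 0 ≤ κ} {h1 : κ ≤ 1} {M : ℕ}
    {a b : Haz.Pt p (shiftHom n h d φ)} (hab : a.val - b.val ∈ ball κ h0 h1 M) :
    (p • a).val - (p • b).val ∈ ball κ h0 h1 (p * M) := by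
  have := hp
  have : CharP (MvPowerSeries (Fin d) (intRing Ω)) p :=
    (CharP.charP_iff_prime_eq_zero hp.out).mpr natCast_p_series
  obtain ⟨Φ, -, -, hΦ⟩ := Haz.mulSeries_p_height (shiftHom n h d φ) natCast_p_series (h := 1)
    (fun i h0 h1 ↦ by omega) Nat.one_pos
  rw [Haz.nsmul_val, Haz.nsmul_val, hΦ]
  simp only [MvPowerSeries.expand, MvPowerSeries.coe_substAlgHom]
  have hc : ∀ _ : Unit, constantCoeff
      (X () ^ p ^ 1 : MvPowerSeries Unit (MvPowerSeries (Fin d) (intRing Ω))) = 0 := fun _ ↦ by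
    simp [hp.out.ne_zero]
  rw [ev_subst hc (fun _ ↦ a.small), ev_subst hc (fun _ ↦ b.small)]
  simp only [ev_pow (fun _ ↦ a.small), ev_pow (fun _ ↦ b.small), ev_X, pow_one]
  refine ev_sub_mem (isClosed_ball _) (fun _ ↦ ?_) (fun _ ↦ ?_) (fun _ ↦ ?_) Φ
  · exact small_pow a.small hp.out.ne_zero
  · exact small_pow b.small hp.out.ne_zero
  · rw [← sub_pow_char]
    exact pow_mem_ball hab p

theorem pPow_smul_sub_mem {κ : ℝ} {h0 : 0 ≤ κ} {h1 : κ ≤ 1} (N : ℕ)
    {a b : Haz.Pt p (shiftHom n h d φ)} (hab : a.val - b.val ∈ ball κ h0 h1 1) :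
    (p ^ N • a).val - (p ^ N • b).val ∈ ball κ h0 h1 (p ^ N) := by
  induction N with
  | zero => simpa using hab
  | succ N ih =>
    rw [pow_succ' p N, mul_smul, mul_smul]
    exact p_smul_sub_mem ih

include hφ in
theorem seqR_succ_sub_mem (hn : n ≠ 0) {x : intRing Ω} (hx : IsTopologicallyNilpotent x) (N : ℕ) :
    seqR (p := p) h d φ hx (N + 1) - seqR (p := p) h d φ hx N ∈
      ball (Torsion.kap φ) (Torsion.kap_nonneg φ) (Torsion.kap_lt_one hφ).le (p ^ N) := by
  rw [seqR, seqR, pow_succ p N, mul_smul]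
  refine pPow_smul_sub_mem N ?_
  have hr : intRoot ((p ^ n) ^ N) x = intRoot ((p ^ n) ^ (N + 1)) x ^ p ^ n := by
    refine Torsion.intRoot_of_pow (Torsion.qpow N) ?_
    rw [← pow_mul, ← pow_succ']
    exact intRoot_pow (pow_ne_zero _ (pow_ne_zero _ hp.out.ne_zero)) x
  have hv : (rootR (p := p) h d φ hx N).val =
      (rootR (p := p) h d φ hx (N + 1)).val ^ p ^ n := by
    show MvPowerSeries.C (intRoot ((p ^ n) ^ N) x) =
      MvPowerSeries.C (intRoot ((p ^ n) ^ (N + 1)) x) ^ p ^ n
    rw [hr, map_pow]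
  rw [hv]
  exact p_smul_sub_pow_mem hφ hn _

include hφ in
theorem exists_limR (hn : n ≠ 0) {x : intRing Ω} (hx : IsTopologicallyNilpotent x) :
    ∃ ξ, Tendsto (seqR (p := p) h d φ hx) atTop (𝓝 ξ) := by
  have hk0 := Torsion.kap_nonneg φ
  have hk1 := Torsion.kap_lt_one hφ
  suffices h' : ∀ e : Fin d →₀ ℕ, ∃ l : intRing Ω,
      Tendsto (fun N ↦ coeff e (seqR (p := p) h d φ hx N)) atTop (𝓝 l) by
    choose l hl using h'
    exact ⟨fun e ↦ l e, tendsto_pi_nhds.mpr hl⟩
  intro e
  have hlim : Tendsto (fun N ↦ Torsion.kap φ ^ (p ^ N - e.degree)) atTop (𝓝 0) :=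
    (tendsto_pow_atTop_nhds_zero_of_lt_one hk0 hk1).comp
      ((tendsto_sub_atTop_nat e.degree).comp (tendsto_pow_atTop_atTop_of_one_lt hp.out.one_lt))
  have hc : CauchySeq fun N ↦ ((coeff e (seqR (p := p) h d φ hx N) : intRing Ω) : Ω) := by
    refine cauchySeq_of_tendsto_succ (squeeze_zero_norm (fun N ↦ ?_) hlim)
    have h2 := seqR_succ_sub_mem (h := h) (d := d) hφ hn hx N e
    rw [map_sub] at h2
    exact h2
  obtain ⟨l, hl⟩ := cauchySeq_tendsto_of_complete hc
  exact ⟨⟨l, le_of_tendsto' hl.norm fun N ↦ mem_intRing.mp (Subtype.prop _)⟩,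
    tendsto_subtype_rng.mpr hl⟩

end main

end Jac

end Vale.Agent.P217
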