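import Vale.Agent.P217.LTHensel
import Vale.Agent.P217.Honda

/-!
The dictionary between homomorphisms of deformations and roots of the universal equations.
-/

noncomputable section

open MvPowerSeries Finset

namespace Vale.Agent.P217.LT

section generic

variable {R : Type*} [CommRing R] {σ τ : Type*}

theorem coeff_pow_congr' {f g : MvPowerSeries τ R} (hf : constantCoeff f = 0)
    (hg : constantCoeff g = 0) {N : ℕ} (h : ∀ d, d.degree < N → coeff d f = coeff d g)
    {m : ℕ} (hm : 2 ≤ m) (d : τ →₀ ℕ) (hd : d.degree ≤ N) :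
    coeff d (f ^ m) = coeff d (g ^ m) := by
  have h0 : coeff d (f ^ m - g ^ m) = 0 := by
    rw [← (Commute.all f g).geom_sum₂_mul]
    refine coeff_of_lt_order (lt_of_lt_of_le ?_ le_order_mul)
    have h1 : (1 : ℕ∞) ≤ (∑ i ∈ range m, f ^ i * g ^ (m - 1 - i)).order := by
      rw [one_le_order_iff_constCoeff_eq_zero, map_sum]
      refine sum_eq_zero fun i _ ↦ ?_
      rw [map_mul, map_pow, map_pow, hf, hg]
      rcases Nat.eq_zero_or_pos i with rfl | hi'
      · rw [zero_pow (by omega : m - 1 - 0 ≠ 0), mul_zero]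
      · rw [zero_pow hi'.ne', zero_mul]
    have h2 : (N : ℕ∞) ≤ (f - g).order := le_order fun e he ↦ by
      rw [map_sub, sub_eq_zero]; exact h e (by exact_mod_cast he)
    calc (d.degree : ℕ∞) < (1 : ℕ∞) + N := by
          have : d.degree < 1 + N := by omega
          exact_mod_cast this
      _ ≤ _ := add_le_add h1 h2
  rwa [map_sub, sub_eq_zero] at h0

theorem coeff_ps_subst_eq_sum {a : MvPowerSeries τ R} (ha : constantCoeff a = 0)
    (f : PowerSeries R) (d : τ →₀ ℕ) : coeff d (PowerSeries.subst a f) =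
      ∑ j ∈ range (d.degree + 1), PowerSeries.coeff j f * coeff d (a ^ j) := by
  rw [PowerSeries.coeff_subst (PowerSeries.HasSubst.of_constantCoeff_zero ha),
    finsum_eq_sum_of_support_subset _ (s := range (d.degree + 1))]
  · simp [smul_eq_mul]
  · intro j hj
    simp only [Function.mem_support, smul_eq_mul] at hj
    simp only [coe_range, Set.mem_Iio]
    by_contra hcon
    refine hj (mul_eq_zero_of_right _ (coeff_of_lt_order (lt_of_lt_of_le (b := (j : ℕ∞))
      (by exact_mod_cast (by omega : d.degree < j)) ?_)))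
    exact le_order_pow_of_constantCoeff_eq_zero j ha

theorem ps_subst_congr {f : PowerSeries R} {a b : MvPowerSeries τ R} (ha : constantCoeff a = 0)
    (hb : constantCoeff b = 0) {M : ℕ} (h : ∀ e, e.degree < M → coeff e a = coeff e b)
    {d : τ →₀ ℕ} (hd : d.degree ≤ M) :
    coeff d (PowerSeries.subst a f) - coeff d (PowerSeries.subst b f) =
      PowerSeries.coeff 1 f * (coeff d a - coeff d b) := by
  rw [coeff_ps_subst_eq_sum ha, coeff_ps_subst_eq_sum hb, ← sum_sub_distrib]
  rcases Nat.eq_zero_or_pos d.degree with h0 | h0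
  · rw [h0]
    rw [Finsupp.degree_eq_zero_iff] at h0
    subst h0
    simp [ha, hb]
  rw [sum_eq_single 1]
  · simp [mul_sub]
  · intro j _ hj
    rcases j with _ | _ | j
    · simp
    · exact absurd rfl hj
    · rw [coeff_pow_congr' ha hb h (Nat.le_add_left 2 j) d hd, sub_self]
  · intro h1; exact absurd (mem_range.mpr (by omega)) h1

theorem coeff_pow_lin {f g : MvPowerSeries τ R} (hf : constantCoeff f = 0)
    (hg : constantCoeff g = 0) (h : ∀ d, d.degree ≤ 1 → coeff d f = coeff d g) (M : ℕ) :
    ∀ d : τ →₀ ℕ, d.degree ≤ M → coeff d (f ^ M) = coeff d (g ^ M) := by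
  classical
  induction M with
  | zero => intro d _; simp
  | succ M ih =>
    intro d hd
    rw [pow_succ, pow_succ, coeff_mul, coeff_mul]
    refine sum_congr rfl fun q hq ↦ ?_
    have hdeg : q.1.degree + q.2.degree = d.degree := by rw [← map_add, mem_antidiagonal.mp hq]
    rcases Nat.lt_or_ge q.1.degree M with h1 | h1
    · rw [ih q.1 h1.le]
      have : coeff q.1 (g ^ M) = 0 := coeff_of_lt_order (lt_of_lt_of_le (b := (M : ℕ∞))
        (by exact_mod_cast h1) (le_order_pow_of_constantCoeff_eq_zero M hg))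
      rw [this, zero_mul, zero_mul]
    · rcases Nat.lt_or_ge M q.1.degree with h2 | h2
      · have : q.2.degree = 0 := by omega
        rw [Finsupp.degree_eq_zero_iff] at this
        simp [this, hf, hg]
      · rw [ih q.1 h2, h q.2 (by omega)]

theorem subst_congr_le [Finite σ] {a b : σ → MvPowerSeries τ R} (ha : ∀ i, constantCoeff (a i) = 0)
    (hb : ∀ i, constantCoeff (b i) = 0) {d : τ →₀ ℕ}
    (h : ∀ i, ∀ e ≤ d, coeff e (a i) = coeff e (b i)) (F : MvPowerSeries σ R) :
    coeff d (MvPowerSeries.subst a F) = coeff d (MvPowerSeries.subst b F) := by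
  classical
  rw [coeff_subst (hasSubst_of_constantCoeff_zero ha),
    coeff_subst (hasSubst_of_constantCoeff_zero hb)]
  refine finsum_congr fun u ↦ ?_
  congr 1
  have hmul : ∀ f g f' g' : MvPowerSeries τ R, (∀ e ≤ d, coeff e f = coeff e f') →
      (∀ e ≤ d, coeff e g = coeff e g') → ∀ e ≤ d, coeff e (f * g) = coeff e (f' * g') := by
    intro f g f' g' hf hg e he
    rw [coeff_mul, coeff_mul]
    refine sum_congr rfl fun q hq ↦ ?_
    have hq' := mem_antidiagonal.mp hq
    rw [hf q.1 (le_trans (by rw [← hq']; exact le_self_add) he),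
      hg q.2 (le_trans (by rw [← hq']; exact le_add_self) he)]
  have hpow : ∀ i (k : ℕ), ∀ e ≤ d, coeff e (a i ^ k) = coeff e (b i ^ k) := by
    intro i k
    induction k with
    | zero => simp
    | succ k ih => rw [pow_succ, pow_succ]; exact hmul _ _ _ _ ih (h i)
  have hprod : ∀ s : Finset σ, ∀ e ≤ d, coeff e (∏ i ∈ s, a i ^ u i) =
      coeff e (∏ i ∈ s, b i ^ u i) := by
    intro s
    induction s using Finset.induction_on with
    | empty => simp
    | insert i s hi ih => rw [prod_insert hi, prod_insert hi]; exact hmul _ _ _ _ (hpow i _) ih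
  exact hprod u.support d le_rfl

theorem coeff_subst_monomial (f : PowerSeries R) (_hf : PowerSeries.constantCoeff f = 0) {q : ℕ}
    (hq : q ≠ 0) (c : R) (m : ℕ) :
    PowerSeries.coeff m (PowerSeries.subst (PowerSeries.monomial q c) f) =
      if q ∣ m then PowerSeries.coeff (m / q) f * c ^ (m / q) else 0 := by
  rw [PowerSeries.coeff_subst' (PowerSeries.HasSubst.monomial' hq c)]
  split_ifs with h
  · obtain ⟨l, rfl⟩ := h
    rw [Nat.mul_div_cancel_left _ (Nat.pos_of_ne_zero hq), finsum_eq_single _ l]
    · simp [PowerSeries.monomial_pow, mul_comm q l]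
    · intro j hj
      rw [PowerSeries.monomial_pow, PowerSeries.coeff_monomial,
        if_neg (fun h ↦ hj (Nat.eq_of_mul_eq_mul_right (Nat.pos_of_ne_zero hq)
          (h.symm.trans (mul_comm q l)))), smul_zero]
  · refine finsum_eq_zero_of_forall_eq_zero fun j ↦ ?_
    rw [PowerSeries.monomial_pow, PowerSeries.coeff_monomial,
      if_neg (fun h' ↦ h ⟨j, by rw [h', mul_comm]⟩), smul_zero]

theorem coeff_add_pow_two {S : Type*} [CommRing S] {u : ℕ} (m s : ℕ) :
    coeff (Finsupp.single (0 : Fin 2) (u * s) + Finsupp.single 1 (u * (m - s)))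
      ((X 0 ^ u + X 1 ^ u : MvPowerSeries (Fin 2) S) ^ m) =
        if u = 0 then coeff 0 ((2 : MvPowerSeries (Fin 2) S) ^ m)
        else if s ≤ m then (m.choose s : S) else 0 := by
  classical
  split_ifs with hu hs
  · subst hu; simp [one_add_one_eq_two]
  all_goals
    rw [add_pow, map_sum]
    simp only [X_pow_eq, MvPowerSeries.monomial_pow, Finsupp.smul_single, smul_eq_mul, one_pow,
      monomial_mul_monomial, one_mul,
      ← map_natCast (C (σ := Fin 2) (R := S)), mul_comm _ (C _), coeff_C_mul, coeff_monomial]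
  · rw [sum_eq_single s]
    · simp [mul_comm]
    · intro j _ hj
      rw [if_neg, mul_zero]
      intro h
      have := DFunLike.congr_fun h 0
      simp at this
      exact hj (Nat.eq_of_mul_eq_mul_right (Nat.pos_of_ne_zero hu)
        (this.symm.trans (mul_comm u s)))
    · intro h; exact absurd (mem_range.mpr (by omega)) h
  · refine sum_eq_zero fun j hj ↦ ?_
    rw [if_neg, mul_zero]
    intro h
    have := DFunLike.congr_fun h 0
    simp at this
    have := Nat.eq_of_mul_eq_mul_right (Nat.pos_of_ne_zero hu) ((mul_comm s u).trans this)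
    have := mem_range.mp hj
    omega

/-- The mixed coefficient in degree `M` of the composite of a series of order at least `M` with a
law. -/
theorem coeff_subst_law_top (F : FormalGroup R) {D : PowerSeries R} {M : ℕ}
    (hD : ∀ j < M, PowerSeries.coeff j D = 0) {d : Fin 2 →₀ ℕ} (hd : d.degree = M) :
    coeff d (PowerSeries.subst F.toPowerSeries D) =
      PowerSeries.coeff M D * coeff d ((X 0 + X 1 : MvPowerSeries (Fin 2) R) ^ M) := by
  classical
  rw [coeff_ps_subst_eq_sum F.zero_constantCoeff, hd, sum_range_succ,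
    sum_eq_zero fun j hj ↦ by rw [hD j (mem_range.mp hj), zero_mul], zero_add,
    coeff_pow_lin (g := X 0 + X 1) F.zero_constantCoeff (by simp) ?_ M d hd.le]
  intro e he
  rcases Nat.eq_zero_or_pos e.degree with h0 | h0
  · rw [Finsupp.degree_eq_zero_iff] at h0
    subst h0
    simp [F.zero_constantCoeff]
  · obtain ⟨i, hi⟩ : ∃ i, e = Finsupp.single i 1 := by
      have hsum : e.degree = e 0 + e 1 := by
        rw [Finsupp.degree_apply]
        exact (sum_subset (subset_univ _) (by simp)).trans (Fin.sum_univ_two _)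
      rcases Nat.eq_zero_or_pos (e 0) with h | h
      · exact ⟨1, Finsupp.ext fun j ↦ by fin_cases j <;> simp <;> omega⟩
      · exact ⟨0, Finsupp.ext fun j ↦ by fin_cases j <;> simp <;> omega⟩
    subst hi
    fin_cases i <;> simp [F.lin_coeff_X, F.lin_coeff_Y, coeff_index_single_X]

/-- Two homomorphisms agreeing below `M`: the mixed binomial coefficients kill the difference. -/
theorem hom_top {F G : FormalGroup R} {h h' : PowerSeries R} (hh : IsFGHom F G h)
    (hh' : IsFGHom F G h') {M : ℕ} (hlow : ∀ j < M, PowerSeries.coeff j h = PowerSeries.coeff j h')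
    {d : Fin 2 →₀ ℕ} (hd : d.degree = M) (h0 : d 0 < M) (h1 : d 1 < M) :
    (PowerSeries.coeff M h - PowerSeries.coeff M h') *
      coeff d ((X 0 + X 1 : MvPowerSeries (Fin 2) R) ^ M) = 0 := by
  classical
  have e1 := coeff_subst_law_top F (D := h - h') (fun j hj ↦ by rw [map_sub, hlow j hj, sub_self]) hd
  rw [PowerSeries.subst_sub (PowerSeries.HasSubst.of_constantCoeff_zero F.zero_constantCoeff),
    map_sub, map_sub, hh.2, hh'.2] at e1
  rw [← e1, sub_eq_zero]
  refine subst_congr_le (fun i ↦ ?_) (fun i ↦ ?_) (fun i e he ↦ ?_) _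
  · fin_cases i <;> exact constantCoeff_ps_subst (constantCoeff_X _) hh.1
  · fin_cases i <;> exact constantCoeff_ps_subst (constantCoeff_X _) hh'.1
  · have e0 := he 0
    have e1 := he 1
    fin_cases i
    · simp only [Fin.zero_eta, Matrix.cons_val_zero]
      rw [PowerSeries.coeff_subst_single, PowerSeries.coeff_subst_single, hlow (e 0) (by omega)]
    · simp only [Fin.mk_one, Matrix.cons_val_one, Matrix.cons_val_fin_one]
      rw [PowerSeries.coeff_subst_single, PowerSeries.coeff_subst_single, hlow (e 1) (by omega)]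

end generic

variable {p n : ℕ} [hp : Fact p.Prime]

/-- In characteristic `p` homomorphisms differ first at a power of `p`. -/
theorem hom_eq_of_coeff_pow {F : Type*} [CommRing F] [IsDomain F] [CharP F p] {G G' : FormalGroup F}
    {h h' : PowerSeries F} (hh : IsFGHom G G' h) (hh' : IsFGHom G G' h')
    (hN : ∀ N, PowerSeries.coeff (p ^ N) h = PowerSeries.coeff (p ^ N) h') : h = h' := by
  classical
  have : CharP (MvPowerSeries (Fin 2) F) p := charP_of_injective_ringHom
    (f := (MvPowerSeries.C : F →+* MvPowerSeries (Fin 2) F))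
    (fun a b h ↦ by simpa using congr_arg MvPowerSeries.constantCoeff h) p
  have := ExpChar.prime (R := MvPowerSeries (Fin 2) F) hp.out
  ext M
  induction M using Nat.strong_induction_on with
  | _ M ih =>
    rcases Nat.eq_zero_or_pos M with rfl | hM
    · simp [hh.1, hh'.1]
    obtain ⟨a, m, hm, rfl⟩ := Nat.exists_eq_pow_mul_and_not_dvd hM.ne' p hp.out.ne_one
    rcases eq_or_ne m 1 with rfl | hm1
    · rw [mul_one]; exact hN a
    have hm0 : m ≠ 0 := fun h ↦ hm (h ▸ dvd_zero p)
    have hm2 : 2 ≤ m := by omega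
    set d : Fin 2 →₀ ℕ := Finsupp.single 0 (p ^ a * 1) + Finsupp.single 1 (p ^ a * (m - 1)) with hd
    have hpa := pow_pos hp.out.pos a
    have hd0 : d 0 = p ^ a := by simp [hd]
    have hd1 : d 1 = p ^ a * (m - 1) := by simp [hd]
    have hdeg : d.degree = p ^ a * m := by
      rw [hd, map_add, Finsupp.degree_single, Finsupp.degree_single, ← mul_add]
      congr 1; omega
    have hk := hom_top hh hh' ih hdeg (by rw [hd0]; nlinarith) (by rw [hd1]; gcongr; omega)
    rw [pow_mul, add_pow_char_pow, hd, coeff_add_pow_two, if_neg hpa.ne', if_pos (by omega),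
      Nat.choose_one_right, mul_eq_zero, sub_eq_zero] at hk
    refine hk.resolve_right fun h ↦ hm ?_
    exact (CharP.cast_eq_zero_iff F p m).mp h

/-- In characteristic zero a homomorphism is determined by its linear term. -/
theorem hom_eq_of_coeff_one {F : Type*} [Field F] [CharZero F] {G G' : FormalGroup F}
    {h h' : PowerSeries F} (hh : IsFGHom G G' h) (hh' : IsFGHom G G' h')
    (h1 : PowerSeries.coeff 1 h = PowerSeries.coeff 1 h') : h = h' := by
  classical
  ext M
  induction M using Nat.strong_induction_on with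
  | _ M ih =>
    rcases M with _ | _ | M
    · simp [hh.1, hh'.1]
    · exact h1
    set d : Fin 2 →₀ ℕ := Finsupp.single 0 (1 * 1) + Finsupp.single 1 (1 * (M + 2 - 1)) with hd
    have hdeg : d.degree = M + 2 := by
      rw [hd, map_add, Finsupp.degree_single, Finsupp.degree_single]; omega
    have hk := hom_top hh hh' ih hdeg (by simp [hd]) (by simp [hd])
    rw [show (X 0 + X 1 : MvPowerSeries (Fin 2) F) = X 0 ^ 1 + X 1 ^ 1 by simp, hd,
      coeff_add_pow_two, if_neg one_ne_zero, if_pos (by omega), Nat.choose_one_right,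
      mul_eq_zero, sub_eq_zero] at hk
    exact hk.resolve_right (Nat.cast_ne_zero.mpr (by omega))

theorem ps_map_monomial {R S : Type*} [CommRing R] [CommRing S] (f : R →+* S) (m : ℕ) (c : R) :
    PowerSeries.map f (PowerSeries.monomial m c) = PowerSeries.monomial m (f c) := by
  ext j
  rw [PowerSeries.coeff_map, PowerSeries.coeff_monomial, PowerSeries.coeff_monomial]
  split_ifs <;> simp

/-- The partial sums `∑^F t_j X^(p^j)`. -/
def PS (p : ℕ) [Fact p.Prime] {n : ℕ} {R : Type*} [CommRing R] (φ : Haz.A n →+* R) (t : ℕ → R) :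
    ℕ → PowerSeries R
  | 0 => 0
  | N + 1 => MvPowerSeries.subst ![PS p φ t N, PowerSeries.monomial (p ^ N) (t N)]
      ((Haz.law p n).map φ).toPowerSeries

theorem constantCoeff_monomial' {R : Type*} [CommRing R] (c : R) (N : ℕ) :
    MvPowerSeries.constantCoeff (PowerSeries.monomial (p ^ N) c : PowerSeries R) = 0 := by
  show PowerSeries.constantCoeff (PowerSeries.monomial (p ^ N) c) = 0
  rw [← PowerSeries.coeff_zero_eq_constantCoeff_apply, PowerSeries.coeff_monomial,
    if_neg (pow_pos hp.out.pos N).ne]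

theorem constantCoeff_PS {R : Type*} [CommRing R] (φ : Haz.A n →+* R) (t : ℕ → R) (N : ℕ) :
    MvPowerSeries.constantCoeff (PS p φ t N : PowerSeries R) = 0 := by
  induction N with
  | zero => simp [PS]
  | succ N ih =>
    rw [PS]
    exact constantCoeff_subst_pair ih (constantCoeff_monomial' _ N)
      ((Haz.law p n).map φ).zero_constantCoeff

theorem PS_map {R S : Type*} [CommRing R] [CommRing S] (φ : Haz.A n →+* R) (f : R →+* S)
    (t : ℕ → R) (N : ℕ) :
    PowerSeries.map f (PS p φ t N) = PS p (f.comp φ) (fun j ↦ f (t j)) N := by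
  induction N with
  | zero => simp [PS]
  | succ N ih =>
    rw [PS, PS]
    show MvPowerSeries.map f _ = _
    rw [MvPowerSeries.map_subst (hasSubst_of_constantCoeff_zero (Haz.constantCoeff_pair
      (constantCoeff_PS φ t N) (constantCoeff_monomial' _ N))), FormalGroup.map_toPowerSeries,
      FormalGroup.map_toPowerSeries, MvPowerSeries.map_map]
    congr 1
    funext i
    fin_cases i
    · exact ih
    · show PowerSeries.map f (PowerSeries.monomial (p ^ N) (t N)) = _
      exact ps_map_monomial f _ _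

theorem PS_congr {R : Type*} [CommRing R] (φ : Haz.A n →+* R) {t t' : ℕ → R} {N : ℕ}
    (h : ∀ j < N, t j = t' j) : PS p φ t N = PS p φ t' N := by
  induction N with
  | zero => rfl
  | succ N ih => rw [PS, PS, ih fun j hj ↦ h j (by omega), h N (by omega)]

variable (p n) in
/-- The fraction field of the Lubin-Tate ring. -/
abbrev KE : Type := FractionRing (LTRing p n)

variable (p n) in
/-- The inclusion of the Lubin-Tate ring in its fraction field. -/
abbrev incl : LTRing p n →+* KE p n := algebraMap _ _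

instance : CharZero (KE p n) := fractionRing_charZero p n

theorem incl_injective : Function.Injective (incl p n) := IsFractionRing.injective _ _

theorem p_pow_ne_zero (m : ℕ) : (p : KE p n) ^ m ≠ 0 :=
  pow_ne_zero m (Nat.cast_ne_zero.mpr hp.out.ne_zero)

/-- The logarithm, over the fraction field, of the law at a point. -/
def Lg (φ : Haz.A n →+* LTRing p n) : PowerSeries (KE p n) := Haz.logAt p ((incl p n).comp φ)

/-- The logarithm of a series. -/
def logS {τ : Type*} (φ : Haz.A n →+* LTRing p n) (f : MvPowerSeries τ (LTRing p n)) :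
    MvPowerSeries τ (KE p n) :=
  PowerSeries.subst (MvPowerSeries.map (incl p n) f) (Lg φ)

theorem constantCoeff_mapK' {τ : Type*} {f : MvPowerSeries τ (LTRing p n)}
    (hf : constantCoeff f = 0) : constantCoeff (MvPowerSeries.map (incl p n) f) = 0 := by
  rw [MvPowerSeries.constantCoeff_map, hf, map_zero]

theorem coeff_logS_congr {τ : Type*} (φ : Haz.A n →+* LTRing p n)
    {a b : MvPowerSeries τ (LTRing p n)} (ha : constantCoeff a = 0) (hb : constantCoeff b = 0)
    {M : ℕ} (h : ∀ e, e.degree < M → coeff e a = coeff e b) {d : τ →₀ ℕ} (hd : d.degree ≤ M) :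
    coeff d (logS φ a) - coeff d (logS φ b) = incl p n (coeff d a - coeff d b) := by
  rw [logS, logS, ps_subst_congr (constantCoeff_mapK' ha) (constantCoeff_mapK' hb)
    (fun e he ↦ by rw [MvPowerSeries.coeff_map, MvPowerSeries.coeff_map, h e he]) hd, Lg,
    Haz.logAt_one, one_mul, MvPowerSeries.coeff_map, MvPowerSeries.coeff_map, map_sub]

theorem eq_of_logS {τ : Type*} (φ : Haz.A n →+* LTRing p n)
    {a b : MvPowerSeries τ (LTRing p n)} (ha : constantCoeff a = 0) (hb : constantCoeff b = 0)
    {M : ℕ} (h : ∀ e, e.degree < M → coeff e (logS φ a) = coeff e (logS φ b)) :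
    ∀ d, d.degree < M → coeff d a = coeff d b := by
  suffices ∀ k ≤ M, ∀ d, d.degree < k → coeff d a = coeff d b from this M le_rfl
  intro k
  induction k with
  | zero => intro _ d hd; omega
  | succ k ih =>
    intro hk d hd
    have := coeff_logS_congr φ ha hb (ih (by omega)) (Nat.lt_succ_iff.mp hd)
    rw [h d (by omega), sub_self, eq_comm, map_eq_zero_iff _ incl_injective, sub_eq_zero] at this
    exact this

theorem constantCoeff_one_var {R : Type*} [CommRing R] {f : PowerSeries R}
    (hf : PowerSeries.constantCoeff f = 0) :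
    MvPowerSeries.constantCoeff (σ := Unit) f = 0 := hf

/-- One-variable form of `coeff_logS_congr`. -/
theorem coeff_logS_congr₁ (φ : Haz.A n →+* LTRing p n) {a b : PowerSeries (LTRing p n)}
    (ha : MvPowerSeries.constantCoeff a = 0) (hb : MvPowerSeries.constantCoeff b = 0) {M : ℕ}
    (h : ∀ j < M, PowerSeries.coeff j a = PowerSeries.coeff j b) :
    PowerSeries.coeff M (logS φ a : PowerSeries (KE p n)) - PowerSeries.coeff M (logS φ b) =
      incl p n (PowerSeries.coeff M a - PowerSeries.coeff M b) := by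
  rw [PowerSeries.coeff, PowerSeries.coeff]
  refine coeff_logS_congr φ ha hb (M := M) (fun e he ↦ ?_) (by simp)
  have : e = Finsupp.single () (e ()) := Finsupp.ext fun u ↦ by simp
  rw [this]
  exact h _ (by rw [this, Finsupp.degree_single] at he; exact he)

/-- One-variable form of `eq_of_logS`. -/
theorem eq_of_logS₁ (φ : Haz.A n →+* LTRing p n) {a b : PowerSeries (LTRing p n)}
    (ha : MvPowerSeries.constantCoeff a = 0) (hb : MvPowerSeries.constantCoeff b = 0) {M : ℕ}
    (h : ∀ j < M, PowerSeries.coeff j (logS φ a : PowerSeries (KE p n)) =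
      PowerSeries.coeff j (logS φ b)) :
    ∀ j < M, PowerSeries.coeff j a = PowerSeries.coeff j b := by
  intro j hj
  refine eq_of_logS φ ha hb (M := M) (fun e he ↦ ?_) (Finsupp.single () j) (by simpa)
  have : e = Finsupp.single () (e ()) := Finsupp.ext fun u ↦ by simp
  rw [this]
  exact h _ (by rw [this, Finsupp.degree_single] at he; exact he)

/-- The contribution of `t X^(p^j)` to the logarithm at `X^(p^m)`. -/
def term (φ : Haz.A n →+* LTRing p n) (t : ℕ → LTRing p n) (m j : ℕ) : KE p n :=
  if j ≤ m then Haz.ellAt p ((incl p n).comp φ) (m - j) * incl p n (t j) ^ p ^ (m - j) else 0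

theorem coeff_logS_PS (φ : Haz.A n →+* LTRing p n) (t : ℕ → LTRing p n) (N : ℕ) :
    (∀ m, PowerSeries.coeff (p ^ m) (logS φ (PS p φ t N) : PowerSeries (KE p n)) =
      ∑ j ∈ range N, term φ t m j) ∧
    ∀ d, (∀ k, d ≠ p ^ k) →
      PowerSeries.coeff d (logS φ (PS p φ t N) : PowerSeries (KE p n)) = 0 := by
  induction N with
  | zero =>
    have : logS φ (PS p φ t 0) = 0 := by
      rw [logS, PS, map_zero]
      exact PowerSeries.subst_zero_of_constantCoeff_zero (Haz.logAt_zero _)
    rw [this]
    simp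
  | succ N ih =>
    have hsplit : (logS φ (PS p φ t (N + 1)) : PowerSeries (KE p n)) = logS φ (PS p φ t N) +
        PowerSeries.subst (PowerSeries.monomial (p ^ N) (incl p n (t N))) (Lg φ) := by
      have h0 := Haz.constantCoeff_pair (constantCoeff_PS (p := p) φ t N)
        (constantCoeff_monomial' (p := p) (t N) N)
      rw [logS, PS, MvPowerSeries.map_subst (hasSubst_of_constantCoeff_zero h0),
        FormalGroup.map_toPowerSeries, MvPowerSeries.map_map, Lg,
        ← FormalGroup.map_toPowerSeries, Haz.logAt_law_subst]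
      · simp only [Matrix.cons_val_zero, Matrix.cons_val_one, Matrix.cons_val_fin_one]
        rw [show MvPowerSeries.map (incl p n) (PowerSeries.monomial (p ^ N) (t N)) =
          PowerSeries.monomial (p ^ N) (incl p n (t N)) from ps_map_monomial _ _ _]
        rfl
      · exact fun i ↦ constantCoeff_mapK' (h0 i)
    have hterm : ∀ d, PowerSeries.coeff d
        (PowerSeries.subst (PowerSeries.monomial (p ^ N) (incl p n (t N))) (Lg φ)) =
        if p ^ N ∣ d then PowerSeries.coeff (d / p ^ N) (Lg φ) * incl p n (t N) ^ (d / p ^ N)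
        else 0 := coeff_subst_monomial _ (Haz.logAt_zero _) (pow_ne_zero _ hp.out.ne_zero) _
    refine ⟨fun m ↦ ?_, fun d hd ↦ ?_⟩
    · rw [hsplit, map_add, ih.1, sum_range_succ, hterm, term]
      congr 1
      by_cases h : N ≤ m
      · rw [if_pos h, if_pos (pow_dvd_pow p h), Nat.pow_div h hp.out.pos, Lg, Haz.coeff_logAt]
      · rw [if_neg h, if_neg]
        exact fun hdvd ↦ h ((Nat.pow_dvd_pow_iff_le_right hp.out.one_lt).mp hdvd)
    · rw [hsplit, map_add, ih.2 d hd, hterm, zero_add]
      split_ifs with h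
      · obtain ⟨l, rfl⟩ := h
        rw [Nat.mul_div_cancel_left _ (pow_pos hp.out.pos N), Lg, Haz.coeff_logAt_ne, zero_mul]
        intro k hk
        exact hd (N + k) (by rw [hk, pow_add])
      · rfl

theorem PS_stable (φ : Haz.A n →+* LTRing p n) (t : ℕ → LTRing p n) {N N' : ℕ} (h : N ≤ N') :
    ∀ j < p ^ N, PowerSeries.coeff j (PS p φ t N') = PowerSeries.coeff j (PS p φ t N) := by
  refine eq_of_logS₁ φ (constantCoeff_PS φ t N') (constantCoeff_PS φ t N) fun d hd ↦ ?_
  by_cases hpow : ∃ m, d = p ^ m
  · obtain ⟨m, rfl⟩ := hpow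
    have hm : m < N := (Nat.pow_lt_pow_iff_right hp.out.one_lt).mp hd
    rw [(coeff_logS_PS φ t N').1, (coeff_logS_PS φ t N).1]
    refine (sum_subset (range_mono h) fun j _ hj ↦ ?_).symm
    rw [term, if_neg]
    simp only [mem_range] at hj
    omega
  · push Not at hpow
    rw [(coeff_logS_PS φ t N').2 d hpow, (coeff_logS_PS φ t N).2 d hpow]

/-- The infinite formal sum `∑^F t_j X^(p^j)`. -/
def psiS (φ : Haz.A n →+* LTRing p n) (t : ℕ → LTRing p n) : PowerSeries (LTRing p n) :=
  PowerSeries.mk fun d ↦ PowerSeries.coeff d (PS p φ t (d + 1))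

theorem coeff_psiS (φ : Haz.A n →+* LTRing p n) (t : ℕ → LTRing p n) {N d : ℕ} (h : d < p ^ N) :
    PowerSeries.coeff d (psiS φ t) = PowerSeries.coeff d (PS p φ t N) := by
  have hd : d < p ^ (d + 1) :=
    lt_trans (Nat.lt_succ_self d) (Nat.lt_pow_self hp.out.one_lt)
  rw [psiS, PowerSeries.coeff_mk]
  rcases Nat.le_total N (d + 1) with h' | h'
  · exact PS_stable φ t h' d h
  · exact (PS_stable φ t h' d hd).symm

theorem constantCoeff_psiS (φ : Haz.A n →+* LTRing p n) (t : ℕ → LTRing p n) :
    MvPowerSeries.constantCoeff (psiS φ t) = 0 := by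
  show PowerSeries.constantCoeff _ = 0
  rw [← PowerSeries.coeff_zero_eq_constantCoeff_apply, coeff_psiS φ t (N := 0) (by simp)]
  simp [PS]

theorem coeff_PS_succ (φ : Haz.A n →+* LTRing p n) (t : ℕ → LTRing p n) (N : ℕ) :
    PowerSeries.coeff (p ^ N) (PS p φ t (N + 1)) =
      PowerSeries.coeff (p ^ N) (PS p φ t N) + t N := by
  have h := coeff_logS_congr₁ φ (constantCoeff_PS φ t (N + 1)) (constantCoeff_PS φ t N)
    (PS_stable φ t (Nat.le_succ N))
  rw [(coeff_logS_PS φ t (N + 1)).1, (coeff_logS_PS φ t N).1, sum_range_succ,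
    add_sub_cancel_left, term, if_pos le_rfl, Nat.sub_self, Haz.ellAt_zero, one_mul, pow_zero,
    pow_one] at h
  exact eq_add_of_sub_eq' (incl_injective h.symm)

theorem coeff_psiS_pow (φ : Haz.A n →+* LTRing p n) (t : ℕ → LTRing p n) (N : ℕ) :
    PowerSeries.coeff (p ^ N) (psiS φ t) = PowerSeries.coeff (p ^ N) (PS p φ t N) + t N := by
  rw [coeff_psiS φ t (Nat.pow_lt_pow_right hp.out.one_lt (Nat.lt_succ_self N)), coeff_PS_succ]

/-- The coefficient of `X^(p^m)` in the logarithm of `∑^F t_j X^(p^j)`. -/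
def SS (φ : Haz.A n →+* LTRing p n) (t : ℕ → LTRing p n) (m : ℕ) : KE p n :=
  ∑ j ∈ range (m + 1), term φ t m j

theorem coeff_logS_psiS (φ : Haz.A n →+* LTRing p n) (t : ℕ → LTRing p n) :
    (∀ m, PowerSeries.coeff (p ^ m) (logS φ (psiS φ t) : PowerSeries (KE p n)) = SS φ t m) ∧
    ∀ d, (∀ k, d ≠ p ^ k) →
      PowerSeries.coeff d (logS φ (psiS φ t) : PowerSeries (KE p n)) = 0 := by
  have key : ∀ N d, d < p ^ N → PowerSeries.coeff d (logS φ (psiS φ t) : PowerSeries (KE p n)) =
      PowerSeries.coeff d (logS φ (PS p φ t N)) := by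
    intro N d hd
    have h := coeff_logS_congr₁ φ (constantCoeff_psiS φ t) (constantCoeff_PS φ t N)
      (M := d) (fun j hj ↦ coeff_psiS φ t (hj.trans hd))
    rw [coeff_psiS φ t hd, sub_self, map_zero, sub_eq_zero] at h
    exact h
  refine ⟨fun m ↦ ?_, fun d hd ↦ ?_⟩
  · rw [key (m + 1) _ (Nat.pow_lt_pow_right hp.out.one_lt (Nat.lt_succ_self m)),
      (coeff_logS_PS φ t (m + 1)).1, SS]
  · rw [key (d + 1) d (lt_trans (Nat.lt_succ_self d) (Nat.lt_pow_self hp.out.one_lt)),
      (coeff_logS_PS φ t _).2 d hd]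

/-- The parameter map of the target law. -/
def phB (x : ℕ → LTRing p n) : Haz.A n →+* LTRing p n :=
  MvPolynomial.eval₂Hom (Int.castRingHom _) fun i ↦ x (i + 1)

theorem phB_uA (x : ℕ → LTRing p n) (i : ℕ) : phB x (Haz.uA n (i + 1)) = xb p n x (i + 1) := by
  unfold Haz.uA
  rw [xb]
  by_cases h : i + 1 = n
  · rw [dif_neg (by omega), if_pos h, if_pos h, map_one]
  · rw [if_neg h]
    by_cases h' : i < n - 1
    · rw [dif_pos ⟨Nat.succ_ne_zero i, by simpa using h'⟩, if_pos (show i + 1 ≠ 0 ∧ i + 1 < n from ⟨Nat.succ_ne_zero i, by omega⟩)]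
      simp [phB, h]
    · rw [dif_neg (by simp; omega), if_neg h, if_neg (by omega), map_zero]

theorem incl_evx_Lz (x : ℕ → LTRing p n) (k : ℕ) : incl p n (evx p n x (Lz p k)) =
    (p : KE p n) ^ k * Haz.ellAt p ((incl p n).comp (toLT p n)) k := by
  induction k using Nat.strong_induction_on with
  | _ k ih =>
    rcases k with _ | k
    · simp [Lz_zero, Haz.ellAt_zero]
    · rw [Lz_succ, map_sum, map_sum, pow_succ, mul_assoc, Haz.ellAt_succ, mul_sum]
      refine sum_congr rfl fun i hi ↦ ?_
      have hi' := mem_range.mp hi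
      simp only [map_mul, map_pow, map_natCast]
      rw [ih _ (by omega), evx_u, RingHom.comp_apply, toLT_uA p n _ (Nat.succ_ne_zero i)]
      conv_rhs => rw [← Nat.add_sub_cancel' (Nat.lt_succ_iff.mp hi'), pow_add,
        Nat.add_sub_cancel_left]
      ring

theorem incl_evx_SU (x : ℕ → LTRing p n) (m : ℕ) : incl p n (evx p n x (SU p m)) =
    (p : KE p n) ^ m * SS (toLT p n) (fun j ↦ x (n + j)) m := by
  rw [SU, SS, map_sum, map_sum, mul_sum]
  refine sum_congr rfl fun j hj ↦ ?_
  have hj' : j ≤ m := Nat.lt_succ_iff.mp (mem_range.mp hj)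
  rw [zseq, if_pos hj', term, if_pos hj', map_mul, map_mul, map_mul, map_mul, map_pow, map_pow,
    map_natCast, map_natCast, map_pow, map_pow, evx_t, incl_evx_Lz]
  conv_rhs => rw [← Nat.add_sub_cancel' hj', pow_add, Nat.add_sub_cancel_left]
  ring

theorem incl_evx_wU (x : ℕ → LTRing p n) {m : ℕ} (hm : m ≠ 0) :
    incl p n (evx p n x (wU p m)) = (p : KE p n) ^ m *
      ((p : KE p n) * SS (toLT p n) (fun j ↦ x (n + j)) m - ∑ i ∈ range m,
        SS (toLT p n) (fun j ↦ x (n + j)) (m - (i + 1)) *
          incl p n (xb p n x (i + 1)) ^ p ^ (m - (i + 1))) := by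
  rw [wU, if_neg hm, map_sub, map_sub, mul_sub, map_mul, map_mul, map_natCast, map_natCast,
    incl_evx_SU, map_sum, map_sum, mul_sum]
  congr 1
  · ring
  refine sum_congr rfl fun i hi ↦ ?_
  have hi' := mem_range.mp hi
  rw [map_mul, map_mul, map_mul, map_mul, map_pow, map_pow, map_natCast, map_natCast, map_pow,
    map_pow, evx_b, incl_evx_SU, ← mul_assoc ((p : KE p n) ^ (i + 1)), ← pow_add,
    show i + 1 + (m - (i + 1)) = m by omega]
  ring

/-- The roots of the universal equations are the coordinates of the isomorphisms. -/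
theorem root_iff (x : ℕ → LTRing p n) : (∀ m, m ≠ 0 → eqn p n x m = 0) ↔
    ∀ m, SS (toLT p n) (fun j ↦ x (n + j)) m =
      incl p n (x n) * Haz.ellAt p ((incl p n).comp (phB x)) m := by
  set t := fun j ↦ x (n + j) with ht
  set c := incl p n (x n)
  set lb := Haz.ellAt p ((incl p n).comp (phB x))
  have hp0 : (p : KE p n) ≠ 0 := Nat.cast_ne_zero.mpr hp.out.ne_zero
  have hrec : ∀ k, (p : KE p n) * (c * lb (k + 1)) = ∑ i ∈ range (k + 1),
      c * lb (k - i) * incl p n (xb p n x (i + 1)) ^ p ^ (k - i) := by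
    intro k
    rw [mul_left_comm, Haz.ellAt_succ, mul_sum]
    refine sum_congr rfl fun i _ ↦ ?_
    rw [RingHom.comp_apply, phB_uA]
    ring
  have hz : ∀ k a l, a = 0 → evx p n x (zseq p k a l) = 0 := by
    intro k a l ha
    rw [zseq, ha]
    split_ifs <;> simp [zero_pow (pow_ne_zero _ hp.out.ne_zero)]
  have he0 : eU p 0 = 0 := by
    have := eU_spec p 0
    rw [wU, if_pos rfl, sum_range_one, zseq_self, pow_zero, one_mul] at this
    exact this.symm
  constructor
  · intro h m
    induction m using Nat.strong_induction_on with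
    | _ m ih =>
      rcases m with _ | m
      · simp [SS, term, Haz.ellAt_zero, lb, c, ht]
      · have hw : incl p n (evx p n x (wU p (m + 1))) = 0 := by
          rw [eU_spec, map_sum, sum_eq_zero, map_zero]
          intro k _
          rcases Nat.eq_zero_or_pos k with rfl | hk
          · rw [he0]; exact hz _ _ _ rfl
          · have := h k hk.ne'
            rw [eqn] at this
            rw [zseq]
            split_ifs
            · simp [this, zero_pow (pow_ne_zero _ hp.out.ne_zero)]
            · simp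
        rw [incl_evx_wU x (Nat.succ_ne_zero m), mul_eq_zero,
          or_iff_right (p_pow_ne_zero _), sub_eq_zero] at hw
        apply mul_left_cancel₀ hp0
        rw [hw, hrec]
        refine sum_congr rfl fun i hi ↦ ?_
        rw [show m + 1 - (i + 1) = m - i by omega, ih (m - i) (by omega)]
  · intro h m hm
    induction m using Nat.strong_induction_on with
    | _ m ih =>
      obtain ⟨l, rfl⟩ : ∃ l, m = l + 1 := ⟨m - 1, by omega⟩
      have hw : incl p n (evx p n x (wU p (l + 1))) = 0 := by
        rw [incl_evx_wU x (Nat.succ_ne_zero l), h, hrec, mul_eq_zero, sub_eq_zero]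
        refine Or.inr (sum_congr rfl fun i _ ↦ ?_)
        rw [show l + 1 - (i + 1) = l - i by omega, h]
      rw [eU_spec, map_sum, sum_range_succ, sum_eq_zero, zero_add, zseq_self, map_mul, map_mul,
        map_pow, map_pow, map_natCast, map_natCast, mul_eq_zero,
        or_iff_right (p_pow_ne_zero _), map_eq_zero_iff _ incl_injective] at hw
      · exact hw
      · intro k hk
        rcases Nat.eq_zero_or_pos k with rfl | hk0
        · rw [he0]; exact hz _ _ _ rfl
        · have := ih k (mem_range.mp hk) hk0.ne'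
          rw [eqn] at this
          rw [zseq]
          split_ifs
          · simp [this, zero_pow (pow_ne_zero _ hp.out.ne_zero)]
          · simp

theorem map_incl_injective {τ : Type*} :
    Function.Injective (MvPowerSeries.map (σ := τ) (incl p n)) := by
  intro a b hab
  ext1 d
  exact incl_injective (by simpa using congr_arg (coeff d) hab)

theorem logS_injective {τ : Type*} (φ : Haz.A n →+* LTRing p n)
    {a b : MvPowerSeries τ (LTRing p n)} (ha : constantCoeff a = 0) (hb : constantCoeff b = 0)
    (h : logS φ a = logS φ b) : a = b :=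
  map_incl_injective (ps_subst_cancel (Haz.logAt_zero _)
    (by rw [Haz.logAt_one]; exact isUnit_one) (constantCoeff_mapK' ha) (constantCoeff_mapK' hb) h)

theorem logS_law {τ : Type*} (φ : Haz.A n →+* LTRing p n)
    {b : Fin 2 → MvPowerSeries τ (LTRing p n)} (hb : ∀ i, constantCoeff (b i) = 0) :
    logS φ (MvPowerSeries.subst b ((Haz.law p n).map φ).toPowerSeries) =
      logS φ (b 0) + logS φ (b 1) := by
  have h := Haz.logAt_law_subst (p := p) ((incl p n).comp φ)
    (b := fun i ↦ MvPowerSeries.map (incl p n) (b i)) (fun i ↦ constantCoeff_mapK' (hb i))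
  rw [logS, MvPowerSeries.map_subst (hasSubst_of_constantCoeff_zero hb)]
  simp only [FormalGroup.map_toPowerSeries, MvPowerSeries.map_map] at h ⊢
  exact h

theorem logS_subst {τ : Type*} (φ : Haz.A n →+* LTRing p n) {ψ : PowerSeries (LTRing p n)}
    (hψ : MvPowerSeries.constantCoeff ψ = 0) {a : MvPowerSeries τ (LTRing p n)}
    (ha : constantCoeff a = 0) : logS φ (PowerSeries.subst a ψ) =
      PowerSeries.subst (MvPowerSeries.map (incl p n) a) (logS φ ψ : PowerSeries (KE p n)) := by
  rw [logS, PowerSeries.map_subst (PowerSeries.HasSubst.of_constantCoeff_zero ha)]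
  exact (ps_subst_subst (c := PowerSeries.map (incl p n) ψ) (constantCoeff_mapK' hψ)
    (constantCoeff_mapK' ha) (Lg φ)).symm

theorem logS_psiS_root {x : ℕ → LTRing p n} (h : ∀ m, m ≠ 0 → eqn p n x m = 0) :
    (logS (toLT p n) (psiS (toLT p n) fun j ↦ x (n + j)) : PowerSeries (KE p n)) =
      incl p n (x n) • Lg (phB x) := by
  have hS := (root_iff x).mp h
  ext d
  rw [LinearMap.map_smul, smul_eq_mul, Lg]
  by_cases hd : ∃ m, d = p ^ m
  · obtain ⟨m, rfl⟩ := hd
    rw [(coeff_logS_psiS _ _).1, Haz.coeff_logAt, hS]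
  · push Not at hd
    rw [(coeff_logS_psiS _ _).2 d hd, Haz.coeff_logAt_ne _ d hd, mul_zero]

/-- A root gives a homomorphism of deformations. -/
theorem psiS_hom {x : ℕ → LTRing p n} (h : ∀ m, m ≠ 0 → eqn p n x m = 0) :
    IsFGHom ((Haz.law p n).map (phB x)) (lawLT p n) (psiS (toLT p n) fun j ↦ x (n + j)) := by
  have hψ0 := constantCoeff_psiS (toLT p n) fun j ↦ x (n + j)
  have hlog := logS_psiS_root h
  generalize psiS (toLT p n) (fun j ↦ x (n + j)) = ψ at hψ0 hlog
  have hF0 : constantCoeff ((Haz.law p n).map (phB x)).toPowerSeries = 0 :=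
    ((Haz.law p n).map (phB x)).zero_constantCoeff
  have hpair := Haz.constantCoeff_pair
    (constantCoeff_ps_subst (constantCoeff_X (R := LTRing p n) (0 : Fin 2)) hψ0)
    (constantCoeff_ps_subst (constantCoeff_X (R := LTRing p n) (1 : Fin 2)) hψ0)
  refine ⟨hψ0, logS_injective (toLT p n) (constantCoeff_ps_subst hF0 hψ0)
    (constantCoeff_subst_eq_zero (hasSubst_of_constantCoeff_zero hpair) hpair
      (lawLT p n).zero_constantCoeff) ?_⟩
  have hX : ∀ i : Fin 2, constantCoeff (X i : MvPowerSeries (Fin 2) (KE p n)) = 0 := constantCoeff_X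
  rw [lawLT, logS_law _ hpair]
  simp only [Matrix.cons_val_zero, Matrix.cons_val_one, Matrix.cons_val_fin_one]
  rw [logS_subst _ hψ0 hF0]
  rw [logS_subst _ hψ0 (constantCoeff_X 0), logS_subst _ hψ0 (constantCoeff_X 1)]
  rw [hlog]
  rw [MvPowerSeries.map_X, MvPowerSeries.map_X]
  rw [PowerSeries.subst_smul (PowerSeries.HasSubst.of_constantCoeff_zero (constantCoeff_mapK' hF0))]
  rw [PowerSeries.subst_smul (PowerSeries.HasSubst.of_constantCoeff_zero (hX 0)), PowerSeries.subst_smul (PowerSeries.HasSubst.of_constantCoeff_zero (hX 1)), ← smul_add]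
  refine congr_arg _ ?_
  show PowerSeries.subst _ (Haz.logAt p ((incl p n).comp (phB x))) = _
  rw [FormalGroup.map_toPowerSeries, MvPowerSeries.map_map, ← FormalGroup.map_toPowerSeries]
  exact Haz.logAt_law _
end Vale.Agent.P217.LT
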