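import Mathlib.Algebra.MvPolynomial.Expand
import Mathlib.Algebra.MvPolynomial.PDeriv
import Mathlib.FieldTheory.Finite.Polynomial
import Mathlib.NumberTheory.Basic

/-!
The universal integral equations of an isomorphism of `p`-typical formal group laws in
Hazewinkel coordinates, and their Jacobian modulo the maximal ideal.
-/

noncomputable section

open Finset MvPolynomial

namespace Vale.Agent.P217.LT

/-- Variables: source parameters `u i`, target parameters `b i`, coordinates `t j`. -/
inductive UV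
  | u (i : ℕ)
  | b (i : ℕ)
  | t (j : ℕ)
  deriving DecidableEq

/-- The index of a variable. -/
def UV.idx : UV → ℕ
  | .u i => i
  | .b i => i
  | .t j => j

/-- The universal ring. -/
abbrev U : Type := MvPolynomial UV ℤ

/-- `u i` -/
abbrev uV (i : ℕ) : U := X (UV.u i)
/-- `b i` -/
abbrev bV (i : ℕ) : U := X (UV.b i)
/-- `t j` -/
abbrev tV (j : ℕ) : U := X (UV.t j)

variable (p : ℕ) [hp : Fact p.Prime]

/-- The Frobenius lift of the universal ring. -/
def sig : U →+* U := (MvPolynomial.expand p).toRingHom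

omit hp in
theorem sig_X (v : UV) : sig p (X v) = X v ^ p := by simp [sig]

omit hp in
theorem sig_pow_X (i : ℕ) (v : UV) : (sig p ^ i) (X v) = X v ^ p ^ i := by
  induction i with
  | zero => simp
  | succ i ih =>
    rw [pow_succ', RingHom.coe_mul, Function.comp_apply, ih, map_pow, sig_X, ← pow_mul,
      ← pow_succ']

theorem frobU (a : U) : (p : U) ∣ sig p a - a ^ p := by
  have h : MvPolynomial.map (Int.castRingHom (ZMod p)) (sig p a - a ^ p) = 0 := by
    rw [map_sub, map_pow]
    simp only [sig, AlgHom.toRingHom_eq_coe, RingHom.coe_coe, MvPolynomial.map_expand]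
    rw [MvPolynomial.expand_zmod, sub_self]
  have h2 : MvPolynomial.C (p : ℤ) ∣ sig p a - a ^ p := by
    rw [MvPolynomial.C_dvd_iff_dvd_coeff]
    intro d
    have := congr_arg (MvPolynomial.coeff d) h
    rw [MvPolynomial.coeff_map, MvPolynomial.coeff_zero] at this
    exact (ZMod.intCast_zmod_eq_zero_iff_dvd _ _).mp this
  simpa [map_natCast] using h2

theorem frobU_pow (i : ℕ) (a : U) : (p : U) ∣ (sig p ^ i) a - a ^ p ^ i := by
  induction i with
  | zero => simp
  | succ i ih =>
    rw [pow_succ', RingHom.coe_mul, Function.comp_apply]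
    have h1 := frobU p ((sig p ^ i) a)
    have h2 : (p : U) ∣ ((sig p ^ i) a) ^ p - (a ^ p ^ i) ^ p :=
      ih.trans (sub_dvd_pow_sub_pow _ _ _)
    have h3 := dvd_add h1 h2
    rw [sub_add_sub_cancel, ← pow_mul, ← pow_succ] at h3
    exact h3

/-- `p ^ k` times the `k`-th coefficient of Hazewinkel's logarithm. -/
def Lz : ℕ → U
  | 0 => 1
  | k + 1 => ∑ i : Fin (k + 1), (p : U) ^ (i : ℕ) * Lz (k - i) * uV (i + 1) ^ p ^ (k - i)

omit hp in
theorem Lz_zero : Lz p 0 = 1 := by rw [Lz]

omit hp in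
theorem Lz_succ (k : ℕ) : Lz p (k + 1) =
    ∑ i ∈ range (k + 1), (p : U) ^ i * Lz p (k - i) * uV (i + 1) ^ p ^ (k - i) := by
  rw [Lz, Fin.sum_univ_eq_sum_range
    fun i ↦ (p : U) ^ i * Lz p (k - i) * uV (i + 1) ^ p ^ (k - i)]

theorem Lz_fe (k : ℕ) : Lz p (k + 1) =
    ∑ i ∈ range (k + 1), (p : U) ^ i * uV (i + 1) * (sig p ^ (i + 1)) (Lz p (k - i)) := by
  induction k using Nat.strong_induction_on with
  | _ k ih =>
    rw [Lz_succ, sum_range_succ, sum_range_succ (fun i ↦ (p : U) ^ i * uV (i + 1) * _) k,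
      Nat.sub_self, Lz_zero, map_one, pow_zero, pow_one]
    have h1 : ∀ i ∈ range k, (p : U) ^ i * Lz p (k - i) * uV (i + 1) ^ p ^ (k - i) =
        ∑ j ∈ range (k - i), (p : U) ^ (i + j) * uV (j + 1) *
          (sig p ^ (j + 1)) (Lz p (k - i - 1 - j)) * uV (i + 1) ^ p ^ (k - i) := by
      intro i hi
      have hi' : i < k := mem_range.mp hi
      obtain ⟨m, hm⟩ : ∃ m, k - i = m + 1 := ⟨k - i - 1, by omega⟩
      rw [hm, ih m (by omega), mul_sum, sum_mul]
      refine sum_congr rfl fun j _ ↦ ?_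
      rw [Nat.add_sub_cancel, pow_add]
      ring
    have h2 : ∀ j ∈ range k, (p : U) ^ j * uV (j + 1) * (sig p ^ (j + 1)) (Lz p (k - j)) =
        ∑ i ∈ range (k - j), (p : U) ^ (i + j) * uV (j + 1) *
          (sig p ^ (j + 1)) (Lz p (k - j - 1 - i)) * uV (i + 1) ^ p ^ (k - i) := by
      intro j hj
      have hj' : j < k := mem_range.mp hj
      obtain ⟨m, hm⟩ : ∃ m, k - j = m + 1 := ⟨k - j - 1, by omega⟩
      rw [hm, Lz_succ, map_sum, mul_sum]
      refine sum_congr rfl fun i hi ↦ ?_
      have hi' : i < m + 1 := mem_range.mp hi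
      rw [Nat.add_sub_cancel, map_mul, map_mul, map_pow, map_natCast, map_pow, sig_pow_X,
        ← pow_mul, ← pow_add, show j + 1 + (m - i) = k - i by omega, pow_add]
      ring
    rw [sum_congr rfl h1, sum_congr rfl h2]
    rw [sum_comm' (t' := range k) (s' := fun j ↦ range (k - j))]
    · congr 1
      · refine sum_congr rfl fun j _ ↦ sum_congr rfl fun i _ ↦ ?_
        rw [show k - i - 1 - j = k - j - 1 - i by omega]
      · ring
    · intro i j
      simp only [mem_range]
      omega

/-- The sequence `m ↦ p^k L_(m-k) a^(p^(m-k))`. -/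
def zseq (k : ℕ) (a : U) (m : ℕ) : U :=
  if k ≤ m then (p : U) ^ k * Lz p (m - k) * a ^ p ^ (m - k) else 0

omit hp in
theorem zseq_of_lt {k m : ℕ} (h : m < k) (a : U) : zseq p k a m = 0 := by
  rw [zseq, if_neg (by omega)]

omit hp in
theorem zseq_self (k : ℕ) (a : U) : zseq p k a k = (p : U) ^ k * a := by
  simp [zseq, Lz_zero]

/-- The congruence characterising ghost sequences at index `m`. -/
def Cong (w : ℕ → U) (m : ℕ) : Prop :=
  (p : U) ^ (m + 1) ∣ (p : U) * w m -
    ∑ i ∈ range m, (p : U) ^ (i + 1) * uV (i + 1) * (sig p ^ (i + 1)) (w (m - (i + 1)))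

omit hp in
theorem cong_congr {w w' : ℕ → U} {m : ℕ} (h : ∀ l ≤ m, w l = w' l) (hw : Cong p w m) :
    Cong p w' m := by
  rw [Cong] at hw ⊢
  rw [← h m le_rfl]
  convert hw using 3
  refine sum_congr rfl fun i _ ↦ ?_
  rw [h _ (Nat.sub_le _ _)]

omit hp in
theorem cong_add {w w' : ℕ → U} {m : ℕ} (h : Cong p w m) (h' : Cong p w' m) :
    Cong p (fun l ↦ w l + w' l) m := by
  rw [Cong] at h h' ⊢
  convert dvd_add h h' using 1
  simp only [map_add, mul_add, sum_add_distrib]
  ring

omit hp in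
theorem cong_sub {w w' : ℕ → U} {m : ℕ} (h : Cong p w m) (h' : Cong p w' m) :
    Cong p (fun l ↦ w l - w' l) m := by
  rw [Cong] at h h' ⊢
  convert dvd_sub h h' using 1
  simp only [map_sub, mul_sub, sum_sub_distrib]
  ring

omit hp in
theorem cong_zero (m : ℕ) : Cong p (fun _ ↦ 0) m := by simp [Cong]

omit hp in
theorem cong_sum {ι : Type*} {m : ℕ} (s : Finset ι) {w : ι → ℕ → U}
    (h : ∀ i ∈ s, Cong p (w i) m) : Cong p (fun l ↦ ∑ i ∈ s, w i l) m := by
  classical
  induction s using Finset.induction_on with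
  | empty => simpa using cong_zero p m
  | insert a s ha ih =>
    simp only [sum_insert ha]
    exact cong_add p (h a (mem_insert_self a s)) (ih fun i hi ↦ h i (mem_insert_of_mem hi))

theorem cong_zseq (k : ℕ) (a : U) (m : ℕ) : Cong p (zseq p k a) m := by
  rw [Cong]
  rcases Nat.lt_or_ge m k with h | h
  · rw [zseq_of_lt p h, mul_zero, zero_sub, dvd_neg,
      sum_eq_zero fun i _ ↦ by rw [zseq_of_lt p (by omega : m - (i + 1) < k), map_zero, mul_zero]]
    exact dvd_zero _
  obtain ⟨l, rfl⟩ : ∃ l, m = k + l := ⟨m - k, by omega⟩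
  rcases l with _ | l
  · rw [add_zero, zseq_self, sum_eq_zero fun i hi ↦ by
      rw [zseq_of_lt p (by have := mem_range.mp hi; omega : k - (i + 1) < k), map_zero, mul_zero],
      sub_zero, ← mul_assoc, ← pow_succ']
    exact Dvd.intro a rfl
  rw [← sum_subset (range_mono (by omega : l + 1 ≤ k + (l + 1)))
    fun i hi hi' ↦ by
      rw [mem_range] at hi hi'
      rw [zseq_of_lt p (by omega : k + (l + 1) - (i + 1) < k), map_zero, mul_zero]]
  rw [zseq, if_pos (by omega), Nat.add_sub_cancel_left, Lz_fe, mul_sum, sum_mul, mul_sum,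
    ← sum_sub_distrib]
  refine dvd_sum fun i hi ↦ ?_
  have hi' : i ≤ l := Nat.lt_succ_iff.mp (mem_range.mp hi)
  rw [zseq, if_pos (by omega), show k + (l + 1) - (i + 1) - k = l - i by omega, map_mul, map_mul,
    map_pow, map_natCast, map_pow]
  have h1 : (p : U) ^ (l - i + 1) ∣ (a ^ p ^ (i + 1)) ^ p ^ (l - i) -
      ((sig p ^ (i + 1)) a) ^ p ^ (l - i) :=
    dvd_sub_pow_of_dvd_sub (dvd_sub_comm.mp (frobU_pow p (i + 1) a)) _
  have h2 : (p : U) ^ (k + (l + 1) + 1) ∣ (p : U) ^ (i + 1 + k) *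
      ((a ^ p ^ (i + 1)) ^ p ^ (l - i) - ((sig p ^ (i + 1)) a) ^ p ^ (l - i)) := by
    rw [show k + (l + 1) + 1 = (i + 1 + k) + (l - i + 1) by omega, pow_add]
    exact mul_dvd_mul_left _ h1
  convert h2.mul_left (uV (i + 1) * (sig p ^ (i + 1)) (Lz p (l - i))) using 1
  rw [← pow_mul, ← pow_add, show i + 1 + (l - i) = l + 1 by omega,
    pow_add (p : U) (i + 1) k, pow_succ (p : U) i]
  ring

/-- `p^m` times the coefficient of `X^(p^m)` in the logarithm of `∑^F t_j X^(p^j)`. -/
def SU (m : ℕ) : U := ∑ j ∈ range (m + 1), zseq p j (tV j) m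

/-- The ghost sequence of the isomorphism equation. -/
def wU (m : ℕ) : U :=
  if m = 0 then 0 else (p : U) * SU p m -
    ∑ i ∈ range m, (p : U) ^ (i + 1) * SU p (m - (i + 1)) * bV (i + 1) ^ p ^ (m - (i + 1))

/-- The part `p^(m+1) t_m`. -/
def tsingle (m : ℕ) : U := if m = 0 then 0 else (p : U) ^ (m + 1) * tV m

omit hp in
theorem cong_tsingle (m : ℕ) : Cong p (tsingle p) m := by
  rw [Cong]
  refine dvd_sub ?_ (dvd_sum fun i hi ↦ ?_)
  · rw [tsingle]
    split_ifs
    · simp
    · exact Dvd.dvd.mul_left (Dvd.intro _ rfl) _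
  · rw [tsingle]
    have hi' : i < m := mem_range.mp hi
    split_ifs with h
    · simp
    · rw [map_mul, map_pow, map_natCast]
      refine Dvd.intro (uV (i + 1) * (sig p ^ (i + 1)) (tV (m - (i + 1)))) ?_
      conv_lhs => rw [show m + 1 = (i + 1) + (m - (i + 1) + 1) by omega, pow_add]
      ring

/-- The source monomials. -/
abbrev AV (i j : ℕ) : U := uV (i + 1) * tV j ^ p ^ (i + 1)
/-- The target monomials. -/
abbrev BV (i j : ℕ) : U := tV j * bV (i + 1) ^ p ^ j

omit hp in
theorem wU_eq (M m : ℕ) (h : m ≤ M) : wU p m = tsingle p m +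
    ∑ i ∈ range M, ∑ j ∈ range M,
      (zseq p (i + j + 1) (AV p i j) m - zseq p (i + j + 1) (BV p i j) m) := by
  rcases m with _ | m
  · rw [wU, tsingle, if_pos rfl, if_pos rfl, zero_add, eq_comm]
    refine sum_eq_zero fun i _ ↦ sum_eq_zero fun j _ ↦ ?_
    rw [zseq_of_lt p (by omega), zseq_of_lt p (by omega), sub_zero]
  simp only [sum_sub_distrib]
  rw [wU, if_neg (Nat.succ_ne_zero m), tsingle, if_neg (Nat.succ_ne_zero m), ← add_sub_assoc]
  congr 1
  · rw [SU, sum_range_succ, zseq_self, mul_add, mul_sum, ← mul_assoc, ← pow_succ', add_comm,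
      sum_comm (s := range M)]
    congr 1
    rw [← sum_subset (range_mono h) fun j _ hj ↦ sum_eq_zero fun i _ ↦
      zseq_of_lt p (by simp only [mem_range] at hj; omega) _]
    refine sum_congr rfl fun j hj ↦ ?_
    have hj' : j < m + 1 := mem_range.mp hj
    rw [zseq, if_pos (by omega), ← sum_subset (range_mono (by omega : m - j + 1 ≤ M))
      fun i _ hi ↦ zseq_of_lt p (by simp only [mem_range] at hi; omega) _]
    obtain ⟨l, hl⟩ : ∃ l, m + 1 - j = l + 1 := ⟨m - j, by omega⟩
    rw [hl, Lz_succ, show m - j + 1 = l + 1 by omega, mul_sum, sum_mul, mul_sum]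
    refine sum_congr rfl fun i hi ↦ ?_
    have hi' : i < l + 1 := mem_range.mp hi
    rw [zseq, if_pos (by omega), show m + 1 - (i + j + 1) = l - i by omega, mul_pow, ← pow_mul,
      ← pow_add, show i + 1 + (l - i) = l + 1 by omega]
    ring
  · rw [← sum_subset (range_mono h) fun i _ hi ↦ sum_eq_zero fun j _ ↦
      zseq_of_lt p (by simp only [mem_range] at hi; omega) _]
    refine sum_congr rfl fun i hi ↦ ?_
    have hi' : i < m + 1 := mem_range.mp hi
    rw [SU, mul_sum, sum_mul, ← sum_subset (range_mono (by omega : m + 1 - (i + 1) + 1 ≤ M))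
      fun j _ hj ↦ zseq_of_lt p (by simp only [mem_range] at hj; omega) _]
    refine sum_congr rfl fun j hj ↦ ?_
    have hj' : j < m + 1 - (i + 1) + 1 := mem_range.mp hj
    rw [zseq, zseq, if_pos (by omega), if_pos (by omega),
      show m + 1 - (i + j + 1) = m + 1 - (i + 1) - j by omega, mul_pow, ← pow_mul (bV (i + 1)),
      ← pow_add p, show j + (m + 1 - (i + 1) - j) = m + 1 - (i + 1) by omega]
    ring

theorem cong_wU (m : ℕ) : Cong p (wU p) m := by
  refine cong_congr p (fun l hl ↦ (wU_eq p m l hl).symm) (cong_add p (cong_tsingle p m) ?_)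
  exact cong_sum p _ fun i _ ↦ cong_sum p _ fun j _ ↦
    cong_sub p (cong_zseq p _ _ m) (cong_zseq p _ _ m)

open Classical in
/-- Division, when possible. -/
def divP (a x : U) : U := if h : a ∣ x then h.choose else 0

omit hp in
theorem divP_spec {a x : U} (h : a ∣ x) : x = a * divP a x := by
  rw [divP, dif_pos h]; exact h.choose_spec

/-- The universal integral equations. -/
def eU : ℕ → U
  | m => divP ((p : U) ^ m) (wU p m - ∑ k : Fin m, zseq p k (eU k) m)
  decreasing_by exact k.isLt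

omit hp in
theorem eU_def (m : ℕ) :
    eU p m = divP ((p : U) ^ m) (wU p m - ∑ k ∈ range m, zseq p k (eU p k) m) := by
  rw [eU, Fin.sum_univ_eq_sum_range fun k ↦ zseq p k (eU p k) m]

theorem p_ne_zero_U : (p : U) ≠ 0 := Nat.cast_ne_zero.mpr hp.out.ne_zero

theorem eU_spec (m : ℕ) : wU p m = ∑ k ∈ range (m + 1), zseq p k (eU p k) m := by
  induction m using Nat.strong_induction_on with
  | _ m ih =>
    let v : ℕ → U := fun l ↦ wU p l - ∑ k ∈ range m, zseq p k (eU p k) l
    have hv : ∀ l < m, v l = 0 := by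
      intro l hl
      show wU p l - _ = 0
      rw [ih l hl, sub_eq_zero]
      exact sum_subset (range_mono hl) fun k _ hk ↦
        zseq_of_lt p (by simp only [mem_range] at hk; omega) _
    have hc : Cong p v m :=
      cong_sub p (cong_wU p m) (cong_sum p _ fun k _ ↦ cong_zseq p _ _ m)
    rw [Cong, sum_eq_zero (fun i hi ↦ by
      rw [hv _ (by have := mem_range.mp hi; omega), map_zero, mul_zero]), sub_zero, pow_succ',
      mul_dvd_mul_iff_left (p_ne_zero_U p)] at hc
    rw [sum_range_succ, zseq_self, eU_def, ← divP_spec hc]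
    ring

/-- Killing the variables of large index. -/
def cut (M : ℕ) : U →+* U :=
  MvPolynomial.eval₂Hom (Int.castRingHom U) fun v ↦ if v.idx ≤ M then X v else 0

omit hp in
theorem cut_X {M : ℕ} {v : UV} (h : v.idx ≤ M) : cut M (X v) = X v := by simp [cut, h]

omit hp in
theorem cut_Lz {M : ℕ} (k : ℕ) (hk : k ≤ M) : cut M (Lz p k) = Lz p k := by
  induction k using Nat.strong_induction_on with
  | _ k ih =>
    rcases k with _ | k
    · rw [Lz_zero, map_one]
    · rw [Lz_succ, map_sum]
      refine sum_congr rfl fun i hi ↦ ?_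
      have hi' := mem_range.mp hi
      rw [map_mul, map_mul, map_pow, map_natCast, map_pow, ih _ (by omega) (by omega),
        cut_X (by simp [UV.idx]; omega)]

omit hp in
theorem cut_zseq {M : ℕ} {k m : ℕ} (hm : m ≤ M) {a : U} (ha : cut M a = a) :
    cut M (zseq p k a m) = zseq p k a m := by
  rw [zseq]
  split_ifs
  · rw [map_mul, map_mul, map_pow, map_natCast, map_pow, ha, cut_Lz p _ (by omega)]
  · exact map_zero _

omit hp in
theorem cut_SU {M m : ℕ} (hm : m ≤ M) : cut M (SU p m) = SU p m := by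
  rw [SU, map_sum]
  refine sum_congr rfl fun j hj ↦ cut_zseq p hm (cut_X ?_)
  have := mem_range.mp hj
  simp [UV.idx]; omega

omit hp in
theorem cut_wU {M m : ℕ} (hm : m ≤ M) : cut M (wU p m) = wU p m := by
  rw [wU]
  split_ifs
  · exact map_zero _
  · rw [map_sub, map_mul, map_natCast, cut_SU p hm, map_sum]
    congr 1
    refine sum_congr rfl fun i hi ↦ ?_
    have := mem_range.mp hi
    rw [map_mul, map_mul, map_pow, map_natCast, map_pow, cut_SU p (by omega),
      cut_X (by simp [UV.idx]; omega)]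

theorem cut_eU {M m : ℕ} (hm : m ≤ M) : cut M (eU p m) = eU p m := by
  induction m using Nat.strong_induction_on with
  | _ m ih =>
    have h := congr_arg (cut M) (eU_spec p m)
    rw [cut_wU p hm, map_sum, sum_range_succ, zseq_self, map_mul, map_pow, map_natCast,
      sum_congr rfl fun k hk ↦ cut_zseq p hm (ih k (mem_range.mp hk) (by
        have := mem_range.mp hk; omega)), eU_spec p m, sum_range_succ, zseq_self,
      add_right_inj] at h
    exact (mul_left_cancel₀ (pow_ne_zero _ (p_ne_zero_U p)) h).symm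

section derivation

variable (D : Derivation ℤ U U) (hD : ∀ i, D (uV i) = 0)

omit hp in
theorem D_powp (k : ℕ) : D ((p : U) ^ k) = 0 := by
  rw [← Nat.cast_pow, Derivation.map_natCast]

omit hp in
include hD in
theorem D_Lz (k : ℕ) : D (Lz p k) = 0 := by
  induction k using Nat.strong_induction_on with
  | _ k ih =>
    rcases k with _ | k
    · rw [Lz_zero, Derivation.map_one_eq_zero]
    · rw [Lz_succ, map_sum]
      refine sum_eq_zero fun i hi ↦ ?_
      have := mem_range.mp hi
      simp [Derivation.leibniz, Derivation.leibniz_pow, ih (k - i) (by omega), hD, D_powp p D i]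

omit hp in
include hD in
theorem D_zseq {k m : ℕ} (h : k ≤ m) (a : U) :
    D (zseq p k a m) = (p : U) ^ m * (Lz p (m - k) * a ^ (p ^ (m - k) - 1) * D a) := by
  rw [zseq, if_pos h, Derivation.leibniz, Derivation.leibniz, Derivation.leibniz_pow,
    D_Lz p D hD, D_powp p D k]
  simp only [smul_eq_mul, nsmul_eq_mul, Nat.cast_pow, mul_zero, add_zero]
  conv_rhs => rw [← Nat.add_sub_cancel' h, pow_add, Nat.add_sub_cancel_left]
  ring

include hD in
theorem D_eU (m : ℕ) :
    D (eU p m) + ∑ k ∈ range m, Lz p (m - k) * eU p k ^ (p ^ (m - k) - 1) * D (eU p k) =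
      (if m = 0 then 0 else (p : U) * D (tV m)) + ∑ i ∈ range m, ∑ j ∈ range m,
        if i + j + 1 ≤ m then Lz p (m - (i + j + 1)) *
          (AV p i j ^ (p ^ (m - (i + j + 1)) - 1) * D (AV p i j) -
            BV p i j ^ (p ^ (m - (i + j + 1)) - 1) * D (BV p i j)) else 0 := by
  apply mul_left_cancel₀ (pow_ne_zero m (p_ne_zero_U p))
  have h1 : D (wU p m) = (p : U) ^ m * (D (eU p m) +
      ∑ k ∈ range m, Lz p (m - k) * eU p k ^ (p ^ (m - k) - 1) * D (eU p k)) := by
    rw [eU_spec p m, map_sum, sum_range_succ, mul_add, mul_sum, add_comm,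
      D_zseq p D hD le_rfl, Nat.sub_self, Lz_zero]
    congr 1
    · simp
    · exact sum_congr rfl fun k hk ↦ D_zseq p D hD (le_of_lt (mem_range.mp hk)) _
  rw [← h1, wU_eq p m m le_rfl, map_add, mul_add, map_sum, mul_sum]
  congr 1
  · rw [tsingle]
    split_ifs
    · simp
    · rw [Derivation.leibniz, D_powp p D (m + 1), smul_zero, add_zero, smul_eq_mul, pow_succ]
      ring
  · refine sum_congr rfl fun i _ ↦ ?_
    rw [map_sum, mul_sum]
    refine sum_congr rfl fun j _ ↦ ?_
    rw [map_sub]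
    split_ifs with h
    · rw [D_zseq p D hD h, D_zseq p D hD h]
      ring
    · rw [zseq_of_lt p (by omega), zseq_of_lt p (by omega), map_zero, sub_zero, mul_zero]

end derivation

section jacobian

variable {n : ℕ} {F : Type*} [CommRing F] (χ : U →+* F)

theorem chi_D_eU (hp0 : (p : F) = 0) (D : Derivation ℤ U U) (hD : ∀ i, D (uV i) = 0)
    (he : ∀ k, χ (eU p k) = 0) (m : ℕ) :
    χ (D (eU p m)) = - ∑ i ∈ range m, ∑ j ∈ range m,
      if i + j + 1 ≤ m then χ (Lz p (m - (i + j + 1))) *
        χ (BV p i j) ^ (p ^ (m - (i + j + 1)) - 1) * χ (D (BV p i j)) else 0 := by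
  have h := congr_arg χ (D_eU p D hD m)
  have h0 : ∀ k ∈ range m, χ (Lz p (m - k) * eU p k ^ (p ^ (m - k) - 1) * D (eU p k)) = 0 := by
    intro k hk
    have hk' := mem_range.mp hk
    have : p ^ (m - k) - 1 ≠ 0 := by
      have := Nat.one_lt_pow (by omega : m - k ≠ 0) hp.out.one_lt
      omega
    rw [map_mul, map_mul, map_pow, he, zero_pow this, mul_zero, zero_mul]
  rw [map_add, map_sum, sum_eq_zero h0, add_zero, map_add, map_sum] at h
  rw [h]
  have h1 : χ (if m = 0 then 0 else (p : U) * D (tV m)) = 0 := by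
    split_ifs <;> simp [hp0]
  rw [h1, zero_add, ← sum_neg_distrib]
  refine sum_congr rfl fun i _ ↦ ?_
  rw [map_sum, ← sum_neg_distrib]
  refine sum_congr rfl fun j _ ↦ ?_
  split_ifs
  · have hA : χ (D (AV p i j)) = 0 := by
      rw [Derivation.leibniz, hD, Derivation.leibniz_pow]
      simp [hp0]
    rw [map_mul χ, map_sub χ, map_mul χ (AV p i j ^ _), hA, map_mul χ, mul_zero, zero_sub,
      map_pow χ]
    ring
  · simp

/-- The Jacobian in the direction `b i₀`. -/
theorem chi_pderiv_b (hp0 : (p : F) = 0) (he : ∀ k, χ (eU p k) = 0)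
    (hb : ∀ i, χ (bV (i + 1)) = if i + 1 = n then 1 else 0)
    {i₀ : ℕ} (hi₀ : i₀ + 1 ≠ n) (m : ℕ) :
    χ (pderiv (UV.b (i₀ + 1)) (eU p m)) = if m = i₀ + 1 then - χ (tV 0) else 0 := by
  rw [chi_D_eU p χ hp0 _ (fun i ↦ pderiv_X_of_ne (by simp)) he]
  have hB : ∀ i j, χ (pderiv (UV.b (i₀ + 1)) (BV p i j)) =
      if i = i₀ ∧ j = 0 then χ (tV 0) else 0 := by
    intro i j
    rw [pderiv_mul, pderiv_pow, pderiv_X_of_ne (by simp), zero_mul, zero_add]
    by_cases hi : i = i₀
    · subst hi
      rw [pderiv_X_self, mul_one]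
      rcases j with _ | j
      · simp
      · simp [hp0]
    · rw [pderiv_X_of_ne (by simp; omega)]
      simp [hi]
  simp only [hB]
  split_ifs with hm
  · subst hm
    rw [sum_eq_single i₀, sum_eq_single 0]
    · simp [Lz_zero]
    · intro j _ hj; simp [hj]
    · simp
    · intro i _ hi; exact sum_eq_zero fun j _ ↦ by simp [hi]
    · simp
  · rw [neg_eq_zero]
    refine sum_eq_zero fun i _ ↦ sum_eq_zero fun j _ ↦ ?_
    split_ifs with h h'
    · obtain ⟨rfl, rfl⟩ := h'
      have : p ^ (m - (i + 0 + 1)) - 1 ≠ 0 := by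
        have := Nat.one_lt_pow (by omega : m - (i + 0 + 1) ≠ 0) hp.out.one_lt
        omega
      rw [map_mul, map_pow, hb, if_neg hi₀, pow_zero, pow_one, mul_zero, zero_pow this]
      simp
    · simp
    · rfl

/-- The Jacobian in the direction `t j₀`. -/
theorem chi_pderiv_t (hn : n ≠ 0) (hp0 : (p : F) = 0) (he : ∀ k, χ (eU p k) = 0)
    (hb : ∀ i, χ (bV (i + 1)) = if i + 1 = n then 1 else 0) {j₀ m : ℕ} (hm : m ≤ n + j₀) :
    χ (pderiv (UV.t j₀) (eU p m)) = if m = n + j₀ then -1 else 0 := by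
  rw [chi_D_eU p χ hp0 _ (fun i ↦ pderiv_X_of_ne (by simp)) he]
  have hB : ∀ i j, χ (pderiv (UV.t j₀) (BV p i j)) =
      if i + 1 = n ∧ j = j₀ then 1 else 0 := by
    intro i j
    rw [pderiv_mul, pderiv_pow, pderiv_X_of_ne (show UV.b (i + 1) ≠ UV.t j₀ by simp), mul_zero, mul_zero,
      add_zero]
    by_cases hj : j = j₀
    · subst hj
      rw [pderiv_X_self, one_mul, map_pow, hb]
      by_cases hi : i + 1 = n
      · simp [hi]
      · simp [hi, zero_pow (pow_ne_zero j hp.out.ne_zero)]
    · rw [pderiv_X_of_ne (by simpa using hj)]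
      simp [hj]
  simp only [hB]
  split_ifs with hm'
  · subst hm'
    rw [sum_eq_single (n - 1), sum_eq_single j₀]
    · rw [if_pos (by omega), if_pos (by omega), show n + j₀ - (n - 1 + j₀ + 1) = 0 by omega]
      simp [Lz_zero]
    · intro j _ hj; simp [hj]
    · intro h; simp only [mem_range] at h; omega
    · intro i _ hi
      refine sum_eq_zero fun j _ ↦ ?_
      rw [if_neg (show ¬ (i + 1 = n ∧ j = j₀) by omega)]
      simp
    · intro h; simp only [mem_range] at h; omega
  · rw [neg_eq_zero]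
    refine sum_eq_zero fun i _ ↦ sum_eq_zero fun j _ ↦ ?_
    split_ifs with h h'
    · omega
    · simp
    · rfl

end jacobian

/-- The equations hold modulo `p` at Teichmüller points of the special fibre. -/
theorem dvd_chi_eU {n : ℕ} {R : Type*} [CommRing R] [IsDomain R] (hp0 : (p : R) ≠ 0)
    (χ : U →+* R) (hu : ∀ i, χ (uV (i + 1)) = if i + 1 = n then 1 else 0)
    (hb : ∀ i, χ (bV (i + 1)) = if i + 1 = n then 1 else 0)
    (ht : ∀ j, χ (tV j) ^ p ^ n = χ (tV j)) (m : ℕ) : (p : R) ∣ χ (eU p m) := by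
  induction m using Nat.strong_induction_on with
  | _ m ih =>
    have h := congr_arg χ (eU_spec p m)
    have hAB : ∀ i j l, χ (zseq p (i + j + 1) (AV p i j) l) =
        χ (zseq p (i + j + 1) (BV p i j) l) := by
      intro i j l
      have : χ (AV p i j) = χ (BV p i j) := by
        rw [map_mul, map_mul, map_pow, map_pow, hu, hb]
        by_cases hi : i + 1 = n <;> simp [hi, ht, hp.out.ne_zero]
      rw [zseq, zseq]
      split_ifs
      · rw [map_mul, map_mul, map_pow, map_mul, map_mul, map_pow, map_pow, map_pow, this]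
      · rfl
    rw [wU_eq p m m le_rfl, map_add, map_sum, sum_eq_zero (fun i _ ↦ by
      rw [map_sum]; exact sum_eq_zero fun j _ ↦ by rw [map_sub, hAB, sub_self]), add_zero,
      map_sum, sum_range_succ, zseq_self, map_mul, map_pow, map_natCast] at h
    rw [← mul_dvd_mul_iff_left (pow_ne_zero m hp0), ← pow_succ]
    rw [← sub_eq_iff_eq_add'] at h
    rw [← h]
    refine dvd_sub ?_ (dvd_sum fun k hk ↦ ?_)
    · rw [tsingle]
      split_ifs
      · simp
      · rw [map_mul, map_pow, map_natCast]; exact Dvd.intro _ rfl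
    · have hk' := mem_range.mp hk
      rw [zseq, if_pos hk'.le, map_mul, map_mul, map_pow, map_natCast, map_pow]
      have h1 : m + 1 ≤ k + p ^ (m - k) := by
        have := Nat.lt_pow_self (n := m - k) hp.out.one_lt
        omega
      refine (pow_dvd_pow _ h1).trans ?_
      rw [pow_add]
      exact mul_dvd_mul (Dvd.intro _ rfl) (pow_dvd_pow_of_dvd (ih k hk') _)

end Vale.Agent.P217.LT
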