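import Vale.Agent.P217.FE
import Mathlib.RingTheory.FormalGroup.Basic

/-!
Formal group law attached to a functional equation setting, with integrality statements.
-/

noncomputable section

open MvPowerSeries Finset

namespace Vale.Agent.P217

section general

variable {R : Type*} [CommRing R] {τ υ : Type*}

/-- Substituting into a composite of a one-variable series. -/
theorem mv_subst_ps_subst {a : MvPowerSeries τ R} (ha : constantCoeff a = 0)
    {b : τ → MvPowerSeries υ R} (hb : MvPowerSeries.HasSubst b) (f : PowerSeries R) :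
    MvPowerSeries.subst b (PowerSeries.subst a f) = PowerSeries.subst (MvPowerSeries.subst b a) f :=
  MvPowerSeries.subst_comp_subst_apply (PowerSeries.HasSubst.of_constantCoeff_zero ha).const hb f

theorem ps_subst_subst {c : PowerSeries R} (hc : PowerSeries.constantCoeff c = 0)
    {a : MvPowerSeries τ R} (ha : constantCoeff a = 0) (f : PowerSeries R) :
    PowerSeries.subst a (PowerSeries.subst c f) = PowerSeries.subst (PowerSeries.subst a c) f :=
  PowerSeries.subst_comp_subst_apply (PowerSeries.HasSubst.of_constantCoeff_zero' hc)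
    (PowerSeries.HasSubst.of_constantCoeff_zero ha) f

theorem constantCoeff_ps_subst {a : MvPowerSeries τ R} (ha : constantCoeff a = 0)
    {f : PowerSeries R} (hf : PowerSeries.constantCoeff f = 0) :
    constantCoeff (PowerSeries.subst a f) = 0 :=
  PowerSeries.constantCoeff_subst_eq_zero ha f hf

theorem ps_subst_linear {a : MvPowerSeries τ R} (ha : constantCoeff a = 0) {f : PowerSeries R}
    (hf : PowerSeries.constantCoeff f = 0) {d : τ →₀ ℕ} (hd : d.degree = 1) :
    coeff d (PowerSeries.subst a f) = PowerSeries.coeff 1 f * coeff d a := by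
  rw [PowerSeries.coeff_subst (PowerSeries.HasSubst.of_constantCoeff_zero ha),
    finsum_eq_single _ 1]
  · simp
  · intro m hm
    rcases m with _ | _ | m
    · simp [hf]
    · exact absurd rfl hm
    · rw [smul_eq_mul, coeff_of_lt_order (lt_of_lt_of_le (b := ((m + 2 : ℕ) : ℕ∞))
        (by exact_mod_cast (by omega : d.degree < m + 2))
        (le_order_pow_of_constantCoeff_eq_zero _ ha)), mul_zero]

end general

namespace FESetting

variable {p : ℕ} [hp : Fact p.Prime] {K : Type*} [Field K] (S : FESetting p K) {τ υ : Type*}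

omit hp in
theorem isUnit_coeff_one : IsUnit (PowerSeries.coeff 1 S.L) := by
  rw [S.L_one]; exact isUnit_one

/-- The exponential. -/
def expo : PowerSeries K := PowerSeries.substInvOfIsUnit S.L S.isUnit_coeff_one

omit hp in
theorem expo_zero : PowerSeries.constantCoeff S.expo = 0 :=
  PowerSeries.constantCoeff_substInvOfIsUnit _ _

omit hp in
theorem expo_one : PowerSeries.coeff 1 S.expo = 1 := by
  rw [expo, PowerSeries.coeff_one_substInvOfIsUnit]
  simp [S.L_one]

omit hp in
theorem log_expo {a : MvPowerSeries τ K} (ha : constantCoeff a = 0) :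
    PowerSeries.subst (PowerSeries.subst a S.expo) S.L = a := by
  rw [← ps_subst_subst S.expo_zero ha, expo,
    PowerSeries.subst_substInvOfIsUnit_right S.L S.L_zero S.isUnit_coeff_one,
    PowerSeries.subst_X (PowerSeries.HasSubst.of_constantCoeff_zero ha)]

omit hp in
theorem expo_log {a : MvPowerSeries τ K} (ha : constantCoeff a = 0) :
    PowerSeries.subst (PowerSeries.subst a S.L) S.expo = a := by
  rw [← ps_subst_subst S.L_zero ha, expo,
    PowerSeries.subst_substInvOfIsUnit_left S.L S.L_zero S.isUnit_coeff_one,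
    PowerSeries.subst_X (PowerSeries.HasSubst.of_constantCoeff_zero ha)]

omit hp in
theorem log_injective {a b : MvPowerSeries τ K} (ha : constantCoeff a = 0)
    (hb : constantCoeff b = 0) (h : PowerSeries.subst a S.L = PowerSeries.subst b S.L) : a = b := by
  rw [← S.expo_log ha, ← S.expo_log hb, h]

/-- The series `L⁻¹(∑ c j • L (H j))`. -/
def comb {ι : Type*} (s : Finset ι) (c : ι → ℤ) (H : ι → MvPowerSeries τ K) :
    MvPowerSeries τ K :=
  PowerSeries.subst (∑ j ∈ s, c j • PowerSeries.subst (H j) S.L) S.expo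

omit hp in
theorem constantCoeff_sum_log {ι : Type*} (s : Finset ι) (c : ι → ℤ)
    (H : ι → MvPowerSeries τ K) (hH : ∀ j ∈ s, constantCoeff (H j) = 0) :
    constantCoeff (∑ j ∈ s, c j • PowerSeries.subst (H j) S.L) = 0 := by
  rw [map_sum]
  refine sum_eq_zero fun j hj ↦ ?_
  rw [map_zsmul, constantCoeff_ps_subst (hH j hj) S.L_zero, smul_zero]

omit hp in
theorem constantCoeff_comb {ι : Type*} (s : Finset ι) (c : ι → ℤ)
    (H : ι → MvPowerSeries τ K) (hH : ∀ j ∈ s, constantCoeff (H j) = 0) :
    constantCoeff (S.comb s c H) = 0 :=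
  constantCoeff_ps_subst (S.constantCoeff_sum_log s c H hH) S.expo_zero

omit hp in
theorem log_comb {ι : Type*} (s : Finset ι) (c : ι → ℤ)
    (H : ι → MvPowerSeries τ K) (hH : ∀ j ∈ s, constantCoeff (H j) = 0) :
    PowerSeries.subst (S.comb s c H) S.L = ∑ j ∈ s, c j • PowerSeries.subst (H j) S.L :=
  S.log_expo (S.constantCoeff_sum_log s c H hH)

theorem op_sum {ι : Type*} (N : ℕ) (s : Finset ι) (c : ι → ℤ) (f : ι → MvPowerSeries τ K) :
    S.op N (∑ j ∈ s, c j • f j) = ∑ j ∈ s, c j • S.op N (f j) := by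
  simp only [op, mul_sum, map_sum, smul_sub, sum_sub_distrib, mul_smul_comm, map_zsmul,
    Finset.smul_sum]
  rw [sum_comm]

/-- Integral combinations stay integral. -/
theorem comb_integral (hp0 : (p : K) ≠ 0) {ι : Type*} (s : Finset ι) (c : ι → ℤ)
    (H : ι → MvPowerSeries τ K) (hH : ∀ j ∈ s, constantCoeff (H j) = 0)
    (hint : ∀ j ∈ s, ∀ d, coeff d (H j) ∈ S.A) : ∀ d, coeff d (S.comb s c H) ∈ S.A := by
  classical
  refine S.integral hp0 (S.constantCoeff_comb s c H hH) fun d ↦ ?_
  rw [S.log_comb s c H hH, S.op_sum, map_sum]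
  have h1 : ∀ j ∈ s, ∃ b ∈ S.A,
      coeff d (S.op d.degree (PowerSeries.subst (H j) S.L)) = (p : K) * b := by
    intro j hj
    obtain ⟨b, hb, hbe⟩ := S.key_congr (hH j hj) (N := d.degree) (fun e _ ↦ hint j hj e) le_rfl
    exact ⟨b + coeff d (H j), S.A.add_mem hb (hint j hj d), by rw [mul_add, ← hbe]; ring⟩
  choose b hb hbe using h1
  refine ⟨∑ j ∈ s.attach, c j.1 • b j.1 j.2, S.A.sum_mem fun j _ ↦ zsmul_mem (hb j.1 j.2) _, ?_⟩
  rw [mul_sum, ← sum_attach]
  refine sum_congr rfl fun j _ ↦ ?_
  rw [map_zsmul, hbe j.1 j.2, mul_smul_comm]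

/-- The formal sum of two series. -/
def lawSeries : MvPowerSeries (Fin 2) K :=
  S.comb (univ : Finset (Fin 2)) (fun _ ↦ 1) fun i ↦ X i

omit hp in
theorem lawSeries_zero : constantCoeff S.lawSeries = 0 :=
  S.constantCoeff_comb _ _ _ fun i _ ↦ constantCoeff_X i

omit hp in
theorem log_lawSeries_subst {b : Fin 2 → MvPowerSeries υ K}
    (hb : ∀ i, constantCoeff (b i) = 0) :
    PowerSeries.subst (MvPowerSeries.subst b S.lawSeries) S.L =
      PowerSeries.subst (b 0) S.L + PowerSeries.subst (b 1) S.L := by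
  have hs := MvPowerSeries.hasSubst_of_constantCoeff_zero hb
  rw [← mv_subst_ps_subst S.lawSeries_zero hs, lawSeries,
    S.log_comb _ _ _ fun i _ ↦ constantCoeff_X i, Fin.sum_univ_two, one_smul, one_smul,
    ← MvPowerSeries.coe_substAlgHom hs, map_add, MvPowerSeries.coe_substAlgHom hs,
    mv_subst_ps_subst (constantCoeff_X 0) hs, mv_subst_ps_subst (constantCoeff_X 1) hs,
    MvPowerSeries.subst_X hs, MvPowerSeries.subst_X hs]

/-- The formal group law over `K`. -/
def lawK : FormalGroup K where
  toPowerSeries := S.lawSeries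
  zero_constantCoeff := S.lawSeries_zero
  lin_coeff_X := by
    rw [lawSeries, comb, ps_subst_linear (S.constantCoeff_sum_log _ _ _ fun i _ ↦ constantCoeff_X i)
      S.expo_zero (by simp), S.expo_one, Fin.sum_univ_two, one_smul, one_smul, map_add,
      ps_subst_linear (constantCoeff_X 0) S.L_zero (by simp),
      ps_subst_linear (constantCoeff_X 1) S.L_zero (by simp), S.L_one]
    simp [coeff_index_single_X]
  lin_coeff_Y := by
    rw [lawSeries, comb, ps_subst_linear (S.constantCoeff_sum_log _ _ _ fun i _ ↦ constantCoeff_X i)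
      S.expo_zero (by simp), S.expo_one, Fin.sum_univ_two, one_smul, one_smul, map_add,
      ps_subst_linear (constantCoeff_X 0) S.L_zero (by simp),
      ps_subst_linear (constantCoeff_X 1) S.L_zero (by simp), S.L_one]
    simp [coeff_index_single_X]
  assoc := by
    have hY : ∀ i : Fin 3, constantCoeff (X i : MvPowerSeries (Fin 3) K) = 0 := constantCoeff_X
    have h2 : ∀ a b : MvPowerSeries (Fin 3) K, constantCoeff a = 0 → constantCoeff b = 0 →
        ∀ i, constantCoeff (![a, b] i) = 0 := by
      intro a b ha hb i; fin_cases i <;> assumption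
    have h3 : ∀ a b : MvPowerSeries (Fin 3) K, constantCoeff a = 0 → constantCoeff b = 0 →
        constantCoeff (MvPowerSeries.subst ![a, b] S.lawSeries) = 0 := fun a b ha hb ↦
      MvPowerSeries.constantCoeff_subst_eq_zero
        (MvPowerSeries.hasSubst_of_constantCoeff_zero (h2 a b ha hb)) (h2 a b ha hb)
        S.lawSeries_zero
    refine S.log_injective (h3 _ _ (h3 _ _ (hY 0) (hY 1)) (hY 2))
      (h3 _ _ (hY 0) (h3 _ _ (hY 1) (hY 2))) ?_
    rw [S.log_lawSeries_subst (h2 _ _ (h3 _ _ (hY 0) (hY 1)) (hY 2)),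
      S.log_lawSeries_subst (h2 _ _ (hY 0) (h3 _ _ (hY 1) (hY 2)))]
    simp only [Matrix.cons_val_zero, Matrix.cons_val_one, Matrix.cons_val_fin_one]
    rw [S.log_lawSeries_subst (h2 _ _ (hY 0) (hY 1)),
      S.log_lawSeries_subst (h2 _ _ (hY 1) (hY 2))]
    simp only [Matrix.cons_val_zero, Matrix.cons_val_one, Matrix.cons_val_fin_one]
    ring

end FESetting

end Vale.Agent.P217
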