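import Mathlib.RingTheory.MvPowerSeries.Derivative
import Mathlib.RingTheory.MvPowerSeries.Expand
import Mathlib.FieldTheory.Perfect
import Mathlib.FieldTheory.Finite.Basic

/-!
A radical ideal of power series over a perfect field of characteristic `p` that is closed under
the partial derivatives whenever it has no linear terms must contain a series with a linear term.
-/

noncomputable section

open MvPowerSeries

namespace Vale.Agent.P217

variable {p : ℕ} [Fact p.Prime] {K : Type*} [Field K] [CharP K p] [PerfectRing K p] {d : ℕ}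

/-- Removing the monomials whose exponent in a variable of `S` is prime to `p`. -/
theorem exists_pPart (q : Ideal (MvPowerSeries (Fin d) K))
    (hD : ∀ f ∈ q, ∀ j, pderiv K j f ∈ q) (f : MvPowerSeries (Fin d) K) (hf : f ∈ q)
    (S : Finset (Fin d)) :
    ∃ g ∈ q, ∀ e, coeff e g = if ∀ j ∈ S, p ∣ e j then coeff e f else 0 := by
  classical
  induction S using Finset.induction with
  | empty => exact ⟨f, hf, fun e ↦ by simp⟩
  | @insert j S hj ih =>
    obtain ⟨g, hg, hgc⟩ := ih
    have hθ : ∀ k : ℕ, ∃ g' ∈ q, ∀ e, coeff e g' = (e j : K) ^ k * coeff e g := by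
      intro k
      induction k with
      | zero => exact ⟨g, hg, fun e ↦ by simp⟩
      | succ k ihk =>
        obtain ⟨g', hg', hgc'⟩ := ihk
        refine ⟨X j * pderiv K j g', q.mul_mem_left _ (hD g' hg' j), fun e ↦ ?_⟩
        rw [X_def, coeff_monomial_mul]
        by_cases he : Finsupp.single j 1 ≤ e
        · rw [if_pos he, one_mul, coeff_pderiv, tsub_add_cancel_of_le he, hgc']
          have h1 : 1 ≤ e j := by simpa using Finsupp.single_le_iff.mp he
          have : ((e - Finsupp.single j 1 : Fin d →₀ ℕ) j : K) + 1 = (e j : K) := by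
            rw [Finsupp.tsub_apply, Finsupp.single_eq_same, Nat.cast_sub h1, Nat.cast_one,
              sub_add_cancel]
          rw [this, pow_succ]
          ring
        · rw [if_neg he]
          have : e j = 0 := by
            by_contra h0
            exact he (Finsupp.single_le_iff.mpr (Nat.one_le_iff_ne_zero.mpr h0))
          rw [this, Nat.cast_zero, zero_pow k.succ_ne_zero, zero_mul]
    obtain ⟨g', hg', hgc'⟩ := hθ (p - 1)
    refine ⟨g - g', q.sub_mem hg hg', fun e ↦ ?_⟩
    rw [map_sub, hgc' e]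
    have hp2 : p - 1 ≠ 0 := by
      have := (Fact.out : p.Prime).two_le; omega
    by_cases hdvd : p ∣ e j
    · rw [(CharP.cast_eq_zero_iff K p _).mpr hdvd, zero_pow hp2, zero_mul, sub_zero, hgc e]
      exact if_congr (by simp [hdvd]) rfl rfl
    · have h1 : ((e j : ZMod p)) ^ (p - 1) = 1 :=
        ZMod.pow_card_sub_one_eq_one (fun h ↦ hdvd ((ZMod.natCast_eq_zero_iff _ _).mp h))
      have h2 : ((e j : K)) ^ (p - 1) = 1 := by
        have := congrArg (ZMod.castHom (dvd_refl p) K) h1
        simpa [map_pow, map_natCast] using this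
      rw [h2, one_mul, sub_self, if_neg fun h ↦ hdvd (h j (Finset.mem_insert_self j S))]

/-- A nonzero radical ideal without constant terms, closed under the derivatives as soon as it
has no linear terms, has a linear term. -/
theorem exists_linear_term (q : Ideal (MvPowerSeries (Fin d) K))
    (hrad : ∀ f, f ^ p ∈ q → f ∈ q) (h0 : ∀ f ∈ q, constantCoeff f = 0) (hne : ∃ f ∈ q, f ≠ 0)
    (hclosed : (∀ f ∈ q, ∀ j, coeff (Finsupp.single j 1) f = 0) → ∀ f ∈ q, ∀ j, pderiv K j f ∈ q) :
    ∃ f ∈ q, ∃ j, coeff (Finsupp.single j 1) f ≠ 0 := by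
  classical
  by_contra! hlin
  have hD := hclosed hlin
  have hex : ∃ o, ∃ f ∈ q, ∃ e : Fin d →₀ ℕ, e.degree = o ∧ coeff e f ≠ 0 := by
    obtain ⟨f, hf, hf0⟩ := hne
    obtain ⟨e, he⟩ : ∃ e, coeff e f ≠ 0 := by
      by_contra! h
      exact hf0 (MvPowerSeries.ext h)
    exact ⟨_, f, hf, e, rfl, he⟩
  obtain ⟨f, hf, e, heo, hef⟩ := Nat.find_spec hex
  have hmin : ∀ g ∈ q, ∀ e' : Fin d →₀ ℕ, coeff e' g ≠ 0 → e.degree ≤ e'.degree := by
    intro g hg e' hg'
    by_contra h
    exact Nat.find_min hex (show e'.degree < Nat.find hex by omega) ⟨g, hg, e', rfl, hg'⟩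
  have he0 : e ≠ 0 := fun h ↦ hef (by
    rw [h, coeff_zero_eq_constantCoeff_apply, h0 f hf])
  have hdvd : ∀ j, p ∣ e j := by
    intro j
    by_contra hj
    have hle : Finsupp.single j 1 ≤ e :=
      Finsupp.single_le_iff.mpr (Nat.one_le_iff_ne_zero.mpr fun h ↦ hj (by simp [h]))
    have hsub := tsub_add_cancel_of_le hle
    have : coeff (e - Finsupp.single j 1) (pderiv K j f) ≠ 0 := by
      rw [coeff_pderiv, hsub]
      refine mul_ne_zero hef ?_
      have h1 : 1 ≤ e j := by simpa using Finsupp.single_le_iff.mp hle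
      rw [Finsupp.tsub_apply, Finsupp.single_eq_same, Nat.cast_sub h1, Nat.cast_one,
        sub_add_cancel]
      exact fun h ↦ hj ((CharP.cast_eq_zero_iff K p _).mp h)
    have h2 := hmin _ (hD f hf j) _ this
    have h3 : (e - Finsupp.single j 1).degree + 1 = e.degree := by
      conv_rhs => rw [← hsub, map_add, Finsupp.degree_single]
    omega
  obtain ⟨g, hg, hgc⟩ := exists_pPart (p := p) q hD f hf Finset.univ
  have hp0 : p ≠ 0 := (Fact.out : p.Prime).ne_zero
  have : ExpChar K p := ExpChar.prime Fact.out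
  let r : MvPowerSeries (Fin d) K := fun m ↦ (frobeniusEquiv K p).symm (coeff (p • m) g)
  have hr : r ^ p = g := by
    rw [← map_frobenius_expand (R := K) p hp0 (f := r)]
    ext m
    rw [coeff_map]
    by_cases hm : ∀ j, p ∣ m j
    · obtain ⟨l, rfl⟩ : ∃ l, p • l = m := ⟨m.mapRange (fun a ↦ a / p) (by simp),
        by ext i; simp [Nat.mul_div_cancel' (hm i)]⟩
      rw [coeff_expand_smul]
      exact frobenius_apply_frobeniusEquiv_symm K p _
    · obtain ⟨i, hi⟩ := not_forall.mp hm
      rw [coeff_expand_of_not_dvd p hp0 _ hi, map_zero, hgc, if_neg fun h ↦ hm fun j ↦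
        h j (Finset.mem_univ j)]
  have hrq : r ∈ q := hrad r (hr ▸ hg)
  obtain ⟨l, hl⟩ : ∃ l, p • l = e := ⟨e.mapRange (fun a ↦ a / p) (by simp),
    by ext i; simp [Nat.mul_div_cancel' (hdvd i)]⟩
  have hrl : coeff l r ≠ 0 := by
    show (frobeniusEquiv K p).symm (coeff (p • l) g) ≠ 0
    rw [hl, hgc, if_pos fun j _ ↦ hdvd j]
    exact fun h ↦ hef ((map_eq_zero_iff _ (frobeniusEquiv K p).symm.injective).mp h)
  have h2 := hmin r hrq l hrl
  have h3 : e.degree = p * l.degree := by rw [← hl, map_nsmul, smul_eq_mul]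
  have h4 : 0 < e.degree := Nat.pos_of_ne_zero fun h ↦ he0 ((Finsupp.degree_eq_zero_iff e).mp h)
  have h5 := (Fact.out : p.Prime).two_le
  have h6 : 2 * l.degree ≤ p * l.degree := Nat.mul_le_mul_right _ h5
  omega

end Vale.Agent.P217
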