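import Vale.Agent.P217.Base
import Mathlib.RingTheory.MvPowerSeries.Expand

/-!
Low degree coefficients of composed series, congruences of values, and maps of points.
-/

noncomputable section

open MvPowerSeries Finset Filter
open scoped MvPowerSeries.WithPiTopology Topology

namespace Vale.Agent.P217

section algebra

variable {R : Type*} [CommRing R] {σ τ : Type*}

theorem le_order_prod_pow {b : σ → MvPowerSeries τ R} {r : ℕ} (hb : ∀ i, (r : ℕ∞) ≤ (b i).order)
    (d : σ →₀ ℕ) : ((d.degree * r : ℕ) : ℕ∞) ≤ (d.prod fun s k ↦ b s ^ k).order := by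
  refine le_trans ?_ (le_order_prod _ _)
  rw [Finsupp.degree_apply, sum_mul]
  push_cast
  refine sum_le_sum fun x _ ↦ le_trans ?_ (le_order_pow _)
  rw [nsmul_eq_mul]
  gcongr
  exact hb x

/-- In degrees below twice the order of the arguments only linear terms matter. -/
theorem coeff_subst_low [Fintype σ] {b : σ → MvPowerSeries τ R}
    (hb : ∀ i, constantCoeff (b i) = 0) {f : MvPowerSeries σ R} (hf : constantCoeff f = 0) {r : ℕ}
    (hr : ∀ i, (r : ℕ∞) ≤ (b i).order) {d : τ →₀ ℕ} (hd : d.degree < 2 * r) :
    coeff d (MvPowerSeries.subst b f) = ∑ i, coeff (Finsupp.single i 1) f * coeff d (b i) := by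
  classical
  rw [coeff_subst (hasSubst_of_constantCoeff_zero hb),
    finsum_eq_sum_of_support_subset _ (s := univ.image fun i : σ ↦ Finsupp.single i 1), sum_image]
  · simp [smul_eq_mul]
  · intro i _ j _ h
    exact (Finsupp.single_left_inj one_ne_zero).mp h
  · intro e he
    simp only [Function.mem_support, smul_eq_mul] at he
    have he2 : e.degree ≤ 1 := by
      by_contra hcon
      refine he (mul_eq_zero_of_right _ (coeff_of_lt_order
        (lt_of_lt_of_le ?_ (le_order_prod_pow hr e))))
      have h2 : 2 * r ≤ e.degree * r := Nat.mul_le_mul_right _ (by omega)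
      exact_mod_cast lt_of_lt_of_le hd h2
    rcases Nat.eq_zero_or_pos e.degree with h0 | h1
    · rw [Finsupp.degree_eq_zero_iff] at h0
      subst h0
      simp [hf] at he
    · simp only [coe_image, coe_univ, Set.image_univ, Set.mem_range]
      obtain ⟨i, hi⟩ := Finsupp.support_nonempty_iff.mpr (fun h : e = 0 ↦ by simp [h] at h1)
      refine ⟨i, ?_⟩
      rw [Finsupp.degree_apply] at h1 he2
      have hei : 1 ≤ e i := Nat.one_le_iff_ne_zero.mpr (Finsupp.mem_support_iff.mp hi)
      ext j
      rcases eq_or_ne i j with rfl | hij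
      · have := single_le_sum (f := fun k ↦ e k) (fun k _ ↦ Nat.zero_le _) hi
        simp only [Finsupp.single_eq_same]
        omega
      · rw [Finsupp.single_eq_of_ne (Ne.symm hij)]
        by_contra hj
        have hj' : j ∈ e.support := Finsupp.mem_support_iff.mpr (Ne.symm hj)
        have hsub : ({i, j} : Finset σ) ⊆ e.support := by
          simp [insert_subset_iff, hi, hj']
        have := sum_le_sum_of_subset (f := fun k ↦ e k) hsub
        rw [sum_pair hij] at this
        have : 1 ≤ e j := Nat.one_le_iff_ne_zero.mpr (Finsupp.mem_support_iff.mp hj')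
        omega

theorem one_le_order {f : MvPowerSeries σ R} (hf : constantCoeff f = 0) :
    ((1 : ℕ) : ℕ∞) ≤ f.order := by
  simpa using one_le_order_iff_constCoeff_eq_zero.mpr hf

theorem constantCoeff_subst_pair {a b : MvPowerSeries τ R} (ha : constantCoeff a = 0)
    (hb : constantCoeff b = 0) {f : MvPowerSeries (Fin 2) R} (hf : constantCoeff f = 0) :
    constantCoeff (MvPowerSeries.subst ![a, b] f) = 0 :=
  constantCoeff_subst_eq_zero
    (hasSubst_of_constantCoeff_zero (Haz.constantCoeff_pair ha hb))
    (Haz.constantCoeff_pair ha hb) hf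

theorem coeff_law_subst_low (F : FormalGroup R) {a b : MvPowerSeries τ R}
    (ha : constantCoeff a = 0) (hb : constantCoeff b = 0) {r : ℕ} (har : (r : ℕ∞) ≤ a.order)
    (hbr : (r : ℕ∞) ≤ b.order) {d : τ →₀ ℕ} (hd : d.degree < 2 * r) :
    coeff d (MvPowerSeries.subst ![a, b] F.toPowerSeries) = coeff d a + coeff d b := by
  rw [coeff_subst_low (Haz.constantCoeff_pair ha hb) F.zero_constantCoeff
    (fun i ↦ by fin_cases i <;> assumption) hd, Fin.sum_univ_two, F.lin_coeff_X, F.lin_coeff_Y]
  simp

end algebra

section congruence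

variable {R : Type*} [CommRing R] [UniformSpace R] [CLRing R] {σ : Type*} [Finite σ]

/-- Values of a series at congruent points are congruent. -/
theorem ev_sub_mem {I : Ideal R} (hI : IsClosed (I : Set R)) {a a' : σ → R} (ha : IsSmall a)
    (ha' : IsSmall a') (h : ∀ i, a i - a' i ∈ I) (f : MvPowerSeries σ R) :
    ev f a - ev f a' ∈ I := by
  refine hI.mem_of_tendsto ((hasSum_ev ha f).sub (hasSum_ev ha' f))
    (Eventually.of_forall fun s ↦ I.sum_mem fun d _ ↦ ?_)
  rw [← mul_sub]
  refine I.mul_mem_left _ ?_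
  rw [← Ideal.Quotient.eq]
  simp only [Finsupp.prod, map_prod, map_pow]
  refine prod_congr rfl fun i _ ↦ ?_
  rw [Ideal.Quotient.eq.mpr (h i)]

end congruence

section points

variable {p : ℕ} [Fact p.Prime] {n m : ℕ} {R : Type*} [CommRing R] [UniformSpace R] [CLRing R]

/-- A homomorphism of formal group laws acts on points. -/
def ptHom (φ : Haz.A n →+* R) (φ' : Haz.A m →+* R) (H : PowerSeries R)
    (hH : IsFGHom ((Haz.law p n).map φ) ((Haz.law p m).map φ') H) :
    Haz.Pt p φ →+ Haz.Pt p φ' where
  toFun x := ⟨ev H fun _ ↦ x.val, ev_small (fun _ ↦ x.small) (by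
    have : MvPowerSeries.constantCoeff H = 0 := hH.1
    rw [this]; exact IsTopologicallyNilpotent.zero)⟩
  map_zero' := Haz.Pt.ext (by
    have h0 : constantCoeff H = 0 := hH.1
    have hx : IsSmall (fun _ : Unit ↦ (0 : R)) := fun _ ↦ IsTopologicallyNilpotent.zero
    show ev H (fun _ : Unit ↦ (0 : R)) = 0
    refine (hasSum_ev hx H).unique ?_
    convert hasSum_zero with d
    by_cases hd : d = 0
    · subst hd; simp [h0]
    · obtain ⟨i, hi⟩ := Finsupp.support_nonempty_iff.mpr hd
      have hz : (d.prod fun _ e ↦ (0 : R) ^ e) = 0 :=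
        prod_eq_zero hi (zero_pow (Finsupp.mem_support_iff.mp hi))
      rw [hz, mul_zero])
  map_add' x y := Haz.Pt.ext (by
    have h0 : constantCoeff H = 0 := hH.1
    have hsm : IsSmall ![x.val, y.val] := Haz.isSmall_pair x.small y.small
    have key : ∀ i : Fin 2, ev (PowerSeries.subst (X i : MvPowerSeries (Fin 2) R) H)
        ![x.val, y.val] = ev H (fun _ : Unit ↦ (![x.val, y.val]) i) := by
      intro i
      rw [PowerSeries.subst, ev_subst (fun _ ↦ constantCoeff_X i) hsm]
      simp
    have hc : ∀ i, constantCoeff ((![PowerSeries.subst (X (0 : Fin 2) : MvPowerSeries (Fin 2) R) H,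
        PowerSeries.subst (X (1 : Fin 2) : MvPowerSeries (Fin 2) R) H]) i) = 0 := by
      intro i; fin_cases i <;> exact constantCoeff_ps_subst (constantCoeff_X _) h0
    have h := congr_arg (fun f ↦ ev f ![x.val, y.val]) hH.2
    rw [PowerSeries.subst, ev_subst (fun _ ↦ ((Haz.law p n).map φ).zero_constantCoeff) hsm,
      ev_subst hc hsm] at h
    show ev H (fun _ ↦ (x + y).val) = Haz.addVal p φ' _ _
    rw [Haz.add_val, Haz.addVal, Haz.addVal]
    refine h.trans (congr_arg _ ?_)
    funext i
    fin_cases i <;> simp [key])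

theorem ptHom_val (φ : Haz.A n →+* R) (φ' : Haz.A m →+* R) (H : PowerSeries R)
    (hH : IsFGHom ((Haz.law p n).map φ) ((Haz.law p m).map φ') H) (x : Haz.Pt p φ) :
    (ptHom φ φ' H hH x).val = ev H fun _ ↦ x.val := rfl

end points

end Vale.Agent.P217
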