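import Vale.Agent.P217.PrimeCharP
import Vale.Agent.P217.CharZero

/-!
The classification of invariant prime and radical ideals of the Lubin-Tate ring.
-/

noncomputable section

open MvPowerSeries

namespace Vale.Agent.P217

variable {p n : ℕ} [hp : Fact p.Prime]

theorem moves_prime (hn : n ≠ 0) (P : Ideal (LTRing p n)) [P.IsPrime] (hP : MovesInto p n P) :
    ∃ h ≤ n, P = heightIdeal p n h := by
  by_cases hpP : (p : LTRing p n) ∈ P
  · exact charP_prime hn P hpP hP
  · refine ⟨0, Nat.zero_le n, ?_⟩
    rw [charZero_eq_bot (Nat.pos_of_ne_zero hn) P hpP hP, heightIdeal]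
    simp

theorem movesInto_of_invariant {P : Ideal (LTRing p n)}
    (hP : ∀ φ ∈ stabilizerImage p n (lawLT p n),
      (∀ w, φ (C w) = C w) → Ideal.map φ.toRingHom P = P) : MovesInto p n P := by
  refine ⟨0, fun M _ δ _ φ hW θ hθ _ f hf ↦ ?_⟩
  have h := Ideal.mem_map_of_mem φ.toRingHom hf
  rwa [hP φ ⟨θ, hθ⟩ hW] at h

theorem isFGIso_id {R : Type} [CommRing R] (F : FormalGroup R) :
    IsFGIso F F (PowerSeries.X : PowerSeries R) := by
  refine ⟨PowerSeries.constantCoeff_X, by rw [PowerSeries.coeff_one_X]; exact isUnit_one, ?_⟩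
  rw [PowerSeries.subst_X (PowerSeries.HasSubst.of_constantCoeff_zero F.zero_constantCoeff)]
  conv_lhs => rw [← id_eq F.toPowerSeries, ← MvPowerSeries.subst_self]
  congr 1
  funext i
  fin_cases i <;>
    simp [PowerSeries.subst_X (PowerSeries.HasSubst.of_constantCoeff_zero (constantCoeff_X _))]

/-- Semilinear automorphisms coming from the constants lie in the image of the stabilizer. -/
theorem galois_mem_stabilizerImage
    (τ : WittVector p (GaloisField p n) ≃+* WittVector p (GaloisField p n)) :
    ∃ φ ∈ stabilizerImage p n (lawLT p n), ∀ w, φ (C w) = C (τ w) := by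
  let φ : LTRing p n ≃+* LTRing p n :=
    RingEquiv.ofRingHom (MvPowerSeries.map τ.toRingHom) (MvPowerSeries.map τ.symm.toRingHom)
      (RingHom.ext fun f ↦ MvPowerSeries.ext fun e ↦ by simp)
      (RingHom.ext fun f ↦ MvPowerSeries.ext fun e ↦ by simp)
  have hfix : φ.toRingHom.comp (toLT p n) = toLT p n := by
    apply MvPolynomial.ringHom_ext
    · intro r; simp [toLT]
    · intro i
      simp [toLT, φ]
  have hF : (lawLT p n).map φ.toRingHom = lawLT p n := by
    refine FormalGroup.ext ?_
    rw [FormalGroup.map_toPowerSeries, lawLT, FormalGroup.map_toPowerSeries,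
      MvPowerSeries.map_map, hfix]
  refine ⟨φ, ⟨PowerSeries.X, ?_⟩, fun w ↦ by simp [φ]⟩
  rw [hF]
  exact isFGIso_id _

theorem lawLT_res (p n : ℕ) [Fact p.Prime] :
    (lawLT p n).map (resLT p n) = honda p n (GaloisField p n) := by
  refine FormalGroup.ext ?_
  rw [FormalGroup.map_toPowerSeries, lawLT, honda, FormalGroup.map_toPowerSeries,
    FormalGroup.map_toPowerSeries, MvPowerSeries.map_map]
  congr 2
  apply MvPolynomial.ringHom_ext <;> intro <;> simp [resLT, toLT, zeroSpec]

/-- The prime ideals invariant under the stabilizer group are the height ideals and the invariant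
radical ideals are these and the whole ring; lifts of automorphisms of the special fibre exist and
are unique, and semilinear automorphisms of the constants lie in the stabilizer image. -/
theorem classification (hn : 1 ≤ n) :
    (∃ F, IsUniversalDeformation p n F) ∧ ∀ F, IsUniversalDeformation p n F →
      (∀ h ≤ n, (heightIdeal p n h).IsPrime ∧ IsInvariantIdeal p n F (heightIdeal p n h)) ∧
      (∀ P : Ideal (LTRing p n), P.IsPrime →
        (∀ φ ∈ stabilizerImage p n F, (∀ w, φ (C w) = C w) → Ideal.map φ.toRingHom P = P) →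
        ∃ h ≤ n, P = heightIdeal p n h) ∧
      (∀ J : Ideal (LTRing p n), J.IsRadical →
        (∀ φ ∈ stabilizerImage p n F, (∀ w, φ (C w) = C w) → Ideal.map φ.toRingHom J = J) →
        J = ⊤ ∨ ∃ h ≤ n, J = heightIdeal p n h) ∧
      (∀ g : PowerSeries (GaloisField p n),
        IsFGIso (F.map (resLT p n)) (F.map (resLT p n)) g →
        ∃ φ : LTRing p n ≃+* LTRing p n, (∀ w, φ (C w) = C w) ∧
          ∃ θ : PowerSeries (LTRing p n), IsFGIso F (F.map φ.toRingHom) θ ∧
            θ.map (resLT p n) = g) ∧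
      (∀ (φ φ' : LTRing p n ≃+* LTRing p n) (θ θ' : PowerSeries (LTRing p n)),
        (∀ w, φ (C w) = C w) → (∀ w, φ' (C w) = C w) → IsFGIso F (F.map φ.toRingHom) θ →
        IsFGIso F (F.map φ'.toRingHom) θ' → θ.map (resLT p n) = θ'.map (resLT p n) → φ = φ') ∧
      (∀ τ : WittVector p (GaloisField p n) ≃+* WittVector p (GaloisField p n),
        ∃ φ ∈ stabilizerImage p n F, ∀ w, φ (C w) = C (τ w)) := by
  have hn0 : n ≠ 0 := by omega
  refine ⟨⟨_, isUniversal_lawLT p n⟩, fun F hF ↦ ?_⟩
  obtain rfl := eq_lawLT p n hF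
  refine ⟨fun h hh ↦ ⟨heightIdeal_isPrime p n hh, heightIdeal_invariant p n hh⟩,
    fun P hP hinv ↦ moves_prime hn0 P (movesInto_of_invariant hinv),
    fun J hrad hinv ↦ radical_invariant hn0 (fun r ↦ lift_continuity hn0 r)
      (fun P hP hmv ↦ moves_prime hn0 P hmv) hrad hinv,
    fun g hg ↦ lift_exists hn0 g (by rwa [lawLT_res] at hg),
    fun φ φ' θ θ' hW hW' h h' hres ↦
      (lift_unique hn0 (fun w ↦ (hW w).trans (hW' w).symm) h h' hres).1,
    galois_mem_stabilizerImage⟩

end Vale.Agent.P217
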