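import Vale.Agent.P217.FieldBasic
import Mathlib.RingTheory.MvPowerSeries.Trunc
import Mathlib.Algebra.CharP.Lemmas
import Mathlib.Algebra.BigOperators.Field

/-!
The periodicity lemma: a series that is small along Frobenius iterates of a point stays small
after applying a functional with algebraic values to its coefficients.
-/

noncomputable section

open Filter
open scoped Topology

namespace Vale.Agent.P217

variable {p : ℕ} [Fact p.Prime] {Ω : Type*} [NontriviallyNormedField Ω] [IsUltrametricDist Ω]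
  [GoodField p Ω]

omit [Fact p.Prime] [IsUltrametricDist Ω] [GoodField p Ω] in
theorem pow_pow_eq_self {κ : Ω} {m : ℕ} (h : κ ^ p ^ m = κ) : ∀ k, κ ^ p ^ (m * k) = κ := by
  intro k
  induction k with
  | zero => simp
  | succ k ih => rw [Nat.mul_succ, pow_add, pow_mul, ih, h]

omit [IsUltrametricDist Ω] [GoodField p Ω] in
/-- An element fixed by a power of Frobenius has norm at most one. -/
theorem norm_le_one_of_pow_eq_self {κ : Ω} {m : ℕ} (hm : 0 < m) (h : κ ^ p ^ m = κ) :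
    ‖κ‖ ≤ 1 := by
  rcases eq_or_ne κ 0 with rfl | hκ
  · simp
  · have hq : 1 < p ^ m := Nat.one_lt_pow hm.ne' (Fact.out : p.Prime).one_lt
    have h1 : κ ^ (p ^ m - 1) = 1 := by
      apply mul_right_cancel₀ hκ
      rw [← pow_succ, Nat.sub_add_cancel hq.le, h, one_mul]
    have h2 : ‖κ‖ ^ (p ^ m - 1) = 1 := by rw [← norm_pow, h1, norm_one]
    exact ((pow_eq_one_iff_of_nonneg (norm_nonneg _) (by omega)).mp h2).le

/-- Finite form of the periodicity lemma. -/
theorem periodicity_finite {ι : Type*} [DecidableEq ι] (c : ι → Ω) (lam : Ω →+ Ω)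
    (hlamalg : ∀ z, ∃ m : ℕ, 0 < m ∧ lam z ^ p ^ m = lam z)
    (hlamlin : ∀ κ z : Ω, (∃ m : ℕ, 0 < m ∧ κ ^ p ^ m = κ) → lam (κ * z) = κ * lam z)
    {t : ℝ} (ht : 0 ≤ t) (E : Finset ι) :
    ∀ z : ι → Ω, (∃ C : ℝ, ∃ N : ℕ, 0 < N ∧ ∀ᶠ M in atTop,
      ‖∑ e ∈ E, c e * z e ^ p ^ (N * M)‖ ≤ C * t ^ p ^ (N * M)) →
      ‖∑ e ∈ E, lam (c e) * z e‖ ≤ t := by
  have : CharP Ω p := GoodField.charP
  have : ExpChar Ω p := ExpChar.prime Fact.out
  induction E using Finset.strongInduction with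
  | _ E ih =>
    rintro z ⟨C, N, hN, hev⟩
    by_cases hsmall : ∀ e ∈ E, ‖z e‖ ≤ t
    · refine IsUltrametricDist.norm_sum_le_of_forall_le_of_nonneg ht fun e he ↦ ?_
      rw [norm_mul]
      obtain ⟨m, hm, hme⟩ := hlamalg (c e)
      exact (mul_le_of_le_one_left (norm_nonneg _) (norm_le_one_of_pow_eq_self hm hme)).trans
        (hsmall e he)
    · push Not at hsmall
      obtain ⟨e₁, he₁, ht₁⟩ := hsmall
      obtain ⟨e₀, he₀, hmax⟩ := E.exists_max_image (fun e ↦ ‖z e‖) ⟨e₁, he₁⟩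
      have hρ : t < ‖z e₀‖ := ht₁.trans_le (hmax e₁ he₁)
      have hρ0 : 0 < ‖z e₀‖ := ht.trans_lt hρ
      have hz0 : z e₀ ≠ 0 := norm_pos_iff.mp hρ0
      have hres : ∀ e, ∃ κ : Ω, ∃ m : ℕ, 0 < m ∧ κ ^ p ^ m = κ ∧
          (e ∈ E → ‖z e / z e₀ - κ‖ < 1) ∧ (e = e₀ → κ = 1) := by
        intro e
        by_cases he : e = e₀
        · subst he
          exact ⟨1, 1, one_pos, one_pow _, fun _ ↦ by simp [hz0], fun _ ↦ rfl⟩
        · by_cases heE : e ∈ E
          · obtain ⟨κ, m, hm, hκ, hκ'⟩ := GoodField.residue (p := p) (z e / z e₀)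
              (by rw [norm_div, div_le_one hρ0]; exact hmax e heE)
            exact ⟨κ, m, hm, hκ, fun _ ↦ hκ', fun h ↦ absurd h he⟩
          · exact ⟨1, 1, one_pos, one_pow _, fun h ↦ absurd h heE, fun h ↦ absurd h he⟩
      choose κ m hm hκ hκs hκ1 using hres
      set L := N * ∏ e ∈ E, m e
      have hL : 0 < L := Nat.mul_pos hN (Finset.prod_pos fun e _ ↦ hm e)
      have hκL : ∀ e ∈ E, ∀ M, κ e ^ p ^ (L * M) = κ e := by
        intro e he M
        obtain ⟨k, hk⟩ : m e ∣ L * M :=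
          Dvd.dvd.mul_right (Dvd.dvd.mul_left (Finset.dvd_prod_of_mem m he) N) M
        rw [hk]
        exact pow_pow_eq_self (hκ e) k
      have hevL : ∀ᶠ M in atTop,
          ‖∑ e ∈ E, c e * z e ^ p ^ (L * M)‖ ≤ C * t ^ p ^ (L * M) := by
        have : Tendsto (fun M ↦ (∏ e ∈ E, m e) * M) atTop atTop :=
          tendsto_id.const_mul_atTop' (Finset.prod_pos fun e _ ↦ hm e)
        simpa [L, mul_assoc] using this.eventually hev
      have hQ : Tendsto (fun M ↦ p ^ (L * M)) atTop atTop :=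
        (tendsto_pow_atTop_atTop_of_one_lt (Fact.out : p.Prime).one_lt).comp
          (tendsto_id.const_mul_atTop' hL)
      -- the residues satisfy the linear relation
      have hrel : ∑ e ∈ E, c e * κ e = 0 := by
        have h1 : Tendsto (fun M ↦ ∑ e ∈ E, c e * (z e / z e₀) ^ p ^ (L * M)) atTop
            (𝓝 (∑ e ∈ E, c e * κ e)) := by
          refine tendsto_finsetSum E fun e he ↦ Tendsto.const_mul _ ?_
          rw [tendsto_iff_norm_sub_tendsto_zero]
          have : ∀ M, ‖(z e / z e₀) ^ p ^ (L * M) - κ e‖ =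
              ‖z e / z e₀ - κ e‖ ^ p ^ (L * M) := fun M ↦ by
            rw [← norm_pow, sub_pow_char_pow, hκL e he M]
          simp only [this]
          exact (tendsto_pow_atTop_nhds_zero_of_lt_one (norm_nonneg _) (hκs e he)).comp hQ
        have h2 : Tendsto (fun M ↦ ∑ e ∈ E, c e * (z e / z e₀) ^ p ^ (L * M)) atTop (𝓝 0) := by
          have hlim : Tendsto (fun M ↦ C * (t / ‖z e₀‖) ^ p ^ (L * M)) atTop (𝓝 0) := by
            simpa using ((tendsto_pow_atTop_nhds_zero_of_lt_one (by positivity)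
              ((div_lt_one hρ0).mpr hρ)).comp hQ).const_mul C
          refine squeeze_zero_norm' ?_ hlim
          filter_upwards [hevL] with M hM
          have : ∑ e ∈ E, c e * (z e / z e₀) ^ p ^ (L * M)
              = (∑ e ∈ E, c e * z e ^ p ^ (L * M)) / z e₀ ^ p ^ (L * M) := by
            rw [Finset.sum_div]
            exact Finset.sum_congr rfl fun e _ ↦ by rw [div_pow, mul_div_assoc]
          rw [this, norm_div, norm_pow, div_pow, ← mul_div_assoc]
          gcongr
        exact tendsto_nhds_unique h1 h2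
      set z' := fun e ↦ z e - κ e * z e₀
      have hz' : z' e₀ = 0 := by simp [z', hκ1 e₀ rfl]
      have key : ∀ (f : ι → Ω) (Q : ℕ), 0 < Q → (∀ e ∈ E, z' e ^ Q = z e ^ Q - κ e * z e₀ ^ Q) →
          (∑ e ∈ E, f e * κ e = 0) →
          ∑ e ∈ E.erase e₀, f e * z' e ^ Q = ∑ e ∈ E, f e * z e ^ Q := by
        intro f Q hQ0 hpow hsum
        rw [Finset.sum_erase _ (by rw [hz', zero_pow hQ0.ne', mul_zero])]
        calc ∑ e ∈ E, f e * z' e ^ Q
            = ∑ e ∈ E, f e * z e ^ Q - (∑ e ∈ E, f e * κ e) * z e₀ ^ Q := by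
              rw [Finset.sum_mul, ← Finset.sum_sub_distrib]
              exact Finset.sum_congr rfl fun e he ↦ by rw [hpow e he]; ring
          _ = _ := by rw [hsum]; ring
      have hIH := ih (E.erase e₀) (Finset.erase_ssubset he₀) z' ⟨C, L, hL, by
        filter_upwards [hevL] with M hM
        rw [key c (p ^ (L * M)) (pow_pos (Fact.out : p.Prime).pos _) (fun e he ↦ by
          rw [sub_pow_char_pow, mul_pow, hκL e he M]) hrel]
        exact hM⟩
      have hlam : ∑ e ∈ E, lam (c e) * κ e = 0 := by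
        have : ∑ e ∈ E, lam (c e) * κ e = lam (∑ e ∈ E, c e * κ e) := by
          rw [map_sum]
          refine Finset.sum_congr rfl fun e _ ↦ ?_
          rw [mul_comm (c e), hlamlin (κ e) (c e) ⟨m e, hm e, hκ e⟩, mul_comm]
        rw [this, hrel, map_zero]
      have := key (fun e ↦ lam (c e)) 1 one_pos (fun e _ ↦ by simp [z']) hlam
      simp only [pow_one] at this
      rwa [← this]

theorem periodicity {h d : ℕ} (hh : 0 < h)
    (Hs : MvPowerSeries (Fin d) Ω) (x : Fin d → Ω) (_hx : ∀ j, ‖x j‖ < 1)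
    (hb : ∀ D : ℕ, ∃ C : ℝ, ∀ᶠ M in atTop,
      ‖MvPolynomial.eval (fun j ↦ x j ^ p ^ (h * M))
        (MvPowerSeries.truncTotal (R := Ω) D Hs)‖ ≤ C * ((‖fun j ↦ x j‖) ^ p ^ (h * M)) ^ D)
    (lam : Ω →+ Ω) (hlamalg : ∀ z, ∃ m : ℕ, 0 < m ∧ lam z ^ p ^ m = lam z)
    (hlamlin : ∀ c z : Ω, (∃ m : ℕ, 0 < m ∧ c ^ p ^ m = c) → lam (c * z) = c * lam z) :
    ∀ D : ℕ, ‖MvPolynomial.eval x (MvPowerSeries.truncTotal D
      (fun e ↦ lam (MvPowerSeries.coeff e Hs) : MvPowerSeries (Fin d) Ω))‖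
        ≤ ‖fun j ↦ x j‖ ^ D := by
  classical
  intro D
  obtain ⟨C, hC⟩ := hb D
  set T := MvPowerSeries.truncTotal (R := Ω) D Hs with hT
  set E := T.support
  set T' := MvPowerSeries.truncTotal D
    (fun e ↦ lam (MvPowerSeries.coeff e Hs) : MvPowerSeries (Fin d) Ω) with hT'
  have hcoeff : ∀ e, T'.coeff e = lam (T.coeff e) := by
    intro e
    by_cases hd : e.degree < D
    · rw [hT, MvPowerSeries.coeff_truncTotal Hs hd]
      exact MvPowerSeries.coeff_truncTotal _ hd
    · rw [hT, MvPowerSeries.coeff_truncTotal_eq_zero Hs (not_lt.mp hd), map_zero]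
      exact MvPowerSeries.coeff_truncTotal_eq_zero _ (not_lt.mp hd)
  have hsub : T'.support ⊆ E := fun e he ↦ by
    rw [MvPolynomial.mem_support_iff] at he ⊢
    intro h0
    exact he (by rw [hcoeff, h0, map_zero])
  rw [MvPolynomial.eval_eq, Finset.sum_subset hsub fun e _ he ↦ by
    rw [MvPolynomial.notMem_support_iff.mp he, zero_mul]]
  simp only [hcoeff]
  refine periodicity_finite (fun e ↦ T.coeff e) lam hlamalg hlamlin (by positivity) E
    (fun e ↦ ∏ i ∈ e.support, x i ^ e i) ⟨C, h, hh, ?_⟩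
  filter_upwards [hC] with M hM
  rw [pow_right_comm (‖fun j ↦ x j‖)] at hM
  refine le_of_eq_of_le (congrArg _ ?_) hM
  rw [MvPolynomial.eval_eq]
  refine Finset.sum_congr rfl fun e _ ↦ ?_
  rw [← Finset.prod_pow]
  congr 1
  exact Finset.prod_congr rfl fun i _ ↦ by rw [← pow_mul, mul_comm, pow_mul]

end Vale.Agent.P217
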