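import Vale.Agent.P217.Honda
import Vale.Agent.P217.SeriesTools
import Vale.Agent.P217.LinearTerm
import Vale.Agent.P217.Periodicity
import Mathlib.LinearAlgebra.Dual.Lemmas

/-!
The subgroup lemma: a group of points of a power of Honda's formal group, on which a nonzero
series with algebraic coefficients vanishes, satisfies a linear relation with endomorphism
coefficients.
-/

noncomputable section

open Filter
open scoped Topology MvPowerSeries.WithPiTopology

namespace Vale.Agent.P217

variable {p : ℕ} [Fact p.Prime] {Ω : Type} [NontriviallyNormedField Ω] [IsUltrametricDist Ω]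
  [GoodField p Ω]

variable (p Ω) in
/-- The elements fixed by some power of Frobenius. -/
def algField : Subfield Ω where
  carrier := {z | ∃ m : ℕ, 0 < m ∧ z ^ p ^ m = z}
  zero_mem' := ⟨1, one_pos, zero_pow (pow_ne_zero _ (Fact.out : p.Prime).ne_zero)⟩
  one_mem' := ⟨1, one_pos, one_pow _⟩
  add_mem' {a b} := fun ⟨m, hm, ha⟩ ⟨m', hm', hb⟩ ↦ by
    have : CharP Ω p := GoodField.charP
    have : ExpChar Ω p := ExpChar.prime Fact.out
    refine ⟨m * m', Nat.mul_pos hm hm', ?_⟩
    rw [add_pow_char_pow, pow_pow_eq_self ha m', mul_comm, pow_pow_eq_self hb m]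
  mul_mem' {a b} := fun ⟨m, hm, ha⟩ ⟨m', hm', hb⟩ ↦ by
    refine ⟨m * m', Nat.mul_pos hm hm', ?_⟩
    rw [mul_pow, pow_pow_eq_self ha m', mul_comm m m', pow_pow_eq_self hb m]
  neg_mem' {a} := fun ⟨m, hm, ha⟩ ↦ by
    have : CharP Ω p := GoodField.charP
    have : ExpChar Ω p := ExpChar.prime Fact.out
    refine ⟨m, hm, ?_⟩
    rw [← iterateFrobenius_def, map_neg, iterateFrobenius_def, ha]
  inv_mem' a := fun ⟨m, hm, ha⟩ ↦ ⟨m, hm, by rw [inv_pow, ha]⟩

instance algField_charP : CharP (algField p Ω) p :=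
  have : CharP Ω p := GoodField.charP
  (RingHom.charP_iff (algField p Ω).subtype Subtype.val_injective p).mpr inferInstance

instance algField_perfect : PerfectRing (algField p Ω) p :=
  have : ExpChar (algField p Ω) p := ExpChar.prime Fact.out
  PerfectRing.ofSurjective _ p fun z ↦ by
    obtain ⟨m, hm, hz⟩ := z.2
    refine ⟨z ^ p ^ (m - 1), Subtype.ext ?_⟩
    rw [frobenius_def, ← pow_mul, ← pow_succ, show m - 1 + 1 = m by omega, SubmonoidClass.coe_pow]
    exact hz

variable (p Ω) in
/-- The algebraic elements inside the ring of integers. -/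
def algInt : algField p Ω →+* intRing Ω :=
  (algField p Ω).subtype.codRestrict _ fun z ↦ by
    obtain ⟨m, hm, hz⟩ := z.2
    exact mem_intRing.mpr (norm_le_one_of_pow_eq_self hm hz)

theorem algInt_coe (z : algField p Ω) : ((algInt p Ω z : intRing Ω) : Ω) = z := rfl

theorem norm_algInt {z : algField p Ω} (hz : z ≠ 0) : ‖((algInt p Ω z : intRing Ω) : Ω)‖ = 1 := by
  refine le_antisymm (mem_intRing.mp (algInt p Ω z).2) ?_
  have h1 : ‖((z⁻¹ : algField p Ω) : Ω)‖ ≤ 1 := mem_intRing.mp (algInt p Ω z⁻¹).2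
  rw [Subfield.coe_inv, norm_inv, inv_le_one₀ (norm_pos_iff.mpr (by simpa using hz))] at h1
  exact h1

/-- Points of Honda's formal group of height `h`. -/
abbrev HPt (p h : ℕ) [Fact p.Prime] (Ω : Type) [NontriviallyNormedField Ω] [IsUltrametricDist Ω] :
    Type :=
  Haz.Pt p (zeroSpec h (intRing Ω))

variable {h d : ℕ}

theorem small_val (x : Fin d → HPt p h Ω) : IsSmall fun j ↦ (x j).val := fun j ↦ (x j).small

theorem norm_val_lt (x : Fin d → HPt p h Ω) (j : Fin d) : ‖((x j).val : Ω)‖ < 1 :=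
  isTopologicallyNilpotent_intRing.mp (x j).small

/-- Evaluation at a point of a series with algebraic coefficients. -/
def evPt (x : Fin d → HPt p h Ω) : MvPowerSeries (Fin d) (algField p Ω) →+* intRing Ω :=
  (evHom (small_val x)).comp (MvPowerSeries.map (algInt p Ω))

theorem evPt_apply (x : Fin d → HPt p h Ω) (f : MvPowerSeries (Fin d) (algField p Ω)) :
    evPt x f = ev (MvPowerSeries.map (algInt p Ω) f) fun j ↦ (x j).val :=
  evHom_apply (small_val x) _

/-- The ideal of series with algebraic coefficients vanishing on a group of points. -/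
def vanIdeal (𝒳 : AddSubgroup (Fin d → HPt p h Ω)) :
    Ideal (MvPowerSeries (Fin d) (algField p Ω)) :=
  ⨅ x : 𝒳, RingHom.ker (evPt (x : Fin d → HPt p h Ω))

theorem mem_vanIdeal {𝒳 : AddSubgroup (Fin d → HPt p h Ω)}
    {f : MvPowerSeries (Fin d) (algField p Ω)} :
    f ∈ vanIdeal 𝒳 ↔ ∀ x ∈ 𝒳, ev (MvPowerSeries.map (algInt p Ω) f) (fun j ↦ (x j).val) = 0 := by
  simp [vanIdeal, evPt_apply, RingHom.mem_ker]

/-- In characteristic `p`, multiplication by `p ^ M` is a power of Frobenius. -/
theorem pow_smul_val (hh : 0 < h) (x : HPt p h Ω) (M : ℕ) :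
    ((p ^ M) • x).val = x.val ^ p ^ (h * M) := by
  have hR : (p : intRing Ω) = 0 := Subtype.ext (by
    have : CharP Ω p := GoodField.charP
    simpa using CharP.cast_eq_zero Ω p)
  induction M with
  | zero => simp
  | succ M ih =>
    rw [pow_succ', mul_smul, Haz.nsmul_val, honda_p hR hh.ne']
    rw [ev_pow (fun _ ↦ (p ^ M • x).small), ev_X, ih, ← pow_mul, ← pow_add, Nat.mul_succ]

theorem truncTotal_map {R S : Type*} [CommRing R] [CommRing S] (f : R →+* S)
    (F : MvPowerSeries (Fin d) R) (D : ℕ) :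
    MvPowerSeries.truncTotal D (MvPowerSeries.map f F)
      = MvPolynomial.map f (MvPowerSeries.truncTotal D F) := by
  ext e
  by_cases he : e.degree < D
  · rw [MvPolynomial.coeff_map, MvPowerSeries.coeff_truncTotal _ he,
      MvPowerSeries.coeff_truncTotal _ he, MvPowerSeries.coeff_map]
  · rw [MvPolynomial.coeff_map, MvPowerSeries.coeff_truncTotal_eq_zero _ (not_lt.mp he),
      MvPowerSeries.coeff_truncTotal_eq_zero _ (not_lt.mp he), map_zero]

/-- The series obtained by applying a functional to the coefficients. -/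
def lamSeries (lam : Ω →ₗ[algField p Ω] algField p Ω) (g : MvPowerSeries (Fin d) (intRing Ω)) :
    MvPowerSeries (Fin d) (algField p Ω) :=
  fun e ↦ lam ((MvPowerSeries.coeff e g : intRing Ω) : Ω)

/-- Applying a functional to the coefficients of a series vanishing on a group of points gives
a series vanishing on the group. -/
theorem lam_mem (hh : 0 < h) (𝒳 : AddSubgroup (Fin d → HPt p h Ω))
    (g : MvPowerSeries (Fin d) (intRing Ω)) (hg : ∀ x ∈ 𝒳, ev g (fun j ↦ (x j).val) = 0)
    (lam : Ω →ₗ[algField p Ω] algField p Ω) :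
    lamSeries lam g ∈ vanIdeal 𝒳 := by
  classical
  rw [mem_vanIdeal]
  intro x hx
  set G : MvPowerSeries (Fin d) (algField p Ω) := lamSeries lam g with hG
  set v : Fin d → Ω := fun j ↦ ((x j).val : Ω)
  set c : ℝ := ‖fun j ↦ v j‖ with hc
  have hc1 : c < 1 := (pi_norm_lt_iff one_pos).mpr fun j ↦ norm_val_lt x j
  have hc0 : 0 ≤ c := norm_nonneg _
  have hvc : ∀ j, ‖v j‖ ≤ c := fun j ↦ norm_le_pi_norm v j
  let lam' : Ω →+ Ω := ((algField p Ω).subtype.toAddMonoidHom).comp lam.toAddMonoidHom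
  have hb : ∀ D : ℕ, ∃ C : ℝ, ∀ᶠ M in atTop,
      ‖MvPolynomial.eval (fun j ↦ v j ^ p ^ (h * M)) (MvPowerSeries.truncTotal (R := Ω) D
        (MvPowerSeries.map (intRing Ω).subtype g))‖ ≤ C * (c ^ p ^ (h * M)) ^ D := by
    intro D
    refine ⟨1, Eventually.of_forall fun M ↦ ?_⟩
    rw [one_mul]
    have hQ : p ^ (h * M) ≠ 0 := pow_ne_zero _ (Fact.out : p.Prime).ne_zero
    have hmem : ((p ^ M) • x) ∈ 𝒳 := AddSubgroup.nsmul_mem 𝒳 hx _
    have hval : ∀ j, (((p ^ M) • x) j).val = (x j).val ^ p ^ (h * M) := fun j ↦ by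
      rw [Pi.smul_apply, pow_smul_val hh]
    have h1 := norm_ev_sub_truncTotal_le g (a := fun j ↦ (x j).val ^ p ^ (h * M))
      (c := c ^ p ^ (h * M)) (by positivity) (pow_lt_one₀ hc0 hc1 hQ)
      (fun j ↦ by
        rw [SubmonoidClass.coe_pow, norm_pow]
        exact pow_le_pow_left₀ (norm_nonneg _) (hvc j) _) D
    have h2 := hg _ hmem
    simp only [hval] at h2
    rw [h2, ZeroMemClass.coe_zero, zero_sub, norm_neg] at h1
    refine le_of_eq_of_le (congrArg _ ?_) h1
    rw [truncTotal_map, MvPolynomial.eval_map]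
    exact (MvPolynomial.eval₂_comp (intRing Ω).subtype (fun j ↦ (x j).val ^ p ^ (h * M)) _).symm
  have hper := periodicity (p := p) hh (MvPowerSeries.map (intRing Ω).subtype g) v
    (fun j ↦ norm_val_lt x j) hb lam' (fun z ↦ (lam z).2) (fun κ z hκ ↦ by
      show ((lam (κ * z) : algField p Ω) : Ω) = κ * (lam z : Ω)
      rw [show κ * z = (⟨κ, hκ⟩ : algField p Ω) • z from rfl, map_smul]
      rfl)
  refine Subtype.ext ((norm_eq_zero.mp (le_antisymm ?_ (norm_nonneg _))).trans
    (ZeroMemClass.coe_zero _).symm)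
  refine ge_of_tendsto' (tendsto_pow_atTop_nhds_zero_of_lt_one hc0 hc1) fun D ↦ ?_
  have h1 := norm_ev_sub_truncTotal_le (MvPowerSeries.map (algInt p Ω) G)
    (a := fun j ↦ (x j).val) hc0 hc1 hvc D
  have h2 : ((MvPolynomial.eval (fun j ↦ (x j).val) (MvPowerSeries.truncTotal D
      (MvPowerSeries.map (algInt p Ω) G)) : intRing Ω) : Ω)
      = MvPolynomial.eval v (MvPowerSeries.truncTotal D
        (MvPowerSeries.map (intRing Ω).subtype (MvPowerSeries.map (algInt p Ω) G))) := by
    rw [truncTotal_map (intRing Ω).subtype (MvPowerSeries.map (algInt p Ω) G),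
      MvPolynomial.eval_map]
    exact MvPolynomial.eval₂_comp (intRing Ω).subtype (fun j ↦ (x j).val) _
  rw [h2] at h1
  have h3 : ‖MvPolynomial.eval v (MvPowerSeries.truncTotal D
      (MvPowerSeries.map (intRing Ω).subtype (MvPowerSeries.map (algInt p Ω) G)))‖ ≤ c ^ D := hper D
  have key := (IsUltrametricDist.norm_add_le_max _ _).trans (max_le h1 h3)
  rwa [sub_add_cancel] at key

/-- If no algebraic series vanishes on the group, no series at all does. -/
theorem eq_zero_of_vanish (hh : 0 < h) (𝒳 : AddSubgroup (Fin d → HPt p h Ω))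
    (hq : vanIdeal 𝒳 = ⊥) (g : MvPowerSeries (Fin d) (intRing Ω))
    (hg : ∀ x ∈ 𝒳, ev g (fun j ↦ (x j).val) = 0) : g = 0 := by
  refine MvPowerSeries.ext fun e ↦ Subtype.ext ?_
  rw [map_zero, ZeroMemClass.coe_zero]
  by_contra hne
  obtain ⟨lam, hlam⟩ := Module.Projective.exists_dual_ne_zero (algField p Ω) hne
  have := lam_mem hh 𝒳 g hg lam
  rw [hq, Submodule.mem_bot] at this
  exact hlam (congrFun this e)

theorem ev_at_zero [CompleteSpace Ω] {σ : Type*} [Fintype σ] (f : MvPowerSeries σ (intRing Ω)) :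
    ev f (fun _ ↦ (0 : intRing Ω)) = MvPowerSeries.constantCoeff f := by
  classical
  have hs : IsSmall (fun _ : σ ↦ (0 : intRing Ω)) := fun _ ↦ IsTopologicallyNilpotent.zero
  refine (ev_unique hs (MvPowerSeries.WithPiTopology.continuous_constantCoeff _) (fun P ↦ ?_) f).symm
  induction P using MvPolynomial.induction_on with
  | C r => simp
  | add P Q hP hQ => simp_all
  | mul_X P i _ => simp

/-- Addition, evaluated: translation of the variables by a point. -/
def transl (a : Fin d → HPt p h Ω) : Fin d → MvPowerSeries (Fin d) (intRing Ω) := fun k ↦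
  Haz.addVal p ((MvPowerSeries.C).comp (zeroSpec h (intRing Ω)))
    (MvPowerSeries.C (a k).val) (MvPowerSeries.X k)

theorem small_C {R : Type*} [CommRing R] [UniformSpace R] [CLRing R] {σ : Type*} {r : R}
    (hr : IsTopologicallyNilpotent r) :
    IsTopologicallyNilpotent (MvPowerSeries.C r : MvPowerSeries σ R) :=
  hr.map MvPowerSeries.WithPiTopology.continuous_C

theorem small_X {R : Type*} [CommRing R] [UniformSpace R] [CLRing R] {σ : Type*} (i : σ) :
    IsTopologicallyNilpotent (MvPowerSeries.X i : MvPowerSeries σ R) :=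
  MvPowerSeries.WithPiTopology.isTopologicallyNilpotent_of_constantCoeff_isNilpotent
    (by simp)

theorem small_transl (a : Fin d → HPt p h Ω) : IsSmall (transl a) := fun k ↦
  Haz.addVal_small p _ (small_C (a k).small) (small_X k)

theorem eval_transl (a y : Fin d → HPt p h Ω) (k : Fin d) :
    ev (transl a k) (fun j ↦ (y j).val) = (a k + y k).val := by
  have hs := small_val y
  show ev (Haz.addVal p _ _ _) _ = Haz.addVal p _ _ _
  rw [← evHom_apply hs, Haz.addVal, Haz.addVal, map_ev (Haz.isSmall_pair (small_C (a k).small)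
    (small_X k)) (show Continuous (evHom hs) from by
      simp only [funext (evHom_apply hs)]; exact continuous_ev hs), MvPowerSeries.map_map]
  congr 1
  · congr 2
    refine RingHom.ext fun r ↦ ?_
    simp [evHom_apply]
  · funext i
    fin_cases i <;> simp [evHom_apply]

theorem constantCoeff_transl (a : Fin d → HPt p h Ω) (k : Fin d) :
    MvPowerSeries.constantCoeff (transl a k) = (a k).val := by
  have h0 := eval_transl a 0 k
  rw [Pi.zero_apply, add_zero] at h0
  rw [← ev_at_zero]
  exact h0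

/-- A series with algebraic coefficients, translated by a point. -/
def translSeries (f : MvPowerSeries (Fin d) (algField p Ω)) (a : Fin d → HPt p h Ω) :
    MvPowerSeries (Fin d) (intRing Ω) :=
  ev (MvPowerSeries.map MvPowerSeries.C (MvPowerSeries.map (algInt p Ω) f)) (transl a)

theorem eval_translSeries (f : MvPowerSeries (Fin d) (algField p Ω)) (a y : Fin d → HPt p h Ω) :
    ev (translSeries f a) (fun j ↦ (y j).val) = evPt (a + y) f := by
  have hs := small_val y
  rw [← evHom_apply hs, translSeries, map_ev (small_transl a)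
    (show Continuous (evHom hs) from by
      simp only [funext (evHom_apply hs)]; exact continuous_ev hs), evPt_apply]
  congr 1
  · ext e
    simp [evHom_apply]
  · funext k
    simp [evHom_apply, eval_transl]

/-- The linear coefficient of a translated coordinate has norm one. -/
theorem coeff_transl (a : Fin d → HPt p h Ω) (j k : Fin d) :
    MvPowerSeries.coeff (Finsupp.single j 1) (transl a k) =
      if k = j then ev (MvPowerSeries.pderiv (intRing Ω) (1 : Fin 2)
        (honda p h (intRing Ω)).toPowerSeries) ![(a k).val, 0] else 0 := by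
  have hb : IsSmall ![(MvPowerSeries.C (a k).val : MvPowerSeries (Fin d) (intRing Ω)),
      MvPowerSeries.X k] := Haz.isSmall_pair (small_C (a k).small) (small_X k)
  have hcc : (fun i ↦ MvPowerSeries.constantCoeff
      (![(MvPowerSeries.C (a k).val : MvPowerSeries (Fin d) (intRing Ω)), MvPowerSeries.X k] i))
      = ![(a k).val, 0] := by
    funext i; fin_cases i <;> simp
  have hmap : MvPowerSeries.map
      ((MvPowerSeries.C).comp (zeroSpec h (intRing Ω))) (Haz.law p h).toPowerSeries
      = MvPowerSeries.map (MvPowerSeries.C (σ := Fin d)) (honda p h (intRing Ω)).toPowerSeries := by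
    rw [honda, FormalGroup.map_toPowerSeries, MvPowerSeries.map_map]
  rw [transl, Haz.addVal, hmap, coeff_single_ev hb (by
    rw [hcc]; exact Haz.isSmall_pair (a k).small IsTopologicallyNilpotent.zero), hcc,
    Fin.sum_univ_two]
  have hC : MvPowerSeries.coeff (Finsupp.single j 1)
      (MvPowerSeries.C (a k).val : MvPowerSeries (Fin d) (intRing Ω)) = 0 := by
    rw [MvPowerSeries.coeff_C, if_neg (Finsupp.single_ne_zero.mpr one_ne_zero)]
  simp only [Matrix.cons_val_zero, Matrix.cons_val_one, Matrix.cons_val_fin_one, hC, mul_zero,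
    zero_add, MvPowerSeries.coeff_X]
  by_cases hkj : k = j
  · subst hkj; simp
  · rw [if_neg (fun h ↦ hkj (Finsupp.single_left_injective one_ne_zero h).symm), if_neg hkj,
      mul_zero]

theorem pderiv_honda_ne_zero (x : HPt p h Ω) :
    ev (MvPowerSeries.pderiv (intRing Ω) (1 : Fin 2) (honda p h (intRing Ω)).toPowerSeries)
      ![x.val, 0] ≠ 0 := by
  intro h0
  set P := MvPowerSeries.pderiv (intRing Ω) (1 : Fin 2) (honda p h (intRing Ω)).toPowerSeries
  have hxn : ‖(x.val : Ω)‖ < 1 := isTopologicallyNilpotent_intRing.mp x.small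
  have hP0 : MvPowerSeries.constantCoeff P = 1 := by
    rw [← MvPowerSeries.coeff_zero_eq_constantCoeff_apply, MvPowerSeries.coeff_pderiv, zero_add]
    rw [(honda p h (intRing Ω)).lin_coeff_Y]
    simp
  have h1 := norm_ev_sub_ev_le P (a := ![x.val, 0]) (b := fun _ ↦ 0)
    (fun i ↦ by fin_cases i <;> simp [hxn]) (fun i ↦ by simp) (norm_nonneg (x.val : Ω))
    (fun i ↦ by fin_cases i <;> simp)
  rw [ev_at_zero, hP0, h0] at h1
  simp only [ZeroMemClass.coe_zero, OneMemClass.coe_one, zero_sub, norm_neg, norm_one] at h1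
  linarith

theorem pderiv_map_algInt (f : MvPowerSeries (Fin d) (algField p Ω)) (j : Fin d) :
    MvPowerSeries.map (algInt p Ω) (MvPowerSeries.pderiv (algField p Ω) j f)
      = MvPowerSeries.pderiv (intRing Ω) j (MvPowerSeries.map (algInt p Ω) f) := by
  ext1 e
  simp [MvPowerSeries.coeff_pderiv]

/-- The vanishing ideal has a series with a linear term, unless it is zero. -/
theorem exists_linear_mem (hh : 0 < h) (𝒳 : AddSubgroup (Fin d → HPt p h Ω))
    (hne : vanIdeal 𝒳 ≠ ⊥) :
    ∃ f ∈ vanIdeal 𝒳, ∃ j, MvPowerSeries.coeff (Finsupp.single j 1) f ≠ 0 := by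
  classical
  refine exists_linear_term (p := p) _ ?_ ?_ ?_ ?_
  · intro f hf
    rw [mem_vanIdeal] at hf ⊢
    intro x hx
    have := hf x hx
    rw [map_pow, ev_pow (small_val x)] at this
    exact (pow_eq_zero_iff (Fact.out : p.Prime).ne_zero).mp this
  · intro f hf
    rw [mem_vanIdeal] at hf
    have h0 := hf 0 (zero_mem 𝒳)
    simp only [Pi.zero_apply, Haz.zero_val] at h0
    rw [ev_at_zero, MvPowerSeries.constantCoeff_map] at h0
    exact (map_eq_zero_iff (algInt p Ω) (algInt p Ω).injective).mp h0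
  · exact (Submodule.ne_bot_iff _).mp hne
  · intro hlin f hf j
    rw [mem_vanIdeal] at hf ⊢
    intro x hx
    set g := translSeries f x
    have hg : ∀ y ∈ 𝒳, ev g (fun i ↦ (y i).val) = 0 := fun y hy ↦ by
      rw [eval_translSeries, evPt_apply]
      exact hf _ (add_mem hx hy)
    have hzero : MvPowerSeries.coeff (Finsupp.single j 1) g = 0 := by
      refine Subtype.ext ?_
      rw [ZeroMemClass.coe_zero]
      by_contra hne'
      obtain ⟨lam, hlam⟩ := Module.Projective.exists_dual_ne_zero (algField p Ω) hne'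
      exact hlam (hlin _ (lam_mem hh 𝒳 g hg lam) j)
    have hcc : (fun i ↦ MvPowerSeries.constantCoeff (transl x i)) = fun i ↦ (x i).val :=
      funext (constantCoeff_transl x)
    simp only [g, translSeries] at hzero
    rw [coeff_single_ev (small_transl x) (by rw [hcc]; exact small_val x), hcc,
      Finset.sum_eq_single j (fun k _ hk ↦ by rw [coeff_transl, if_neg hk, mul_zero])
        (fun h ↦ absurd (Finset.mem_univ j) h), coeff_transl, if_pos rfl,
      mul_eq_zero] at hzero
    rw [pderiv_map_algInt]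
    exact hzero.resolve_right (pderiv_honda_ne_zero (x j))

/-- No nonzero algebraic series vanishes on all points. -/
theorem vanIdeal_top (hh : 0 < h) : vanIdeal (⊤ : AddSubgroup (Fin d → HPt p h Ω)) = ⊥ := by
  classical
  by_contra hne
  obtain ⟨f, hf, j, hj⟩ := exists_linear_mem hh _ hne
  obtain ⟨t, ht0, ht1⟩ := NormedField.exists_norm_lt (α := Ω) (r := 1) one_pos
  let T : intRing Ω := ⟨t, ht1.le⟩
  have hT : IsTopologicallyNilpotent T := isTopologicallyNilpotent_intRing.mpr ht1
  let x : Fin d → HPt p h Ω := Pi.single j ⟨T, hT⟩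
  rw [mem_vanIdeal] at hf
  have h1 := hf x (AddSubgroup.mem_top x)
  have h2 := hf 0 (AddSubgroup.mem_top 0)
  have hxv : ∀ l, (x l).val = if l = j then T else 0 := fun l ↦ by
    by_cases hl : l = j
    · subst hl; simp [x]
    · simp [x, hl, Haz.zero_val]
  have h3 := norm_ev_first_order (MvPowerSeries.map (algInt p Ω) f) j (a := fun l ↦ (x l).val)
    (b := fun l ↦ ((0 : Fin d → HPt p h Ω) l).val) ht1 (norm_nonneg t)
    (fun l ↦ by rw [hxv l]; split_ifs <;> simp [T]) (fun l ↦ by simp [Haz.zero_val])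
    (fun l hl ↦ by rw [hxv l, if_neg hl]; rfl)
  rw [h1, h2] at h3
  simp only [hxv j, if_pos, ZeroMemClass.coe_zero, sub_zero, zero_sub, norm_neg, norm_mul,
    MvPowerSeries.coeff_map, norm_algInt hj, one_mul, Pi.zero_apply, Haz.zero_val, T] at h3
  have := mul_lt_mul_of_pos_right ht1 ht0
  linarith

theorem fgHom_of_points (hh : 0 < h) (α : PowerSeries (intRing Ω))
    (h0 : PowerSeries.constantCoeff α = 0)
    (Φ : HPt p h Ω →+ HPt p h Ω) (hΦ : ∀ t, (Φ t).val = ev α fun _ : Unit ↦ t.val) :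
    IsFGHom (honda p h (intRing Ω)) (honda p h (intRing Ω)) α := by
  set G := (honda p h (intRing Ω)).toPowerSeries
  refine ⟨h0, sub_eq_zero.mp (eq_zero_of_vanish (d := 2) hh ⊤ (vanIdeal_top hh) _ fun x _ ↦ ?_)⟩
  have hG0 : MvPowerSeries.constantCoeff G = 0 := (honda p h (intRing Ω)).zero_constantCoeff
  have hX : ∀ i : Fin 2, MvPowerSeries.constantCoeff
      (PowerSeries.subst (MvPowerSeries.X i : MvPowerSeries (Fin 2) (intRing Ω)) α) = 0 :=
    fun i ↦ constantCoeff_ps_subst (MvPowerSeries.constantCoeff_X i) h0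
  have hs := small_val x
  have e1 : ev (PowerSeries.subst G α) (fun j ↦ (x j).val) = (Φ (x 0 + x 1)).val := by
    rw [hΦ, PowerSeries.subst, ev_subst (fun _ ↦ hG0) hs]
    congr 1
    funext _
    show ev G _ = Haz.addVal p _ _ _
    rw [Haz.addVal]
    congr 1
    funext i
    fin_cases i <;> rfl
  have e2 : ∀ i : Fin 2, ev (PowerSeries.subst (MvPowerSeries.X i :
      MvPowerSeries (Fin 2) (intRing Ω)) α) (fun j ↦ (x j).val) = (Φ (x i)).val := by
    intro i
    rw [hΦ, PowerSeries.subst, ev_subst (fun _ ↦ MvPowerSeries.constantCoeff_X i) hs]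
    simp
  rw [ev_sub hs, e1, ev_subst (Haz.constantCoeff_pair (hX 0) (hX 1)) hs, map_add, sub_eq_zero]
  show Haz.addVal p _ _ _ = _
  rw [Haz.addVal]
  congr 1
  funext i
  fin_cases i <;> simp [e2]

theorem fgHom_zero (hh : 0 < h) : IsFGHom (honda p h (intRing Ω)) (honda p h (intRing Ω)) 0 :=
  fgHom_of_points hh 0 (map_zero _) 0 fun t ↦ (ev_zero fun _ ↦ t.small).symm

/-- A series with algebraic coefficients and no constant term, as a map of points. -/
def pointMap (φ : MvPowerSeries (Fin d) (algField p Ω)) (hφ0 : MvPowerSeries.constantCoeff φ = 0)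
    (y : Fin d → HPt p h Ω) : HPt p h Ω :=
  ⟨evPt y φ, by
    rw [evPt_apply]
    refine ev_small (small_val y) ?_
    rw [MvPowerSeries.constantCoeff_map, hφ0, map_zero]
    exact IsTopologicallyNilpotent.zero⟩

theorem pointMap_val (φ : MvPowerSeries (Fin d) (algField p Ω))
    (hφ0 : MvPowerSeries.constantCoeff φ = 0) (y : Fin d → HPt p h Ω) :
    (pointMap φ hφ0 y).val = ev (MvPowerSeries.map (algInt p Ω) φ) fun l ↦ (y l).val :=
  evPt_apply y φ

/-- Deleting the coordinate `i`. -/
def dropAt (i : Fin (d + 1)) : (Fin (d + 1) → HPt p h Ω) →+ (Fin d → HPt p h Ω) where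
  toFun x l := x (i.succAbove l)
  map_zero' := rfl
  map_add' _ _ := rfl

theorem dropAt_apply (i : Fin (d + 1)) (x : Fin (d + 1) → HPt p h Ω) (l : Fin d) :
    dropAt i x l = x (i.succAbove l) := rfl

/-- On the zero set of `f`, the coordinate `i` is the implicit function of the others. -/
theorem coord_eq (i : Fin (d + 1)) {f : MvPowerSeries (Fin (d + 1)) (algField p Ω)}
    (hfi : MvPowerSeries.coeff (Finsupp.single i 1) f ≠ 0)
    {φ : MvPowerSeries (Fin d) (algField p Ω)} (hφ0 : MvPowerSeries.constantCoeff φ = 0)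
    (hφ : MvPowerSeries.subst (graphPt i φ) f = 0) (x : Fin (d + 1) → HPt p h Ω)
    (hfx : ev (MvPowerSeries.map (algInt p Ω) f) (fun l ↦ (x l).val) = 0) :
    x i = pointMap φ hφ0 (dropAt i x) := by
  let z : Fin (d + 1) → HPt p h Ω := Fin.insertNth i ((pointMap φ hφ0) (dropAt i x)) (dropAt i x)
  have hz : ev (MvPowerSeries.map (algInt p Ω) f) (fun l ↦ (z l).val) = 0 := by
    have h1 := congrArg (evPt (dropAt i x)) hφ
    rw [evPt_apply, map_zero, MvPowerSeries.map_subst
      (MvPowerSeries.hasSubst_of_constantCoeff_zero (constantCoeff_graphPt i hφ0)),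
      ev_subst (fun l ↦ by rw [MvPowerSeries.constantCoeff_map,
        constantCoeff_graphPt i hφ0 l, map_zero]) (small_val _)] at h1
    rw [← h1]
    congr 1
    funext l
    rcases Fin.eq_self_or_eq_succAbove i l with rfl | ⟨l', rfl⟩
    · simp [z, graphPt, pointMap_val]
    · simp [z, graphPt]
  obtain ⟨ρ, hρ0, hρ1, hρx, hρz⟩ : ∃ ρ : ℝ, 0 ≤ ρ ∧ ρ < 1 ∧
      (∀ l, ‖((x l).val : Ω)‖ ≤ ρ) ∧ ∀ l, ‖((z l).val : Ω)‖ ≤ ρ := by
    refine ⟨max ‖fun l ↦ ((x l).val : Ω)‖ ‖fun l ↦ ((z l).val : Ω)‖, by positivity,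
      max_lt ((pi_norm_lt_iff one_pos).mpr fun l ↦ norm_val_lt x l)
        ((pi_norm_lt_iff one_pos).mpr fun l ↦ norm_val_lt z l),
      fun l ↦ (norm_le_pi_norm (fun l ↦ ((x l).val : Ω)) l).trans (le_max_left _ _),
      fun l ↦ (norm_le_pi_norm (fun l ↦ ((z l).val : Ω)) l).trans (le_max_right _ _)⟩
  have h2 := norm_ev_first_order (MvPowerSeries.map (algInt p Ω) f) i hρ1 hρ0 hρx hρz
    (fun l hl ↦ by
      rcases Fin.eq_self_or_eq_succAbove i l with rfl | ⟨l', rfl⟩
      · exact absurd rfl hl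
      · simp [z, dropAt_apply])
  rw [hfx, hz] at h2
  simp only [ZeroMemClass.coe_zero, sub_zero, zero_sub, norm_neg, norm_mul,
    MvPowerSeries.coeff_map, norm_algInt hfi, one_mul] at h2
  have h3 : ‖((x i).val : Ω) - (z i).val‖ = 0 := by
    nlinarith [norm_nonneg (((x i).val : Ω) - (z i).val)]
  refine Haz.Pt.ext (Subtype.ext ?_)
  rw [sub_eq_zero.mp (norm_eq_zero.mp h3)]
  simp [z]

/-- Additivity of a point map spreads from a group with trivial vanishing ideal to all points. -/
theorem pointMap_add (hh : 0 < h) (𝒴 : AddSubgroup (Fin d → HPt p h Ω)) (hq : vanIdeal 𝒴 = ⊥)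
    (φ : MvPowerSeries (Fin d) (algField p Ω)) (hφ0 : MvPowerSeries.constantCoeff φ = 0)
    (a : Fin d → HPt p h Ω)
    (ha : ∀ y ∈ 𝒴, pointMap φ hφ0 (a + y) = pointMap φ hφ0 a + pointMap φ hφ0 y)
    (y : Fin d → HPt p h Ω) :
    pointMap φ hφ0 (a + y) = pointMap φ hφ0 a + pointMap φ hφ0 y := by
  let S : MvPowerSeries (Fin d) (intRing Ω) :=
    translSeries φ a - Haz.addVal p ((MvPowerSeries.C).comp (zeroSpec h (intRing Ω)))
      (MvPowerSeries.C ((pointMap φ hφ0) a).val) (MvPowerSeries.map (algInt p Ω) φ)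
  have hφs : IsTopologicallyNilpotent
      (MvPowerSeries.map (algInt p Ω) φ : MvPowerSeries (Fin d) (intRing Ω)) :=
    MvPowerSeries.WithPiTopology.isTopologicallyNilpotent_of_constantCoeff_isNilpotent
      (by rw [MvPowerSeries.constantCoeff_map, hφ0, map_zero]; exact IsNilpotent.zero)
  have hS : ∀ y : Fin d → HPt p h Ω,
      ev S (fun l ↦ (y l).val) = ((pointMap φ hφ0) (a + y)).val - ((pointMap φ hφ0) a + (pointMap φ hφ0) y).val := by
    intro y
    have hs := small_val y
    rw [ev_sub hs, eval_translSeries, evPt_apply, ← pointMap_val φ hφ0]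
    congr 1
    show ev (Haz.addVal p _ _ _) _ = Haz.addVal p _ _ _
    rw [← evHom_apply hs, Haz.addVal, Haz.addVal, map_ev (Haz.isSmall_pair
      (small_C ((pointMap φ hφ0) a).small) hφs) (show Continuous (evHom hs) from by
        simp only [funext (evHom_apply hs)]; exact continuous_ev hs), MvPowerSeries.map_map]
    congr 1
    · congr 2
      refine RingHom.ext fun r ↦ ?_
      simp [evHom_apply]
    · funext l
      fin_cases l <;> simp [evHom_apply, pointMap_val]
  have hS0 := eq_zero_of_vanish hh 𝒴 hq S fun z hz ↦ by rw [hS z, ha z hz, sub_self]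
  have := hS y
  rw [hS0, ev_zero (small_val y)] at this
  exact Haz.Pt.ext (sub_eq_zero.mp this.symm)

/-- An additive point map gives endomorphisms of Honda's law along the axes. -/
theorem exists_endo (hh : 0 < h) (φ : MvPowerSeries (Fin d) (algField p Ω))
    (hφ0 : MvPowerSeries.constantCoeff φ = 0) (Φ : (Fin d → HPt p h Ω) →+ HPt p h Ω)
    (hΦ : ∀ y, Φ y = pointMap φ hφ0 y) :
    ∃ α : Fin d → PowerSeries (intRing Ω),
      (∀ j, IsFGHom (honda p h (intRing Ω)) (honda p h (intRing Ω)) (α j)) ∧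
      ∀ j t, (-(Φ (Pi.single j t))).val = ev (α j) fun _ : Unit ↦ t.val := by
  let ax : Fin d → Fin d → PowerSeries (algField p Ω) := fun j l ↦
    if l = j then PowerSeries.X else 0
  let ψ : Fin d → PowerSeries (intRing Ω) := fun j ↦
    MvPowerSeries.map (algInt p Ω) (MvPowerSeries.subst (ax j) φ)
  let α : Fin d → PowerSeries (intRing Ω) := fun j ↦
    MvPowerSeries.subst (fun _ : Unit ↦ ψ j)
      (MvPowerSeries.map (zeroSpec h (intRing Ω)) (Haz.mulSeries p h (-1)))
  have hax : ∀ j l, MvPowerSeries.constantCoeff (ax j l) = 0 := fun j l ↦ by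
    simp only [ax]; split_ifs
    · exact MvPowerSeries.constantCoeff_X ()
    · exact map_zero _
  have hψ0 : ∀ j, MvPowerSeries.constantCoeff (ψ j) = 0 := fun j ↦ by
    simp only [ψ]
    rw [MvPowerSeries.constantCoeff_map, MvPowerSeries.constantCoeff_subst_eq_zero
      (MvPowerSeries.hasSubst_of_constantCoeff_zero (hax j)) (hax j) hφ0, map_zero]
  have hα0 : ∀ j, PowerSeries.constantCoeff (α j) = 0 := fun j ↦ by
    refine MvPowerSeries.constantCoeff_subst_eq_zero
      (MvPowerSeries.hasSubst_of_constantCoeff_zero fun _ ↦ hψ0 j) (fun _ ↦ hψ0 j) ?_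
    rw [MvPowerSeries.constantCoeff_map, Haz.constantCoeff_mulSeries, map_zero]
  let A : Fin d → HPt p h Ω →+ HPt p h Ω := fun j ↦
    -(Φ.comp (AddMonoidHom.single (fun _ ↦ HPt p h Ω) j))
  have hA : ∀ j t, (A j t).val = ev (α j) fun _ : Unit ↦ t.val := by
    intro j t
    have hst : IsSmall fun _ : Unit ↦ t.val := fun _ ↦ t.small
    show Haz.negVal p _ (Φ (Pi.single j t)).val = _
    rw [Haz.negVal, ev_subst (fun _ ↦ hψ0 j) hst]
    congr 1
    funext u
    rw [hΦ, pointMap_val]
    simp only [ψ]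
    rw [MvPowerSeries.map_subst (MvPowerSeries.hasSubst_of_constantCoeff_zero (hax j)),
      ev_subst (fun l ↦ by rw [MvPowerSeries.constantCoeff_map, hax, map_zero]) hst]
    congr 1
    funext l
    by_cases hl : l = j
    · subst hl; simp [ax, PowerSeries.X]
    · simp [ax, hl, ev_zero hst, Haz.zero_val]
  exact ⟨α, fun j ↦ fgHom_of_points hh _ (hα0 j) (A j) (hA j), hA⟩

/-- The relation, for groups of points killed by an algebraic series. -/
theorem relation_aux (hh : 0 < h) : ∀ (d : ℕ) (𝒳 : AddSubgroup (Fin d → HPt p h Ω)),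
    vanIdeal 𝒳 ≠ ⊥ →
    ∃ α : Fin d → PowerSeries (intRing Ω),
      (∀ j, IsFGHom (honda p h (intRing Ω)) (honda p h (intRing Ω)) (α j)) ∧ (∃ j, α j ≠ 0) ∧
      ∀ x ∈ 𝒳, ∀ w : Fin d → HPt p h Ω,
        (∀ j, (w j).val = ev (α j) fun _ : Unit ↦ (x j).val) → ∑ j, w j = 0 := by
  classical
  intro d
  induction d with
  | zero =>
    intro 𝒳 hne
    exfalso
    obtain ⟨f, -, j, -⟩ := exists_linear_mem hh 𝒳 hne
    exact j.elim0
  | succ d ih =>
    intro 𝒳 hne
    obtain ⟨f, hf, i, hfi⟩ := exists_linear_mem hh 𝒳 hne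
    set 𝒴 := 𝒳.map (dropAt i) with h𝒴
    by_cases hq : vanIdeal 𝒴 ≠ ⊥
    · obtain ⟨α, hα, ⟨j, hj⟩, hrel⟩ := ih 𝒴 hq
      refine ⟨Fin.insertNth i 0 α, fun l ↦ ?_, ⟨i.succAbove j, by simpa using hj⟩, ?_⟩
      · rcases Fin.eq_self_or_eq_succAbove i l with rfl | ⟨l', rfl⟩
        · simpa using fgHom_zero (p := p) (Ω := Ω) hh
        · simpa using hα l'
      · intro x hx w hw
        have hwi : w i = 0 := Haz.Pt.ext (by
          rw [hw i, Fin.insertNth_apply_same, ev_zero (fun _ ↦ (x i).small)]; rfl)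
        rw [Fin.sum_univ_succAbove _ i, hwi, zero_add]
        exact hrel (dropAt i x) ⟨x, hx, rfl⟩ _ fun l ↦ by simpa [dropAt_apply] using hw (i.succAbove l)
    · push Not at hq
      have hf0 : MvPowerSeries.constantCoeff f = 0 := by
        have h0 := mem_vanIdeal.mp hf 0 (zero_mem 𝒳)
        simp only [Pi.zero_apply, Haz.zero_val] at h0
        rw [ev_at_zero, MvPowerSeries.constantCoeff_map] at h0
        exact (map_eq_zero_iff (algInt p Ω) (algInt p Ω).injective).mp h0
      obtain ⟨φ, hφ0, hφ⟩ := exists_implicit i f hf0 (isUnit_iff_ne_zero.mpr hfi)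
      have hcoord : ∀ x ∈ 𝒳, x i = pointMap φ hφ0 (dropAt i x) := fun x hx ↦
        coord_eq i hfi hφ0 hφ x (mem_vanIdeal.mp hf x hx)
      have h1 : ∀ a ∈ 𝒴, ∀ b,
          pointMap φ hφ0 (a + b) = pointMap φ hφ0 a + pointMap φ hφ0 b := by
        intro a ha
        refine pointMap_add hh 𝒴 hq φ hφ0 a fun b hb ↦ ?_
        obtain ⟨x, hx, rfl⟩ := ha
        obtain ⟨x', hx', rfl⟩ := hb
        rw [← map_add, ← hcoord x hx, ← hcoord x' hx', ← hcoord _ (add_mem hx hx'), Pi.add_apply]
      have hadd : ∀ a b, pointMap φ hφ0 (a + b) = pointMap φ hφ0 a + pointMap φ hφ0 b :=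
        fun a ↦ pointMap_add hh 𝒴 hq φ hφ0 a fun y hy ↦ by rw [add_comm a, h1 y hy a, add_comm]
      let Φ : (Fin d → HPt p h Ω) →+ HPt p h Ω := AddMonoidHom.mk' (pointMap φ hφ0) hadd
      obtain ⟨α, hα, hA⟩ := exists_endo hh φ hφ0 Φ fun _ ↦ rfl
      refine ⟨Fin.insertNth i (PowerSeries.X) α, fun l ↦ ?_, ⟨i, ?_⟩, ?_⟩
      · rcases Fin.eq_self_or_eq_succAbove i l with rfl | ⟨l', rfl⟩
        · rw [Fin.insertNth_apply_same]
          refine fgHom_of_points hh _ PowerSeries.constantCoeff_X (AddMonoidHom.id _) fun t ↦ ?_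
          simp [PowerSeries.X]
        · rw [Fin.insertNth_apply_succAbove]
          exact hα l'
      · rw [Fin.insertNth_apply_same]
        exact PowerSeries.X_ne_zero
      · intro x hx w hw
        have hwi : w i = x i := Haz.Pt.ext (by
          rw [hw i, Fin.insertNth_apply_same]; simp [PowerSeries.X])
        have hwl : ∀ l, w (i.succAbove l) = -Φ (Pi.single l (dropAt i x l)) :=
          fun l ↦ Haz.Pt.ext (by
            rw [hw, Fin.insertNth_apply_succAbove, hA]; rfl)
        rw [Fin.sum_univ_succAbove _ i, hwi, Finset.sum_congr rfl fun l _ ↦ hwl l, hcoord x hx,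
          Finset.sum_neg_distrib, ← map_sum, Finset.univ_sum_single]
        exact add_neg_cancel (pointMap φ hφ0 (dropAt i x))

theorem subgroup_relation {p h d : ℕ} [Fact p.Prime] (hh : 0 < h)
    {Ω : Type} [NontriviallyNormedField Ω] [IsUltrametricDist Ω] [GoodField p Ω]
    (𝒳 : AddSubgroup (Fin d → Haz.Pt p (zeroSpec h (intRing Ω))))
    (Hs : MvPowerSeries (Fin d) (intRing Ω))
    (halg : ∀ e, ∃ m : ℕ, 0 < m ∧ MvPowerSeries.coeff e Hs ^ p ^ m = MvPowerSeries.coeff e Hs)
    (hne : Hs ≠ 0) (hvan : ∀ x ∈ 𝒳, ev Hs (fun j ↦ (x j).val) = 0) :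
    ∃ α : Fin d → PowerSeries (intRing Ω),
      (∀ j, IsFGHom (honda p h (intRing Ω)) (honda p h (intRing Ω)) (α j)) ∧ (∃ j, α j ≠ 0) ∧
      ∀ x ∈ 𝒳, ∀ w : Fin d → Haz.Pt p (zeroSpec h (intRing Ω)),
        (∀ j, (w j).val = ev (α j) fun _ : Unit ↦ (x j).val) → ∑ j, w j = 0 := by
  refine relation_aux hh d 𝒳 fun hbot ↦ hne ?_
  let f : MvPowerSeries (Fin d) (algField p Ω) := fun e ↦
    ⟨((MvPowerSeries.coeff e Hs : intRing Ω) : Ω), by
      obtain ⟨m, hm, he⟩ := halg e
      exact ⟨m, hm, by rw [← SubmonoidClass.coe_pow, he]⟩⟩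
  have hmap : MvPowerSeries.map (algInt p Ω) f = Hs := by
    ext1 e
    exact Subtype.ext rfl
  have : f ∈ vanIdeal 𝒳 := mem_vanIdeal.mpr fun x hx ↦ by rw [hmap]; exact hvan x hx
  rw [hbot, Submodule.mem_bot] at this
  rw [← hmap, this, map_zero]

end Vale.Agent.P217
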