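import Vale.Agent.P217.Shared
import Vale.Agent.P217.RootSeries

/-!
The universal cover map `x ↦ lim [p^N](x^(q^(-N)))` at a point: convergence, additivity,
compatibility with multiplication by `p`, surjectivity.
-/

noncomputable section

open Filter MvPowerSeries Finset
open scoped MvPowerSeries.WithPiTopology Topology

set_option linter.unusedSectionVars false

namespace Vale.Agent.P217

namespace Torsion

variable {p n : ℕ} [hp : Fact p.Prime]
  {Ω : Type} [NontriviallyNormedField Ω] [IsUltrametricDist Ω] [GoodField p Ω]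

local instance instCharPOmega : CharP Ω p := GoodField.charP

theorem isClosed_normIdeal (r : ℝ) (hr : 0 ≤ r) :
    IsClosed (normIdeal (Ω := Ω) r hr : Set (intRing Ω)) :=
  isClosed_le (continuous_norm.comp continuous_subtype_val) continuous_const

theorem natCast_p : (p : intRing Ω) = 0 :=
  Subtype.ext (by simp)

theorem norm_lt_one {a : intRing Ω} (ha : IsTopologicallyNilpotent a) : ‖(a : Ω)‖ < 1 :=
  isTopologicallyNilpotent_intRing.mp ha

theorem norm_sub_le_mid (a b c : Ω) : ‖a - c‖ ≤ max ‖a - b‖ ‖b - c‖ := by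
  rw [← dist_eq_norm, ← dist_eq_norm, ← dist_eq_norm]
  exact dist_triangle_max a b c

theorem norm_sub_pow_char (a b : intRing Ω) (k : ℕ) :
    ‖(a : Ω) ^ p ^ k - (b : Ω) ^ p ^ k‖ = ‖(a : Ω) - b‖ ^ p ^ k := by
  rw [← sub_pow_char_pow, norm_pow]

theorem eq_of_pow_eq {a b : intRing Ω} {k : ℕ} (h : a ^ p ^ k = b ^ p ^ k) : a = b := by
  refine Subtype.ext (sub_eq_zero.mp (norm_eq_zero.mp ?_))
  refine eq_zero_of_pow_eq_zero (n := p ^ k) ?_
  rw [← norm_sub_pow_char, ← SubmonoidClass.coe_pow, ← SubmonoidClass.coe_pow, h, sub_self,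
    norm_zero]

theorem qpow (N : ℕ) : (p ^ n) ^ N = p ^ (n * N) := (pow_mul p n N).symm

theorem intRoot_of_pow {m k : ℕ} (hm : m = p ^ k) {a x : intRing Ω} (h : a ^ m = x) :
    intRoot m x = a := by
  subst hm
  exact eq_of_pow_eq ((intRoot_pow (pow_ne_zero k hp.out.ne_zero) x).trans h.symm)

theorem norm_intRoot {m : ℕ} (hm : m ≠ 0) (x : intRing Ω) :
    ‖(intRoot m x : Ω)‖ ^ m = ‖(x : Ω)‖ := by
  rw [← norm_pow, ← SubmonoidClass.coe_pow, intRoot_pow hm]

theorem intRoot_small {m : ℕ} (hm : m ≠ 0) {x : intRing Ω} (hx : IsTopologicallyNilpotent x) :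
    IsTopologicallyNilpotent (intRoot m x) := by
  rw [isTopologicallyNilpotent_intRing, ← pow_lt_one_iff_of_nonneg (norm_nonneg _) hm,
    norm_intRoot hm]
  exact norm_lt_one hx

/-- Evaluation is `1`-Lipschitz. -/
theorem norm_ev_sub_le [CompleteSpace Ω] {σ : Type*} [Finite σ] (f : MvPowerSeries σ (intRing Ω))
    {a b : σ → intRing Ω} (ha : IsSmall a) (hb : IsSmall b) {r : ℝ} (hr : 0 ≤ r)
    (h : ∀ i, ‖(a i : Ω) - b i‖ ≤ r) : ‖((ev f a : intRing Ω) : Ω) - (ev f b : intRing Ω)‖ ≤ r :=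
  ev_sub_mem (isClosed_normIdeal r hr) ha hb h f

theorem norm_ev_le [CompleteSpace Ω] {σ : Type*} [Finite σ] (f : MvPowerSeries σ (intRing Ω))
    {a : σ → intRing Ω} (ha : IsSmall a) {r : ℝ} (hr : 0 ≤ r)
    (h : ∀ e, ‖((coeff e f : intRing Ω) : Ω)‖ ≤ r) : ‖((ev f a : intRing Ω) : Ω)‖ ≤ r :=
  (isClosed_normIdeal r hr).mem_of_tendsto (hasSum_ev ha f)
    (Eventually.of_forall fun s ↦ (normIdeal r hr).sum_mem fun e _ ↦
      (normIdeal r hr).mul_mem_right _ (h e))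

/-- The largest norm of a parameter. -/
def kap (φ : Haz.A n →+* intRing Ω) : ℝ :=
  ((univ.sup fun i ↦ ‖(φ (MvPolynomial.X i) : Ω)‖₊ : NNReal) : ℝ)

theorem kap_nonneg (φ : Haz.A n →+* intRing Ω) : 0 ≤ kap φ := NNReal.coe_nonneg _

theorem norm_X_le_kap (φ : Haz.A n →+* intRing Ω) (i : Fin (n - 1)) :
    ‖(φ (MvPolynomial.X i) : Ω)‖ ≤ kap φ :=
  NNReal.coe_le_coe.mpr (le_sup (f := fun i ↦ ‖(φ (MvPolynomial.X i) : Ω)‖₊) (mem_univ i))

section point

variable {φ : Haz.A n →+* intRing Ω} (hφ : ∀ i, ‖(φ (MvPolynomial.X i) : Ω)‖ < 1)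

include hφ in
theorem kap_lt_one : kap φ < 1 := by
  rw [kap, ← NNReal.coe_one, NNReal.coe_lt_coe, Finset.sup_lt_iff (by simp)]
  intro i _
  exact_mod_cast hφ i

theorem phi_sub_zeroSpec (a : Haz.A n) :
    φ a - zeroSpec n (intRing Ω) a ∈ normIdeal (kap φ) (kap_nonneg φ) := by
  rw [← Ideal.Quotient.eq]
  refine RingHom.congr_fun (f := (Ideal.Quotient.mk _).comp φ)
    (g := (Ideal.Quotient.mk _).comp (zeroSpec n (intRing Ω))) ?_ a
  apply MvPolynomial.ringHom_ext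
  · intro r; simp [zeroSpec]
  · intro i
    simp only [RingHom.comp_apply, zeroSpec, MvPolynomial.eval₂Hom_X', map_zero]
    rw [Ideal.Quotient.eq_zero_iff_mem]
    exact norm_X_le_kap φ i

theorem norm_ev_map_sub [CompleteSpace Ω] {σ : Type*} [Finite σ] (f : MvPowerSeries σ (Haz.A n))
    {a : σ → intRing Ω} (ha : IsSmall a) :
    ‖((ev (MvPowerSeries.map φ f) a : intRing Ω) : Ω)
      - (ev (MvPowerSeries.map (zeroSpec n (intRing Ω)) f) a : intRing Ω)‖
      ≤ kap φ := by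
  rw [← AddSubgroupClass.coe_sub, ← ev_sub ha]
  refine norm_ev_le _ ha (kap_nonneg φ) fun e ↦ ?_
  rw [map_sub, MvPowerSeries.coeff_map, MvPowerSeries.coeff_map]
  exact phi_sub_zeroSpec _

/-- `[p]z ≡ z^q` modulo the parameters. -/
theorem norm_p_smul_sub_pow (hn : n ≠ 0) (z : Haz.Pt p φ) :
    ‖((p • z).val : Ω) - (z.val : Ω) ^ p ^ n‖ ≤ kap φ := by
  have hz : IsSmall (fun _ : Unit ↦ z.val) := fun _ ↦ z.small
  have h := norm_ev_map_sub (φ := φ) (Haz.mulSeries p n (p : ℤ)) hz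
  rwa [honda_p natCast_p hn, ev_pow hz, ev_X, SubmonoidClass.coe_pow,
    ← Haz.nsmul_val p φ z p] at h

/-- Multiplication by `p` factors through the Frobenius. -/
theorem norm_p_smul_sub (a b : Haz.Pt p φ) :
    ‖((p • a).val : Ω) - (p • b).val‖ ≤ ‖(a.val : Ω) - b.val‖ ^ p := by
  obtain ⟨Φ, -, -, hΦ⟩ := Haz.mulSeries_p_height φ natCast_p (h := 1) (fun i h0 h1 ↦ by omega)
    Nat.one_pos
  rw [Haz.nsmul_val, Haz.nsmul_val, hΦ]
  simp only [MvPowerSeries.expand, MvPowerSeries.coe_substAlgHom]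
  have h0 : ∀ _ : Unit,
      constantCoeff (X () ^ p ^ 1 : MvPowerSeries Unit (intRing Ω)) = 0 := fun _ ↦ by
    simp [hp.out.ne_zero]
  rw [ev_subst h0 (fun _ ↦ a.small), ev_subst h0 (fun _ ↦ b.small)]
  simp only [ev_pow (fun _ ↦ a.small), ev_pow (fun _ ↦ b.small), ev_X, pow_one]
  refine norm_ev_sub_le Φ (fun _ ↦ ?_) (fun _ ↦ ?_) (by positivity) fun _ ↦ ?_
  · exact isTopologicallyNilpotent_intRing.mpr (by rw [SubmonoidClass.coe_pow, norm_pow]; exact pow_lt_one₀ (norm_nonneg _) (norm_lt_one a.small) hp.out.ne_zero)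
  · exact isTopologicallyNilpotent_intRing.mpr (by rw [SubmonoidClass.coe_pow, norm_pow]; exact pow_lt_one₀ (norm_nonneg _) (norm_lt_one b.small) hp.out.ne_zero)
  · have h := norm_sub_pow_char (p := p) a.val b.val 1
    rw [pow_one] at h
    exact h.le

theorem norm_pPow_smul_sub (N : ℕ) (a b : Haz.Pt p φ) :
    ‖((p ^ N • a).val : Ω) - (p ^ N • b).val‖ ≤ ‖(a.val : Ω) - b.val‖ ^ p ^ N := by
  induction N with
  | zero => simp
  | succ N ih =>
    rw [pow_succ' p N, mul_smul, mul_smul, mul_comm p, pow_mul]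
    exact (norm_p_smul_sub _ _).trans (pow_le_pow_left₀ (norm_nonneg _) ih _)

theorem norm_pPow_smul_sub_of_le (N : ℕ) {a b : Haz.Pt p φ}
    (h : ‖(a.val : Ω) - b.val‖ ≤ kap φ) :
    ‖((p ^ N • a).val : Ω) - (p ^ N • b).val‖ ≤ kap φ ^ p ^ N :=
  (norm_pPow_smul_sub N a b).trans (pow_le_pow_left₀ (norm_nonneg _) h _)

theorem norm_add_val_sub (a b a' b' : Haz.Pt p φ) :
    ‖((a + b).val : Ω) - (a' + b').val‖ ≤
      max ‖(a.val : Ω) - a'.val‖ ‖(b.val : Ω) - b'.val‖ := by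
  refine norm_ev_sub_le _ (Haz.isSmall_pair a.small b.small) (Haz.isSmall_pair a'.small b'.small)
    (le_max_of_le_left (norm_nonneg _)) fun i ↦ ?_
  fin_cases i
  · exact le_max_left _ _
  · exact le_max_right _ _

/-- The point `x^(q^(-N))`. -/
def root (φ : Haz.A n →+* intRing Ω) {x : intRing Ω} (hx : IsTopologicallyNilpotent x) (N : ℕ) :
    Haz.Pt p φ :=
  ⟨intRoot ((p ^ n) ^ N) x, intRoot_small (pow_ne_zero _ (pow_ne_zero _ hp.out.ne_zero)) hx⟩

theorem prSeq_eq {x : intRing Ω} (hx : IsTopologicallyNilpotent x) (N : ℕ) :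
    prSeq p n φ x N = ((p ^ N : ℕ) • root φ hx N).val := by
  rw [Haz.nsmul_val, prSeq, Nat.cast_pow]
  rfl

theorem prSeq_zero {x : intRing Ω} (hx : IsTopologicallyNilpotent x) : prSeq p n φ x 0 = x := by
  rw [prSeq_eq hx, pow_zero, one_smul]
  exact intRoot_of_pow (k := 0) (p := p) rfl (by simp)

theorem norm_prSeq_succ_sub (hn : n ≠ 0) {x : intRing Ω} (hx : IsTopologicallyNilpotent x)
    (N : ℕ) :
    ‖(prSeq p n φ x (N + 1) : Ω) - prSeq p n φ x N‖ ≤ kap φ ^ p ^ N := by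
  rw [prSeq_eq hx, prSeq_eq hx, pow_succ p N, mul_smul]
  refine norm_pPow_smul_sub_of_le N ?_
  have h : (root φ hx N).val = (root φ hx (N + 1)).val ^ p ^ n := by
    refine intRoot_of_pow (qpow N) ?_
    rw [root, ← pow_mul, ← pow_succ']
    exact intRoot_pow (pow_ne_zero _ (pow_ne_zero _ hp.out.ne_zero)) x
  rw [h, SubmonoidClass.coe_pow]
  exact norm_p_smul_sub_pow hn _

include hφ

theorem kap_pow_antitone {N M : ℕ} (h : N ≤ M) : kap φ ^ p ^ M ≤ kap φ ^ p ^ N :=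
  pow_le_pow_of_le_one (kap_nonneg φ) (kap_lt_one hφ).le (Nat.pow_le_pow_right hp.out.pos h)

theorem tendsto_kap_pow : Tendsto (fun N ↦ kap φ ^ p ^ N) atTop (𝓝 0) :=
  (tendsto_pow_atTop_nhds_zero_of_lt_one (kap_nonneg φ) (kap_lt_one hφ)).comp
    (tendsto_pow_atTop_atTop_of_one_lt hp.out.one_lt)

theorem tendsto_prSeq (hn : n ≠ 0) {x : intRing Ω} (hx : IsTopologicallyNilpotent x) :
    Tendsto (prSeq p n φ x) atTop (𝓝 (prLim p n φ x)) := by
  refine tendsto_nhds_limUnder ?_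
  have hc : CauchySeq fun N ↦ (prSeq p n φ x N : Ω) :=
    cauchySeq_of_tendsto_succ (squeeze_zero_norm (norm_prSeq_succ_sub hn hx) (tendsto_kap_pow hφ))
  obtain ⟨l, hl⟩ := cauchySeq_tendsto_of_complete hc
  exact ⟨⟨l, le_of_tendsto' hl.norm fun N ↦ mem_intRing.mp (Subtype.prop _)⟩,
    tendsto_subtype_rng.mpr hl⟩

theorem norm_prSeq_sub_prLim (hn : n ≠ 0) {x : intRing Ω} (hx : IsTopologicallyNilpotent x)
    (N : ℕ) : ‖(prSeq p n φ x N : Ω) - prLim p n φ x‖ ≤ kap φ ^ p ^ N := by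
  have hM : ∀ M, N ≤ M → ‖(prSeq p n φ x N : Ω) - prSeq p n φ x M‖ ≤ kap φ ^ p ^ N := by
    intro M hM
    induction M, hM using Nat.le_induction with
    | base => simpa using pow_nonneg (kap_nonneg φ) _
    | succ M hNM ih =>
      refine (norm_sub_le_mid (prSeq p n φ x N : Ω) (prSeq p n φ x M) _).trans (max_le ih ?_)
      rw [norm_sub_rev]
      exact (norm_prSeq_succ_sub hn hx M).trans (kap_pow_antitone hφ hNM)
  exact le_of_tendsto ((tendsto_const_nhds.sub
    ((continuous_subtype_val.tendsto _).comp (tendsto_prSeq hφ hn hx))).norm)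
    (eventually_atTop.mpr ⟨N, hM⟩)

theorem norm_prLim_sub_self (hn : n ≠ 0) {x : intRing Ω} (hx : IsTopologicallyNilpotent x) :
    ‖(prLim p n φ x : Ω) - x‖ ≤ kap φ := by
  have h := norm_prSeq_sub_prLim hφ hn hx 0
  rwa [prSeq_zero hx, pow_zero, pow_one, norm_sub_rev] at h

theorem prLim_small (hn : n ≠ 0) {x : intRing Ω} (hx : IsTopologicallyNilpotent x) :
    IsTopologicallyNilpotent (prLim p n φ x) := by
  rw [isTopologicallyNilpotent_intRing]
  calc ‖(prLim p n φ x : Ω)‖ = ‖((prLim p n φ x : Ω) - x) + x‖ := by rw [sub_add_cancel]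
    _ ≤ max ‖(prLim p n φ x : Ω) - x‖ ‖(x : Ω)‖ := IsUltrametricDist.norm_add_le_max _ _
    _ < 1 := max_lt ((norm_prLim_sub_self hφ hn hx).trans_lt (kap_lt_one hφ)) (norm_lt_one hx)

omit hφ in
theorem honda_pPow_val (hn : n ≠ 0) (a : Haz.Pt p (zeroSpec n (intRing Ω))) (N : ℕ) :
    ((p ^ N : ℕ) • a).val = a.val ^ (p ^ n) ^ N := by
  induction N with
  | zero => simp
  | succ N ih =>
    rw [pow_succ' p N, mul_smul, Haz.nsmul_val, honda_p natCast_p hn,
      ev_pow (fun _ ↦ (p ^ N • a).small), ev_X, ih, ← pow_mul, ← pow_succ]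

/-- The cover map as a homomorphism. -/
def prHom (hn : n ≠ 0) : Haz.Pt p (zeroSpec n (intRing Ω)) →+ Haz.Pt p φ :=
  AddMonoidHom.mk' (fun x ↦ ⟨prLim p n φ x.val, prLim_small hφ hn x.small⟩) <| by
    intro x y
    refine Haz.Pt.ext (Subtype.ext ?_)
    rw [← sub_eq_zero, ← norm_le_zero_iff]
    refine ge_of_tendsto' (tendsto_kap_pow hφ) fun N ↦ ?_
    set a := root φ x.small N with ha
    set b := root φ y.small N with hb
    have hq0 : (p ^ n) ^ N ≠ 0 := pow_ne_zero _ (pow_ne_zero _ hp.out.ne_zero)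
    let aΓ : Haz.Pt p (zeroSpec n (intRing Ω)) := ⟨a.val, a.small⟩
    let bΓ : Haz.Pt p (zeroSpec n (intRing Ω)) := ⟨b.val, b.small⟩
    have haN : (p ^ N : ℕ) • aΓ = x := Haz.Pt.ext <| by
      rw [honda_pPow_val hn]; exact intRoot_pow hq0 _
    have hbN : (p ^ N : ℕ) • bΓ = y := Haz.Pt.ext <| by
      rw [honda_pPow_val hn]; exact intRoot_pow hq0 _
    have hr : (root φ (x + y).small N).val = (aΓ + bΓ).val := by
      refine intRoot_of_pow (qpow N) ?_
      rw [← honda_pPow_val hn, smul_add, haN, hbN]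
    have h1 : ‖(prSeq p n φ (x + y).val N : Ω) - ((p ^ N • (a + b)).val : Ω)‖ ≤ kap φ ^ p ^ N := by
      rw [prSeq_eq (x + y).small]
      refine norm_pPow_smul_sub_of_le N ?_
      rw [hr, norm_sub_rev]
      exact norm_ev_map_sub _ (Haz.isSmall_pair a.small b.small)
    let px : Haz.Pt p φ := ⟨prLim p n φ x.val, prLim_small hφ hn x.small⟩
    let py : Haz.Pt p φ := ⟨prLim p n φ y.val, prLim_small hφ hn y.small⟩
    have h2 : ‖((p ^ N • (a + b)).val : Ω) - ((px + py).val : Ω)‖ ≤ kap φ ^ p ^ N := by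
      rw [smul_add]
      refine (norm_add_val_sub _ _ _ _).trans (max_le ?_ ?_)
      · rw [ha, ← prSeq_eq x.small]
        exact norm_prSeq_sub_prLim hφ hn x.small N
      · rw [hb, ← prSeq_eq y.small]
        exact norm_prSeq_sub_prLim hφ hn y.small N
    refine (norm_sub_le_mid (prLim p n φ (x + y).val : Ω) (prSeq p n φ (x + y).val N) _).trans
      (max_le ?_ ((norm_sub_le_mid _ ((p ^ N • (a + b)).val : Ω) _).trans (max_le h1 h2)))
    rw [norm_sub_rev]
    exact norm_prSeq_sub_prLim hφ hn (x + y).small N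

theorem prHom_val (hn : n ≠ 0) (x : Haz.Pt p (zeroSpec n (intRing Ω))) :
    (prHom hφ hn x).val = prLim p n φ x.val := rfl

theorem prHom_pow (hn : n ≠ 0) (x x' : Haz.Pt p (zeroSpec n (intRing Ω)))
    (h : x'.val = x.val ^ p ^ n) : prHom hφ hn x' = p • prHom hφ hn x := by
  have hx' : x' = p • x := Haz.Pt.ext <| by
    have h1 := honda_pPow_val hn x 1
    rw [pow_one, pow_one] at h1
    rw [h1, h]
  rw [hx', map_nsmul]

omit hφ in
/-- Multiplication by `p` is surjective on points. -/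
theorem exists_p_smul_eq (hn : n ≠ 0) (hφ : ∀ i, ‖(φ (MvPolynomial.X i) : Ω)‖ < 1)
    (z : Haz.Pt p φ) : ∃ w : Haz.Pt p φ, p • w = z := by
  classical
  set f : PowerSeries (intRing Ω) :=
    MvPowerSeries.map φ (Haz.mulSeries p n (p : ℤ)) - MvPowerSeries.C z.val with hf
  have key : ∀ m, ‖((PowerSeries.coeff m f : intRing Ω) : Ω)
      - (if m = p ^ n then 1 else 0)‖ ≤ max (kap φ) ‖(z.val : Ω)‖ := by
    intro m
    have hc : PowerSeries.coeff m f =
        φ (coeff (Finsupp.single () m) (Haz.mulSeries p n (p : ℤ))) -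
          (if m = 0 then z.val else 0) := by
      rw [PowerSeries.coeff, hf, map_sub, MvPowerSeries.coeff_map, MvPowerSeries.coeff_C]
      simp
    have hz : zeroSpec n (intRing Ω) (coeff (Finsupp.single () m) (Haz.mulSeries p n (p : ℤ))) =
        if m = p ^ n then 1 else 0 := by
      rw [← MvPowerSeries.coeff_map, honda_p natCast_p hn, coeff_X_pow]
      simp
    have h1 : ‖(φ (coeff (Finsupp.single () m) (Haz.mulSeries p n (p : ℤ))) : Ω)
        - ((if m = p ^ n then 1 else 0 : intRing Ω) : Ω)‖ ≤ kap φ := by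
      rw [← hz]; exact phi_sub_zeroSpec _
    rw [hc, AddSubgroupClass.coe_sub]
    have e : ((if m = p ^ n then 1 else 0 : intRing Ω) : Ω) =
        (if m = p ^ n then 1 else 0 : Ω) := by split_ifs <;> simp
    rw [e] at h1
    rw [sub_right_comm, sub_eq_add_neg]
    refine (IsUltrametricDist.norm_add_le_max _ _).trans (max_le_max h1 ?_)
    rw [norm_neg]
    split_ifs <;> simp
  have hlt : max (kap φ) ‖(z.val : Ω)‖ < 1 := max_lt (kap_lt_one hφ) (norm_lt_one z.small)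
  have hq : 0 < p ^ n := pow_pos hp.out.pos n
  obtain ⟨w, hw, hw0⟩ := exists_root_series f (m := p ^ n) hq
    (by
      have h := key (p ^ n)
      rw [if_pos rfl] at h
      set c := ((PowerSeries.coeff (p ^ n) f : intRing Ω) : Ω)
      calc ‖c‖ = ‖(c - 1) + 1‖ := by rw [sub_add_cancel]
        _ = 1 := by
          rw [IsUltrametricDist.norm_add_eq_max_of_norm_ne_norm
            (by rw [norm_one]; exact (h.trans_lt hlt).ne), norm_one, max_eq_right (h.trans hlt.le)])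
    (fun i hi ↦ by simpa [hi.ne] using (key i).trans_lt hlt)
  refine ⟨⟨w, isTopologicallyNilpotent_intRing.mpr hw⟩, Haz.Pt.ext ?_⟩
  rw [Haz.nsmul_val, ← sub_eq_zero, ← ev_C (fun _ : Unit ↦ w) z.val,
    ← ev_sub (fun _ ↦ isTopologicallyNilpotent_intRing.mpr hw)]
  exact hw0

/-- A compatible chain of points comes from the universal cover. -/
theorem exists_cover (hn : n ≠ 0) (z : ℕ → Haz.Pt p φ) (hz : ∀ N, p • z (N + 1) = z N) :
    ∃ x : Haz.Pt p (zeroSpec n (intRing Ω)), prHom hφ hn x = z 0 := by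
  set s : ℕ → Ω := fun N ↦ ((z N).val : Ω) ^ (p ^ n) ^ N with hs
  have hd : ∀ N, ‖s (N + 1) - s N‖ ≤ kap φ ^ (p ^ n) ^ N := by
    intro N
    simp only [hs]
    rw [← hz N, pow_succ' (p ^ n) N, pow_mul, qpow, ← sub_pow_char_pow, norm_pow, norm_sub_rev]
    exact pow_le_pow_left₀ (norm_nonneg _) (norm_p_smul_sub_pow hn _) _
  have hq1 : 1 < p ^ n := Nat.one_lt_pow hn hp.out.one_lt
  have hanti : ∀ {N M : ℕ}, N ≤ M → kap φ ^ (p ^ n) ^ M ≤ kap φ ^ (p ^ n) ^ N := fun h ↦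
    pow_le_pow_of_le_one (kap_nonneg φ) (kap_lt_one hφ).le
      (Nat.pow_le_pow_right (by omega) h)
  obtain ⟨l, hl⟩ := cauchySeq_tendsto_of_complete (cauchySeq_of_tendsto_succ (r := s)
    (squeeze_zero_norm hd
      ((tendsto_pow_atTop_nhds_zero_of_lt_one (kap_nonneg φ) (kap_lt_one hφ)).comp
        (tendsto_pow_atTop_atTop_of_one_lt hq1))))
  have hlN : ∀ N, ‖s N - l‖ ≤ kap φ ^ (p ^ n) ^ N := by
    intro N
    have hM : ∀ M, N ≤ M → ‖s N - s M‖ ≤ kap φ ^ (p ^ n) ^ N := by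
      intro M hM
      induction M, hM using Nat.le_induction with
      | base => simpa using pow_nonneg (kap_nonneg φ) _
      | succ M hNM ih =>
        refine (norm_sub_le_mid (s N) (s M) _).trans (max_le ih ?_)
        rw [norm_sub_rev]
        exact (hd M).trans (hanti hNM)
    exact le_of_tendsto ((tendsto_const_nhds.sub hl).norm) (eventually_atTop.mpr ⟨N, hM⟩)
  have hl1 : ‖l‖ < 1 := by
    have h0 := hlN 0
    simp only [hs, pow_zero, pow_one] at h0
    calc ‖l‖ = ‖(l - (z 0).val) + ((z 0).val : Ω)‖ := by rw [sub_add_cancel]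
      _ ≤ max ‖l - (z 0).val‖ ‖((z 0).val : Ω)‖ := IsUltrametricDist.norm_add_le_max _ _
      _ < 1 := max_lt (by rw [norm_sub_rev]; exact h0.trans_lt (kap_lt_one hφ))
        (norm_lt_one (z 0).small)
  let x : Haz.Pt p (zeroSpec n (intRing Ω)) :=
    ⟨⟨l, hl1.le⟩, isTopologicallyNilpotent_intRing.mpr hl1⟩
  refine ⟨x, Haz.Pt.ext (Subtype.ext ?_)⟩
  rw [← sub_eq_zero, ← norm_le_zero_iff]
  refine ge_of_tendsto' (tendsto_kap_pow hφ) fun N ↦ ?_
  have hq0 : (p ^ n) ^ N ≠ 0 := pow_ne_zero _ (pow_ne_zero _ hp.out.ne_zero)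
  have hzN : ∀ M, (p ^ M : ℕ) • z M = z 0 := by
    intro M
    induction M with
    | zero => simp
    | succ M ih => rw [pow_succ, mul_smul, hz, ih]
  have hclose : ‖((root φ x.small N).val : Ω) - (z N).val‖ ≤ kap φ := by
    refine (pow_le_pow_iff_left₀ (norm_nonneg _) (kap_nonneg φ) hq0).mp ?_
    rw [qpow, ← norm_sub_pow_char]
    rw [← qpow, ← SubmonoidClass.coe_pow]
    have : (root φ x.small N).val ^ (p ^ n) ^ N = x.val := intRoot_pow hq0 _
    rw [this, norm_sub_rev]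
    exact hlN N
  refine (norm_sub_le_mid (prLim p n φ x.val : Ω) (prSeq p n φ x.val N) _).trans (max_le ?_ ?_)
  · rw [norm_sub_rev]
    exact norm_prSeq_sub_prLim hφ hn x.small N
  · rw [prSeq_eq x.small, ← hzN N]
    exact norm_pPow_smul_sub_of_le N hclose

/-- Every point starts a compatible chain. -/
theorem exists_chain (hn : n ≠ 0) (z : Haz.Pt p φ) :
    ∃ c : ℕ → Haz.Pt p φ, c 0 = z ∧ ∀ N, p • c (N + 1) = c N := by
  choose w hw using exists_p_smul_eq (p := p) hn hφ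
  exact ⟨fun N ↦ w^[N] z, rfl, fun N ↦ by simp only [Function.iterate_succ_apply', hw]⟩

theorem prHom_surjective (hn : n ≠ 0) : Function.Surjective (prHom (p := p) hφ hn) := by
  intro z
  obtain ⟨c, hc0, hc⟩ := exists_chain hφ hn z
  obtain ⟨x, hx⟩ := exists_cover hφ hn c hc
  exact ⟨x, hx.trans hc0⟩

end point

end Torsion

variable {p n : ℕ} [Fact p.Prime]
  {Ω : Type} [NontriviallyNormedField Ω] [IsUltrametricDist Ω] [GoodField p Ω]

theorem prSeq_tendsto (hn : n ≠ 0) (φ : Haz.A n →+* intRing Ω)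
    (hφ : ∀ i, ‖(φ (MvPolynomial.X i) : Ω)‖ < 1) :
    ∀ r : ℝ, r < 1 → ∀ ε : ℝ, 0 < ε → ∀ᶠ N in atTop, ∀ x : intRing Ω,
      ‖(x : Ω)‖ ≤ r → ‖((prSeq p n φ x N - prLim p n φ x : intRing Ω) : Ω)‖ ≤ ε := by
  intro r hr ε hε
  filter_upwards [(Torsion.tendsto_kap_pow (p := p) hφ).eventually_le_const hε] with N hN x hx
  rw [AddSubgroupClass.coe_sub]
  exact (Torsion.norm_prSeq_sub_prLim hφ hn
    (isTopologicallyNilpotent_intRing.mpr (hx.trans_lt hr)) N).trans hN

theorem exists_prHom (hn : n ≠ 0) (φ : Haz.A n →+* intRing Ω)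
    (hφ : ∀ i, ‖(φ (MvPolynomial.X i) : Ω)‖ < 1) :
    ∃ pr : Haz.Pt p (zeroSpec n (intRing Ω)) →+ Haz.Pt p φ,
      (∀ x, (pr x).val = prLim p n φ x.val) ∧
      (∀ x x', x'.val = x.val ^ p ^ n → pr x' = p • pr x) ∧ Function.Surjective pr :=
  ⟨Torsion.prHom hφ hn, Torsion.prHom_val hφ hn, Torsion.prHom_pow hφ hn,
    Torsion.prHom_surjective hφ hn⟩

end Vale.Agent.P217
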