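import Vale.Agent.P217.Shared
import Vale.Agent.P217.Heights
import Vale.Agent.P217.Torsion
import Vale.Agent.P217.CurveSel
import Vale.Agent.P217.Subgroup

/-!
The action of `X +_Γ [p^M]δ` on a point and on the kernel of the cover map.
-/

noncomputable section

open Filter MvPowerSeries
open scoped MvPowerSeries.WithPiTopology Topology

namespace Vale.Agent.P217

variable {p n : ℕ} [Fact p.Prime]

theorem coeff_zero_of_mem_maximalIdeal {f : LTRing p n}
    (hf : f ∈ IsLocalRing.maximalIdeal (LTRing p n)) : resLT p n f = 0 := by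
  rw [IsLocalRing.mem_maximalIdeal, mem_nonunits_iff, MvPowerSeries.isUnit_iff_constantCoeff] at hf
  show WittVector.coeff (MvPowerSeries.constantCoeff f) 0 = 0
  by_contra h0
  exact hf (WittVector.isUnit_of_coeff_zero_ne_zero _ h0)

variable {Ω : Type} [NontriviallyNormedField Ω] [IsUltrametricDist Ω] [GoodField p Ω]

/-- A point approximates the residue map. -/
theorem norm_chi_sub_res_le (ι : GaloisField p n →+* intRing Ω) {a : Fin (n - 1) → intRing Ω}
    (ha : IsSmall a) {c : ℝ} (hc0 : 0 ≤ c) (hc : ∀ i, ‖(a i : Ω)‖ ≤ c) (f : LTRing p n) :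
    ‖((chi (ι.comp WittVector.constantCoeff) ha f : intRing Ω) : Ω) - (ι (resLT p n f) : Ω)‖
      ≤ c := by
  set F := MvPowerSeries.map (ι.comp WittVector.constantCoeff) f
  have h0 : ev F (fun _ ↦ (0 : intRing Ω)) = ι (resLT p n f) := by
    rw [ev_at_zero, MvPowerSeries.constantCoeff_map]
    rfl
  rw [chi_apply, ← h0]
  exact Torsion.norm_ev_sub_le F ha (fun _ ↦ IsTopologicallyNilpotent.zero) hc0
    fun i ↦ by simpa using hc i

theorem norm_chi_le_pow
    (ι : GaloisField p n →+* intRing Ω) {a : Fin (n - 1) → intRing Ω} (ha : IsSmall a)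
    {c : ℝ} (hc0 : 0 ≤ c) (hc : ∀ i, ‖(a i : Ω)‖ ≤ c) (r : ℕ) {f : LTRing p n}
    (hf : f ∈ IsLocalRing.maximalIdeal (LTRing p n) ^ r) :
    ‖((chi (ι.comp WittVector.constantCoeff) ha f : intRing Ω) : Ω)‖ ≤ c ^ r := by
  induction r generalizing f with
  | zero => rw [pow_zero]; exact mem_intRing.mp (Subtype.prop _)
  | succ r ih =>
    rw [pow_succ] at hf
    refine Submodule.mul_induction_on hf (fun y hy z hz ↦ ?_) fun y z hy hz ↦ ?_
    · have h := norm_chi_sub_res_le ι ha hc0 hc z
      rw [coeff_zero_of_mem_maximalIdeal hz, map_zero, ZeroMemClass.coe_zero, sub_zero] at h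
      rw [map_mul, MulMemClass.coe_mul, norm_mul, pow_succ]
      exact mul_le_mul (ih hy) h (norm_nonneg _) (by positivity)
    · rw [map_add, AddMemClass.coe_add]
      exact (IsUltrametricDist.norm_add_le_max _ _).trans (max_le hy hz)

/-- Evaluation commutes with Frobenius. -/
theorem ev_pow_prime_pow (F : PowerSeries (intRing Ω)) {k : ℕ}
    (hF : ∀ m, PowerSeries.coeff m F ^ p ^ k = PowerSeries.coeff m F) {z : intRing Ω}
    (hz : IsTopologicallyNilpotent z) :
    ev F (fun _ : Unit ↦ z) ^ p ^ k = ev F fun _ : Unit ↦ z ^ p ^ k := by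
  have : CharP Ω p := GoodField.charP
  have hc : CharP (intRing Ω) p :=
    (RingHom.charP_iff (intRing Ω).subtype Subtype.val_injective p).mpr inferInstance
  have : ExpChar (intRing Ω) p := ExpChar.prime Fact.out
  have hcont : Continuous (iterateFrobenius (intRing Ω) p k) := by
    have e : ⇑(iterateFrobenius (intRing Ω) p k) = fun x ↦ x ^ p ^ k :=
      funext (iterateFrobenius_def p k)
    rw [e]
    exact continuous_pow _
  have h := map_ev (fun _ : Unit ↦ hz) hcont F
  rw [iterateFrobenius_def] at h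
  refine h.trans ?_
  congr 1
  refine MvPowerSeries.ext fun d ↦ ?_
  rw [coeff_map, iterateFrobenius_def]
  have := hF (d ())
  rwa [PowerSeries.coeff, show Finsupp.single () (d ()) = d from
    Finsupp.ext fun u ↦ by simp] at this

theorem galoisField_pow (hn : n ≠ 0) (c : GaloisField p n) : c ^ p ^ n = c := by
  have h := GaloisField.card p n hn
  have : Fintype (GaloisField p n) := Fintype.ofFinite _
  rw [Nat.card_eq_fintype_card] at h
  rw [← h]
  exact FiniteField.pow_card c

theorem galoisField_pow_mul (hn : n ≠ 0) (c : GaloisField p n) (N : ℕ) :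
    c ^ p ^ (n * N) = c := by
  induction N with
  | zero => simp
  | succ N ih => rw [Nat.mul_succ, pow_add, pow_mul, ih, galoisField_pow hn]

theorem orbit_relation (hn : n ≠ 0)
    (ι : GaloisField p n →+* intRing Ω) {a : Fin (n - 1) → intRing Ω} (ha : IsSmall a)
    (φ : LTRing p n ≃+* LTRing p n) (hW : ∀ w, φ (MvPowerSeries.C w) = MvPowerSeries.C w)
    (θ : PowerSeries (LTRing p n))
    (hθ : IsFGIso (lawLT p n) ((lawLT p n).map φ.toRingHom) θ)
    (δ : PowerSeries (GaloisField p n))
    (hδ : IsFGHom (honda p n (GaloisField p n)) (honda p n (GaloisField p n)) δ)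
    {M : ℕ} (_hM : M ≠ 0) (hred : θ.map (resLT p n) = gSeries p n δ M) :
    ∃ hb : IsSmall (fun i ↦ chi (ι.comp WittVector.constantCoeff) ha (φ (MvPowerSeries.X i))),
      (∀ f, chi (ι.comp WittVector.constantCoeff) hb f =
        chi (ι.comp WittVector.constantCoeff) ha (φ f)) ∧
      ∀ x : intRing Ω, ‖(x : Ω)‖ < 1 → prLim p n (pointHom a) x = 0 →
        ∀ u u' : Haz.Pt p (pointHom (n := n)
            fun i ↦ chi (ι.comp WittVector.constantCoeff) ha (φ (MvPowerSeries.X i))),
          u.val = prLim p n (pointHom fun i ↦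
              chi (ι.comp WittVector.constantCoeff) ha (φ (MvPowerSeries.X i))) x →
          u'.val = prLim p n (pointHom fun i ↦
              chi (ι.comp WittVector.constantCoeff) ha (φ (MvPowerSeries.X i)))
              (ev (MvPowerSeries.map ι δ) fun _ ↦ x) →
          u + p ^ M • u' = 0 := by
  set χ := chi (ι.comp WittVector.constantCoeff) ha
  set b := fun i ↦ χ (φ (MvPowerSeries.X i))
  have han : ∀ i, ‖(pointHom (n := n) a (MvPolynomial.X i) : Ω)‖ < 1 := fun i ↦ by
    simpa [pointHom] using isTopologicallyNilpotent_intRing.mp (ha i)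
  set κa := Torsion.kap (pointHom (n := n) a)
  have hκa0 : 0 ≤ κa := Torsion.kap_nonneg _
  have hκa1 : κa < 1 := Torsion.kap_lt_one han
  have hκa : ∀ i, ‖(a i : Ω)‖ ≤ κa := fun i ↦ by
    have h := Torsion.norm_X_le_kap (pointHom (n := n) a) i
    rwa [show pointHom (n := n) a (MvPolynomial.X i) = a i from
      MvPolynomial.eval₂Hom_X' _ _ i] at h
  have hXm : ∀ i, MvPowerSeries.X i ∈ IsLocalRing.maximalIdeal (LTRing p n) := fun i ↦ by
    rw [IsLocalRing.mem_maximalIdeal, mem_nonunits_iff, MvPowerSeries.isUnit_iff_constantCoeff,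
      MvPowerSeries.constantCoeff_X]
    exact not_isUnit_zero
  have hφm : ∀ i, φ (MvPowerSeries.X i) ∈ IsLocalRing.maximalIdeal (LTRing p n) := fun i hu ↦
    (show ¬ IsUnit (MvPowerSeries.X i : LTRing p n) from hXm i) (by
      have := IsUnit.map φ.symm (show IsUnit (φ (MvPowerSeries.X i)) from hu)
      rwa [RingEquiv.symm_apply_apply] at this)
  have hbκ : ∀ i, ‖(b i : Ω)‖ ≤ κa := fun i ↦ by
    have h := norm_chi_le_pow ι ha hκa0 hκa 1 (f := φ (MvPowerSeries.X i))
      (by rw [pow_one]; exact hφm i)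
    rwa [pow_one] at h
  have hb : IsSmall b := fun i ↦ isTopologicallyNilpotent_intRing.mpr ((hbκ i).trans_lt hκa1)
  have hchi : ∀ f, chi (ι.comp WittVector.constantCoeff) hb f = χ (φ f) := by
    intro f
    have h := hom_eq_ev (χ.comp φ.toRingHom)
      (fun i ↦ isTopologicallyNilpotent_intRing.mp (hb i)) f
    rw [chi_apply]
    refine Eq.trans ?_ h.symm
    congr 1
    refine MvPowerSeries.ext fun d ↦ ?_
    simp only [coeff_map, RingHom.comp_apply, RingEquiv.toRingHom_eq_coe, RingEquiv.coe_toRingHom,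
      hW, χ, chi_apply, MvPowerSeries.map_C, ev_C]
  refine ⟨hb, hchi, fun x hx hx0 u u' hu hu' ↦ ?_⟩
  have hbn : ∀ i, ‖(pointHom (n := n) b (MvPolynomial.X i) : Ω)‖ < 1 := fun i ↦ by
    simpa [pointHom] using isTopologicallyNilpotent_intRing.mp (hb i)
  have hxs : IsTopologicallyNilpotent x := isTopologicallyNilpotent_intRing.mpr hx
  -- the isomorphism on points
  have hFa : ((lawLT p n).map χ) = (Haz.law p n).map (pointHom a) := by
    refine FormalGroup.ext ?_
    rw [FormalGroup.map_toPowerSeries, lawLT, FormalGroup.map_toPowerSeries,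
      MvPowerSeries.map_map, chi_comp_toLT, FormalGroup.map_toPowerSeries]
  have hFb : (((lawLT p n).map φ.toRingHom).map χ) = (Haz.law p n).map (pointHom b) := by
    refine FormalGroup.ext ?_
    rw [FormalGroup.map_toPowerSeries, FormalGroup.map_toPowerSeries, lawLT,
      FormalGroup.map_toPowerSeries, MvPowerSeries.map_map, MvPowerSeries.map_map,
      ← chi_comp_toLT (ι.comp WittVector.constantCoeff) hb, FormalGroup.map_toPowerSeries]
    congr 2
    refine RingHom.ext fun r ↦ ?_
    exact (hchi _).symm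
  have hθa : IsFGHom ((Haz.law p n).map (pointHom a)) ((Haz.law p n).map (pointHom b))
      (PowerSeries.map χ θ) := by
    have h := IsFGHom.map (⟨hθ.1, hθ.2.2⟩ :
      IsFGHom (lawLT p n) ((lawLT p n).map φ.toRingHom) θ) χ
    rwa [hFa, hFb] at h
  let Θ := ptHom (pointHom a) (pointHom b) (PowerSeries.map χ θ) hθa
  -- the reduced series and its values
  set g : PowerSeries (intRing Ω) := MvPowerSeries.map ι (gSeries p n δ M)
  have hgθ : ∀ (z : intRing Ω), IsTopologicallyNilpotent z →
      ‖((ev (PowerSeries.map χ θ) (fun _ : Unit ↦ z) : intRing Ω) : Ω)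
        - ((ev g (fun _ : Unit ↦ z) : intRing Ω) : Ω)‖ ≤ κa := by
    intro z hz
    rw [← AddSubgroupClass.coe_sub, ← ev_sub fun _ ↦ hz]
    refine Torsion.norm_ev_le _ (fun _ ↦ hz) hκa0 fun e ↦ ?_
    rw [map_sub, AddSubgroupClass.coe_sub]
    have he : coeff e g = ι (resLT p n (coeff e θ)) := by
      show coeff e (MvPowerSeries.map ι (gSeries p n δ M)) = _
      rw [← hred]
      rfl
    rw [he]
    exact norm_chi_sub_res_le ι ha hκa0 hκa _
  have hgpow : ∀ N (z : intRing Ω), IsTopologicallyNilpotent z →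
      ev g (fun _ : Unit ↦ z) ^ (p ^ n) ^ N = ev g fun _ : Unit ↦ z ^ (p ^ n) ^ N := by
    intro N z hz
    rw [Torsion.qpow]
    refine ev_pow_prime_pow g (fun m ↦ ?_) hz
    show PowerSeries.coeff m (PowerSeries.map ι (gSeries p n δ M)) ^ _ = _
    rw [PowerSeries.coeff_map, ← map_pow, galoisField_pow_mul hn]
    exact (PowerSeries.coeff_map ι _ _).symm
  have hg0 : PowerSeries.constantCoeff (gSeries p n δ M) = 0 := by
    refine constantCoeff_subst_pair PowerSeries.constantCoeff_X ?_
      (honda p n (GaloisField p n)).zero_constantCoeff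
    rw [map_pow]
    exact (congrArg (· ^ _) (show MvPowerSeries.constantCoeff δ = 0 from hδ.1)).trans
      (zero_pow (pow_ne_zero _ (pow_ne_zero _ (Fact.out : p.Prime).ne_zero)))
  have hgsmall : ∀ {z : intRing Ω}, IsTopologicallyNilpotent z →
      IsTopologicallyNilpotent (ev g fun _ : Unit ↦ z) := fun {z} hz ↦ by
    refine ev_small (fun _ ↦ hz) ?_
    rw [MvPowerSeries.constantCoeff_map, show MvPowerSeries.constantCoeff (gSeries p n δ M) = 0
      from hg0, map_zero]
    exact IsTopologicallyNilpotent.zero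
  set gx := ev g fun _ : Unit ↦ x
  have hgx : IsTopologicallyNilpotent gx := hgsmall hxs
  have hroot : ∀ N, (Torsion.root (p := p) (pointHom (n := n) b) hgx N).val =
      ev g fun _ : Unit ↦ (Torsion.root (p := p) (pointHom (n := n) a) hxs N).val := by
    intro N
    refine Torsion.intRoot_of_pow (p := p) (Torsion.qpow N) ?_
    rw [hgpow N _ (Torsion.root (p := p) (pointHom (n := n) a) hxs N).small]
    congr 1
    funext _
    exact intRoot_pow (pow_ne_zero _ (pow_ne_zero _ (Fact.out : p.Prime).ne_zero)) x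
  have hstep : ∀ N, ‖((Θ (p ^ N • Torsion.root (pointHom (n := n) a) hxs N)).val : Ω)
      - (prSeq p n (pointHom b) gx N : Ω)‖ ≤ κa ^ p ^ N := by
    intro N
    rw [map_nsmul, Torsion.prSeq_eq hgx]
    refine (Torsion.norm_pPow_smul_sub N _ _).trans (pow_le_pow_left₀ (norm_nonneg _) ?_ _)
    rw [ptHom_val, hroot]
    exact hgθ _ (Torsion.root (p := p) (pointHom (n := n) a) hxs N).small
  have hprb : prLim p n (pointHom b) gx = 0 := by
    set κ := max κa (Torsion.kap (pointHom (n := n) b))
    have hκ0 : 0 ≤ κ := le_max_of_le_left hκa0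
    have hlim : Tendsto (fun N ↦ κ ^ p ^ N) atTop (𝓝 0) :=
      (tendsto_pow_atTop_nhds_zero_of_lt_one hκ0 (max_lt hκa1 (Torsion.kap_lt_one hbn))).comp
        (tendsto_pow_atTop_atTop_of_one_lt (Fact.out : p.Prime).one_lt)
    refine Subtype.ext (norm_le_zero_iff.mp ?_)
    refine ge_of_tendsto' hlim fun N ↦ ?_
    have h1 := Torsion.norm_prSeq_sub_prLim hbn hn hgx N
    have h2 := hstep N
    have h3 := Torsion.norm_prSeq_sub_prLim han hn hxs N
    rw [hx0, ZeroMemClass.coe_zero, sub_zero, Torsion.prSeq_eq hxs] at h3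
    set P := p ^ N • Torsion.root (pointHom (n := n) a) hxs N
    have h4 : ‖((Θ P).val : Ω)‖ ≤ κa ^ p ^ N := by
      refine le_trans ?_ h3
      have := Torsion.norm_ev_sub_le (PowerSeries.map χ θ) (a := fun _ : Unit ↦ P.val)
        (b := fun _ ↦ 0) (fun _ ↦ P.small) (fun _ ↦ IsTopologicallyNilpotent.zero)
        (norm_nonneg (P.val : Ω)) (fun _ ↦ by simp)
      rw [ev_at_zero, show MvPowerSeries.constantCoeff (PowerSeries.map χ θ) = 0 from hθa.1,
        ZeroMemClass.coe_zero, sub_zero] at this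
      exact this
    have e : (prLim p n (pointHom b) gx : Ω) = -((prSeq p n (pointHom b) gx N : Ω)
        - prLim p n (pointHom b) gx) + (-(((Θ P).val : Ω) - prSeq p n (pointHom b) gx N)
          + ((Θ P).val : Ω)) := by ring
    rw [e]
    refine (IsUltrametricDist.norm_add_le_max _ _).trans (max_le ?_
      ((IsUltrametricDist.norm_add_le_max _ _).trans (max_le ?_ ?_)))
    · rw [norm_neg]
      exact h1.trans (pow_le_pow_left₀ (Torsion.kap_nonneg _) (le_max_right _ _) _)
    · rw [norm_neg]
      exact h2.trans (pow_le_pow_left₀ hκa0 (le_max_left _ _) _)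
    · exact h4.trans (pow_le_pow_left₀ hκa0 (le_max_left _ _) _)
  -- the Honda side
  have hyn : IsTopologicallyNilpotent (ev (MvPowerSeries.map ι δ) fun _ ↦ x) := by
    refine ev_small (fun _ ↦ hxs) ?_
    rw [MvPowerSeries.constantCoeff_map, show MvPowerSeries.constantCoeff δ = 0 from hδ.1, map_zero]
    exact IsTopologicallyNilpotent.zero
  let X₀ : Haz.Pt p (zeroSpec n (intRing Ω)) := ⟨x, hxs⟩
  let Y₀ : Haz.Pt p (zeroSpec n (intRing Ω)) := ⟨_, hyn⟩
  have hgval : gx = (X₀ + (p ^ M : ℕ) • Y₀).val := by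
    show ev (MvPowerSeries.map ι (gSeries p n δ M)) _ = Haz.addVal p _ _ _
    have h0 : ∀ i, MvPowerSeries.constantCoeff ((![(PowerSeries.X : PowerSeries (GaloisField p n)),
        δ ^ (p ^ n) ^ M] : Fin 2 → PowerSeries (GaloisField p n)) i) = 0 := by
      intro i
      fin_cases i
      · exact PowerSeries.constantCoeff_X
      · show MvPowerSeries.constantCoeff (δ ^ (p ^ n) ^ M) = 0
        rw [map_pow, show MvPowerSeries.constantCoeff δ = 0 from hδ.1,
          zero_pow (pow_ne_zero _ (pow_ne_zero _ (Fact.out : p.Prime).ne_zero))]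
    rw [gSeries, MvPowerSeries.map_subst (hasSubst_of_constantCoeff_zero h0),
      ev_subst (fun i ↦ by rw [MvPowerSeries.constantCoeff_map, h0 i, map_zero]) (fun _ ↦ hxs),
      Haz.addVal]
    congr 1
    · rw [honda, FormalGroup.map_toPowerSeries, MvPowerSeries.map_map]
      congr 2
      apply MvPolynomial.ringHom_ext <;> intro <;> simp [zeroSpec]
    · funext i
      fin_cases i
      · simp [X₀, PowerSeries.X]
      · simp [Torsion.honda_pPow_val hn, Y₀, ev_pow (fun _ : Unit ↦ hxs)]
  have hu0 : u = Torsion.prHom hbn hn X₀ := Haz.Pt.ext hu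
  have hu'0 : u' = Torsion.prHom hbn hn Y₀ := Haz.Pt.ext hu'
  rw [hu0, hu'0, ← map_nsmul, ← map_add]
  refine Haz.Pt.ext ?_
  show prLim p n (pointHom b) (X₀ + (p ^ M : ℕ) • Y₀).val = 0
  rw [← hgval]
  exact hprb

end Vale.Agent.P217
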