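import Vale.Agent.P217.Shared
import Vale.Agent.P217.Heights
import Vale.Agent.P217.Torsion
import Mathlib.FieldTheory.Finite.Basic

/-!
The group traced out by the orbit of a point.
-/

noncomputable section

open Filter MvPowerSeries
open scoped MvPowerSeries.WithPiTopology Topology

namespace Vale.Agent.P217

variable {p n h d : ℕ} [Fact p.Prime]

/-- Multiplication by an integer is an endomorphism of the law over the parameter ring. -/
theorem mulSeries_isFGHom (m : ℤ) :
    IsFGHom (Haz.law p n) (Haz.law p n) (Haz.mulSeries p n m) := by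
  have h0 : PowerSeries.constantCoeff (Haz.mulSeries p n m) = 0 :=
    Haz.constantCoeff_mulSeries p n m
  refine ⟨h0, ?_⟩
  have hX : ∀ i : Fin 2, constantCoeff
      (PowerSeries.subst (X i : MvPowerSeries (Fin 2) (Haz.A n)) (Haz.mulSeries p n m)) = 0 :=
    fun i ↦ constantCoeff_ps_subst (constantCoeff_X i) h0
  have key : ∀ {c : MvPowerSeries (Fin 2) (Haz.A n)}, constantCoeff c = 0 →
      Haz.logOf p n (PowerSeries.subst c (Haz.mulSeries p n m)) = m • Haz.logOf p n c := by
    intro c hc
    have hc' := Haz.constantCoeff_mapK n hc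
    have hm' : PowerSeries.constantCoeff (PowerSeries.map (algebraMap (Haz.A n) (Haz.K n))
        (Haz.mulSeries p n m)) = 0 :=
      Haz.constantCoeff_mapK n (Haz.constantCoeff_mulSeries p n m)
    rw [Haz.logOf, PowerSeries.map_subst (PowerSeries.HasSubst.of_constantCoeff_zero hc),
      ← ps_subst_subst hm' hc']
    have h1 := Haz.logOf_mulSeries p n m
    rw [Haz.logOf, Haz.logOf, MvPowerSeries.map_X] at h1
    rw [show PowerSeries.subst (PowerSeries.map (algebraMap (Haz.A n) (Haz.K n))
      (Haz.mulSeries p n m)) (Haz.setting p n).L = _ from h1,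
      ← PowerSeries.coe_substAlgHom (PowerSeries.HasSubst.of_constantCoeff_zero hc'), map_zsmul,
      PowerSeries.coe_substAlgHom, Haz.logOf]
    congr 2
    exact PowerSeries.X_subst _
  refine Haz.logOf_injective p n (constantCoeff_ps_subst (Haz.law p n).zero_constantCoeff h0)
    (Haz.constantCoeff_fsum p n (hX 0) (hX 1)) ?_
  show _ = Haz.logOf p n (Haz.fsum p n _ _)
  rw [key (Haz.law p n).zero_constantCoeff, Haz.logOf_fsum p n (hX 0) (hX 1),
    key (constantCoeff_X 0), key (constantCoeff_X 1), ← smul_add]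
  congr 1
  rw [← Haz.logOf_fsum p n (constantCoeff_X 0) (constantCoeff_X 1), Haz.fsum,
    show (![X 0, X 1] : Fin 2 → MvPowerSeries (Fin 2) (Haz.A n)) = X from
      funext fun i ↦ by fin_cases i <;> rfl, MvPowerSeries.subst_self, id_eq]

theorem isFGHom_zero {R : Type*} [CommRing R] (F G : FormalGroup R) :
    IsFGHom F G (0 : PowerSeries R) := by
  classical
  refine ⟨map_zero _, ?_⟩
  have h0 : ∀ {τ : Type} (c : MvPowerSeries τ R), constantCoeff c = 0 →
      PowerSeries.subst c (0 : PowerSeries R) = 0 := fun c hc ↦ by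
    rw [← PowerSeries.coe_substAlgHom (PowerSeries.HasSubst.of_constantCoeff_zero hc)]
    exact map_zero (PowerSeries.substAlgHom (PowerSeries.HasSubst.of_constantCoeff_zero hc))
  rw [h0 _ F.zero_constantCoeff, h0 _ (constantCoeff_X 0), h0 _ (constantCoeff_X 1),
    show (![0, 0] : Fin 2 → MvPowerSeries (Fin 2) R) = fun _ ↦ 0 from
      funext fun i ↦ by fin_cases i <;> rfl]
  refine (MvPowerSeries.ext fun e ↦ ?_).symm
  rw [coeff_subst (hasSubst_of_constantCoeff_zero fun _ ↦ map_zero _), map_zero]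
  refine finsum_eq_zero_of_forall_eq_zero fun x ↦ ?_
  by_cases hx : x = 0
  · subst hx
    rw [coeff_zero_eq_constantCoeff_apply, G.zero_constantCoeff, zero_smul]
  · obtain ⟨i, hi⟩ := Finsupp.support_nonempty_iff.mpr hx
    rw [Finsupp.prod, Finset.prod_eq_zero hi (zero_pow (Finsupp.mem_support_iff.mp hi)), map_zero,
      smul_zero]

variable {Ω : Type} [NontriviallyNormedField Ω] [IsUltrametricDist Ω]

theorem map_honda {R S : Type*} [CommRing R] [CommRing S] (f : R →+* S) :
    (honda p n R).map f = honda p n S := by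
  refine FormalGroup.ext ?_
  rw [FormalGroup.map_toPowerSeries, honda, FormalGroup.map_toPowerSeries, MvPowerSeries.map_map,
    honda, FormalGroup.map_toPowerSeries]
  congr 2
  apply MvPolynomial.ringHom_ext <;> intro <;> simp [zeroSpec]

/-- Elements fixed by the `p^n`-th power map come from the residue field. -/
theorem exists_preimage (hn : n ≠ 0) (ι : GaloisField p n →+* intRing Ω) {c : intRing Ω}
    (hc : c ^ p ^ n = c) : ∃ k : GaloisField p n, ι k = c := by
  classical
  have : Fintype (GaloisField p n) := Fintype.ofFinite _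
  have hcard : Fintype.card (GaloisField p n) = p ^ n := by
    rw [← Nat.card_eq_fintype_card]; exact GaloisField.card p n hn
  by_contra hk
  push Not at hk
  have h1 : 1 < p ^ n := Nat.one_lt_pow hn (Fact.out : p.Prime).one_lt
  set P : Polynomial Ω := Polynomial.X ^ p ^ n - Polynomial.X
  have hP : P ≠ 0 := FiniteField.X_pow_card_pow_sub_X_ne_zero Ω hn (Fact.out : p.Prime).one_lt
  have hdeg : P.natDegree = p ^ n :=
    FiniteField.X_pow_card_pow_sub_X_natDegree_eq Ω hn (Fact.out : p.Prime).one_lt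
  let e : GaloisField p n → Ω := fun k ↦ ((ι k : intRing Ω) : Ω)
  have he : Function.Injective e := Subtype.val_injective.comp ι.injective
  have hsub : insert (c : Ω) (Finset.univ.image e) ⊆ P.roots.toFinset := by
    intro z hz
    rw [Multiset.mem_toFinset, Polynomial.mem_roots hP]
    rcases Finset.mem_insert.mp hz with rfl | hz
    · simp [P, ← SubmonoidClass.coe_pow, hc]
    · obtain ⟨k, -, rfl⟩ := Finset.mem_image.mp hz
      have := FiniteField.pow_card k
      rw [hcard] at this
      simp [P, e, ← SubmonoidClass.coe_pow, ← map_pow, this]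
  have hnot : (c : Ω) ∉ Finset.univ.image e := fun h ↦ by
    obtain ⟨k, -, hk'⟩ := Finset.mem_image.mp h
    exact hk k (Subtype.ext hk')
  have h2 := (Finset.card_le_card hsub).trans
    ((Multiset.toFinset_card_le _).trans (P.card_roots'.trans hdeg.le))
  rw [Finset.card_insert_of_notMem hnot, Finset.card_image_of_injective _ he, Finset.card_univ,
    hcard] at h2
  omega

variable [GoodField p Ω]

/-- An endomorphism over the residue field acting on points. -/
def deltaPt (ι : GaloisField p n →+* intRing Ω) {δ : PowerSeries (GaloisField p n)}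
    (hδ : IsFGHom (honda p n (GaloisField p n)) (honda p n (GaloisField p n)) δ) :
    Haz.Pt p (zeroSpec n (intRing Ω)) →+ Haz.Pt p (zeroSpec n (intRing Ω)) :=
  ptHom (zeroSpec n (intRing Ω)) (zeroSpec n (intRing Ω)) (PowerSeries.map ι δ)
    (by have h := IsFGHom.map hδ ι; rwa [map_honda] at h)

theorem deltaPt_val (ι : GaloisField p n →+* intRing Ω) {δ : PowerSeries (GaloisField p n)}
    (hδ : IsFGHom (honda p n (GaloisField p n)) (honda p n (GaloisField p n)) δ)
    (z : Haz.Pt p (zeroSpec n (intRing Ω))) :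
    (deltaPt ι hδ z).val = ev (MvPowerSeries.map ι δ) fun _ ↦ z.val := rfl

theorem deltaPt_add (ι : GaloisField p n →+* intRing Ω) {δ δ' : PowerSeries (GaloisField p n)}
    (hδ : IsFGHom (honda p n (GaloisField p n)) (honda p n (GaloisField p n)) δ)
    (hδ' : IsFGHom (honda p n (GaloisField p n)) (honda p n (GaloisField p n)) δ')
    (z : Haz.Pt p (zeroSpec n (intRing Ω))) :
    deltaPt ι (hδ.add hδ') z = deltaPt ι hδ z + deltaPt ι hδ' z := by
  refine Haz.Pt.ext ?_
  rw [deltaPt_val, Haz.add_val, deltaPt_val, deltaPt_val, Haz.addVal]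
  have h0 := Haz.constantCoeff_pair (show MvPowerSeries.constantCoeff δ = 0 from hδ.1)
    (show MvPowerSeries.constantCoeff δ' = 0 from hδ'.1)
  rw [MvPowerSeries.map_subst (hasSubst_of_constantCoeff_zero h0),
    ev_subst (fun i ↦ by rw [MvPowerSeries.constantCoeff_map, h0 i, map_zero]) (fun _ ↦ z.small)]
  congr 1
  · rw [honda, FormalGroup.map_toPowerSeries, MvPowerSeries.map_map]
    congr 2
    apply MvPolynomial.ringHom_ext <;> intro <;> simp [zeroSpec]
  · funext i
    fin_cases i <;> simp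

theorem exists_orbitGroup (hn : n ≠ 0)
    (ι : GaloisField p n →+* intRing Ω) (φ : Haz.A n →+* intRing Ω)
    (hφ : ∀ i, ‖(φ (MvPolynomial.X i) : Ω)‖ < 1)
    (ψ : PowerSeries (intRing Ω))
    (hψ : IsFGHom ((Haz.law p n).map φ) (honda p h (intRing Ω)) ψ)
    (y : Fin d → Haz.Pt p (zeroSpec n (intRing Ω))) :
    ∃ 𝒳 : AddSubgroup (Fin d → Haz.Pt p (zeroSpec h (intRing Ω))),
      (∀ x ∈ 𝒳, ∃ δ : PowerSeries (GaloisField p n),
        IsFGHom (honda p n (GaloisField p n)) (honda p n (GaloisField p n)) δ ∧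
        ∀ j, ∀ w : Haz.Pt p (zeroSpec n (intRing Ω)),
          w.val = ev (MvPowerSeries.map ι δ) (fun _ ↦ (y j).val) →
          (x j).val = ev ψ fun _ ↦ prLim p n φ (-w).val) ∧
      ∀ c : intRing Ω, c ^ p ^ n = c → ∀ i : ℕ, ∃ x ∈ 𝒳, ∀ j,
        (x j).val = ev ψ fun _ ↦ prLim p n φ (c * (y j).val ^ p ^ i) := by
  classical
  let Φ : Haz.Pt p (zeroSpec n (intRing Ω)) →+ Haz.Pt p (zeroSpec h (intRing Ω)) :=
    (ptHom φ (zeroSpec h (intRing Ω)) ψ hψ).comp (Torsion.prHom hφ hn)
  have hΦ : ∀ w, (Φ w).val = ev ψ fun _ ↦ prLim p n φ w.val := fun _ ↦ rfl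
  let 𝒳 : AddSubgroup (Fin d → Haz.Pt p (zeroSpec h (intRing Ω))) :=
  { carrier := {x | ∃ (δ : PowerSeries (GaloisField p n))
        (hδ : IsFGHom (honda p n (GaloisField p n)) (honda p n (GaloisField p n)) δ),
        ∀ j, x j = Φ (-(deltaPt ι hδ (y j)))}
    add_mem' := by
      rintro x x' ⟨δ, hδ, hx⟩ ⟨δ', hδ', hx'⟩
      refine ⟨_, hδ.add hδ', fun j ↦ ?_⟩
      rw [deltaPt_add ι hδ hδ', neg_add, map_add, ← hx, ← hx']
      rfl
    zero_mem' := ⟨0, isFGHom_zero _ _, fun j ↦ by
      have : deltaPt ι (isFGHom_zero (honda p n (GaloisField p n)) (honda p n (GaloisField p n)))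
          (y j) = 0 := Haz.Pt.ext (by
        rw [deltaPt_val, map_zero, ev_zero (fun _ ↦ (y j).small)]; rfl)
      rw [this, neg_zero, map_zero]
      rfl⟩
    neg_mem' := by
      rintro x ⟨δ, hδ, hx⟩
      have hm : IsFGHom (honda p n (GaloisField p n)) (honda p n (GaloisField p n))
          (PowerSeries.map (zeroSpec n (GaloisField p n)) (Haz.mulSeries p n (-1))) :=
        (mulSeries_isFGHom (-1)).map _
      refine ⟨_, hδ.comp hm, fun j ↦ ?_⟩
      have e : deltaPt ι (hδ.comp hm) (y j) = -(deltaPt ι hδ (y j)) := Haz.Pt.ext <| by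
        have hδ0 : MvPowerSeries.constantCoeff δ = 0 := hδ.1
        rw [deltaPt_val, Haz.neg_val, Haz.negVal, deltaPt_val, PowerSeries.subst_def,
          MvPowerSeries.map_subst (hasSubst_of_constantCoeff_zero fun _ ↦ hδ0),
          ev_subst (fun _ ↦ by rw [MvPowerSeries.constantCoeff_map, hδ0, map_zero])
            (fun _ ↦ (y j).small), PowerSeries.map, MvPowerSeries.map_map]
        congr 3
        apply MvPolynomial.ringHom_ext <;> intro <;> simp [zeroSpec]
      rw [e, Pi.neg_apply, hx, ← map_neg] }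
  refine ⟨𝒳, ?_, fun c hc i ↦ ?_⟩
  · rintro x ⟨δ, hδ, hx⟩
    refine ⟨δ, hδ, fun j w hw ↦ ?_⟩
    rw [hx j, hΦ, show deltaPt ι hδ (y j) = w from Haz.Pt.ext (by rw [deltaPt_val, hw])]
  · obtain ⟨k, rfl⟩ := exists_preimage hn ι hc
    have hk : k ^ p ^ n = k := ι.injective (by rw [map_pow, hc])
    have hδ := honda_endo (p := p) (n := n) (R := GaloisField p n) hn hk i
    refine ⟨-(fun j ↦ Φ (-(deltaPt ι hδ (y j)))), neg_mem ⟨_, hδ, fun _ ↦ rfl⟩, fun j ↦ ?_⟩
    rw [Pi.neg_apply, map_neg, neg_neg, hΦ]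
    congr 2
    funext u
    congr 1
    rw [deltaPt_val, map_mul, map_pow, ev_mul (fun _ ↦ (y j).small),
      ev_pow (fun _ ↦ (y j).small)]
    simp [PowerSeries.C, PowerSeries.X]

end Vale.Agent.P217
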