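import Vale.Agent.P217.GermBound
import Vale.Agent.P217.Subgroup

/-!
Small tools for the characteristic `p` case: restriction to the coordinate axis, series vanishing
on the disc, cancellation of a homomorphism, and vanishing of functionals of series.
-/

noncomputable section

open MvPowerSeries Finset Filter
open scoped MvPowerSeries.WithPiTopology Topology

namespace Vale.Agent.P217

section algebra

variable {R : Type*} [CommRing R] {σ : Type*} [Finite σ]

/-- The axis of the distinguished variable. -/
def axisPt (σ R : Type*) [CommRing R] : Option σ → PowerSeries R :=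
  fun o ↦ o.elim PowerSeries.X fun _ ↦ 0

theorem hasSubst_axisPt : HasSubst (axisPt σ R) := by
  refine hasSubst_of_constantCoeff_zero fun o ↦ ?_
  rcases o with _ | i
  · exact PowerSeries.constantCoeff_X
  · exact map_zero _

theorem coeff_axis (f : MvPowerSeries (Option σ) R) (m : ℕ) :
    PowerSeries.coeff m (MvPowerSeries.subst (axisPt σ R) f : PowerSeries R) =
      coeff (Finsupp.single none m) f := by
  classical
  rw [PowerSeries.coeff_def (s := Finsupp.single () m) (by simp), coeff_subst hasSubst_axisPt,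
    finsum_eq_single _ (Finsupp.single none m)]
  · rw [Finsupp.prod_single_index (h := fun o k ↦ axisPt σ R o ^ k) (pow_zero _), smul_eq_mul]
    show _ * PowerSeries.coeff m (PowerSeries.X ^ m : PowerSeries R) = _
    rw [PowerSeries.coeff_X_pow_self, mul_one]
  · intro e he
    rw [smul_eq_mul]
    refine mul_eq_zero_of_right _ ?_
    by_cases hs : ∃ i, e (some i) ≠ 0
    · obtain ⟨i, hi⟩ := hs
      rw [Finsupp.prod, prod_eq_zero (Finsupp.mem_support_iff.mpr hi)]
      · exact LinearMap.map_zero _
      · show (0 : PowerSeries R) ^ _ = 0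
        exact zero_pow hi
    · push Not at hs
      have hes : e = Finsupp.single none (e none) := Finsupp.ext fun o ↦ by
        rcases o with _ | i <;> simp [hs]
      rw [hes, Finsupp.prod_single_index (h := fun o k ↦ axisPt σ R o ^ k) (pow_zero _)]
      show PowerSeries.coeff m (PowerSeries.X ^ (e none) : PowerSeries R) = 0
      rw [PowerSeries.coeff_X_pow, if_neg]
      intro h
      exact he (by rw [hes, h])

/-- A homomorphism with nonzero linear term can be cancelled. -/
theorem eq_zero_of_subst_eq_zero [IsDomain R] {ψ α : PowerSeries R}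
    (h0 : PowerSeries.constantCoeff ψ = 0) (h1 : PowerSeries.coeff 1 ψ ≠ 0)
    (h : PowerSeries.subst ψ α = 0) : α = 0 := by
  by_contra hα
  have hs := PowerSeries.HasSubst.of_constantCoeff_zero' h0
  obtain ⟨β, hβ⟩ := PowerSeries.X_pow_order_dvd (φ := α)
  set m := α.order.toNat
  have hm : PowerSeries.coeff m α ≠ 0 := PowerSeries.coeff_order hα
  rw [hβ, PowerSeries.subst_mul hs, PowerSeries.subst_pow hs, PowerSeries.subst_X hs] at h
  have hψ : ψ ≠ 0 := fun hz ↦ h1 (by rw [hz]; exact map_zero _)
  have hβ0 : PowerSeries.subst ψ β = 0 := (mul_eq_zero.mp h).resolve_left (pow_ne_zero _ hψ)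
  apply hm
  rw [hβ, PowerSeries.coeff_X_pow_mul', if_pos le_rfl, Nat.sub_self]
  have : MvPowerSeries.constantCoeff (PowerSeries.subst ψ β) =
      MvPowerSeries.constantCoeff (0 : PowerSeries R) := congrArg _ hβ0
  rw [PowerSeries.constantCoeff_subst hs, finsum_eq_single _ 0, map_zero] at this
  · simpa using this
  · intro e he
    rw [map_pow, show MvPowerSeries.constantCoeff ψ = 0 from h0, zero_pow he, smul_zero]

end algebra

section cl

variable {R : Type*} [CommRing R] [UniformSpace R] [CLRing R]

theorem ev_map_C_X (f : PowerSeries R) :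
    ev (MvPowerSeries.map MvPowerSeries.C f)
      (fun _ : Unit ↦ (PowerSeries.X : PowerSeries R)) = f := by
  classical
  have hsm : IsSmall (fun _ : Unit ↦ (PowerSeries.X : PowerSeries R)) := fun _ ↦
    MvPowerSeries.WithPiTopology.isTopologicallyNilpotent_of_constantCoeff_isNilpotent
      (show IsNilpotent (MvPowerSeries.constantCoeff (PowerSeries.X : PowerSeries R)) by
        rw [show MvPowerSeries.constantCoeff (PowerSeries.X : PowerSeries R) = 0 from
          PowerSeries.constantCoeff_X]
        exact IsNilpotent.zero)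
  refine MvPowerSeries.ext fun e ↦ ?_
  refine ((hasSum_ev hsm _).map (coeff e : MvPowerSeries Unit R →ₗ[R] R)
    (MvPowerSeries.WithPiTopology.continuous_coeff R e)).unique ?_
  convert hasSum_ite_eq e (coeff e f) using 1
  funext x
  simp only [Function.comp_apply]
  rw [MvPowerSeries.coeff_map, coeff_C_mul, Finsupp.prod_fintype _ _ (fun _ ↦ pow_zero _),
    univ_unique, prod_singleton]
  show _ * coeff e ((MvPowerSeries.X () : MvPowerSeries Unit R) ^ x ()) = _
  rw [coeff_X_pow]
  by_cases hx : x = e
  · subst hx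
    rw [if_pos (Finsupp.ext fun u ↦ by simp), if_pos rfl, mul_one]
  · rw [if_neg hx, if_neg, mul_zero]
    intro h
    exact hx (Finsupp.ext fun u ↦ by rw [h]; simp)

end cl

variable {p n h d : ℕ} [hp : Fact p.Prime]

/-- On the axis, `[p]` of the shifted law is `[p]` of the law. -/
theorem powSeries_axis {R : Type*} [CommRing R] [UniformSpace R] [CLRing R]
    (φ : Haz.A n →+* R) :
    MvPowerSeries.subst (axisPt (Fin d) R) (Germ.powSeries p h d φ 1) =
      MvPowerSeries.map φ (Haz.mulSeries p n p) := by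
  classical
  set ρ : MvPowerSeries (Option (Fin d)) R →+* PowerSeries R :=
    (substAlgHom (hasSubst_axisPt (R := R) (σ := Fin d))).toRingHom
  have hρapp : ∀ f, ρ f = MvPowerSeries.subst (axisPt (Fin d) R) f := fun f ↦
    substAlgHom_apply _ f
  have hρ : Continuous ρ := by
    rw [show (ρ : MvPowerSeries (Option (Fin d)) R → PowerSeries R) = fun f ↦
      MvPowerSeries.subst (axisPt (Fin d) R) f from funext hρapp]
    exact continuous_subst_of_finite fun o ↦ by
      rcases o with _ | i
      · exact PowerSeries.constantCoeff_X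
      · exact map_zero _
  have hfix : ρ.comp (Germ.flatHom n h d φ) = (MvPowerSeries.C).comp φ := by
    apply MvPolynomial.ringHom_ext
    · intro r; simp
    · intro i
      simp only [RingHom.comp_apply, Germ.flatHom, MvPolynomial.eval₂Hom_X', Germ.flatPoint,
        hρapp]
      rw [subst_add hasSubst_axisPt, subst_C]
      split_ifs with hi
      · rw [subst_X hasSubst_axisPt]
        show _ + (0 : PowerSeries R) = _
        rw [add_zero]
      · rw [← coe_substAlgHom (hasSubst_axisPt (R := R) (σ := Fin d)), map_zero, add_zero]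
  rw [← hρapp, Germ.powSeries, pow_one, ← Haz.mapPt_val p (Germ.flatHom n h d φ) hρ, map_nsmul,
    Haz.nsmul_val]
  simp only [Haz.mapPt_val, hfix]
  conv_rhs => rw [← ev_map_C_X (MvPowerSeries.map φ (Haz.mulSeries p n p) : PowerSeries R)]
  rw [MvPowerSeries.map_map]
  congr 1
  funext _
  show ρ (X none) = _
  rw [hρapp, subst_X hasSubst_axisPt]
  rfl

variable {Ω : Type} [NontriviallyNormedField Ω] [IsUltrametricDist Ω] [GoodField p Ω]

/-- A series vanishing on the whole open disc is zero. -/
theorem eq_zero_of_vanish_disc [CompleteSpace Ω] (f : PowerSeries (intRing Ω))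
    (h : ∀ z : intRing Ω, ‖(z : Ω)‖ < 1 → ev f (fun _ : Unit ↦ z) = 0) : f = 0 := by
  by_contra hf
  obtain ⟨g, hg⟩ := PowerSeries.X_pow_order_dvd (φ := f)
  set m := f.order.toNat
  have hm : PowerSeries.coeff m f ≠ 0 := PowerSeries.coeff_order hf
  apply hm
  rw [hg, PowerSeries.coeff_X_pow_mul', if_pos le_rfl, Nat.sub_self,
    PowerSeries.coeff_zero_eq_constantCoeff_apply]
  refine Subtype.ext (norm_le_zero_iff.mp (le_of_forall_pos_le_add fun ε hε ↦ ?_))
  rw [zero_add]
  obtain ⟨z0, hz0, hz1⟩ := NormedField.exists_norm_lt Ω (lt_min hε one_pos)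
  have hz : ‖z0‖ ≤ 1 := (hz1.trans_le (min_le_right _ _)).le
  set z : intRing Ω := ⟨z0, mem_intRing.mpr hz⟩
  have hzlt : ‖(z : Ω)‖ < 1 := hz1.trans_le (min_le_right _ _)
  have hsm : IsSmall (fun _ : Unit ↦ z) := fun _ ↦ isTopologicallyNilpotent_intRing.mpr hzlt
  have h1 := h z hzlt
  rw [hg, ev_mul hsm, ev_pow hsm] at h1
  have hzX : ev (PowerSeries.X : PowerSeries (intRing Ω)) (fun _ : Unit ↦ z) = z := ev_X _ _
  rw [hzX] at h1
  have hzne : z ≠ 0 := fun h0 ↦ by
    have := congrArg (fun w : intRing Ω ↦ ‖(w : Ω)‖) h0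
    simp only [z, ZeroMemClass.coe_zero, norm_zero] at this
    exact hz0.ne' this
  have hgz : ev g (fun _ : Unit ↦ z) = 0 := (mul_eq_zero.mp h1).resolve_left (pow_ne_zero _ hzne)
  have h2 := Germ.norm_ev_unit_sub_sum g z hzlt 1
  rw [hgz, ZeroMemClass.coe_zero, zero_sub, norm_neg, sum_range_one, pow_zero, mul_one, pow_one,
    PowerSeries.coeff_zero_eq_constantCoeff_apply] at h2
  exact h2.trans (hz1.trans_le (min_le_left _ _)).le

/-- Functionals of a series tiny along a group of points vanish on that group. -/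
theorem lam_vanish {d : ℕ} (hh : 0 < h) (H : MvPowerSeries (Fin d) Ω)
    (x : Fin d → Haz.Pt p (zeroSpec h (intRing Ω)))
    (hb : ∀ D : ℕ, ∃ C : ℝ, ∀ᶠ M in atTop,
      ‖MvPolynomial.eval (fun j ↦ ((x j).val : Ω) ^ p ^ (h * M))
        (MvPowerSeries.truncTotal (R := Ω) D H)‖ ≤
          C * ((‖fun j ↦ ((x j).val : Ω)‖) ^ p ^ (h * M)) ^ D)
    (lam : Ω →ₗ[algField p Ω] algField p Ω) :
    ev (MvPowerSeries.map (algInt p Ω)
        (fun e ↦ lam (coeff e H) : MvPowerSeries (Fin d) (algField p Ω)))
      (fun j ↦ (x j).val) = 0 := by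
  classical
  set G : MvPowerSeries (Fin d) (algField p Ω) := fun e ↦ lam (coeff e H)
  set v : Fin d → Ω := fun j ↦ ((x j).val : Ω)
  let lam' : Ω →+ Ω := ((algField p Ω).subtype.toAddMonoidHom).comp lam.toAddMonoidHom
  have hper := periodicity (p := p) hh H v (fun j ↦ norm_val_lt x j) hb lam'
    (fun z ↦ (lam z).2) (fun κ z hκ ↦ by
      show ((lam (κ * z) : algField p Ω) : Ω) = κ * (lam z : Ω)
      rw [show κ * z = (⟨κ, hκ⟩ : algField p Ω) • z from rfl, map_smul]
      rfl)
  set c : ℝ := ‖fun j ↦ v j‖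
  have hc1 : c < 1 := (pi_norm_lt_iff one_pos).mpr fun j ↦ norm_val_lt x j
  refine Subtype.ext ((norm_eq_zero.mp (le_antisymm ?_ (norm_nonneg _))).trans
    (ZeroMemClass.coe_zero _).symm)
  refine ge_of_tendsto' (tendsto_pow_atTop_nhds_zero_of_lt_one (norm_nonneg _) hc1) fun D ↦ ?_
  have h1 := norm_ev_sub_truncTotal (MvPowerSeries.map (algInt p Ω) G) D (fun j ↦ (x j).val)
    (small_val x)
  have h3 : MvPowerSeries.map (intRing Ω).subtype (MvPowerSeries.map (algInt p Ω) G) =
      (fun e ↦ lam' (coeff e H) : MvPowerSeries (Fin d) Ω) := by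
    refine MvPowerSeries.ext fun e ↦ ?_
    rw [MvPowerSeries.coeff_map, MvPowerSeries.coeff_map]
    rfl
  rw [h3] at h1
  have key := (IsUltrametricDist.norm_add_le_max _ _).trans (max_le h1 (hper D))
  rwa [sub_add_cancel] at key

end Vale.Agent.P217
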