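import Vale.Agent.P217.Psi.Main
import Vale.Agent.P217.Heights

/-!
The homomorphism from the deformed law to Honda's law of the exact height, over the ring of
integers.
-/

noncomputable section

open MvPowerSeries Finset

namespace Vale.Agent.P217

namespace Psi

variable {p : ℕ} [hp : Fact p.Prime]

theorem isFGHom_of_map {R S : Type*} [CommRing R] [CommRing S] (e : R →+* S)
    (he : Function.Injective e) {F G : FormalGroup R} {H : PowerSeries R}
    (h0 : PowerSeries.constantCoeff H = 0)
    (hH : IsFGHom (F.map e) (G.map e) (PowerSeries.map e H)) : IsFGHom F G H := by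
  refine ⟨h0, MvPowerSeries.ext fun d ↦ he ?_⟩
  rw [← MvPowerSeries.coeff_map, ← MvPowerSeries.coeff_map]
  congr 1
  rw [map_pair e (constantCoeff_ps_subst (constantCoeff_X 0) h0)
      (constantCoeff_ps_subst (constantCoeff_X 1) h0),
    map_ps_subst e F.zero_constantCoeff, map_ps_subst e (constantCoeff_X (0 : Fin 2)),
    map_ps_subst e (constantCoeff_X (1 : Fin 2)), MvPowerSeries.map_X, MvPowerSeries.map_X]
  exact hH.2

/-- The limit of the formal sums is a homomorphism when the equations hold. -/
theorem isFGHom_thetaLim {k : Type*} [Field k] [CharP k p] {n h : ℕ} (hn : n ≠ 0)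
    (φ : Haz.A n →+* k) (t : ℕ → k) (ht : t 0 ≠ 0)
    (he : ∀ m, chi (fun i ↦ zeroSpec h k (Haz.uA h i)) (fun i ↦ φ (Haz.uA n i)) t
      (LT.eU p m) = 0) :
    IsFGHom ((Haz.law p n).map φ) (honda p h k)
      (thetaLim p (honda p h k).toPowerSeries t : PowerSeries k) := by
  set G := honda p h k
  have h0 : PowerSeries.constantCoeff (thetaLim p G.toPowerSeries t : PowerSeries k) = 0 :=
    constantCoeff_thetaLim G.zero_constantCoeff t
  refine ⟨h0, eq_of_agree fun N ↦ ?_⟩
  set M := max N (n + 1) with hM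
  refine ⟨p ^ M, (le_max_left N (n + 1)).trans (Nat.lt_pow_self hp.out.one_lt).le, ?_⟩
  have hl : Agree (p ^ M) (thetaLim p G.toPowerSeries t) (theta p G.toPowerSeries t M) :=
    thetaLim_agree G t M
  have hθ : PowerSeries.constantCoeff (theta p G.toPowerSeries t M : PowerSeries k) = 0 :=
    constantCoeff_theta G.zero_constantCoeff t M
  refine (ps_subst_agree_series ((Haz.law p n).map φ).zero_constantCoeff hl).trans
    ((main_agree hn φ t ht he (by omega)).trans (Agree.symm ?_))
  refine subst_agree_arg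
    (Haz.constantCoeff_pair (constantCoeff_ps_subst (constantCoeff_X 0) h0)
      (constantCoeff_ps_subst (constantCoeff_X 1) h0))
    (Haz.constantCoeff_pair (constantCoeff_ps_subst (constantCoeff_X 0) hθ)
      (constantCoeff_ps_subst (constantCoeff_X 1) hθ)) (Fin.forall_fin_two.mpr ⟨?_, ?_⟩) _
  · exact ps_subst_agree_series (constantCoeff_X 0) hl
  · exact ps_subst_agree_series (constantCoeff_X 1) hl


section root

variable {Ω : Type*} [NontriviallyNormedField Ω] [IsUltrametricDist Ω] [IsAlgClosed Ω]

/-- The equations have roots in the ring of integers. -/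
theorem exists_root {P : ℕ} (hP : 1 < P) (a C : intRing Ω) :
    ∃ c : intRing Ω, C + (c ^ P - c * a) = 0 := by
  set f : Polynomial Ω :=
    Polynomial.X ^ P + (Polynomial.C (-(a : Ω)) * Polynomial.X + Polynomial.C (C : Ω)) with hf
  have hdeg : f.degree = P := by
    refine (Polynomial.degree_add_eq_left_of_degree_lt ?_).trans (Polynomial.degree_X_pow P)
    rw [Polynomial.degree_X_pow]
    exact lt_of_le_of_lt Polynomial.degree_linear_le (by exact_mod_cast hP)
  obtain ⟨c, hc⟩ := IsAlgClosed.exists_root f (by rw [hdeg]; exact_mod_cast (by omega : P ≠ 0))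
  simp only [hf, Polynomial.IsRoot, Polynomial.eval_add, Polynomial.eval_pow, Polynomial.eval_X,
    Polynomial.eval_mul, Polynomial.eval_C] at hc
  have hnorm : ‖c‖ ≤ 1 := by
    by_contra hlt
    push Not at hlt
    have h1 : ‖c ^ P‖ ≤ ‖c‖ := by
      rw [show c ^ P = (a : Ω) * c + -(C : Ω) by linear_combination hc]
      refine (IsUltrametricDist.norm_add_le_max _ _).trans (max_le ?_ ?_)
      · rw [norm_mul]
        exact mul_le_of_le_one_left (norm_nonneg _) a.2
      · rw [norm_neg]
        exact le_trans C.2 hlt.le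
    rw [norm_pow] at h1
    exact absurd h1 (not_le.mpr (lt_self_pow₀ hlt hP))
  refine ⟨⟨c, hnorm⟩, Subtype.ext ?_⟩
  push_cast
  linear_combination hc

/-- A chosen root. -/
def rootOf {P : ℕ} (hP : 1 < P) (a C : intRing Ω) : intRing Ω :=
  (exists_root hP a C).choose

theorem rootOf_spec {P : ℕ} (hP : 1 < P) (a C : intRing Ω) :
    C + (rootOf hP a C ^ P - rootOf hP a C * a) = 0 :=
  (exists_root hP a C).choose_spec

end root

end Psi

section

variable {p n h : ℕ} [hp : Fact p.Prime]
  {Ω : Type} [NontriviallyNormedField Ω] [IsUltrametricDist Ω] [GoodField p Ω]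

open Psi in
/-- A homomorphism to Honda's law of the exact height `h`, with the identity for `[p]`. -/
theorem exists_psi (hh : 0 < h) (hn : h < n) (φ : Haz.A n →+* intRing Ω)
    (hφ : ∀ i, ‖(φ (MvPolynomial.X i) : Ω)‖ < 1)
    (hlow : ∀ i, 0 < i → i < h → φ (Haz.uA n i) = 0) (hu : φ (Haz.uA n h) ≠ 0) :
    ∃ ψ : PowerSeries (intRing Ω),
      IsFGHom ((Haz.law p n).map φ) (honda p h (intRing Ω)) ψ ∧
        PowerSeries.coeff 1 ψ ≠ 0 ∧
        PowerSeries.subst (MvPowerSeries.map φ (Haz.mulSeries p n p)) ψ = ψ ^ p ^ h := by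
  have : CharP Ω p := GoodField.charP
  have hp0 : (p : intRing Ω) = 0 := Subtype.ext (by simp)
  have hP : 1 < p ^ h := Nat.one_lt_pow hh.ne' hp.out.one_lt
  set b : ℕ → intRing Ω := fun i ↦ φ (Haz.uA n i) with hb
  set u : ℕ → intRing Ω := fun i ↦ zeroSpec h (intRing Ω) (Haz.uA h i) with hudef
  have hu0 : ∀ i, 0 < i → i < h → u i = 0 := fun i ↦ zeroSpec_uA
  have huh : u h = 1 := by simp [hudef, uA_self]
  -- the coordinates
  set t : ℕ → intRing Ω := recSeq fun j v ↦ if j = 0 then intRoot (p ^ h - 1) (b h)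
    else rootOf hP (b h ^ p ^ j) (chi u b v (LT.eU p (h + j))) with htdef
  have ht0 : t 0 ^ (p ^ h - 1) = b h := by
    rw [htdef, recSeq_eq, if_pos rfl]
    exact intRoot_pow (by omega) _
  have ht00 : t 0 ≠ 0 := fun h0 ↦ hu (by rw [← ht0, h0, zero_pow (by omega)] : b h = 0)
  have hstep : ∀ j, chi u b (trunc j t) (LT.eU p (h + j)) +
      (t j ^ p ^ h - t j * b h ^ p ^ j) = 0 := by
    intro j
    rcases eq_or_ne j 0 with rfl | hj
    · rw [← chi_killT, killT_zero_eU, map_zero, pow_zero, pow_one, zero_add,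
        show p ^ h = p ^ h - 1 + 1 by omega, pow_succ, ht0, mul_comm, sub_self]
    · have htj : t j = rootOf hP (b h ^ p ^ j) (chi u b (trunc j t) (LT.eU p (h + j))) := by
        conv_lhs => rw [htdef, recSeq_eq, if_neg hj]
      rw [htj]
      exact rootOf_spec hP _ _
  have he : ∀ m, chi u b t (LT.eU p m) = 0 := by
    intro m
    rcases Nat.lt_or_ge m h with hm | hm
    · exact chi_eU_low p t hp0 hu0 hlow hm
    · obtain ⟨j, rfl⟩ := Nat.exists_eq_add_of_le hm
      rw [chi_eU_step p t hp0 hh hu0 hlow j, huh, one_mul]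
      exact hstep j
  -- over the field
  set e : intRing Ω →+* Ω := (intRing Ω).subtype with hedef
  have hinj : Function.Injective e := Subtype.val_injective
  set ψ : PowerSeries (intRing Ω) := thetaLim p (honda p h (intRing Ω)).toPowerSeries t with hψ
  have hψ0 : PowerSeries.constantCoeff ψ = 0 :=
    constantCoeff_thetaLim (honda p h (intRing Ω)).zero_constantCoeff t
  have hhom : IsFGHom ((Haz.law p n).map φ) (honda p h (intRing Ω)) ψ := by
    refine isFGHom_of_map e hinj hψ0 ?_
    have hk := isFGHom_thetaLim (p := p) (h := h) (by omega : n ≠ 0) (e.comp φ) (fun j ↦ e (t j))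
      (fun h0 ↦ ht00 (hinj (by rw [h0, map_zero]))) fun m ↦ by
        have := congr_arg e (he m)
        rw [map_chi, map_zero] at this
        simpa only [hudef, hb, ← RingHom.comp_apply, map_zeroSpec] using this
    have hG : (honda p h (intRing Ω)).map e = honda p h Ω :=
      FormalGroup.ext (by rw [FormalGroup.map_toPowerSeries, map_honda])
    have hF : ((Haz.law p n).map φ).map e = (Haz.law p n).map (e.comp φ) :=
      FormalGroup.ext (by simp only [FormalGroup.map_toPowerSeries, MvPowerSeries.map_comp,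
        RingHom.comp_apply])
    have hmap : PowerSeries.map e ψ =
        (thetaLim p (honda p h Ω).toPowerSeries (fun j ↦ e (t j)) : PowerSeries Ω) := by
      rw [← map_honda e h, ← map_thetaLim e (honda p h (intRing Ω)).zero_constantCoeff]
      rfl
    rw [hG, hF, hmap]
    exact hk
  refine ⟨ψ, hhom, ?_, ?_⟩
  · rw [hψ, coeff_one_thetaLim]
    exact ht00
  · have hm : IsFGHom ((Haz.law p n).map φ) ((Haz.law p h).map (zeroSpec h (intRing Ω))) ψ := hhom
    rw [hom_mulSeries φ (zeroSpec h (intRing Ω)) hm p, honda_p hp0 hh.ne',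
      show (MvPowerSeries.X () : MvPowerSeries Unit (intRing Ω)) = PowerSeries.X from rfl,
      PowerSeries.subst_pow (PowerSeries.HasSubst.of_constantCoeff_zero' hψ0),
      PowerSeries.subst_X (PowerSeries.HasSubst.of_constantCoeff_zero' hψ0)]

end

end Vale.Agent.P217
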