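import Vale.Agent.P217.Shared
import Vale.Agent.P217.Estimates
import Mathlib.RingTheory.MvPowerSeries.Expand
import Mathlib.Algebra.CharP.Frobenius

/-!
Extension of a solution of `ψ(Φ(X^P)) = ψ^P` along the shift parameters.
-/

noncomputable section

open MvPowerSeries

namespace Vale.Agent.P217

namespace PsiExt

variable {K : Type*} [CommRing K] {σ : Type*}

/-- The degree in the parameters. -/
def vdeg (e : Option σ →₀ ℕ) : ℕ := e.degree - e none

theorem none_le_degree (e : Option σ →₀ ℕ) : e none ≤ e.degree := Finsupp.le_degree none e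

theorem vdeg_add (e f : Option σ →₀ ℕ) : vdeg (e + f) = vdeg e + vdeg f := by
  have := none_le_degree e
  have := none_le_degree f
  simp only [vdeg, map_add, Finsupp.add_apply]
  omega

/-- Series of order at least `k` in the parameters. -/
def vIdeal (K : Type*) [CommRing K] (σ : Type*) (k : ℕ) : Ideal (MvPowerSeries (Option σ) K) where
  carrier := {f | ∀ e, vdeg e < k → coeff e f = 0}
  add_mem' {f g} hf hg e he := by rw [map_add, hf e he, hg e he, add_zero]
  zero_mem' e _ := map_zero _
  smul_mem' f g hg e he := by
    classical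
    rw [smul_eq_mul, coeff_mul]
    refine Finset.sum_eq_zero fun x hx ↦ ?_
    rw [Finset.mem_antidiagonal] at hx
    rw [hg x.2 ?_, mul_zero]
    rw [← hx, vdeg_add] at he
    omega

/-- Series vanishing when the distinguished variable is zero. -/
def nIdeal (K : Type*) [CommRing K] (σ : Type*) : Ideal (MvPowerSeries (Option σ) K) where
  carrier := {f | ∀ e, e none = 0 → coeff e f = 0}
  add_mem' {f g} hf hg e he := by rw [map_add, hf e he, hg e he, add_zero]
  zero_mem' e _ := map_zero _
  smul_mem' f g hg e he := by
    classical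
    rw [smul_eq_mul, coeff_mul]
    refine Finset.sum_eq_zero fun x hx ↦ ?_
    rw [Finset.mem_antidiagonal] at hx
    rw [hg x.2 ?_, mul_zero]
    rw [← hx, Finsupp.add_apply] at he
    omega

theorem vIdeal_mono {k l : ℕ} (h : k ≤ l) : vIdeal K σ l ≤ vIdeal K σ k :=
  fun _ hf e he ↦ hf e (lt_of_lt_of_le he h)

theorem mul_mem_vIdeal {f g : MvPowerSeries (Option σ) K} {k l : ℕ} (hf : f ∈ vIdeal K σ k)
    (hg : g ∈ vIdeal K σ l) : f * g ∈ vIdeal K σ (k + l) := by
  classical
  intro e he
  rw [coeff_mul]
  refine Finset.sum_eq_zero fun x hx ↦ ?_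
  rw [Finset.mem_antidiagonal] at hx
  rw [← hx, vdeg_add] at he
  rcases lt_or_ge (vdeg x.1) k with h | h
  · rw [hf x.1 h, zero_mul]
  · rw [hg x.2 (by omega), mul_zero]

theorem pow_mem_vIdeal {f : MvPowerSeries (Option σ) K} {k : ℕ} (hf : f ∈ vIdeal K σ k) :
    ∀ m : ℕ, f ^ m ∈ vIdeal K σ (k * m)
  | 0 => fun e he ↦ by simp at he
  | m + 1 => by rw [pow_succ, Nat.mul_succ]; exact mul_mem_vIdeal (pow_mem_vIdeal hf m) hf

theorem eq_of_forall_mem {f g : MvPowerSeries (Option σ) K} (h : ∀ k, f - g ∈ vIdeal K σ k) :
    f = g := by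
  refine MvPowerSeries.ext fun e ↦ ?_
  have := h (vdeg e + 1) e (Nat.lt_succ_self _)
  rwa [map_sub, sub_eq_zero] at this

variable [Fintype σ]

theorem vdeg_eq_sum (e : Option σ →₀ ℕ) : vdeg e = ∑ i, e (some i) := by
  rw [vdeg, Finsupp.degree_eq_sum, Fintype.sum_option, Nat.add_sub_cancel_left]

/-- Substitutions send the `V`-filtration into itself, scaled by the order of the images. -/
theorem subst_mem_vIdeal {b : Option σ → MvPowerSeries (Option σ) K}
    (hb : ∀ o, constantCoeff (b o) = 0) {c : ℕ} (hbs : ∀ i, b (some i) ∈ vIdeal K σ c) {k : ℕ}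
    {f : MvPowerSeries (Option σ) K} (hf : f ∈ vIdeal K σ k) :
    MvPowerSeries.subst b f ∈ vIdeal K σ (c * k) := by
  classical
  intro e he
  rw [coeff_subst (hasSubst_of_constantCoeff_zero hb)]
  refine finsum_eq_zero_of_forall_eq_zero fun x ↦ ?_
  rcases lt_or_ge (vdeg x) k with h | h
  · rw [hf x h, zero_smul]
  · have hp : ∀ s : Finset σ, (∏ i ∈ s, b (some i) ^ x (some i))
        ∈ vIdeal K σ (c * ∑ i ∈ s, x (some i)) := by
      intro s
      induction s using Finset.induction with
      | empty => intro e he; simp at he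
      | @insert i s hi ih =>
        rw [Finset.prod_insert hi, Finset.sum_insert hi, mul_add]
        exact mul_mem_vIdeal (pow_mem_vIdeal (hbs i) _) ih
    have h1 : (x.prod fun o m ↦ b o ^ m) ∈ vIdeal K σ (c * vdeg x) := by
      rw [Finsupp.prod_fintype _ _ (fun _ ↦ pow_zero _), Fintype.prod_option, vdeg_eq_sum]
      exact Ideal.mul_mem_left _ _ (hp _)
    rw [h1 e (lt_of_lt_of_le he (Nat.mul_le_mul_left c h)), smul_zero]

omit [Fintype σ] in
/-- Substitutions fixing the hyperplane preserve the series vanishing on it. -/
theorem subst_mem_nIdeal [Finite σ] {b : Option σ → MvPowerSeries (Option σ) K}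
    (hb : ∀ o, constantCoeff (b o) = 0) (hbn : b none ∈ nIdeal K σ)
    {f : MvPowerSeries (Option σ) K} (hf : f ∈ nIdeal K σ) :
    MvPowerSeries.subst b f ∈ nIdeal K σ := by
  classical
  intro e he
  rw [coeff_subst (hasSubst_of_constantCoeff_zero hb)]
  refine finsum_eq_zero_of_forall_eq_zero fun x ↦ ?_
  by_cases hx : x none = 0
  · rw [hf x hx, zero_smul]
  · have h1 : (x.prod fun o m ↦ b o ^ m) ∈ nIdeal K σ := by
      rw [Finsupp.prod, ← Finset.mul_prod_erase _ _ (Finsupp.mem_support_iff.mpr hx)]
      refine Ideal.mul_mem_right _ _ ?_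
      obtain ⟨m, hm⟩ : ∃ m, x none = m + 1 := ⟨x none - 1, by omega⟩
      rw [hm, pow_succ]
      exact Ideal.mul_mem_left _ _ hbn
    rw [h1 e he, smul_zero]

/-- The tuple `(g, V)`. -/
def elimNone (g : MvPowerSeries (Option σ) K) : Option σ → MvPowerSeries (Option σ) K :=
  fun o ↦ o.elim g fun i ↦ X (some i)

/-- Substitution for the distinguished variable alone. -/
def substNone (g f : MvPowerSeries (Option σ) K) : MvPowerSeries (Option σ) K :=
  MvPowerSeries.subst (elimNone g) f

omit [Fintype σ] in
theorem constantCoeff_elimNone {g : MvPowerSeries (Option σ) K} (hg : constantCoeff g = 0) :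
    ∀ o, constantCoeff (elimNone g o) = 0 := by
  rintro (_ | i)
  · exact hg
  · exact constantCoeff_X _

omit [Fintype σ] in
theorem constantCoeff_of_mem_nIdeal {g : MvPowerSeries (Option σ) K} (hg : g ∈ nIdeal K σ) :
    constantCoeff g = 0 := by
  rw [← coeff_zero_eq_constantCoeff_apply]; exact hg 0 rfl

theorem substNone_comp {g g' : MvPowerSeries (Option σ) K} (hg : constantCoeff g = 0)
    (hg' : constantCoeff g' = 0) (f : MvPowerSeries (Option σ) K) :
    substNone g (substNone g' f) = substNone (substNone g g') f := by
  rw [substNone, substNone, subst_comp_subst_apply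
    (hasSubst_of_constantCoeff_zero (constantCoeff_elimNone hg'))
    (hasSubst_of_constantCoeff_zero (constantCoeff_elimNone hg))]
  congr 1
  funext o
  cases o with
  | none => rfl
  | some i =>
    show MvPowerSeries.subst (elimNone g) (X (some i)) = X (some i)
    rw [subst_X (hasSubst_of_constantCoeff_zero (constantCoeff_elimNone hg))]
    rfl

theorem substNone_X_none (g : MvPowerSeries (Option σ) K) (hg : constantCoeff g = 0) :
    substNone g (X none) = g := by
  rw [substNone, subst_X (hasSubst_of_constantCoeff_zero (constantCoeff_elimNone hg))]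
  rfl

theorem X_none_substNone (f : MvPowerSeries (Option σ) K) : substNone (X none) f = f := by
  have : elimNone (X none : MvPowerSeries (Option σ) K) = X := by
    funext o; cases o <;> rfl
  rw [substNone, this, MvPowerSeries.subst_self, id_eq]

theorem elimNone_some_mem (g : MvPowerSeries (Option σ) K) (i : σ) :
    elimNone g (some i) ∈ vIdeal K σ 1 := by
  classical
  intro e he
  show coeff e (X (some i)) = 0
  rw [coeff_X, if_neg]
  rintro rfl
  simp [vdeg, Finsupp.degree_single] at he

omit [Fintype σ] in
theorem X_none_mem : (X none : MvPowerSeries (Option σ) K) ∈ nIdeal K σ := by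
  classical
  intro e he
  rw [coeff_X, if_neg]
  rintro rfl
  simp at he

omit [Fintype σ] in
theorem nIdeal_single_some {g : MvPowerSeries (Option σ) K} (hg : g ∈ nIdeal K σ) (i : σ) :
    coeff (Finsupp.single (some i) 1) g = 0 :=
  hg _ (Finsupp.single_eq_of_ne (by simp))

/-- The linear coefficient in the distinguished variable is multiplicative. -/
theorem coeff_one_substNone {g : MvPowerSeries (Option σ) K} (hg : g ∈ nIdeal K σ)
    (f : MvPowerSeries (Option σ) K) :
    coeff (Finsupp.single none 1) (substNone g f) =
      coeff (Finsupp.single none 1) f * coeff (Finsupp.single none 1) g := by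
  classical
  have hg0 := constantCoeff_of_mem_nIdeal hg
  rw [substNone, coeff_subst (hasSubst_of_constantCoeff_zero (constantCoeff_elimNone hg0)),
    finsum_eq_single _ (Finsupp.single (none : Option σ) 1)]
  · rw [Finsupp.prod_single_index (h := fun o m ↦ elimNone g o ^ m) (pow_zero _), pow_one,
      smul_eq_mul]
    rfl
  · intro x hx
    rw [smul_eq_mul]
    refine mul_eq_zero_of_right _ ?_
    rw [Finsupp.prod_fintype _ _ (fun _ ↦ pow_zero _), Fintype.prod_option]
    by_cases hs : ∀ i, x (some i) = 0
    · have hone : x none ≠ 1 := fun h ↦ hx (Finsupp.ext fun o ↦ by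
        cases o with
        | none => simpa using h
        | some i => simp [hs i])
      have hprod : ∏ i, elimNone g (some i) ^ x (some i) = 1 :=
        Finset.prod_eq_one fun i _ ↦ by rw [hs i, pow_zero]
      rw [hprod, mul_one]
      show coeff _ (g ^ x none) = 0
      rcases Nat.eq_zero_or_pos (x none) with h0 | h0
      · rw [h0, pow_zero, coeff_one, if_neg (Finsupp.single_ne_zero.mpr one_ne_zero)]
      · refine coeff_of_lt_order (lt_of_lt_of_le ?_
          (le_order_pow_of_constantCoeff_eq_zero (x none) hg0))
        rw [Finsupp.degree_single]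
        exact_mod_cast (by omega : 1 < x none)
    · obtain ⟨i, hi⟩ := not_forall.mp hs
      have h1 : (∏ j, elimNone g (some j) ^ x (some j)) ∈ vIdeal K σ 1 := by
        rw [← Finset.mul_prod_erase _ _ (Finset.mem_univ i)]
        refine Ideal.mul_mem_right _ _ ?_
        obtain ⟨m, hm⟩ : ∃ m, x (some i) = m + 1 := ⟨x (some i) - 1, by omega⟩
        rw [hm, pow_succ]
        exact Ideal.mul_mem_left _ _ (elimNone_some_mem g i)
      exact (vIdeal K σ 1).mul_mem_left _ h1 _ (by simp [vdeg, Finsupp.degree_single])

/-- Right inverse of a series with invertible linear coefficient. -/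
theorem exists_inverse {g : MvPowerSeries (Option σ) K} (hg : g ∈ nIdeal K σ) {u : Kˣ}
    (hu : coeff (Finsupp.single none 1) g = u) :
    ∃ η ∈ nIdeal K σ, substNone g η = X none ∧
      coeff (Finsupp.single none 1) η = (↑u⁻¹ : K) := by
  classical
  have hg0 := constantCoeff_of_mem_nIdeal hg
  set L : MvPowerSeries (Option σ) K := MvPowerSeries.C (↑u⁻¹ : K) * X none
  have hL0 : constantCoeff L = 0 := by simp [L]
  set g' := MvPowerSeries.C (↑u⁻¹ : K) * g
  have hg' : substNone g L = g' := by
    have hs := hasSubst_of_constantCoeff_zero (constantCoeff_elimNone hg0)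
    rw [substNone, ← coe_substAlgHom hs, map_mul, substAlgHom_X hs,
      show (MvPowerSeries.C (↑u⁻¹ : K) : MvPowerSeries (Option σ) K) = algebraMap K _ (↑u⁻¹ : K)
        from rfl, AlgHom.commutes]
    rfl
  have hg'0 : constantCoeff g' = 0 := by simp [g', hg0]
  have htan : ∀ o, elimNone g' o - X o ∈ ordIdeal K (Option σ) 2 := by
    rintro (_ | i)
    · intro e he
      show coeff e (g' - X none) = 0
      rcases Nat.eq_zero_or_pos e.degree with h | h
      · rw [(Finsupp.degree_eq_zero_iff e).mp h, coeff_zero_eq_constantCoeff_apply, map_sub, hg'0,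
          constantCoeff_X, sub_zero]
      · obtain ⟨o, ho⟩ := Finsupp.support_nonempty_iff.mpr
          (fun h0 : e = 0 ↦ by simp [h0] at h)
        obtain ⟨e', rfl⟩ := exists_add_of_le (Finsupp.single_le_iff.mpr
          (Nat.one_le_iff_ne_zero.mpr (Finsupp.mem_support_iff.mp ho)))
        rw [map_add, Finsupp.degree_single] at he
        rw [(Finsupp.degree_eq_zero_iff e').mp (by omega), add_zero, map_sub, coeff_C_mul]
        cases o with
        | none => rw [hu, Units.inv_mul, coeff_index_single_self_X, sub_self]
        | some j =>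
          rw [nIdeal_single_some hg j, mul_zero, coeff_index_single_X,
            if_neg (by simp), sub_zero]
    · simp [elimNone]
  obtain ⟨G, hG⟩ := exists_subst_eq (constantCoeff_elimNone hg'0) htan (X none)
  refine ⟨substNone L G, ?_, ?_, ?_⟩
  rotate_left
  · rw [substNone_comp hg0 hL0, hg']
    exact hG
  · have h1 := coeff_one_substNone hg (substNone L G)
    rw [substNone_comp hg0 hL0, hg', show substNone g' G = X none from hG,
      coeff_index_single_self_X, hu] at h1
    exact left_inv_eq_right_inv h1.symm u.mul_inv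
  · intro e he
    have hX : substNone g (substNone L G) = X none := by
      rw [substNone_comp hg0 hL0, hg']; exact hG
    have h1 : coeff e (substNone g (substNone L G)) = coeff e (substNone L G) := by
      rw [substNone, coeff_subst (hasSubst_of_constantCoeff_zero (constantCoeff_elimNone hg0)),
        finsum_eq_single _ e]
      · have : (e.prod fun o m ↦ elimNone g o ^ m) = monomial e 1 := by
          rw [monomial_eq', map_one, one_mul, Finsupp.prod, Finsupp.prod]
          refine Finset.prod_congr rfl fun o ho ↦ ?_
          cases o with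
          | none => exact absurd he (Finsupp.mem_support_iff.mp ho)
          | some i => rfl
        rw [this, coeff_monomial_same, smul_eq_mul, mul_one]
      · intro x hx
        rw [smul_eq_mul]
        refine mul_eq_zero_of_right _ ?_
        by_cases hxn : x none = 0
        · have : (x.prod fun o m ↦ elimNone g o ^ m) = monomial x 1 := by
            rw [monomial_eq', map_one, one_mul, Finsupp.prod, Finsupp.prod]
            refine Finset.prod_congr rfl fun o ho ↦ ?_
            cases o with
            | none => exact absurd hxn (Finsupp.mem_support_iff.mp ho)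
            | some i => rfl
          rw [this, coeff_monomial_ne (Ne.symm hx)]
        · rw [Finsupp.prod, ← Finset.mul_prod_erase _ _ (Finsupp.mem_support_iff.mpr hxn)]
          obtain ⟨m, hm⟩ : ∃ m, x none = m + 1 := ⟨x none - 1, by omega⟩
          exact (nIdeal K σ).mul_mem_right _
            (by rw [hm, pow_succ]; exact Ideal.mul_mem_left _ _ hg) e he
    rw [← h1, hX]
    exact X_none_mem e he

/-- A series with invertible linear coefficient has a two sided inverse. -/
theorem exists_two_sided_inverse {g : MvPowerSeries (Option σ) K} (hg : g ∈ nIdeal K σ) {u : Kˣ}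
    (hu : coeff (Finsupp.single none 1) g = u) :
    ∃ η ∈ nIdeal K σ, substNone g η = X none ∧ substNone η g = X none := by
  obtain ⟨η, hη, h1, hη1⟩ := exists_inverse hg hu
  obtain ⟨ζ, hζ, h2, -⟩ := exists_inverse hη (u := u⁻¹) hη1
  have hg0 := constantCoeff_of_mem_nIdeal hg
  have hη0 := constantCoeff_of_mem_nIdeal hη
  have h3 : substNone g (substNone η ζ) = ζ := by
    rw [substNone_comp hg0 hη0, h1, X_none_substNone]
  rw [h2, substNone_X_none g hg0] at h3
  exact ⟨η, hη, h1, by rw [h3]; exact h2⟩

/-- Restriction to `V = 0`. -/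
def restr : Option σ → PowerSeries K := fun o ↦ o.elim PowerSeries.X fun _ ↦ 0

omit [Fintype σ] in
theorem constantCoeff_restr : ∀ o : Option σ, MvPowerSeries.constantCoeff (restr (K := K) o) = 0 := by
  rintro (_ | i)
  · exact PowerSeries.constantCoeff_X
  · exact map_zero _

theorem coeff_restr (f : MvPowerSeries (Option σ) K) (m : ℕ) :
    PowerSeries.coeff m (MvPowerSeries.subst restr f : PowerSeries K) =
      coeff (Finsupp.single none m) f := by
  classical
  rw [PowerSeries.coeff, coeff_subst (hasSubst_of_constantCoeff_zero constantCoeff_restr),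
    finsum_eq_single _ (Finsupp.single (none : Option σ) m)]
  · rw [Finsupp.prod_single_index (h := fun o k ↦ restr (K := K) o ^ k) (pow_zero _)]
    show _ • coeff _ ((PowerSeries.X : PowerSeries K) ^ m) = _
    rw [← PowerSeries.coeff_def (n := m) (by simp), PowerSeries.coeff_X_pow_self, smul_eq_mul, mul_one]
  · intro x hx
    rw [smul_eq_mul]
    refine mul_eq_zero_of_right _ ?_
    rw [Finsupp.prod_fintype _ _ (fun _ ↦ pow_zero _), Fintype.prod_option]
    by_cases hs : ∀ i, x (some i) = 0
    · have hm : x none ≠ m := fun h ↦ hx (Finsupp.ext fun o ↦ by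
        cases o with
        | none => simpa using h
        | some i => simp [hs i])
      rw [Finset.prod_eq_one fun i _ ↦ by rw [hs i, pow_zero], mul_one]
      show coeff _ ((PowerSeries.X : PowerSeries K) ^ x none) = 0
      rw [← PowerSeries.coeff_def (n := m) (by simp), PowerSeries.coeff_X_pow, if_neg (Ne.symm hm)]
    · obtain ⟨i, hi⟩ := not_forall.mp hs
      rw [Finset.prod_eq_zero (Finset.mem_univ i) (by simp [restr, zero_pow hi]), mul_zero,
        map_zero]

theorem mem_vIdeal_one_of_restr {f : MvPowerSeries (Option σ) K}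
    (h : (MvPowerSeries.subst restr f : PowerSeries K) = 0) : f ∈ vIdeal K σ 1 := by
  intro e he
  have hs : ∀ i, e (some i) = 0 := fun i ↦ by
    rw [vdeg_eq_sum] at he
    have := Finset.single_le_sum (f := fun i ↦ e (some i)) (fun _ _ ↦ Nat.zero_le _)
      (Finset.mem_univ i)
    omega
  have : e = Finsupp.single none (e none) := Finsupp.ext fun o ↦ by
    cases o with
    | none => simp
    | some i => simp [hs i]
  rw [this, ← coeff_restr, h, map_zero]

end PsiExt

open PsiExt in
theorem exists_psi_extension {p h : ℕ} [Fact p.Prime] {K : Type} [Field K] [CharP K p] {σ : Type}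
    [Finite σ] (hh : 0 < h)
    (ψ : PowerSeries K) (hψ0 : PowerSeries.constantCoeff ψ = 0)
    (Φ : MvPowerSeries (Option σ) K)
    (hΦ0 : ∀ e : Option σ →₀ ℕ, e none = 0 → coeff e Φ = 0)
    (hu : coeff (Finsupp.single none 1) Φ ≠ 0)
    (hψ : ψ ^ p ^ h = PowerSeries.subst
      (MvPowerSeries.subst (fun o ↦ o.elim (PowerSeries.X ^ p ^ h : PowerSeries K) fun _ ↦ 0) Φ
        : PowerSeries K) ψ) :
    ∃ Ψ : MvPowerSeries (Option σ) K,
      MvPowerSeries.subst (fun o ↦ o.elim (PowerSeries.X : PowerSeries K) fun _ ↦ 0) Ψ = ψ ∧
      (∀ e : Option σ →₀ ℕ, e none = 0 → coeff e Ψ = 0) ∧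
      MvPowerSeries.subst (fun o ↦ o.elim (MvPowerSeries.subst
          (fun o' ↦ o'.elim (X none ^ p ^ h) fun i ↦ X (some i)) Φ) fun i ↦ X (some i)) Ψ =
        Ψ ^ p ^ h := by
  classical
  have := Fintype.ofFinite σ
  have : ExpChar K p := ExpChar.prime Fact.out
  set P := p ^ h with hP
  have hP0 : P ≠ 0 := pow_ne_zero _ (Fact.out : p.Prime).ne_zero
  have hP2 : 2 ≤ P := le_trans (Fact.out : p.Prime).two_le (Nat.le_self_pow hh.ne' p)
  have hΦN : Φ ∈ nIdeal K σ := hΦ0
  have hΦc := constantCoeff_of_mem_nIdeal hΦN
  obtain ⟨η, hη, hΦη, hηΦ⟩ := exists_two_sided_inverse hΦN (u := Units.mk0 _ hu) rfl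
  have hηc := constantCoeff_of_mem_nIdeal hη
  -- the semilinear map on coefficients
  let bV : Option σ → MvPowerSeries (Option σ) K :=
    fun o ↦ o.elim (X none) fun i ↦ X (some i) ^ P
  have hbV : ∀ o, constantCoeff (bV o) = 0 := by
    rintro (_ | i)
    · exact constantCoeff_X _
    · simp [bV, zero_pow hP0]
  let F : MvPowerSeries (Option σ) K →+* MvPowerSeries (Option σ) K :=
    (MvPowerSeries.map (iterateFrobenius K p h)).comp
      (substAlgHom (R := K) (S := K) (hasSubst_of_constantCoeff_zero hbV)).toRingHom
  have hFdef : ∀ f, F f = MvPowerSeries.map (iterateFrobenius K p h) (MvPowerSeries.subst bV f) :=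
    fun f ↦ by
      show MvPowerSeries.map (iterateFrobenius K p h)
        (substAlgHom (R := K) (S := K) (hasSubst_of_constantCoeff_zero hbV) f) = _
      rw [coe_substAlgHom]
  have hXP : constantCoeff ((X none : MvPowerSeries (Option σ) K) ^ P) = 0 := by simp [zero_pow hP0]
  have hFpow : ∀ f, substNone (X none ^ P) (F f) = f ^ P := by
    intro f
    rw [hFdef, substNone]
    have hs := hasSubst_of_constantCoeff_zero (constantCoeff_elimNone hXP)
    have e1 : elimNone (X none ^ P : MvPowerSeries (Option σ) K) = fun o ↦
        MvPowerSeries.map (iterateFrobenius K p h)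
          (elimNone (X none ^ P : MvPowerSeries (Option σ) K) o) := by
      funext o; cases o <;> simp [elimNone]
    rw [e1, ← MvPowerSeries.map_subst hs, subst_comp_subst_apply
      (hasSubst_of_constantCoeff_zero hbV) hs]
    rw [← MvPowerSeries.map_iterateFrobenius_expand p (Fact.out : p.Prime).ne_zero f h]
    congr 1
    rw [MvPowerSeries.expand, coe_substAlgHom]
    congr 1
    funext o
    cases o with
    | none =>
      show MvPowerSeries.subst _ (X none) = _
      rw [subst_X hs]; rfl
    | some i =>
      show MvPowerSeries.subst _ (X (some i) ^ P) = _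
      rw [subst_pow hs, subst_X hs]; rfl
  have hFv : ∀ {k f}, f ∈ vIdeal K σ k → F f ∈ vIdeal K σ (P * k) := by
    intro k f hf e he
    rw [hFdef, coeff_map, subst_mem_vIdeal hbV (c := P) (fun i ↦ ?_) hf e he, map_zero]
    have := pow_mem_vIdeal (elimNone_some_mem (X none : MvPowerSeries (Option σ) K) i) P
    rw [one_mul] at this
    exact this
  have hFn : ∀ {f}, f ∈ nIdeal K σ → F f ∈ nIdeal K σ := by
    intro f hf e he
    rw [hFdef, coeff_map, subst_mem_nIdeal hbV X_none_mem hf e he, map_zero]
  -- the fixed point map
  let T : MvPowerSeries (Option σ) K → MvPowerSeries (Option σ) K := fun f ↦ substNone η (F f)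
  have hTsub : ∀ f g, T f - T g = substNone η (F (f - g)) := fun f g ↦ by
    simp only [T, substNone, map_sub, ← coe_substAlgHom
      (hasSubst_of_constantCoeff_zero (constantCoeff_elimNone hηc))]
  have hTv : ∀ {k f g}, f - g ∈ vIdeal K σ k → T f - T g ∈ vIdeal K σ (P * k) := by
    intro k f g hfg
    rw [hTsub]
    have := subst_mem_vIdeal (constantCoeff_elimNone hηc) (c := 1) (elimNone_some_mem η) (hFv hfg)
    rw [one_mul] at this
    exact this
  have hTn : ∀ {f}, f ∈ nIdeal K σ → T f ∈ nIdeal K σ := fun hf ↦
    subst_mem_nIdeal (constantCoeff_elimNone hηc) hη (hFn hf)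
  set ψ₀ : MvPowerSeries (Option σ) K := PowerSeries.subst (X none : MvPowerSeries (Option σ) K) ψ
    with hψ₀
  have hψ₀n : ψ₀ ∈ nIdeal K σ := by
    intro e he
    rw [hψ₀, PowerSeries.coeff_subst (PowerSeries.HasSubst.of_constantCoeff_zero (constantCoeff_X _))]
    refine finsum_eq_zero_of_forall_eq_zero fun m ↦ ?_
    rcases Nat.eq_zero_or_pos m with rfl | hm
    · rw [PowerSeries.coeff_zero_eq_constantCoeff_apply, hψ0, zero_smul]
    · rw [coeff_X_pow, if_neg (fun h' ↦ by
        rw [h', Finsupp.single_eq_same] at he; omega), smul_zero]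
  -- the base case
  have hsR := hasSubst_of_constantCoeff_zero (constantCoeff_restr (K := K) (σ := σ))
  have hr0 : (MvPowerSeries.subst restr ψ₀ : PowerSeries K) = ψ := by
    rw [hψ₀, mv_subst_ps_subst (constantCoeff_X _) hsR, subst_X hsR]
    exact PowerSeries.X_subst ψ
  have hbase : T ψ₀ - ψ₀ ∈ vIdeal K σ 1 := by
    have hrestr : (MvPowerSeries.subst restr (F ψ₀ - substNone Φ ψ₀) : PowerSeries K) = 0 := by
      have hexp : ∀ g : MvPowerSeries (Option σ) K,
          (MvPowerSeries.subst restr (substNone (X none ^ P) g) : PowerSeries K) =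
            MvPowerSeries.expand P hP0 (MvPowerSeries.subst restr g : PowerSeries K) := by
        intro g
        rw [substNone, subst_comp_subst_apply
          (hasSubst_of_constantCoeff_zero (constantCoeff_elimNone hXP)) hsR,
          MvPowerSeries.expand_subst P hP0 hsR]
        congr 1
        funext o
        cases o with
        | none =>
          show MvPowerSeries.subst _ (X none ^ P) = _
          rw [subst_pow hsR, subst_X hsR]
          simp [restr, PowerSeries.X]
        | some i =>
          show MvPowerSeries.subst _ (X (some i)) = _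
          rw [subst_X hsR]
          simp [restr]
      have hS : (MvPowerSeries.subst restr (substNone (X none ^ P) (substNone Φ ψ₀)) : PowerSeries K)
          = ψ ^ P := by
        rw [substNone_comp hXP hΦc, substNone, subst_comp_subst_apply (hasSubst_of_constantCoeff_zero
          (constantCoeff_elimNone (g := substNone (X none ^ P) Φ) (by
            rw [substNone, constantCoeff_subst_eq_zero (hasSubst_of_constantCoeff_zero
              (constantCoeff_elimNone hXP)) (constantCoeff_elimNone hXP) hΦc]))) hsR,
          hψ₀, hψ, mv_subst_ps_subst (constantCoeff_X _) (hasSubst_of_constantCoeff_zero fun o ↦ ?_)]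
        · congr 1
          rw [subst_X (hasSubst_of_constantCoeff_zero fun o ↦ ?_)]
          · show MvPowerSeries.subst restr (substNone (X none ^ P) Φ) = _
            rw [substNone, subst_comp_subst_apply
              (hasSubst_of_constantCoeff_zero (constantCoeff_elimNone hXP)) hsR]
            congr 1
            funext o
            cases o with
            | none =>
              show MvPowerSeries.subst _ (X none ^ P) = _
              rw [subst_pow hsR, subst_X hsR]; rfl
            | some i =>
              show MvPowerSeries.subst _ (X (some i)) = _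
              rw [subst_X hsR]; rfl
          · exact constantCoeff_subst_eq_zero hsR constantCoeff_restr
              (constantCoeff_elimNone (by
                rw [substNone, constantCoeff_subst_eq_zero (hasSubst_of_constantCoeff_zero
                  (constantCoeff_elimNone hXP)) (constantCoeff_elimNone hXP) hΦc]) o)
        · exact constantCoeff_subst_eq_zero hsR constantCoeff_restr
            (constantCoeff_elimNone (by
              rw [substNone, constantCoeff_subst_eq_zero (hasSubst_of_constantCoeff_zero
                (constantCoeff_elimNone hXP)) (constantCoeff_elimNone hXP) hΦc]) o)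
      have hF' : (MvPowerSeries.subst restr (substNone (X none ^ P) (F ψ₀)) : PowerSeries K)
          = ψ ^ P := by
        rw [hFpow, subst_pow hsR, hr0]
      rw [hexp] at hS hF'
      have heq := hF'.trans hS.symm
      have : (MvPowerSeries.subst restr (F ψ₀) : PowerSeries K)
          = MvPowerSeries.subst restr (substNone Φ ψ₀) := MvPowerSeries.ext fun d ↦ by
        have := congrArg (coeff (P • d)) heq
        rwa [coeff_expand_smul, coeff_expand_smul] at this
      rw [← coe_substAlgHom hsR, map_sub, coe_substAlgHom hsR, this, sub_self]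
    have h1 := subst_mem_vIdeal (constantCoeff_elimNone hηc) (c := 1) (elimNone_some_mem η)
      (mem_vIdeal_one_of_restr hrestr)
    have e : T ψ₀ - ψ₀ = MvPowerSeries.subst (elimNone η) (F ψ₀ - substNone Φ ψ₀) := by
      have hs := hasSubst_of_constantCoeff_zero (constantCoeff_elimNone hηc)
      rw [← coe_substAlgHom hs, map_sub, coe_substAlgHom hs]
      show substNone η (F ψ₀) - ψ₀ = substNone η (F ψ₀) - substNone η (substNone Φ ψ₀)
      rw [substNone_comp hηc hΦc, hηΦ, X_none_substNone]
    rw [e]
    exact h1
  -- iteration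
  let it : ℕ → MvPowerSeries (Option σ) K := fun k ↦ T^[k] ψ₀
  have hitn : ∀ k, it k ∈ nIdeal K σ := fun k ↦ by
    induction k with
    | zero => exact hψ₀n
    | succ k ih => simp only [it, Function.iterate_succ_apply']; exact hTn ih
  have hstep : ∀ k, it (k + 1) - it k ∈ vIdeal K σ (k + 1) := by
    intro k
    induction k with
    | zero => exact hbase
    | succ k ih =>
      have h2 : 2 * (k + 1) ≤ P * (k + 1) := Nat.mul_le_mul_right _ hP2
      have := vIdeal_mono (show k + 1 + 1 ≤ P * (k + 1) by omega) (hTv ih)
      simpa only [it, Function.iterate_succ_apply'] using this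
  have hstab : ∀ k l (e : Option σ →₀ ℕ), vdeg e ≤ k → k ≤ l →
      coeff e (it l) = coeff e (it k) := by
    intro k l e he hkl
    induction l, hkl using Nat.le_induction with
    | base => rfl
    | succ l hkl ih =>
      have := hstep l e (by omega)
      rw [map_sub, sub_eq_zero] at this
      rw [this, ih]
  let Ψ : MvPowerSeries (Option σ) K := fun e ↦ coeff e (it (vdeg e))
  have hΨ : ∀ k, Ψ - it k ∈ vIdeal K σ (k + 1) := by
    intro k e he
    rw [map_sub, sub_eq_zero]
    exact (hstab (vdeg e) k e le_rfl (by omega)).symm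
  have hfix : Ψ = T Ψ := by
    refine eq_of_forall_mem fun k ↦ ?_
    have h2 : 2 * (k + 1) ≤ P * (k + 1) := Nat.mul_le_mul_right _ hP2
    have ha := vIdeal_mono (show k ≤ k + 1 + 1 by omega) (hΨ (k + 1))
    have hb := vIdeal_mono (show k ≤ P * (k + 1) by omega) (hTv (hΨ k))
    have e : it (k + 1) = T (it k) := Function.iterate_succ_apply' T k ψ₀
    rw [e] at ha
    have := sub_mem ha hb
    rwa [sub_sub_sub_cancel_right] at this
  refine ⟨Ψ, ?_, fun e he ↦ hitn _ e he, ?_⟩
  · show MvPowerSeries.subst restr Ψ = ψ
    refine PowerSeries.ext fun m ↦ ?_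
    rw [coeff_restr, ← hr0, coeff_restr]
    show coeff _ (it (vdeg (Finsupp.single (none : Option σ) m))) = _
    rw [show vdeg (Finsupp.single (none : Option σ) m) = 0 by simp [vdeg, Finsupp.degree_single]]
    rfl
  · show substNone (substNone (X none ^ P) Φ) Ψ = Ψ ^ P
    have hS : substNone Φ Ψ = F Ψ := by
      conv_lhs => rw [hfix]
      show substNone Φ (substNone η (F Ψ)) = F Ψ
      rw [substNone_comp hΦc hηc, hΦη, X_none_substNone]
    rw [← substNone_comp hXP hΦc, hS, hFpow]

end Vale.Agent.P217
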