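import Vale.Agent.P217.TorsionRoots
import Mathlib.Algebra.Module.ZMod
import Mathlib.FieldTheory.Finiteness
import Mathlib.Algebra.Field.ZMod
import Mathlib.LinearAlgebra.Dimension.Free
import Mathlib.LinearAlgebra.Basis.VectorSpace
import Mathlib.LinearAlgebra.FiniteDimensional.Defs

/-!
A basis of the kernel of the cover map.
-/

noncomputable section

open Filter MvPowerSeries Finset
open scoped MvPowerSeries.WithPiTopology Topology

set_option linter.unusedSectionVars false

namespace Vale.Agent.P217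

variable {p n h d : ℕ} [hp : Fact p.Prime]
  {Ω : Type} [NontriviallyNormedField Ω] [IsUltrametricDist Ω] [GoodField p Ω]

namespace Torsion

/-- A finite group killed by `p` with `p ^ d` elements has a basis. -/
theorem exists_basis_of_card {T : Type} [AddCommGroup T] (hp' : ∀ x : T, p • x = 0)
    (hcard : Nat.card T = p ^ d) :
    ∃ e : Fin d → T, (∀ z, ∃ a : Fin d → ℤ, z = ∑ j, a j • e j) ∧
      ∀ a : Fin d → ℤ, (∑ j, a j • e j) = 0 → ∀ j, (p : ℤ) ∣ a j := by
  classical
  let : Module (ZMod p) T := AddCommGroup.zmodModule (n := p) (G := T) hp'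
  have : Finite T := Nat.finite_of_card_ne_zero (by rw [hcard]; exact pow_ne_zero _ hp.out.ne_zero)
  have hrank : Module.finrank (ZMod p) T = d := by
    have h1 : Nat.card T = Nat.card (ZMod p) ^ Module.finrank (ZMod p) T :=
      Module.natCard_eq_pow_finrank
    rw [hcard, Nat.card_zmod] at h1
    exact (Nat.pow_right_injective hp.out.two_le h1).symm
  let B : Module.Basis (Fin d) (ZMod p) T := Module.finBasisOfFinrankEq (ZMod p) T hrank
  refine ⟨fun j ↦ B j, fun z ↦ ⟨fun j ↦ ((B.repr z j).val : ℤ), ?_⟩, fun a ha j ↦ ?_⟩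
  · conv_lhs => rw [← B.sum_repr z]
    refine sum_congr rfl fun j _ ↦ ?_
    rw [natCast_zsmul, ← Nat.cast_smul_eq_nsmul (ZMod p), ZMod.natCast_zmod_val]
  · refine (ZMod.intCast_zmod_eq_zero_iff_dvd _ _).mp ?_
    refine Fintype.linearIndependent_iff.mp B.linearIndependent (fun i ↦ (a i : ZMod p)) ?_ j
    simpa [Int.cast_smul_eq_zsmul] using ha

end Torsion

theorem exists_tateBasis (hh : 0 < h) (hd : 0 < d) (hn : h + d = n) (φ : Haz.A n →+* intRing Ω)
    (hφ : ∀ i, ‖(φ (MvPolynomial.X i) : Ω)‖ < 1)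
    (hlow : ∀ i, 0 < i → i < h → φ (Haz.uA n i) = 0) (hu : φ (Haz.uA n h) ≠ 0) :
    ∃ y, IsTateBasis p n d φ y := by
  classical
  have hn0 : n ≠ 0 := by omega
  let T : AddSubgroup (Haz.Pt p φ) :=
    { carrier := {z | p • z = 0}
      zero_mem' := smul_zero p
      add_mem' := fun {a b} (ha : p • a = 0) (hb : p • b = 0) ↦ by
        show p • (a + b) = 0
        rw [smul_add, ha, hb, add_zero]
      neg_mem' := fun {a} (ha : p • a = 0) ↦ by
        show p • (-a) = 0
        rw [smul_neg, ha, neg_zero] }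
  have hcard : Nat.card T = p ^ d := Torsion.card_kernel hh hn hφ hlow hu
  have : Finite T := Nat.finite_of_card_ne_zero (by rw [hcard]; exact pow_ne_zero _ hp.out.ne_zero)
  obtain ⟨B, hspan, hindep⟩ := Torsion.exists_basis_of_card (p := p) (d := d) (T := T)
    (fun x ↦ Subtype.ext (by rw [AddSubgroupClass.coe_nsmul]; exact x.2)) hcard
  have hx : ∀ j : Fin d, ∃ x : Haz.Pt p (zeroSpec n (intRing Ω)),
      Torsion.prHom hφ hn0 x = (B j : Haz.Pt p φ) :=
    fun j ↦ Torsion.prHom_surjective hφ hn0 _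
  choose x hx using hx
  have hy : ∀ z : Haz.Pt p (zeroSpec n (intRing Ω)), (p • z).val = z.val ^ p ^ n := fun z ↦ by
    simpa using Torsion.honda_pPow_val hn0 z 1
  refine ⟨fun j ↦ p • x j, ?_, ?_, ?_, hcard⟩
  · intro j
    have h1 := Torsion.prHom_val hφ hn0 (p • x j)
    rw [map_nsmul, hx, show p • (B j : Haz.Pt p φ) = 0 from (B j).2] at h1
    exact h1.symm
  · -- lower bound
    obtain ⟨δ, hδ, hδle⟩ : ∃ δ > (0 : ℝ), ∀ k : T, k ≠ 0 → δ ≤ ‖((k : Haz.Pt p φ).val : Ω)‖ := by
      have := Fintype.ofFinite T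
      let S : Finset ℝ := insert 1 ((univ.filter fun k : T ↦ k ≠ 0).image
        fun k : T ↦ ‖((k : Haz.Pt p φ).val : Ω)‖)
      refine ⟨S.min' (insert_nonempty _ _), ?_, fun k hk ↦ S.min'_le _ ?_⟩
      · rw [gt_iff_lt, Finset.lt_min'_iff]
        intro r hr
        rcases mem_insert.mp hr with rfl | hr
        · exact one_pos
        · obtain ⟨k, hk, rfl⟩ := mem_image.mp hr
          refine norm_pos_iff.mpr fun h0 ↦ (mem_filter.mp hk).2 ?_
          exact Subtype.ext (Haz.Pt.ext (Subtype.ext (by simpa [Haz.zero_val] using h0)))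
      · exact mem_insert_of_mem (mem_image.mpr ⟨k, mem_filter.mpr ⟨mem_univ _, hk⟩, rfl⟩)
    obtain ⟨N, hN⟩ := ((Torsion.tendsto_kap_pow (p := p) hφ).eventually_lt_const hδ).exists
    refine ⟨δ ^ ((p ^ n) ^ N * p ^ n), by positivity, fun a ha ↦ ?_⟩
    set X := ∑ j, a j • x j with hX
    have hpr : Torsion.prHom hφ hn0 X = ((∑ j, a j • B j : T) : Haz.Pt p φ) := by
      rw [hX, map_sum, AddSubgroup.val_finsetSum]
      refine sum_congr rfl fun j _ ↦ ?_
      rw [map_zsmul, hx, AddSubgroupClass.coe_zsmul]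
    have hne : (∑ j, a j • B j) ≠ 0 := fun h0 ↦ by
      obtain ⟨j, hj⟩ := ha
      exact hj (hindep a h0 j)
    have h1 : δ ≤ ‖(prLim p n φ X.val : Ω)‖ := by
      rw [← Torsion.prHom_val hφ hn0 X, hpr]
      exact hδle _ hne
    set ρ := Torsion.root φ X.small N
    have h2 : ‖(prSeq p n φ X.val N : Ω)‖ ≤ ‖(ρ.val : Ω)‖ := by
      rw [Torsion.prSeq_eq X.small]
      have h := Torsion.norm_pPow_smul_sub N ρ 0
      rw [smul_zero, Haz.zero_val, ZeroMemClass.coe_zero, sub_zero, sub_zero] at h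
      exact h.trans (pow_le_of_le_one (norm_nonneg _) (mem_intRing.mp ρ.val.2)
        (pow_ne_zero _ hp.out.ne_zero))
    have h3 : δ ≤ ‖(ρ.val : Ω)‖ := by
      have h4 := Torsion.norm_prSeq_sub_prLim hφ hn0 X.small N
      rw [norm_sub_rev] at h4
      have h5 : δ ≤ max (Torsion.kap φ ^ p ^ N) ‖(ρ.val : Ω)‖ := by
        refine h1.trans ?_
        rw [← sub_add_cancel (prLim p n φ X.val : Ω) (prSeq p n φ X.val N)]
        exact (IsUltrametricDist.norm_add_le_max _ _).trans (max_le_max h4 h2)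
      rcases le_max_iff.mp h5 with h | h
      · linarith
      · exact h
    have h6 : δ ^ (p ^ n) ^ N ≤ ‖(X.val : Ω)‖ := by
      rw [← Torsion.norm_intRoot (pow_ne_zero _ (pow_ne_zero _ hp.out.ne_zero)) X.val]
      exact pow_le_pow_left₀ hδ.le h3 _
    have h7 : ∑ j, a j • (p • x j) = p • X := by
      rw [hX, Finset.smul_sum]
      exact sum_congr rfl fun j _ ↦ smul_comm _ _ _
    rw [h7, hy, SubmonoidClass.coe_pow, norm_pow, pow_mul]
    exact pow_le_pow_left₀ (by positivity) h6 _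
  · intro z hz z₁ hz₁
    have he : ∀ j, z₁ j = (B j : Haz.Pt p φ) := by
      intro j
      refine Haz.Pt.ext ?_
      rw [hz₁, hy, Torsion.intRoot_of_pow rfl rfl, ← Torsion.prHom_val hφ hn0, hx]
    obtain ⟨a, ha⟩ := hspan ⟨z, hz⟩
    refine ⟨a, ?_⟩
    have h1 : z = ((∑ j, a j • B j : T) : Haz.Pt p φ) := congr_arg Subtype.val ha
    rw [h1, AddSubgroup.val_finsetSum]
    exact sum_congr rfl fun j _ ↦ by rw [he, AddSubgroupClass.coe_zsmul]

end Vale.Agent.P217
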