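import Vale.Agent.P217.Shared
import Vale.Agent.P217.Heights
import Vale.Agent.P217.CurveSel
import Vale.Agent.P217.Subgroup

/-!
Translation of a series of the Lubin-Tate ring to a point of the height stratum.
-/

noncomputable section

open Filter MvPowerSeries
open scoped MvPowerSeries.WithPiTopology Topology

namespace Vale.Agent.P217

variable {p n h d : ℕ} [Fact p.Prime]
  {Ω : Type} [NontriviallyNormedField Ω] [IsUltrametricDist Ω] [GoodField p Ω]

theorem small_shiftPoint {R : Type*} [CommRing R] [UniformSpace R] [CLRing R]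
    {a : Fin (n - 1) → R} (ha : IsSmall a) :
    IsSmall (shiftPoint n h d (pointHom (n := n) a)) := by
  intro i
  unfold shiftPoint
  refine IsTopologicallyNilpotent.add ?_ ?_
  · simpa [pointHom] using small_C (σ := Fin d) (ha i)
  · split_ifs
    · exact small_X _
    · exact IsTopologicallyNilpotent.zero

/-- A series is in the height ideal if it vanishes at all points of the stratum. -/
theorem mem_heightIdeal_of_vanish (hh : 0 < h) (hhn : h ≤ n) (ι : GaloisField p n →+* intRing Ω)
    (f : LTRing p n)
    (hvan : ∀ (b : Fin (n - 1) → intRing Ω) (hb : IsSmall b),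
      (∀ i : Fin (n - 1), i.1 + 1 < h → b i = 0) →
        chi (ι.comp WittVector.constantCoeff) hb f = 0) :
    f ∈ heightIdeal p n h := by
  classical
  rw [heightIdeal_eq_ker p n hh hhn, RingHom.mem_ker]
  have hinj : Function.Injective (MvPowerSeries.map (σ := Fin (n - 1)) ι) := fun F G hFG ↦
    MvPowerSeries.ext fun e ↦ ι.injective (by
      simpa using congrArg (MvPowerSeries.coeff e) hFG)
  refine hinj ?_
  rw [map_zero]
  refine eq_zero_of_vanish (h := h) hh (⊤ : AddSubgroup (Fin (n - 1) → HPt p h Ω))
    (vanIdeal_top hh) _ fun x _ ↦ ?_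
  set v : Fin (n - 1) → intRing Ω := fun i ↦ (x i).val
  have hv : IsSmall v := small_val x
  let b : Fin (n - 1) → intRing Ω := fun i ↦ if i.1 + 1 < h then 0 else v i
  have hb : IsSmall b := fun i ↦ by
    simp only [b]; split_ifs
    · exact IsTopologicallyNilpotent.zero
    · exact hv i
  let ψ : LTRing p n →+* intRing Ω :=
    (evHom hv).comp ((MvPowerSeries.map ι).comp (heightProj p n h))
  have hψX : ∀ i, ψ (MvPowerSeries.X i) = b i := fun i ↦ by
    simp only [ψ, b, RingHom.comp_apply, heightProj_X]
    split_ifs <;> simp [evHom_apply, ev_zero hv, v]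
  have hψC : ψ.comp MvPowerSeries.C = ι.comp WittVector.constantCoeff := by
    refine RingHom.ext fun w ↦ ?_
    have hC : heightProj p n h (MvPowerSeries.C w)
        = MvPowerSeries.C (WittVector.constantCoeff w) := by
      refine MvPowerSeries.ext fun e ↦ ?_
      rw [heightProj, RingHom.comp_apply, MvPowerSeries.map_C, coeff_rescale, coeff_C]
      split_ifs with he
      · subst he; simp
      · rw [mul_zero]
    simp [ψ, hC, evHom_apply]
  have hψf : ψ f = 0 := by
    rw [hom_eq_ev ψ (fun i ↦ by rw [hψX i]; exact isTopologicallyNilpotent_intRing.mp (hb i)) f,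
      hψC, funext hψX, ← chi_apply _ hb]
    exact hvan b hb fun i hi ↦ if_pos hi
  simpa [ψ, evHom_apply] using hψf

theorem exists_translate (hh : 0 < h) (hn : h + d = n)
    (ι : GaloisField p n →+* intRing Ω) {a : Fin (n - 1) → intRing Ω} (ha : IsSmall a)
    (hlow : ∀ i : Fin (n - 1), i.1 + 1 < h → a i = 0) (f : LTRing p n) :
    ∃ F : MvPowerSeries (Fin d) (intRing Ω),
      (F = 0 → f ∈ heightIdeal p n h) ∧
      ∀ (v : Fin d → intRing Ω) (_hv : IsSmall v) (b : Fin (n - 1) → intRing Ω) (hb : IsSmall b),
        (∀ i : Fin (n - 1), i.1 + 1 < h → b i = 0) →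
        (∀ (i : Fin (n - 1)) (t : Fin d), i.1 + 1 = h + t.1 → b i = a i + v t) →
        ev F v = chi (ι.comp WittVector.constantCoeff) hb f := by
  classical
  set T := shiftPoint n h d (pointHom (n := n) a)
  have hT : IsSmall T := small_shiftPoint ha
  let F := ev (MvPowerSeries.map
    ((MvPowerSeries.C).comp (ι.comp WittVector.constantCoeff)) f) T
  have key : ∀ (v : Fin d → intRing Ω) (_hv : IsSmall v) (b : Fin (n - 1) → intRing Ω)
      (hb : IsSmall b), (∀ i : Fin (n - 1), i.1 + 1 < h → b i = 0) →
      (∀ (i : Fin (n - 1)) (t : Fin d), i.1 + 1 = h + t.1 → b i = a i + v t) →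
      ev F v = chi (ι.comp WittVector.constantCoeff) hb f := by
    intro v hv b hb hb0 hbt
    rw [← evHom_apply hv, map_ev hT (show Continuous (evHom hv) from by
      simp only [funext (evHom_apply hv)]; exact continuous_ev hv), MvPowerSeries.map_map,
      chi_apply]
    congr 1
    · congr 2
      refine RingHom.ext fun w ↦ ?_
      simp [evHom_apply]
    · funext i
      simp only [Function.comp_apply, T, shiftPoint, pointHom, MvPolynomial.eval₂Hom_X', map_add]
      by_cases hi : i.1 + 1 < h
      · rw [dif_neg (by omega), map_zero, add_zero, evHom_apply, ev_C, hb0 i hi, hlow i hi]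
      · have := i.2
        rw [dif_pos ⟨by omega, by omega⟩, evHom_apply, evHom_apply, ev_C, ev_X]
        refine (hbt i _ ?_).symm
        simp only
        omega
  refine ⟨F, fun hF ↦ mem_heightIdeal_of_vanish hh (by omega) ι f fun b hb hb0 ↦ ?_, key⟩
  let v : Fin d → intRing Ω := fun t ↦
    if ht : h + t.1 - 1 < n - 1 then b ⟨h + t.1 - 1, ht⟩ - a ⟨h + t.1 - 1, ht⟩ else 0
  have hv : IsSmall v := fun t ↦ by
    simp only [v]; split_ifs with ht
    · rw [isTopologicallyNilpotent_intRing, AddSubgroupClass.coe_sub, sub_eq_add_neg]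
      refine (IsUltrametricDist.norm_add_le_max _ _).trans_lt ?_
      rw [norm_neg]
      exact max_lt (isTopologicallyNilpotent_intRing.mp (hb _))
        (isTopologicallyNilpotent_intRing.mp (ha _))
    · exact IsTopologicallyNilpotent.zero
  rw [← key v hv b hb hb0 fun i t hit ↦ ?_, hF, ev_zero hv]
  have hi : (⟨h + t.1 - 1, by omega⟩ : Fin (n - 1)) = i := Fin.ext (by simp only; omega)
  simp only [v]
  rw [dif_pos (by omega), hi, add_sub_cancel]

end Vale.Agent.P217
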