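import Vale.Agent.P217.PointTools
import Vale.Agent.P217.Orbit
import Vale.Agent.P217.TorsionBasis
import Vale.Agent.P217.Field
import Vale.Agent.P217.Radical
import Vale.Agent.P217.LT
import Vale.Agent.P217.OrbitGroup
import Vale.Agent.P217.Translate
import Vale.Agent.P217.Jacobian
import Vale.Agent.P217.PsiExtension
import Vale.Agent.P217.Independence
import Vale.Agent.P217.Psi

/-!
Primes containing `p` that are moved into themselves are height ideals.
-/

noncomputable section

open MvPowerSeries Finset Filter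
open scoped MvPowerSeries.WithPiTopology Topology

namespace Vale.Agent.P217

variable {p n : ℕ} [hp : Fact p.Prime]

theorem constantCoeffMap_ker {f : LTRing p n}
    (hn : n ≠ 0) (hf : MvPowerSeries.map WittVector.constantCoeff f = 0) :
    f ∈ heightIdeal p n 1 := by
  rw [heightIdeal_eq_ker p n one_pos (Nat.one_le_iff_ne_zero.mpr hn), RingHom.mem_ker, heightProj,
    RingHom.comp_apply, hf, map_zero]

theorem constantCoeffMap_surjective :
    Function.Surjective (MvPowerSeries.map (σ := Fin (n - 1))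
      (WittVector.constantCoeff : WittVector p (GaloisField p n) →+* GaloisField p n)) := by
  intro g
  let F : LTRing p n := fun e ↦ WittVector.teichmuller p (coeff e g)
  refine ⟨F, MvPowerSeries.ext fun e ↦ ?_⟩
  rw [MvPowerSeries.coeff_map]
  show (WittVector.teichmuller p (coeff e g)).coeff 0 = _
  exact WittVector.teichmuller_coeff_zero p _

/-- The situation at a point of height exactly `h < n`: an element of a moved prime vanishing
there lies in the height ideal. -/
theorem mem_heightIdeal_of_point (hn0 : n ≠ 0) {h : ℕ} (hh : 0 < h) (hhn : h < n)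
    {P : Ideal (LTRing p n)} (hP : MovesInto p n P) (hIh : heightIdeal p n h ≤ P)
    {f : LTRing p n} (hf : f ∈ P)
    {Ω : Type} [NontriviallyNormedField Ω] [IsUltrametricDist Ω] [GoodField p Ω]
    (ι : GaloisField p n →+* intRing Ω) {a : Fin (n - 1) → intRing Ω} (ha : IsSmall a)
    (hker : ∀ g ∈ P, chi (ι.comp WittVector.constantCoeff) ha g = 0)
    (hunit : ∀ i : Fin (n - 1), i.1 + 1 = h → a i ≠ 0) :
    f ∈ heightIdeal p n h := by
  classical
  have hcharΩ : CharP Ω p := GoodField.charP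
  have : CharP (intRing Ω) p := RingHom.charP (intRing Ω).subtype Subtype.coe_injective p
  set χ := chi (ι.comp WittVector.constantCoeff) ha with hχ
  set φ0 : Haz.A n →+* intRing Ω := pointHom a with hφ0
  obtain ⟨d, hd, hnd⟩ : ∃ d, 0 < d ∧ h + d = n := ⟨n - h, by omega, by omega⟩
  have haX : ∀ i, χ (MvPowerSeries.X i) = a i := fun i ↦ by simp [hχ, chi_apply]
  have hlowI : ∀ i : Fin (n - 1), i.1 + 1 < h → (MvPowerSeries.X i : LTRing p n) ∈ P := by
    intro i hi
    refine hIh (Ideal.subset_span ⟨i.1 + 1, hi, ?_⟩)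
    rw [ltParam, if_neg (Nat.succ_ne_zero _), dif_pos (by simp)]
    simp
  have hlowa : ∀ i : Fin (n - 1), i.1 + 1 < h → a i = 0 := fun i hi ↦ by
    rw [← haX i]; exact hker _ (hlowI i hi)
  have hlow : ∀ i, 0 < i → i < h → φ0 (Haz.uA n i) = 0 := by
    intro i hi0 hi
    rw [Haz.uA, dif_pos ⟨hi0.ne', by omega⟩]
    simp only [hφ0, pointHom, MvPolynomial.eval₂Hom_X']
    exact hlowa _ (by simp only; omega)
  have hu : φ0 (Haz.uA n h) ≠ 0 := by
    rw [Haz.uA, dif_pos ⟨hh.ne', by omega⟩]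
    simp only [hφ0, pointHom, MvPolynomial.eval₂Hom_X']
    exact hunit _ (by simp only; omega)
  have hφ : ∀ i, ‖(φ0 (MvPolynomial.X i) : Ω)‖ < 1 := fun i ↦ by
    simp only [hφ0, pointHom, MvPolynomial.eval₂Hom_X']
    exact isTopologicallyNilpotent_intRing.mp (ha i)
  obtain ⟨y, hy⟩ := exists_tateBasis hh hd hnd φ0 hφ hlow hu
  obtain ⟨ξ, hξ0, hdet, hξev, hWle⟩ := exists_coordinates hh hd hnd φ0 hφ hlow hu y hy
  obtain ⟨ψ, hψ, hψ1, hψp⟩ := exists_psi hh hhn φ0 hφ hlow hu
  obtain ⟨F, hF0, hFev⟩ := exists_translate hh hnd ι ha hlowa f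
  by_contra hfh
  have hFne : F ≠ 0 := fun h0 ↦ hfh (hF0 h0)
  -- the extension of `ψ` along the shift
  set Φ : MvPowerSeries (Option (Fin d)) Ω := MvPowerSeries.map (intRing Ω).subtype
    (Germ.contractNone (p ^ h) (Germ.powSeries p h d φ0 1))
  have hexp : Germ.expandNone (p ^ h) (Germ.contractNone (p ^ h) (Germ.powSeries p h d φ0 1)) =
      Germ.powSeries p h d φ0 1 := by
    simpa using Germ.expandNone_contract (p := p) (d := d) φ0 hh hlow 1
  have hP0 : p ^ h ≠ 0 := pow_ne_zero h hp.out.ne_zero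
  have hexpΩ : MvPowerSeries.subst (fun o : Option (Fin d) ↦ o.elim
      (X none ^ p ^ h : MvPowerSeries (Option (Fin d)) Ω) fun i ↦ X (some i)) Φ =
      MvPowerSeries.map (intRing Ω).subtype (Germ.powSeries p h d φ0 1) := by
    conv_rhs => rw [← hexp, Germ.expandNone,
      MvPowerSeries.map_subst (Germ.hasSubst_expandNone (Fin d) (intRing Ω) hP0)]
    congr 1
    funext o
    rcases o with _ | i <;> simp
  set ψΩ : PowerSeries Ω := MvPowerSeries.map (intRing Ω).subtype ψ
  have hψΩ0 : PowerSeries.constantCoeff ψΩ = 0 := by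
    show MvPowerSeries.constantCoeff (MvPowerSeries.map _ ψ) = 0
    rw [MvPowerSeries.constantCoeff_map, show MvPowerSeries.constantCoeff ψ = 0 from hψ.1, map_zero]
  have haxis : (MvPowerSeries.subst
      (fun o : Option (Fin d) ↦ o.elim (PowerSeries.X ^ p ^ h : PowerSeries Ω) fun _ ↦ 0) Φ
        : PowerSeries Ω) =
      MvPowerSeries.map (intRing Ω).subtype (MvPowerSeries.map φ0 (Haz.mulSeries p n p)) := by
    have h1 := congrArg (MvPowerSeries.subst (axisPt (Fin d) Ω)) hexpΩ
    rw [subst_comp_subst_apply (Germ.hasSubst_expandNone (Fin d) Ω hP0) hasSubst_axisPt] at h1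
    have h2 : MvPowerSeries.subst (axisPt (Fin d) Ω)
        (MvPowerSeries.map (intRing Ω).subtype (Germ.powSeries p h d φ0 1)) =
        MvPowerSeries.map (intRing Ω).subtype (MvPowerSeries.map φ0 (Haz.mulSeries p n p)) := by
      rw [← powSeries_axis (h := h) (d := d) φ0, MvPowerSeries.map_subst hasSubst_axisPt]
      congr 1
      funext o
      rcases o with _ | i
      · exact (MvPowerSeries.map_X _ _).symm
      · exact (map_zero (MvPowerSeries.map (σ := Unit) (intRing Ω).subtype)).symm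
    rw [← h2, ← h1]
    congr 1
    funext o
    rcases o with _ | i
    · show _ = MvPowerSeries.subst (axisPt (Fin d) Ω) (X none ^ p ^ h)
      rw [subst_pow hasSubst_axisPt, subst_X hasSubst_axisPt]
      rfl
    · show _ = MvPowerSeries.subst (axisPt (Fin d) Ω) (X (some i))
      rw [subst_X hasSubst_axisPt]
      rfl
  have hΦlin : coeff (Finsupp.single none 1) Φ ≠ 0 := by
    have hsc : Germ.scaleNone (p ^ h) (Finsupp.single none 1 : Option (Fin d) →₀ ℕ) =
        Finsupp.single none (p ^ h) := by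
      refine Finsupp.ext fun o ↦ ?_
      rcases o with _ | i <;> simp [Germ.scaleNone_none, Germ.scaleNone_some]
    obtain ⟨Φ1, -, hΦ11, hΦ1⟩ :=
      Haz.mulSeries_p_height φ0 (CharP.cast_eq_zero (intRing Ω) p) hlow hh
    rw [MvPowerSeries.coeff_map, Germ.coeff_contractNone, hsc, ← coeff_axis, powSeries_axis, hΦ1,
      PowerSeries.coeff_def (s := Finsupp.single () (p ^ h)) (by simp),
      show Finsupp.single () (p ^ h) = (p ^ h) • Finsupp.single () 1 by
        simp, coeff_expand_smul, hΦ11]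
    exact fun h0 ↦ hu (Subtype.coe_injective h0)
  have hψP : ψΩ ^ p ^ h = PowerSeries.subst (MvPowerSeries.subst
      (fun o : Option (Fin d) ↦ o.elim (PowerSeries.X ^ p ^ h : PowerSeries Ω) fun _ ↦ 0) Φ
        : PowerSeries Ω) ψΩ := by
    rw [haxis]
    have h0 : constantCoeff (MvPowerSeries.map φ0 (Haz.mulSeries p n p)) = 0 := by
      simp [Haz.constantCoeff_mulSeries]
    have := congrArg (MvPowerSeries.map (intRing Ω).subtype) hψp
    rw [PowerSeries.map_subst (PowerSeries.HasSubst.of_constantCoeff_zero h0)] at this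
    exact (this.trans (map_pow (MvPowerSeries.map (σ := Unit) (intRing Ω).subtype) ψ _)).symm
  obtain ⟨Ψ, hΨ1, hΨv, hΨ⟩ := exists_psi_extension (p := p) (h := h) (σ := Fin d) hh ψΩ hψΩ0 Φ
    (fun e he ↦ by
      rw [MvPowerSeries.coeff_map, Germ.coeff_contractNone,
        Germ.powSeries_vanish φ0 1 (by rw [Germ.scaleNone_none, he, mul_zero]), map_zero])
    hΦlin hψP
  rw [hexpΩ] at hΨ
  have hΨψ : ∀ m, coeff (Finsupp.single none m) Ψ =
      ((PowerSeries.coeff m ψ : intRing Ω) : Ω) := by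
    intro m
    rw [← coeff_axis, show MvPowerSeries.subst (axisPt (Fin d) Ω) Ψ = ψΩ from hΨ1]
    show PowerSeries.coeff m (PowerSeries.map _ ψ) = _
    rw [PowerSeries.coeff_map]
    rfl
  have hΨ00 : constantCoeff Ψ = 0 := by
    rw [← coeff_zero_eq_constantCoeff_apply]; exact hΨv 0 rfl
  -- the coordinates and the transformed series
  set hat : Fin d → MvPowerSeries (Fin d) Ω := fun j ↦ MvPowerSeries.subst
    (fun o ↦ o.elim (MvPowerSeries.map (intRing Ω).subtype (ξ j)) X) Ψ with hhat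
  have hb0 : ∀ (j : Fin d) (o : Option (Fin d)),
      constantCoeff (o.elim (MvPowerSeries.map (intRing Ω).subtype (ξ j)) X) = 0 := by
    intro j o
    rcases o with _ | i
    · show constantCoeff (MvPowerSeries.map (intRing Ω).subtype (ξ j)) = 0
      rw [MvPowerSeries.constantCoeff_map, hξ0, map_zero]
    · exact constantCoeff_X _
  have hhat0 : ∀ j, constantCoeff (hat j) = 0 := fun j ↦
    MvPowerSeries.constantCoeff_subst_eq_zero (hasSubst_of_constantCoeff_zero (hb0 j)) (hb0 j)
      hΨ00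
  have hc1 : ((PowerSeries.coeff 1 ψ : intRing Ω) : Ω) ≠ 0 := fun h0 ↦
    hψ1 (Subtype.coe_injective h0)
  have hhatdet : (Matrix.of fun j i ↦ coeff (Finsupp.single i 1) (hat j)).det ≠ 0 := by
    have he : (Matrix.of fun j i ↦ coeff (Finsupp.single i 1) (hat j)) =
        ((PowerSeries.coeff 1 ψ : intRing Ω) : Ω) • (Matrix.of fun j i ↦
          ((coeff (Finsupp.single i 1) (ξ j) : intRing Ω) : Ω)) := by
      ext j i
      rw [Matrix.smul_apply, Matrix.of_apply, Matrix.of_apply, smul_eq_mul, hhat,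
        coeff_subst_low (hb0 j) hΨ00 (r := 1) (fun o ↦ one_le_order (hb0 j o)) (by simp),
        Fintype.sum_option]
      rw [sum_eq_zero fun t _ ↦ ?_, add_zero, hΨψ]
      · simp
      · rw [hΨv _ (by simp), zero_mul]
    rw [he, Matrix.det_smul]
    exact mul_ne_zero (pow_ne_zero _ hc1) hdet
  obtain ⟨H, hH⟩ := exists_comp_inverse hat hhat0 hhatdet (MvPowerSeries.map (intRing Ω).subtype F)
  have hHne : H ≠ 0 := by
    rintro rfl
    apply hFne
    rw [← coe_substAlgHom (hasSubst_of_constantCoeff_zero hhat0), map_zero] at hH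
    refine MvPowerSeries.ext fun e ↦ Subtype.coe_injective ?_
    have := congrArg (coeff e) hH.symm
    simpa using this
  obtain ⟨e0, he0⟩ : ∃ e, coeff e H ≠ 0 := by
    by_contra hcon
    push Not at hcon
    exact hHne (MvPowerSeries.ext fun e ↦ by rw [hcon e, map_zero])
  obtain ⟨lam, hlam⟩ := Module.Projective.exists_dual_ne_zero (algField p Ω) he0
  set Hs : MvPowerSeries (Fin d) (intRing Ω) := MvPowerSeries.map (algInt p Ω)
    (fun e ↦ lam (coeff e H) : MvPowerSeries (Fin d) (algField p Ω))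
  obtain ⟨𝒳, hX, hXc⟩ := exists_orbitGroup hn0 ι φ0 hφ ψ hψ y
  obtain ⟨pr0, hpr0, -, hpr0surj⟩ := exists_prHom hn0 φ0 hφ
  obtain ⟨κ, hκ0, hκ1, hκ⟩ : ∃ c : ℝ, 0 ≤ c ∧ c < 1 ∧ ∀ i, ‖(a i : Ω)‖ ≤ c := by
    rcases isEmpty_or_nonempty (Fin (n - 1)) with he | he
    · exact ⟨0, le_rfl, one_pos, fun i ↦ isEmptyElim i⟩
    · obtain ⟨i, hi⟩ := Finite.exists_max fun i ↦ ‖(a i : Ω)‖
      exact ⟨_, norm_nonneg _, isTopologicallyNilpotent_intRing.mp (ha i), hi⟩
  have hvan : ∀ x ∈ 𝒳, ev Hs (fun j ↦ (x j).val) = 0 := by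
    intro x hx
    obtain ⟨δ, hδ, hδx⟩ := hX x hx
    have hwsmall : ∀ j, IsTopologicallyNilpotent
        (ev (MvPowerSeries.map ι δ) fun _ : Unit ↦ (y j).val) := fun j ↦
      ev_small (fun _ ↦ (y j).small) (by
        rw [MvPowerSeries.constantCoeff_map, show MvPowerSeries.constantCoeff δ = 0 from hδ.1,
          map_zero]
        exact IsTopologicallyNilpotent.zero)
    let wp : Fin d → Haz.Pt p (zeroSpec n (intRing Ω)) := fun j ↦ ⟨_, hwsmall j⟩
    have hxval : ∀ j, (x j).val = ev ψ fun _ ↦ prLim p n φ0 (-wp j).val :=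
      fun j ↦ hδx j (wp j) rfl
    have hgerm := Germ.germ_bound hh φ0 hlow ξ hξ0 hdet hWle ψ hψ.1 Ψ hΨψ hΨ hΨ00 F H hH
      (fun j ↦ (-wp j).val) (fun j ↦ isTopologicallyNilpotent_intRing.mp (-wp j).small)
      (fun j ↦ by
        rw [← hpr0]
        exact isTopologicallyNilpotent_intRing.mp (pr0 (-wp j)).small) ?_
    · refine lam_vanish hh H x (fun D ↦ ?_) lam
      simp only [hxval]
      exact hgerm D
    -- the orbit data
    intro ε hε
    obtain ⟨r, hr⟩ := exists_pow_lt_of_lt_one hε hκ1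
    obtain ⟨K, hK⟩ := lift_continuity (p := p) hn0 r
    obtain ⟨M₀, hM₀⟩ := hP
    refine eventually_atTop.mpr ⟨max M₀ (K + 1), fun M hM ↦ ?_⟩
    have hM0 : M₀ ≤ M := (le_max_left _ _).trans hM
    have hMK : K + 1 ≤ M := (le_max_right _ _).trans hM
    have hMne : M ≠ 0 := by omega
    obtain ⟨φ, hW, θ, hθ, hred⟩ := lift_exists hn0 _ (gSeries_isFGIso hn0 hδ hMne)
    obtain ⟨hb, hchi, hrel⟩ := orbit_relation hn0 ι ha φ hW θ hθ δ hδ hMne hred
    set b : Fin (n - 1) → intRing Ω := fun i ↦ χ (φ (MvPowerSeries.X i)) with hbdef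
    have hclose : ∀ i, φ (MvPowerSeries.X i) - MvPowerSeries.X i ∈
        IsLocalRing.maximalIdeal (LTRing p n) ^ r := by
      refine hK φ hW θ hθ fun m hm ↦ ?_
      rw [hred]
      refine coeff_gSeries_low hδ.1 ?_
      calc m < M := by omega
        _ < (p ^ n) ^ M := Nat.lt_pow_self (Nat.one_lt_pow hn0 hp.out.one_lt)
    have hba : ∀ i, ‖((b i : Ω) - a i)‖ ≤ ε := fun i ↦ by
      have h1 := norm_chi_le_pow ι ha hκ0 hκ r (hclose i)
      rw [map_sub] at h1
      rw [← AddSubgroupClass.coe_sub, ← haX i]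
      exact h1.trans hr.le
    have hblow : ∀ i : Fin (n - 1), i.1 + 1 < h → b i = 0 := by
      intro i hi
      refine hker _ (hIh ?_)
      refine stabilizer_map_le p n ⟨θ, hθ⟩ (le_of_lt hhn) (Ideal.mem_map_of_mem φ.toRingHom ?_)
      refine Ideal.subset_span ⟨i.1 + 1, hi, ?_⟩
      rw [ltParam, if_neg (Nat.succ_ne_zero _), dif_pos (by simp)]
      simp
    let v : Fin d → intRing Ω := fun t ↦
      b ⟨h - 1 + t.1, by omega⟩ - a ⟨h - 1 + t.1, by omega⟩
    have hv : IsSmall v := fun t ↦ by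
      refine isTopologicallyNilpotent_intRing.mpr ?_
      rw [AddSubgroupClass.coe_sub, sub_eq_add_neg]
      refine lt_of_le_of_lt (IsUltrametricDist.norm_add_le_max _ _) (max_lt ?_ ?_)
      · exact isTopologicallyNilpotent_intRing.mp (hb _)
      · rw [norm_neg]; exact isTopologicallyNilpotent_intRing.mp (ha _)
    have hvt : ∀ (i : Fin (n - 1)) (t : Fin d), i.1 + 1 = h + t.1 → b i = a i + v t := by
      intro i t hit
      have : i = ⟨h - 1 + t.1, by omega⟩ := Fin.ext (by simp only; omega)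
      rw [this]
      simp [v]
    have hφv : (evHom hv).comp (shiftHom n h d φ0) = pointHom b := by
      apply MvPolynomial.ringHom_ext
      · intro r; simp
      · intro i
        simp only [RingHom.comp_apply, shiftHom, pointHom, MvPolynomial.eval₂Hom_X', shiftPoint,
          map_add, evHom_apply, ev_C, hφ0]
        rcases Nat.lt_or_ge (i.1 + 1) h with hi | hi
        · rw [dif_neg (by omega), ev_zero hv, add_zero, hlowa i hi, hblow i hi]
        · rw [dif_pos ⟨hi, by omega⟩, ev_X]
          exact (hvt i ⟨i.1 + 1 - h, by omega⟩ (by simp only; omega)).symm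
    refine ⟨v, hv, ?_, ?_, fun j ↦ ?_⟩
    · refine (pi_norm_le_iff_of_nonneg hε.le).mpr fun t ↦ ?_
      rw [AddSubgroupClass.coe_sub]
      exact hba _
    · rw [hFev v hv b hb hblow hvt, hchi]
      exact hker _ (hM₀ M hM0 δ hδ φ hW θ hθ hred f hf)
    · rw [hξev j v hv, hφv]
      have hbφ : ∀ i, ‖(pointHom (n := n) b (MvPolynomial.X i) : Ω)‖ < 1 := fun i ↦ by
        simpa [pointHom] using isTopologicallyNilpotent_intRing.mp (hb i)
      obtain ⟨prb, hprb, -, -⟩ := exists_prHom hn0 (pointHom b) hbφ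
      have h0 := hrel (y j).val (isTopologicallyNilpotent_intRing.mp (y j).small) (hy.pr_zero j)
        (prb (y j)) (prb (wp j)) (hprb _) (hprb _)
      have h1 : prb (y j) = p ^ M • prb (-wp j) := by
        rw [map_neg, smul_neg]
        exact eq_neg_of_add_eq_zero_left h0
      rw [← hprb (y j), h1, Haz.nsmul_val, hprb]
  have hHsne : Hs ≠ 0 := by
    intro h0
    apply hlam
    have h1 := congrArg (fun g : MvPowerSeries (Fin d) (intRing Ω) ↦
      ((coeff e0 g : intRing Ω) : Ω)) h0
    simp only [Hs, MvPowerSeries.coeff_map, map_zero, algInt_coe, ZeroMemClass.coe_zero] at h1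
    exact Subtype.coe_injective h1
  obtain ⟨α, hα, ⟨j0, hj0⟩, hαrel⟩ := subgroup_relation hh 𝒳 Hs (fun e ↦ by
    obtain ⟨m, hm, he⟩ := (lam (coeff e H)).2
    refine ⟨m, hm, Subtype.coe_injective ?_⟩
    simp only [Hs, MvPowerSeries.coeff_map, SubmonoidClass.coe_pow, algInt_coe]
    exact he) hHsne hvan
  set Hh : Fin d → PowerSeries (intRing Ω) := fun j ↦ PowerSeries.subst ψ (α j)
  have hevH : ∀ j (z : intRing Ω), IsTopologicallyNilpotent z →
      ev (Hh j) (fun _ : Unit ↦ z) = ev (α j) fun _ : Unit ↦ ev ψ fun _ : Unit ↦ z := by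
    intro j z hz
    exact ev_subst (fun _ ↦ hψ.1) (fun _ : Unit ↦ hz) (α j)
  have hvanish := fun j x hx ↦ cover_independence hh hd hnd φ0 hφ Hh
    (fun j ↦ hψ.comp (hα j)) (prLim p n φ0) (prSeq_tendsto hn0 φ0 hφ) y hy.lower
    (fun c hc i w hw ↦ by
      obtain ⟨x, hx, hxv⟩ := hXc c hc i
      refine hαrel x hx w fun j ↦ ?_
      rw [hw j, hevH j _ ?_, hxv j]
      obtain ⟨t, ht⟩ : ∃ t, p ^ i = t + 1 := ⟨p ^ i - 1, by
        have := pow_pos hp.out.pos i; omega⟩
      have hs : IsTopologicallyNilpotent (c * (y j).val ^ p ^ i) := by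
        rw [ht, pow_succ]
        exact (IsTopologicallyNilpotent.mul_left _ ((y j).small)).mul_left c
      have := (pr0 ⟨_, hs⟩).small
      rwa [hpr0] at this) j x hx
  apply hj0
  refine eq_zero_of_subst_eq_zero hψ.1 hψ1 (eq_zero_of_vanish_disc (Hh j0) fun z hz ↦ ?_)
  obtain ⟨x, hx⟩ := hpr0surj ⟨z, isTopologicallyNilpotent_intRing.mpr hz⟩
  have hzx : prLim p n φ0 x.val = z := by rw [← hpr0, hx]
  rw [← hzx]
  exact hvanish j0 x.val (isTopologicallyNilpotent_intRing.mp x.small)

/-- A prime containing `p` that is moved into itself is a height ideal. -/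
theorem charP_prime (hn : n ≠ 0) (P : Ideal (LTRing p n)) [P.IsPrime]
    (hpP : (p : LTRing p n) ∈ P) (hP : MovesInto p n P) :
    ∃ h ≤ n, P = heightIdeal p n h := by
  classical
  set h := Nat.findGreatest (fun k ↦ heightIdeal p n k ≤ P) n with hhdef
  have hI1 : heightIdeal p n 1 ≤ P := by
    rw [heightIdeal, Ideal.span_le]
    rintro _ ⟨i, hi, rfl⟩
    simp only [Set.mem_Iio, Nat.lt_one_iff] at hi
    subst hi
    simpa [ltParam] using hpP
  have hn1 : 1 ≤ n := Nat.one_le_iff_ne_zero.mpr hn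
  have h0 : 0 < h := Nat.le_findGreatest hn1 hI1
  have hle : h ≤ n := Nat.findGreatest_le _
  have hIh : heightIdeal p n h ≤ P :=
    Nat.findGreatest_spec (P := fun k ↦ heightIdeal p n k ≤ P) hn1 hI1
  refine ⟨h, hle, ?_⟩
  rcases eq_or_lt_of_le hle with heq | hlt
  · rw [heq] at hIh ⊢
    exact heightIdeal_top p n (Nat.pos_of_ne_zero hn) hIh (Ideal.IsPrime.ne_top inferInstance)
  have hnot : ltParam p n h ∉ P := by
    intro hmem
    have := Nat.findGreatest_is_greatest (P := fun k ↦ heightIdeal p n k ≤ P)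
      (n := n) (k := h + 1) (by omega) (by omega)
    apply this
    rw [heightIdeal, Ideal.span_le]
    rintro _ ⟨i, hi, rfl⟩
    rcases Nat.lt_succ_iff_lt_or_eq.mp hi with hi | hi
    · exact hIh (Ideal.subset_span ⟨i, hi, rfl⟩)
    · subst hi; exact hmem
  refine le_antisymm (fun f hf ↦ ?_) hIh
  set π := MvPowerSeries.map (σ := Fin (n - 1))
    (WittVector.constantCoeff : WittVector p (GaloisField p n) →+* GaloisField p n)
  have hker : RingHom.ker π ≤ P := fun g hg ↦ hI1 (constantCoeffMap_ker hn hg)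
  have : (P.map π).IsPrime := Ideal.map_isPrime_of_surjective constantCoeffMap_surjective hker
  have hu : π (ltParam p n h) ∉ P.map π := by
    intro hmem
    obtain ⟨g, hg, hgeq⟩ := (Ideal.mem_map_iff_of_surjective π constantCoeffMap_surjective).mp hmem
    apply hnot
    have hd : ltParam p n h - g ∈ RingHom.ker π := by
      rw [RingHom.mem_ker, map_sub, hgeq, sub_self]
    simpa using P.add_mem (hker hd) hg
  obtain ⟨Ω, iN, iU, iG, ι, a, ha, hvan, hua⟩ := exists_point_charP hn (P.map π) hu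
  have has : IsSmall a := fun i ↦ isTopologicallyNilpotent_intRing.mpr (ha i)
  have hchiπ : ∀ g, chi (ι.comp WittVector.constantCoeff) has g =
      ev (MvPowerSeries.map ι (π g)) a := fun g ↦ by
    rw [chi_apply, MvPowerSeries.map_map]
  refine mem_heightIdeal_of_point hn h0 hlt hP hIh hf ι has (fun g hg ↦ ?_) fun i hi ↦ ?_
  · rw [hchiπ]
    exact hvan _ (Ideal.mem_map_of_mem π hg)
  · intro hai
    apply hua
    rw [← hchiπ, ← hi, ltParam, if_neg (Nat.succ_ne_zero _), dif_pos (by simp)]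
    simp [chi_apply, hai]

end Vale.Agent.P217
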