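import Vale.Agent.P217.Torsion

/-!
The universal cover map of the shifted law as a power series in the shift.
-/

noncomputable section

open Filter MvPowerSeries Finset
open scoped MvPowerSeries.WithPiTopology Topology

set_option linter.unusedSectionVars false

namespace Vale.Agent.P217

/-- The derivative of `[p]` of the shifted law in the `i`-th shift, at shift zero. -/
def dShift {p n : ℕ} [Fact p.Prime] (h d : ℕ) {R : Type*} [CommRing R] [UniformSpace R] [CLRing R]
    (φ : Haz.A n →+* R) (i : Fin d) : PowerSeries R :=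
  fun e ↦ coeff (Finsupp.single i 1)
    (coeff e (MvPowerSeries.map (shiftHom n h d φ) (Haz.mulSeries p n p)))

namespace Shift

section generic

variable {p n : ℕ} [hp : Fact p.Prime] {R : Type*} [CommRing R] [UniformSpace R] [CLRing R]
  [CharP R p] (φ : Haz.A n →+* R)

/-- `[p ^ N]` sends congruences to congruences of `p ^ N`-th powers. -/
theorem pPow_smul_sub_mem : ∀ (N : ℕ) (a b : Haz.Pt p φ) (I : Ideal R), IsClosed (I : Set R) →
    (a.val - b.val) ^ p ^ N ∈ I → ((p ^ N) • a).val - ((p ^ N) • b).val ∈ I := by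
  intro N
  induction N with
  | zero => intro a b I _ h; simpa using h
  | succ N ih =>
    intro a b I hI h
    have := ExpChar.prime (R := R) hp.out
    rw [pow_succ p N, mul_smul, mul_smul]
    refine ih _ _ I hI ?_
    let I' : Ideal R := Ideal.comap (iterateFrobenius R p N) I
    have hI' : IsClosed (I' : Set R) := by
      have : (I' : Set R) = (fun z : R ↦ z ^ p ^ N) ⁻¹' I := by
        ext z
        simp [I', iterateFrobenius_def]
      rw [this]
      exact hI.preimage (continuous_pow _)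
    suffices hm : (p • a).val - (p • b).val ∈ I' by
      simpa [I', iterateFrobenius_def] using hm
    obtain ⟨Φ, -, -, hΦ⟩ := Haz.mulSeries_p_height φ (CharP.cast_eq_zero R p) (h := 1)
      (fun i h0 h1 ↦ by omega) Nat.one_pos
    rw [Haz.nsmul_val, Haz.nsmul_val, hΦ]
    simp only [MvPowerSeries.expand, MvPowerSeries.coe_substAlgHom]
    have h0 : ∀ _ : Unit, constantCoeff (X () ^ p ^ 1 : MvPowerSeries Unit R) = 0 := fun _ ↦ by
      simp [hp.out.ne_zero]
    rw [ev_subst h0 (fun _ ↦ a.small), ev_subst h0 (fun _ ↦ b.small)]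
    simp only [ev_pow (fun _ ↦ a.small), ev_pow (fun _ ↦ b.small), ev_X, pow_one]
    have hsmall : ∀ z : R, IsTopologicallyNilpotent z → IsTopologicallyNilpotent (z ^ p) :=
      fun z hz ↦ hz.comp (tendsto_atTop_atTop_of_monotone (f := fun k ↦ p * k)
        (fun _ _ hkl ↦ Nat.mul_le_mul_left p hkl)
        fun k ↦ ⟨k, Nat.le_mul_of_pos_left k hp.out.pos⟩) |>.congr fun k ↦ by
          simp [pow_mul]
    refine ev_sub_mem hI' (fun _ ↦ hsmall _ a.small) (fun _ ↦ hsmall _ b.small) (fun _ ↦ ?_) Φ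
    simp only [I', Ideal.mem_comap, iterateFrobenius_def]
    rw [← sub_pow_char, ← pow_mul, ← pow_succ']
    exact h

end generic

variable {p n h d : ℕ} [hp : Fact p.Prime]
  {Ω : Type} [NontriviallyNormedField Ω] [IsUltrametricDist Ω] [GoodField p Ω]


local instance instCharPInt : CharP (intRing Ω) p := by
  have : CharP Ω p := GoodField.charP
  exact (RingHom.charP_iff (intRing Ω).subtype Subtype.val_injective p).mpr this

local instance instCharPSeries : CharP (MvPowerSeries (Fin d) (intRing Ω)) p :=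
  charP_of_injective_ringHom (f := MvPowerSeries.C)
    (fun a b hab ↦ by simpa using congr_arg MvPowerSeries.constantCoeff hab) p

/-- Series whose coefficients of degree below `D` have norm at most `r`. -/
def bdIdeal (d D : ℕ) (r : ℝ) (hr : 0 ≤ r) : Ideal (MvPowerSeries (Fin d) (intRing Ω)) where
  carrier := {f | ∀ e : Fin d →₀ ℕ, e.degree < D → ‖((coeff e f : intRing Ω) : Ω)‖ ≤ r}
  add_mem' {f g} hf hg e he := by
    rw [map_add]
    exact (normIdeal r hr).add_mem (hf e he) (hg e he)
  zero_mem' e _ := by simpa using hr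
  smul_mem' c f hf e he := by
    rw [smul_eq_mul, coeff_mul]
    refine (normIdeal r hr).sum_mem fun x hx ↦ (normIdeal r hr).mul_mem_left _ (hf _ ?_)
    refine lt_of_le_of_lt ?_ he
    rw [← mem_antidiagonal.mp hx, map_add]
    exact Nat.le_add_left _ _

theorem isClosed_bdIdeal (D : ℕ) (r : ℝ) (hr : 0 ≤ r) :
    IsClosed (bdIdeal (Ω := Ω) d D r hr : Set (MvPowerSeries (Fin d) (intRing Ω))) := by
  have : (bdIdeal (Ω := Ω) d D r hr : Set (MvPowerSeries (Fin d) (intRing Ω))) =
      ⋂ e : Fin d →₀ ℕ, ⋂ _ : e.degree < D, {f | ‖((coeff e f : intRing Ω) : Ω)‖ ≤ r} := by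
    ext f
    simp only [Set.mem_iInter]
    rfl
  rw [this]
  exact isClosed_iInter fun e ↦ isClosed_iInter fun _ ↦ isClosed_le
    (continuous_norm.comp (continuous_subtype_val.comp (WithPiTopology.continuous_coeff _ e)))
    continuous_const

/-- `p ^ N`-th powers are small in degrees below `p ^ N`. -/
theorem pow_mem_bdIdeal {f : MvPowerSeries (Fin d) (intRing Ω)} {r : ℝ} (hr : 0 ≤ r) (N : ℕ)
    (hf : ‖((constantCoeff f : intRing Ω) : Ω)‖ ≤ r) :
    f ^ p ^ N ∈ bdIdeal d (p ^ N) (r ^ p ^ N) (pow_nonneg hr _) := by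
  intro e he
  have := ExpChar.prime (R := MvPowerSeries (Fin d) (intRing Ω)) hp.out
  have h0 : constantCoeff (f - C (constantCoeff f)) = 0 := by simp
  rw [← sub_add_cancel f (C (constantCoeff f)), add_pow_expChar_pow, map_add, ← map_pow,
    coeff_of_lt_order (lt_of_lt_of_le (by exact_mod_cast he)
      (le_order_pow_of_constantCoeff_eq_zero _ h0)), zero_add, coeff_C]
  classical
  split_ifs
  · rw [SubmonoidClass.coe_pow, norm_pow]
    exact pow_le_pow_left₀ (norm_nonneg _) hf _
  · simpa using pow_nonneg hr _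

variable (φ : Haz.A n →+* intRing Ω)

theorem constantCoeff_comp_shiftHom :
    (constantCoeff (σ := Fin d) (R := intRing Ω)).comp (shiftHom n h d φ) = φ := by
  apply MvPolynomial.ringHom_ext
  · intro r; simp [shiftHom, pointHom]
  · intro i
    simp only [RingHom.comp_apply, shiftHom, pointHom, MvPolynomial.eval₂Hom_X', shiftPoint,
      map_add, constantCoeff_C]
    split_ifs <;> simp

/-- The constant series at the root `x ^ (q ^ (-N))`, as a point of the shifted law. -/
def shiftRoot {x : intRing Ω} (hx : IsTopologicallyNilpotent x) (N : ℕ) :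
    Haz.Pt p (shiftHom n h d φ) :=
  ⟨C (Torsion.root (p := p) φ hx N).val,
    (Torsion.root (p := p) φ hx N).small.map WithPiTopology.continuous_C⟩

/-- The approximations of the cover map of the shifted law. -/
def shiftSeq {x : intRing Ω} (hx : IsTopologicallyNilpotent x) (N : ℕ) :
    MvPowerSeries (Fin d) (intRing Ω) :=
  ((p ^ N) • (shiftRoot (h := h) (d := d) φ hx N)).val

theorem constantCoeff_smul_val (m : ℕ) (a : Haz.Pt p (shiftHom n h d φ)) :
    constantCoeff (m • a).val =
      ev (MvPowerSeries.map φ (Haz.mulSeries p n m)) fun _ ↦ constantCoeff a.val := by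
  rw [Haz.nsmul_val, map_ev (fun _ ↦ a.small) (WithPiTopology.continuous_constantCoeff _)]
  rw [← RingHom.comp_apply, ← MvPowerSeries.map_comp, constantCoeff_comp_shiftHom]
  rfl

theorem constantCoeff_shiftSeq {x : intRing Ω} (hx : IsTopologicallyNilpotent x) (N : ℕ) :
    constantCoeff (shiftSeq (h := h) (d := d) φ hx N) = prSeq p n φ x N := by
  rw [shiftSeq, constantCoeff_smul_val, Torsion.prSeq_eq hx, Haz.nsmul_val]
  simp [shiftRoot]

theorem shiftSeq_succ {x x' : intRing Ω} (hx : IsTopologicallyNilpotent x)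
    (hx' : IsTopologicallyNilpotent x') (he : x' = intRoot (p ^ n) x) (N : ℕ) :
    shiftSeq (h := h) (d := d) φ hx (N + 1) =
      (p • ((p ^ N) • shiftRoot (h := h) (d := d) φ hx' N)).val := by
  have : shiftRoot (h := h) (d := d) φ hx (N + 1) = shiftRoot φ hx' N := by
    refine Haz.Pt.ext ?_
    show C (intRoot _ x) = C (intRoot _ x')
    congr 1
    refine Torsion.intRoot_of_pow (Torsion.qpow (N + 1)) ?_
    rw [pow_succ (p ^ n) N, pow_mul, intRoot_pow (pow_ne_zero _ (pow_ne_zero _ hp.out.ne_zero)), he,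
      intRoot_pow (pow_ne_zero _ hp.out.ne_zero)]
  rw [shiftSeq, this, pow_succ', mul_smul]

variable (hn : n ≠ 0) (hφ : ∀ i, ‖(φ (MvPolynomial.X i) : Ω)‖ < 1)
include hn

theorem shiftSeq_succ_sub_mem {x : intRing Ω} (hx : IsTopologicallyNilpotent x) (N : ℕ) :
    shiftSeq (h := h) (d := d) φ hx (N + 1) - shiftSeq (h := h) (d := d) φ hx N ∈
      bdIdeal d (p ^ N) (Torsion.kap φ ^ p ^ N) (pow_nonneg (Torsion.kap_nonneg φ) _) := by
  rw [shiftSeq, shiftSeq, pow_succ p N, mul_smul]
  refine pPow_smul_sub_mem _ N _ _ _ (isClosed_bdIdeal _ _ _)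
    (pow_mem_bdIdeal (Torsion.kap_nonneg φ) N ?_)
  rw [map_sub, constantCoeff_smul_val]
  show ‖((_ - constantCoeff (C (Torsion.root (p := p) φ hx N).val) : intRing Ω) : Ω)‖ ≤ _
  rw [constantCoeff_C]
  set r := Torsion.root (p := p) φ hx (N + 1) with hr
  have hq : (Torsion.root (p := p) φ hx N).val = r.val ^ p ^ n := by
    refine Torsion.intRoot_of_pow (Torsion.qpow N) ?_
    rw [hr, Torsion.root, ← pow_mul, ← pow_succ']
    exact intRoot_pow (pow_ne_zero _ (pow_ne_zero _ hp.out.ne_zero)) x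
  have h1 : constantCoeff (shiftRoot (h := h) (d := d) φ hx (N + 1)).val = r.val := by
    simp [shiftRoot, hr]
  rw [h1, ← Haz.nsmul_val, hq, AddSubgroupClass.coe_sub, SubmonoidClass.coe_pow]
  exact Torsion.norm_p_smul_sub_pow hn r

include hφ

theorem exists_limit {x : intRing Ω} (hx : IsTopologicallyNilpotent x) :
    ∃ S, Tendsto (shiftSeq (h := h) (d := d) φ hx) atTop (𝓝 S) := by
  have : ∀ e : Fin d →₀ ℕ, ∃ l : intRing Ω,
      Tendsto (fun N ↦ coeff e (shiftSeq (h := h) (d := d) φ hx N)) atTop (𝓝 l) := by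
    intro e
    have hc : CauchySeq fun N ↦
        ((coeff e (shiftSeq (h := h) (d := d) φ hx N) : intRing Ω) : Ω) := by
      refine cauchySeq_of_tendsto_succ (squeeze_zero_norm' ?_ (Torsion.tendsto_kap_pow hφ))
      filter_upwards [eventually_ge_atTop e.degree] with N hN
      rw [← AddSubgroupClass.coe_sub, ← map_sub]
      exact shiftSeq_succ_sub_mem φ hn hx N e (lt_of_le_of_lt hN (Nat.lt_pow_self hp.out.one_lt))
    obtain ⟨l, hl⟩ := cauchySeq_tendsto_of_complete hc
    exact ⟨⟨l, le_of_tendsto' hl.norm fun N ↦ mem_intRing.mp (Subtype.prop _)⟩,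
      tendsto_subtype_rng.mpr hl⟩
  choose l hl using this
  exact ⟨fun e ↦ l e, (WithPiTopology.tendsto_iff_coeff_tendsto _ _ _).mpr hl⟩

theorem ev_shiftSeq {x : intRing Ω} (hx : IsTopologicallyNilpotent x) (v : Fin d → intRing Ω)
    (hv : IsSmall v) (N : ℕ) :
    ev (shiftSeq (h := h) φ hx N) v = prSeq p n ((evHom hv).comp (shiftHom n h d φ)) x N := by
  have hc : Continuous (evHom hv) := by
    have : ⇑(evHom hv) = fun f ↦ ev f v := funext (evHom_apply hv)
    rw [this]
    exact continuous_ev hv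
  rw [shiftSeq, Haz.nsmul_val, ← evHom_apply hv,
    map_ev (fun _ ↦ (shiftRoot (h := h) (d := d) φ hx N).small) hc, ← RingHom.comp_apply,
    ← MvPowerSeries.map_comp, prSeq, Nat.cast_pow]
  congr 1
  funext u
  simp [shiftRoot, evHom_apply, Torsion.root]

omit hn hφ

theorem small_evHom_shift (hφ : ∀ i, ‖(φ (MvPolynomial.X i) : Ω)‖ < 1) {v : Fin d → intRing Ω}
    (hv : IsSmall v) (i : Fin (n - 1)) :
    ‖(((evHom hv).comp (shiftHom n h d φ)) (MvPolynomial.X i) : Ω)‖ < 1 := by
  rw [← isTopologicallyNilpotent_intRing, RingHom.comp_apply, shiftHom, pointHom,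
    MvPolynomial.eval₂Hom_X', shiftPoint, map_add, evHom_apply, ev_C]
  refine IsTopologicallyNilpotent.add (isTopologicallyNilpotent_intRing.mpr (hφ i)) ?_
  split_ifs with hi
  · rw [evHom_apply, ev_X]; exact hv _
  · rw [map_zero]; exact IsTopologicallyNilpotent.zero

/-- First order term of `[p]` of the shifted law. -/
theorem coeff_single_p_smul (B : Haz.Pt p (shiftHom n h d φ)) (i : Fin d) :
    coeff (Finsupp.single i 1) (p • B).val =
      ev (dShift (p := p) h d φ i) fun _ ↦ constantCoeff B.val := by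
  have hc0 : IsTopologicallyNilpotent (constantCoeff B.val) :=
    B.small.map (WithPiTopology.continuous_constantCoeff _)
  let B0 : Haz.Pt p (shiftHom n h d φ) :=
    ⟨C (constantCoeff B.val), hc0.map WithPiTopology.continuous_C⟩
  have hmem : (p • B).val - (p • B0).val ∈ bdIdeal (Ω := Ω) d p 0 le_rfl := by
    have h1 := pPow_smul_sub_mem (shiftHom n h d φ) 1 B B0 _
      (isClosed_bdIdeal (Ω := Ω) (p ^ 1) _ (pow_nonneg le_rfl _))
      (pow_mem_bdIdeal (r := 0) le_rfl 1 (by simp [B0]))
    simp only [pow_one, zero_pow hp.out.ne_zero] at h1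
    exact h1
  have h2 := hmem (Finsupp.single i 1) (by simpa using hp.out.one_lt)
  rw [norm_le_zero_iff, ZeroMemClass.coe_eq_zero, map_sub, sub_eq_zero] at h2
  rw [h2, Haz.nsmul_val]
  have hsum := (hasSum_ev (fun _ : Unit ↦ B0.small)
    (MvPowerSeries.map (shiftHom n h d φ) (Haz.mulSeries p n (p : ℤ)))).map
    (coeff (Finsupp.single i 1)) (WithPiTopology.continuous_coeff _ _)
  refine hsum.unique ?_
  convert hasSum_ev (fun _ : Unit ↦ hc0) (dShift (p := p) h d φ i) using 1
  funext e
  simp only [Function.comp_apply, B0]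
  have : (e.prod fun _ k ↦ (C (constantCoeff B.val) : MvPowerSeries (Fin d) (intRing Ω)) ^ k) =
      C (e.prod fun _ k ↦ constantCoeff B.val ^ k) := by
    rw [map_finsuppProd]
    simp
  rw [this, coeff_mul_C]
  rfl

end Shift

variable {p n h d : ℕ} [hp : Fact p.Prime]
  {Ω : Type} [NontriviallyNormedField Ω] [IsUltrametricDist Ω] [GoodField p Ω]

theorem exists_shift_series (hn0 : n ≠ 0) (φ : Haz.A n →+* intRing Ω)
    (hφ : ∀ i, ‖(φ (MvPolynomial.X i) : Ω)‖ < 1) (x : intRing Ω) (hx : ‖(x : Ω)‖ < 1) :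
    ∃ S : MvPowerSeries (Fin d) (intRing Ω),
      constantCoeff S = prLim p n φ x ∧
      (∀ (v : Fin d → intRing Ω) (hv : IsSmall v),
        ev S v = prLim p n ((evHom hv).comp (shiftHom n h d φ)) x) ∧
      ∀ i, coeff (Finsupp.single i 1) S =
        ev (dShift (p := p) h d φ i) fun _ ↦ prLim p n φ (intRoot (p ^ n) x) := by
  have hxs : IsTopologicallyNilpotent x := isTopologicallyNilpotent_intRing.mpr hx
  have hx' : IsTopologicallyNilpotent (intRoot (p ^ n) x) :=
    Torsion.intRoot_small (p := p) (pow_ne_zero _ hp.out.ne_zero) hxs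
  obtain ⟨S, hS⟩ := Shift.exists_limit (h := h) (d := d) φ hn0 hφ hxs
  refine ⟨S, ?_, fun v hv ↦ ?_, fun i ↦ ?_⟩
  · refine tendsto_nhds_unique (((WithPiTopology.continuous_constantCoeff _).tendsto S).comp hS)
      ((Torsion.tendsto_prSeq hφ hn0 hxs).congr fun N ↦ ?_)
    exact (Shift.constantCoeff_shiftSeq φ hxs N).symm
  · refine tendsto_nhds_unique (((continuous_ev hv).tendsto S).comp hS)
      ((Torsion.tendsto_prSeq (Shift.small_evHom_shift φ hφ hv) hn0 hxs).congr fun N ↦ ?_)
    exact (Shift.ev_shiftSeq φ hn0 hφ hxs v hv N).symm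
  · refine tendsto_nhds_unique
      ((((WithPiTopology.continuous_coeff _ (Finsupp.single i 1)).tendsto S).comp hS).comp
        (tendsto_add_atTop_nat 1)) ?_
    have hlim : Tendsto (fun N ↦ ev (dShift (p := p) h d φ i)
        (fun _ : Unit ↦ prSeq p n φ (intRoot (p ^ n) x) N)) atTop
        (𝓝 (ev (dShift (p := p) h d φ i) fun _ : Unit ↦ prLim p n φ (intRoot (p ^ n) x))) := by
      rw [tendsto_subtype_rng, tendsto_iff_norm_sub_tendsto_zero]
      refine squeeze_zero (fun _ ↦ norm_nonneg _) (fun N ↦ ?_) (Torsion.tendsto_kap_pow hφ)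
      refine Torsion.norm_ev_sub_le _ (fun _ ↦ ?_) (fun _ ↦ Torsion.prLim_small hφ hn0 hx')
        (pow_nonneg (Torsion.kap_nonneg φ) _)
        fun _ ↦ Torsion.norm_prSeq_sub_prLim hφ hn0 hx' N
      rw [Torsion.prSeq_eq hx']
      exact (_ : Haz.Pt p φ).small
    refine hlim.congr fun N ↦ ?_
    simp only [Function.comp_apply]
    rw [Shift.shiftSeq_succ φ hxs hx' rfl N, Shift.coeff_single_p_smul]
    congr 1
    funext u
    exact (Shift.constantCoeff_shiftSeq φ hx' N).symm

end Vale.Agent.P217
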