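import Vale.Agent.P217.Low
import Mathlib.RingTheory.MvPowerSeries.Expand
import Mathlib.RingTheory.WittVector.Isocrystal

/-!
Hazewinkel's logarithm at an arbitrary characteristic zero point, universality of the law, and
multiplication by `p` modulo `p`.
-/

noncomputable section

open MvPowerSeries Finset

namespace Vale.Agent.P217

variable (p n : ℕ) [hp : Fact p.Prime]

namespace Haz

theorem den_exists (k : ℕ) : ∃ a, algebraMap (A n) (K n) a = (p : K n) ^ k * ell p n k := by
  have h := (setting p n).den k
  rw [show (setting p n).L = logSeries p n from rfl, coeff_logSeries] at h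
  exact h

/-- The integral element `p^k l_k`. -/
def ellInt (k : ℕ) : A n := (den_exists p n k).choose

theorem ellInt_spec (k : ℕ) :
    algebraMap (A n) (K n) (ellInt p n k) = (p : K n) ^ k * ell p n k :=
  (den_exists p n k).choose_spec

theorem ellInt_zero : ellInt p n 0 = 1 := by
  apply IsFractionRing.injective (A n) (K n)
  rw [ellInt_spec, ell_zero]
  simp

theorem ellInt_succ (k : ℕ) : ellInt p n (k + 1) =
    ∑ i ∈ range (k + 1), (p : A n) ^ i * ellInt p n (k - i) * uA n (i + 1) ^ p ^ (k - i) := by
  apply IsFractionRing.injective (A n) (K n)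
  rw [map_sum, ellInt_spec, pow_succ, mul_assoc, ell_succ, mul_sum]
  refine sum_congr rfl fun i hi ↦ ?_
  rw [map_mul, map_mul, map_pow, map_pow, map_natCast, ellInt_spec, uK]
  have hi' : i ≤ k := by simpa [Nat.lt_succ_iff] using hi
  calc (p : K n) ^ k * (ell p n (k - i) * algebraMap (A n) (K n) (uA n (i + 1)) ^ p ^ (k - i))
      = (p : K n) ^ (i + (k - i)) *
        (ell p n (k - i) * algebraMap (A n) (K n) (uA n (i + 1)) ^ p ^ (k - i)) := by
        rw [Nat.add_sub_cancel' hi']
    _ = _ := by ring

section logAt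

variable {p n} {K' : Type*} [Field K'] (ψ : A n →+* K') {τ υ : Type*}

/-- The coefficient `l_k` at a point. -/
def ellAt (p : ℕ) [Fact p.Prime] {n : ℕ} {K' : Type*} [Field K'] (ψ : A n →+* K') (k : ℕ) : K' :=
  ψ (ellInt p n k) / (p : K') ^ k

/-- The logarithm at a point. -/
def logAt (p : ℕ) [Fact p.Prime] {n : ℕ} {K' : Type*} [Field K'] (ψ : A n →+* K') :
    PowerSeries K' := by
  classical
  exact PowerSeries.mk fun m ↦ if h : ∃ k, m = p ^ k then ellAt p ψ h.choose else 0

theorem coeff_logAt (k : ℕ) : PowerSeries.coeff (p ^ k) (logAt p ψ) = ellAt p ψ k := by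
  classical
  rw [logAt, PowerSeries.coeff_mk, dif_pos ⟨k, rfl⟩]
  congr 1
  exact (Nat.pow_right_injective hp.out.two_le (⟨k, rfl⟩ : ∃ l, p ^ k = p ^ l).choose_spec).symm

theorem coeff_logAt_ne (m : ℕ) (h : ∀ k, m ≠ p ^ k) : PowerSeries.coeff m (logAt p ψ) = 0 := by
  classical
  rw [logAt, PowerSeries.coeff_mk, dif_neg (by simpa using h)]

theorem ellAt_zero : ellAt p ψ 0 = 1 := by simp [ellAt, ellInt_zero]

theorem logAt_zero : PowerSeries.constantCoeff (logAt p ψ) = 0 := by
  rw [← PowerSeries.coeff_zero_eq_constantCoeff_apply]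
  exact coeff_logAt_ne ψ 0 fun k ↦ (pow_pos hp.out.pos k).ne

theorem logAt_one : PowerSeries.coeff 1 (logAt p ψ) = 1 := by
  simpa [ellAt_zero] using coeff_logAt (p := p) ψ 0

variable [CharZero K']

theorem ellAt_succ (k : ℕ) : (p : K') * ellAt p ψ (k + 1) =
    ∑ i ∈ range (k + 1), ellAt p ψ (k - i) * ψ (uA n (i + 1)) ^ p ^ (k - i) := by
  have hp0 : (p : K') ≠ 0 := Nat.cast_ne_zero.mpr hp.out.ne_zero
  rw [ellAt, ellInt_succ, map_sum, div_eq_mul_inv, sum_mul, mul_sum]
  refine sum_congr rfl fun i hi ↦ ?_
  have hi' : i ≤ k := by simpa [Nat.lt_succ_iff] using hi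
  rw [map_mul, map_mul, map_pow, map_pow, map_natCast, ellAt,
    show k + 1 = i + (k - i) + 1 by omega, pow_succ, pow_add]
  field_simp

/-- A denominator free form of the coefficients of the logarithm of a series. -/
def clearLog (G : MvPowerSeries τ (A n)) (d : τ →₀ ℕ) : A n :=
  ∑ k ∈ range (d.degree + 1), (p : A n) ^ (d.degree - k) * ellInt p n k * coeff d (G ^ p ^ k)

theorem clearLog_spec {G : MvPowerSeries τ (A n)} (hG : constantCoeff G = 0) (d : τ →₀ ℕ) :
    ψ (clearLog (p := p) G d) =
      (p : K') ^ d.degree * coeff d (PowerSeries.subst (MvPowerSeries.map ψ G) (logAt p ψ)) := by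
  have hp0 : (p : K') ≠ 0 := Nat.cast_ne_zero.mpr hp.out.ne_zero
  have h0 : constantCoeff (MvPowerSeries.map ψ G) = 0 := by simp [hG]
  rw [FESetting.coeff_subst_eq_sum (p := p) (logAt p ψ) (logAt_zero ψ) (coeff_logAt_ne ψ) h0 le_rfl,
    mul_sum, clearLog, map_sum]
  refine sum_congr rfl fun k hk ↦ ?_
  have hk' : k ≤ d.degree := by simpa [Nat.lt_succ_iff] using hk
  rw [coeff_logAt, ← map_pow (MvPowerSeries.map ψ), MvPowerSeries.coeff_map, map_mul, map_mul,
    map_pow, map_natCast, ellAt]
  calc (p : K') ^ (d.degree - k) * ψ (ellInt p n k) * ψ (coeff d (G ^ p ^ k))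
      = (p : K') ^ ((d.degree - k) + k) *
        (ψ (ellInt p n k) / (p : K') ^ k * ψ (coeff d (G ^ p ^ k))) := by
        rw [pow_add]; field_simp
    _ = _ := by rw [Nat.sub_add_cancel hk']

omit hp in
theorem algK_charZero : CharZero (K n) :=
  charZero_of_injective_algebraMap (IsFractionRing.injective (A n) (K n))

theorem logAt_alg : logAt p (algebraMap (A n) (K n)) = (setting p n).L := by
  ext m
  show _ = PowerSeries.coeff m (logSeries p n)
  by_cases h : ∃ k, m = p ^ k
  · obtain ⟨k, rfl⟩ := h
    rw [coeff_logAt, coeff_logSeries, ellAt, ellInt_spec, mul_div_cancel_left₀]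
    exact pow_ne_zero _ (p_ne_zero p n)
  · push Not at h
    rw [coeff_logAt_ne _ m h, coeff_logSeries_ne p n m h]

/-- Linear relations between logarithms hold at every point. -/
theorem logAt_transfer {ι : Type*} (s : Finset ι) (c : ι → ℤ) (G : ι → MvPowerSeries τ (A n))
    (hG : ∀ i ∈ s, constantCoeff (G i) = 0) (h : ∑ i ∈ s, c i • logOf p n (G i) = 0) :
    ∑ i ∈ s, c i • PowerSeries.subst (MvPowerSeries.map ψ (G i)) (logAt p ψ) = 0 := by
  have := algK_charZero (n := n)
  have hA : ∀ d, ∑ i ∈ s, c i • clearLog (p := p) (G i) d = 0 := by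
    intro d
    apply IsFractionRing.injective (A n) (K n)
    rw [map_sum, map_zero]
    calc ∑ i ∈ s, algebraMap (A n) (K n) (c i • clearLog (p := p) (G i) d)
        = ∑ i ∈ s, (p : K n) ^ d.degree * coeff d (c i • logOf p n (G i)) := by
          refine sum_congr rfl fun i hi ↦ ?_
          rw [map_zsmul, clearLog_spec _ (hG i hi), logAt_alg, map_zsmul, logOf, mul_smul_comm]
      _ = 0 := by rw [← mul_sum, ← map_sum, h, map_zero, mul_zero]
  refine MvPowerSeries.ext fun d ↦ ?_
  rw [map_sum, map_zero]
  apply mul_left_cancel₀ (pow_ne_zero d.degree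
    (Nat.cast_ne_zero.mpr hp.out.ne_zero : (p : K') ≠ 0))
  rw [mul_sum, mul_zero, ← map_zero ψ, ← hA d, map_sum]
  refine sum_congr rfl fun i hi ↦ ?_
  rw [map_zsmul, map_zsmul, clearLog_spec ψ (hG i hi), mul_smul_comm]

theorem logAt_law : PowerSeries.subst ((law p n).map ψ).toPowerSeries (logAt p ψ) =
    PowerSeries.subst (X (0 : Fin 2)) (logAt p ψ) +
      PowerSeries.subst (X (1 : Fin 2)) (logAt p ψ) := by
  have hX : ∀ i : Fin 2, constantCoeff (X i : MvPowerSeries (Fin 2) (A n)) = 0 := constantCoeff_X
  have h := logAt_transfer (p := p) ψ (univ : Finset (Fin 3)) ![1, -1, -1]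
    ![(law p n).toPowerSeries, X 0, X 1]
    (by
      intro i _
      fin_cases i
      · exact (law p n).zero_constantCoeff
      · exact hX 0
      · exact hX 1)
    (by
      rw [Fin.sum_univ_three]
      have he : logOf p n (law p n).toPowerSeries = logOf p n (X 0) + logOf p n (X 1) := by
        rw [← logOf_fsum p n (hX 0) (hX 1), fsum]
        congr
        rw [show (![X 0, X 1] : Fin 2 → MvPowerSeries (Fin 2) (A n)) = X by
          funext i; fin_cases i <;> rfl, MvPowerSeries.subst_self]
        rfl
      simp [he])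
  rw [Fin.sum_univ_three] at h
  simp only [Matrix.cons_val_zero, Matrix.cons_val_one, Matrix.cons_val,
    one_smul, neg_smul, MvPowerSeries.map_X, FormalGroup.map_toPowerSeries] at h ⊢
  rw [← sub_eq_zero, ← h]
  abel

theorem logAt_law_subst {b : Fin 2 → MvPowerSeries υ K'} (hb : ∀ i, constantCoeff (b i) = 0) :
    PowerSeries.subst (MvPowerSeries.subst b ((law p n).map ψ).toPowerSeries) (logAt p ψ) =
      PowerSeries.subst (b 0) (logAt p ψ) + PowerSeries.subst (b 1) (logAt p ψ) := by
  have hs := MvPowerSeries.hasSubst_of_constantCoeff_zero hb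
  rw [← mv_subst_ps_subst ((law p n).map ψ).zero_constantCoeff hs, logAt_law,
    ← MvPowerSeries.coe_substAlgHom hs, map_add, MvPowerSeries.coe_substAlgHom hs,
    mv_subst_ps_subst (constantCoeff_X 0) hs, mv_subst_ps_subst (constantCoeff_X 1) hs,
    MvPowerSeries.subst_X hs, MvPowerSeries.subst_X hs]

theorem logAt_mulSeries (m : ℤ) :
    PowerSeries.subst (MvPowerSeries.map ψ (mulSeries p n m)) (logAt p ψ) = m • logAt p ψ := by
  have h := logAt_transfer (p := p) ψ (univ : Finset (Fin 2)) ![1, -m]
    ![mulSeries p n m, MvPowerSeries.X ()]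
    (by
      intro i _
      fin_cases i
      · exact constantCoeff_mulSeries p n m
      · exact constantCoeff_X ())
    (by simp [Fin.sum_univ_two, logOf_mulSeries])
  rw [Fin.sum_univ_two] at h
  simp only [Matrix.cons_val_zero, Matrix.cons_val_one, Matrix.cons_val_fin_one, one_smul,
    neg_smul, MvPowerSeries.map_X] at h
  rw [← sub_eq_zero, ← h, show (MvPowerSeries.X () : MvPowerSeries Unit K') = PowerSeries.X from rfl,
    PowerSeries.X_subst]
  abel

end logAt

end Haz

/-- Substitution into a series with invertible linear term is injective. -/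
theorem ps_subst_cancel {R : Type*} [CommRing R] {L : PowerSeries R}
    (h0 : PowerSeries.constantCoeff L = 0) (h1 : IsUnit (PowerSeries.coeff 1 L))
    {τ : Type*} {a b : MvPowerSeries τ R} (ha : constantCoeff a = 0) (hb : constantCoeff b = 0)
    (h : PowerSeries.subst a L = PowerSeries.subst b L) : a = b := by
  have key : ∀ c : MvPowerSeries τ R, constantCoeff c = 0 →
      PowerSeries.subst (PowerSeries.subst c L) (PowerSeries.substInvOfIsUnit L h1) = c := by
    intro c hc
    rw [← ps_subst_subst h0 hc, PowerSeries.subst_substInvOfIsUnit_left L h0 h1,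
      PowerSeries.subst_X (PowerSeries.HasSubst.of_constantCoeff_zero hc)]
  rw [← key a ha, ← key b hb, h]

section universal

theorem wittVector_charZero {k : Type*} [Field k] [CharP k p] : CharZero (WittVector p k) := by
  refine charZero_of_inj_zero fun m hm ↦ ?_
  by_contra hne
  obtain ⟨a, b, hb, hab⟩ := Nat.exists_eq_pow_mul_and_not_dvd hne p hp.out.ne_one
  rw [hab, Nat.cast_mul, Nat.cast_pow, mul_eq_zero] at hm
  rcases hm with h | h
  · exact WittVector.p_nonzero p k (eq_zero_of_pow_eq_zero h)
  · have := congr_arg (WittVector.constantCoeff (p := p) (R := k)) h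
    rw [map_natCast, map_zero] at this
    exact hb ((CharP.cast_eq_zero_iff k p b).mp this)

theorem toLT_injective : Function.Injective (toLT p n) := by
  have : CharZero (WittVector p (GaloisField p n)) := wittVector_charZero p
  have key : ∀ q, toLT p n q =
      ((MvPolynomial.map (Int.castRingHom (WittVector p (GaloisField p n))) q :
        MvPolynomial (Fin (n - 1)) (WittVector p (GaloisField p n))) : LTRing p n) := by
    have he : toLT p n = MvPolynomial.coeToMvPowerSeries.ringHom.comp
        (MvPolynomial.map (Int.castRingHom (WittVector p (GaloisField p n)))) := by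
      apply MvPolynomial.ringHom_ext <;> intro <;> simp [toLT]
    intro q
    rw [he]
    rfl
  intro a b h
  rw [key, key] at h
  exact MvPolynomial.map_injective _
    (RingHom.injective_int (Int.castRingHom (WittVector p (GaloisField p n))))
    (MvPolynomial.coe_inj.mp h)

theorem toLT_uA (i : ℕ) (hi : i ≠ 0) : toLT p n (Haz.uA n i) = ltParam p n i := by
  unfold Haz.uA ltParam toLT
  rw [if_neg hi]
  by_cases h : i - 1 < n - 1
  · rw [dif_pos ⟨hi, h⟩, dif_pos h]
    simp
  · rw [dif_neg (fun h' ↦ h h'.2), dif_neg h]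
    split_ifs <;> simp

theorem fractionRing_charZero : CharZero (FractionRing (LTRing p n)) := by
  have := wittVector_charZero p (k := GaloisField p n)
  have : CharZero (LTRing p n) :=
    charZero_of_injective_ringHom (f := (MvPowerSeries.C : WittVector p (GaloisField p n) →+* _))
      (fun a b h ↦ by simpa using congr_arg MvPowerSeries.constantCoeff h)
  exact charZero_of_injective_algebraMap
    (IsFractionRing.injective (LTRing p n) (FractionRing (LTRing p n)))

theorem isUniversal_lawLT : IsUniversalDeformation p n (lawLT p n) := by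
  have := fractionRing_charZero p n
  let ι : Haz.A n →+* FractionRing (LTRing p n) := (algebraMap _ _).comp (toLT p n)
  refine ⟨Haz.ellAt p ι, Haz.logAt p ι, ⟨Haz.ellAt_zero ι, fun k ↦ ?_⟩,
    ⟨Haz.coeff_logAt ι, Haz.coeff_logAt_ne ι⟩, ?_⟩
  · rw [Haz.ellAt_succ]
    refine sum_congr rfl fun i _ ↦ ?_
    rw [RingHom.comp_apply, toLT_uA p n (i + 1) (Nat.succ_ne_zero i)]
  · have h := Haz.logAt_law (p := p) ι
    simp only [FormalGroup.map_toPowerSeries, lawLT, MvPowerSeries.map_map] at h ⊢
    exact h

theorem eq_lawLT {F : FormalGroup (LTRing p n)} (hF : IsUniversalDeformation p n F) :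
    F = lawLT p n := by
  have := fractionRing_charZero p n
  obtain ⟨l, L, hl, hL, hFL⟩ := hF
  obtain ⟨l', L', hl', hL', hFL'⟩ := isUniversal_lawLT p n
  have hp0 : (p : FractionRing (LTRing p n)) ≠ 0 := Nat.cast_ne_zero.mpr hp.out.ne_zero
  have hll : ∀ k, l k = l' k := by
    intro k
    induction k using Nat.strong_induction_on with
    | _ k ih =>
      rcases k with _ | k
      · rw [hl.1, hl'.1]
      · apply mul_left_cancel₀ hp0
        rw [hl.2, hl'.2]
        refine sum_congr rfl fun i _ ↦ ?_
        rw [ih (k - i) (by omega)]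
  have hLL : L = L' := by
    ext m
    by_cases h : ∃ k, m = p ^ k
    · obtain ⟨k, rfl⟩ := h
      rw [hL.1, hL'.1, hll]
    · push Not at h
      rw [hL.2 m h, hL'.2 m h]
  subst hLL
  have h0 : PowerSeries.constantCoeff L = 0 := by
    rw [← PowerSeries.coeff_zero_eq_constantCoeff_apply]
    exact hL.2 0 fun k ↦ (pow_pos hp.out.pos k).ne
  have h1 : IsUnit (PowerSeries.coeff 1 L) := by
    have := hL.1 0
    rw [pow_zero] at this
    rw [this, hl.1]
    exact isUnit_one
  refine FormalGroup.ext ?_
  have h := ps_subst_cancel h0 h1 (by simp [F.zero_constantCoeff])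
    (by simp [(lawLT p n).zero_constantCoeff]) (hFL.trans hFL'.symm)
  refine MvPowerSeries.ext fun d ↦ ?_
  exact IsFractionRing.injective (LTRing p n) (FractionRing (LTRing p n))
    (by simpa using congr_arg (MvPowerSeries.coeff d) h)

end universal

namespace Haz

/-- The formal sum of `u_i X^(p^i)` for `1 ≤ i ≤ k`. -/
def pSeq : ℕ → MvPowerSeries Unit (A n)
  | 0 => 0
  | k + 1 => fsum p n (pSeq k) (MvPowerSeries.C (uA n (k + 1)) * MvPowerSeries.X () ^ p ^ (k + 1))

omit hp in
theorem constantCoeff_monom {R : Type*} [CommRing R] (c : R) {e : ℕ} (he : e ≠ 0) :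
    constantCoeff (MvPowerSeries.C c * MvPowerSeries.X () ^ e : MvPowerSeries Unit R) = 0 := by
  rw [map_mul, map_pow, constantCoeff_X, zero_pow he, mul_zero]

theorem constantCoeff_pSeq (k : ℕ) : constantCoeff (pSeq p n k) = 0 := by
  induction k with
  | zero => simp [pSeq]
  | succ k ih =>
    rw [pSeq]
    exact constantCoeff_fsum p n ih (constantCoeff_monom _ (pow_ne_zero _ hp.out.ne_zero))

theorem logOf_pSeq (k : ℕ) : logOf p n (pSeq p n k) = ∑ i ∈ range k,
    logOf p n (MvPowerSeries.C (uA n (i + 1)) * MvPowerSeries.X () ^ p ^ (i + 1)) := by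
  induction k with
  | zero => simp [pSeq, logOf_zero]
  | succ k ih =>
    rw [pSeq, logOf_fsum p n (constantCoeff_pSeq p n k)
      (constantCoeff_monom _ (pow_ne_zero _ hp.out.ne_zero)), ih, sum_range_succ]

theorem coeff_logOf_monom (c : A n) {e : ℕ} (he : e ≠ 0) (d : Unit →₀ ℕ) :
    coeff d (logOf p n (MvPowerSeries.C c * MvPowerSeries.X () ^ e)) =
      ∑ k ∈ range (d.degree + 1),
        if d () = e * p ^ k then ell p n k * algebraMap (A n) (K n) c ^ p ^ k else 0 := by
  classical
  rw [logOf, FESetting.coeff_subst_eq_sum (p := p) (setting p n).L (setting p n).L_zero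
    (setting p n).L_typ (constantCoeff_mapK n (constantCoeff_monom c he)) le_rfl]
  refine sum_congr rfl fun k _ ↦ ?_
  rw [show PowerSeries.coeff (p ^ k) (setting p n).L = ell p n k from coeff_logSeries p n k,
    map_mul (MvPowerSeries.map (σ := Unit) (algebraMap (A n) (K n))),
    map_pow (MvPowerSeries.map (σ := Unit) (algebraMap (A n) (K n))),
    MvPowerSeries.map_C, MvPowerSeries.map_X, mul_pow, ← pow_mul,
    ← map_pow (MvPowerSeries.C (σ := Unit) (R := K n)), coeff_C_mul, coeff_X_pow]
  have hiff : d = Finsupp.single () (e * p ^ k) ↔ d () = e * p ^ k :=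
    ⟨fun h ↦ by simp [h], fun h ↦ Finsupp.ext fun u ↦ by simp [h]⟩
  by_cases hd : d () = e * p ^ k
  · rw [if_pos hd, if_pos (hiff.mpr hd), mul_one]
  · rw [if_neg hd, if_neg (fun h ↦ hd (hiff.mp h))]
    simp

omit hp in
theorem uA_eq_zero {i : ℕ} (hi : n < i) : uA n i = 0 := by
  unfold uA
  rw [dif_neg (by omega), if_neg (by omega)]

theorem p_log_identity : (p : ℤ) • logOf p n (MvPowerSeries.X ()) =
    MvPowerSeries.C (p : K n) * MvPowerSeries.X () + logOf p n (pSeq p n n) := by
  classical
  refine MvPowerSeries.ext fun d ↦ ?_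
  rw [map_zsmul, zsmul_eq_mul, Int.cast_natCast, map_add, coeff_C_mul, logOf_pSeq, map_sum,
    sum_congr rfl fun i _ ↦ coeff_logOf_monom p n (uA n (i + 1)) (pow_ne_zero _ hp.out.ne_zero) d,
    coeff_X]
  have hl : coeff d (logOf p n (MvPowerSeries.X ())) =
      PowerSeries.coeff (d ()) (logSeries p n) := by
    rw [logOf, MvPowerSeries.map_X, show (MvPowerSeries.X () : MvPowerSeries Unit (K n)) =
      PowerSeries.X from rfl, PowerSeries.X_subst, PowerSeries.coeff_def rfl]
    rfl
  have hdeg : d.degree = d () := by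
    rw [Finsupp.degree_apply]
    exact (sum_subset (subset_univ _) (by simp)).trans (by simp)
  have hiff : d = Finsupp.single () 1 ↔ d () = 1 :=
    ⟨fun h ↦ by simp [h], fun h ↦ Finsupp.ext fun u ↦ by simp [h]⟩
  simp only [hl, hdeg, hiff]
  by_cases hpow : ∃ m, d () = p ^ m
  · obtain ⟨m, hm⟩ := hpow
    have key : ∀ i k, d () = p ^ (i + 1) * p ^ k ↔ m = i + 1 + k := fun i k ↦ by
      rw [hm, ← pow_add]
      exact (Nat.pow_right_injective hp.out.two_le).eq_iff
    simp only [key]
    rcases m with _ | m
    · rw [hm, pow_zero, if_pos rfl, sum_eq_zero fun i _ ↦ sum_eq_zero fun k _ ↦ if_neg (by omega),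
        add_zero, mul_one]
      have h1 := coeff_logSeries p n 0
      rw [pow_zero, ell_zero] at h1
      rw [h1, mul_one]
    · rw [hm, coeff_logSeries, if_neg (Nat.one_lt_pow (Nat.succ_ne_zero m) hp.out.one_lt).ne',
        mul_zero, zero_add, ell_succ]
      have hlt : m + 1 < p ^ (m + 1) := Nat.lt_pow_self hp.out.one_lt
      have h1 : ∀ i ∈ range n, (∑ k ∈ range (p ^ (m + 1) + 1), if m + 1 = i + 1 + k then
          ell p n k * algebraMap (A n) (K n) (uA n (i + 1)) ^ p ^ k else 0) =
          if i ≤ m then ell p n (m - i) * uK n (i + 1) ^ p ^ (m - i) else 0 := by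
        intro i _
        by_cases him : i ≤ m
        · rw [if_pos him, sum_eq_single (m - i)]
          · rw [if_pos (by omega)]; rfl
          · intro k _ hk; rw [if_neg (by omega)]
          · intro h; exact absurd (mem_range.mpr (by omega)) h
        · rw [if_neg him]
          exact sum_eq_zero fun k _ ↦ if_neg (by omega)
      rw [sum_congr rfl h1, ← sum_filter]
      refine (sum_subset (fun i hi ↦ ?_) fun i hi hni ↦ ?_).symm
      · simp only [mem_filter, mem_range] at hi
        exact mem_range.mpr (by omega)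
      · simp only [mem_filter, mem_range, not_and] at hni hi
        have : n < i + 1 := by
          by_contra hcon
          exact hni (by omega) (by omega)
        rw [uK, uA_eq_zero n this, map_zero, zero_pow (pow_ne_zero _ hp.out.ne_zero), mul_zero]
  · push Not at hpow
    rw [coeff_logSeries_ne p n _ hpow, if_neg (by simpa using hpow 0)]
    simp only [mul_zero, zero_add]
    refine (sum_eq_zero fun i _ ↦ sum_eq_zero fun k _ ↦ if_neg ?_).symm
    rw [← pow_add]
    exact hpow _

/-- `L⁻¹(p X)` is divisible by `p`. -/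
theorem expo_pX : ∃ E : MvPowerSeries Unit (A n),
    MvPowerSeries.map (algebraMap (A n) (K n)) (MvPowerSeries.C (p : A n) * E) =
      PowerSeries.subst (MvPowerSeries.C (p : K n) * MvPowerSeries.X ()) (setting p n).expo := by
  classical
  set x : MvPowerSeries Unit (K n) := MvPowerSeries.C (p : K n) * MvPowerSeries.X ()
  have hx : constantCoeff x = 0 := by simp [x]
  set e := PowerSeries.subst x (setting p n).expo
  have he : constantCoeff e = 0 := constantCoeff_ps_subst hx (setting p n).expo_zero
  suffices h : ∀ d, ∃ a, (p : K n) * algebraMap (A n) (K n) a = coeff d e by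
    choose E hE using h
    let ES : MvPowerSeries Unit (A n) := fun d ↦ E d
    refine ⟨ES, MvPowerSeries.ext fun d ↦ ?_⟩
    rw [MvPowerSeries.coeff_map, coeff_C_mul, map_mul, map_natCast]
    exact hE d
  suffices h : ∀ N, ∀ d : Unit →₀ ℕ, d.degree = N →
      ∃ a, (p : K n) * algebraMap (A n) (K n) a = coeff d e from fun d ↦ h _ d rfl
  intro N
  induction N using Nat.strong_induction_on with
  | _ N ih =>
    intro d hd
    rcases Nat.eq_zero_or_pos N with hN | hN
    · refine ⟨0, ?_⟩
      rw [hN, Finsupp.degree_eq_zero_iff] at hd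
      subst hd
      simp [he]
    have hlt : ∀ c : Unit →₀ ℕ, c.degree < N →
        ∃ a, (p : K n) * algebraMap (A n) (K n) a = coeff c e := fun c hc ↦ ih _ hc c rfl
    choose E hE using hlt
    let gA : MvPowerSeries Unit (A n) := fun c ↦ if h : c.degree < N then E c h else 0
    let g : MvPowerSeries Unit (K n) :=
      MvPowerSeries.C (p : K n) * MvPowerSeries.map (algebraMap (A n) (K n)) gA
    have hge : ∀ c, c.degree < N → coeff c e = coeff c g := by
      intro c hc
      have hgA : coeff c gA = E c hc := by show gA c = _; simp [gA, hc]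
      rw [coeff_C_mul, MvPowerSeries.coeff_map, hgA]
      exact (hE c hc).symm
    have hg0 : constantCoeff g = 0 := by
      rw [← coeff_zero_eq_constantCoeff_apply, ← hge 0 (by simpa using hN),
        coeff_zero_eq_constantCoeff_apply, he]
    have hterm : ∀ k, ∃ a, (p : K n) * algebraMap (A n) (K n) a =
        ell p n (k + 1) * coeff d (e ^ p ^ (k + 1)) := by
      intro k
      have hP : k + 1 < p ^ (k + 1) := Nat.lt_pow_self hp.out.one_lt
      obtain ⟨b, hb⟩ : ∃ b, p ^ (k + 1) = (k + 1) + (b + 1) := ⟨p ^ (k + 1) - (k + 1) - 1, by omega⟩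
      refine ⟨ellInt p n (k + 1) * (p : A n) ^ b * coeff d (gA ^ p ^ (k + 1)), ?_⟩
      rw [FESetting.coeff_pow_congr he hg0 hge (by omega) d hd.le, map_mul, map_mul, map_pow,
        map_natCast, ellInt_spec]
      simp only [g, mul_pow]
      rw [← map_pow (MvPowerSeries.C (σ := Unit) (R := K n)),
        ← map_pow (MvPowerSeries.map (σ := Unit) (algebraMap (A n) (K n))), coeff_C_mul,
        MvPowerSeries.coeff_map, hb]
      ring
    choose T hT using hterm
    have hlog : PowerSeries.subst e (setting p n).L = x := (setting p n).log_expo hx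
    have hc := congr_arg (coeff d) hlog
    rw [FESetting.coeff_subst_eq_sum (p := p) (setting p n).L (setting p n).L_zero
      (setting p n).L_typ he (hd.le), sum_range_succ'] at hc
    simp only [pow_zero, (setting p n).L_one, pow_one, one_mul] at hc
    refine ⟨coeff d (MvPowerSeries.X ()) - ∑ k ∈ range N, T k, ?_⟩
    rw [map_sub, map_sum, mul_sub, mul_sum]
    have h2 : ∑ k ∈ range N, PowerSeries.coeff (p ^ (k + 1)) (setting p n).L *
        coeff d (e ^ p ^ (k + 1)) = ∑ k ∈ range N, (p : K n) * algebraMap (A n) (K n) (T k) :=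
      sum_congr rfl fun k _ ↦ by
        rw [hT, show (setting p n).L = logSeries p n from rfl, coeff_logSeries]
    rw [h2] at hc
    have hX : algebraMap (A n) (K n) (coeff d (MvPowerSeries.X ())) =
        coeff d (MvPowerSeries.X () : MvPowerSeries Unit (K n)) := by
      rw [← MvPowerSeries.coeff_map, MvPowerSeries.map_X]
    rw [hX]
    simp only [x, coeff_C_mul] at hc
    rw [← hc]
    ring

theorem mulSeries_p : ∃ E : MvPowerSeries Unit (A n), constantCoeff E = 0 ∧
    mulSeries p n p = fsum p n (MvPowerSeries.C (p : A n) * E) (pSeq p n n) := by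
  obtain ⟨E, hE⟩ := expo_pX p n
  have hp0 : (p : A n) ≠ 0 := Nat.cast_ne_zero.mpr hp.out.ne_zero
  have hE0 : constantCoeff (MvPowerSeries.C (p : A n) * E) = 0 := by
    apply IsFractionRing.injective (A n) (K n)
    rw [map_zero, ← MvPowerSeries.constantCoeff_map, hE]
    exact constantCoeff_ps_subst (by simp) (setting p n).expo_zero
  refine ⟨E, by simpa [hp0] using hE0, ?_⟩
  refine logOf_injective p n (constantCoeff_mulSeries p n _)
    (constantCoeff_fsum p n hE0 (constantCoeff_pSeq p n n)) ?_
  rw [logOf_fsum p n hE0 (constantCoeff_pSeq p n n), logOf_mulSeries, p_log_identity]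
  congr 1
  rw [logOf, hE, (setting p n).log_expo (by simp)]

section modp

variable {p n} {R : Type*} [CommRing R] (φ : A n →+* R)

theorem map_fsum {τ : Type*} {a b : MvPowerSeries τ (A n)} (ha : constantCoeff a = 0)
    (hb : constantCoeff b = 0) :
    MvPowerSeries.map φ (fsum p n a b) = MvPowerSeries.subst
      ![MvPowerSeries.map φ a, MvPowerSeries.map φ b] ((law p n).map φ).toPowerSeries := by
  rw [fsum, MvPowerSeries.map_subst
    (MvPowerSeries.hasSubst_of_constantCoeff_zero (constantCoeff_pair ha hb)),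
    FormalGroup.map_toPowerSeries]
  congr 1
  funext i
  fin_cases i <;> rfl

variable (hchar : (p : R) = 0)
include hchar

theorem map_mulSeries_p :
    MvPowerSeries.map φ (mulSeries p n p) = MvPowerSeries.map φ (pSeq p n n) := by
  obtain ⟨E, hE0, hE⟩ := mulSeries_p p n
  rw [hE, map_fsum φ (by simp [hE0]) (constantCoeff_pSeq p n n), map_mul, MvPowerSeries.map_C,
    map_natCast, hchar, map_zero, zero_mul,
    FormalGroup.zero_add _ (PowerSeries.HasSubst.of_constantCoeff_zero
      (by simp [constantCoeff_pSeq]))]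

omit hchar in
theorem map_pSeq_eq_zero {h : ℕ} (hu : ∀ i, 0 < i → i < h → φ (uA n i) = 0) :
    ∀ k < h, MvPowerSeries.map φ (pSeq p n k) = 0 := by
  intro k
  induction k with
  | zero => intro _; simp [pSeq]
  | succ k ih =>
    intro hk
    rw [pSeq, map_fsum φ (constantCoeff_pSeq p n k)
      (constantCoeff_monom _ (pow_ne_zero _ hp.out.ne_zero)), ih (by omega), map_mul,
      MvPowerSeries.map_C, hu (k + 1) (by omega) hk, map_zero, zero_mul]
    exact FormalGroup.zero_add _ PowerSeries.HasSubst.zero

/-- Multiplication by `p` at a point of height at least `h` in characteristic `p`. -/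
theorem mulSeries_p_height {h : ℕ} (hu : ∀ i, 0 < i → i < h → φ (uA n i) = 0) (hh : 0 < h) :
    ∃ Φ : MvPowerSeries Unit R, constantCoeff Φ = 0 ∧
      coeff (Finsupp.single () 1) Φ = φ (uA n h) ∧
      MvPowerSeries.map φ (mulSeries p n p) =
        MvPowerSeries.expand (p ^ h) (pow_ne_zero h hp.out.ne_zero) Φ := by
  classical
  have key : ∀ k, ∃ Φ : MvPowerSeries Unit R, constantCoeff Φ = 0 ∧
      coeff (Finsupp.single () 1) Φ = (if h ≤ k then φ (uA n h) else 0) ∧
      MvPowerSeries.map φ (pSeq p n k) =
        MvPowerSeries.expand (p ^ h) (pow_ne_zero h hp.out.ne_zero) Φ := by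
    intro k
    induction k with
    | zero => exact ⟨0, by simp, by simp [hh.ne'], by simp [pSeq]⟩
    | succ k ih =>
      obtain ⟨Φ, h0, h1, h2⟩ := ih
      let M : MvPowerSeries Unit R :=
        MvPowerSeries.C (φ (uA n (k + 1))) * MvPowerSeries.X () ^ p ^ (k + 1 - h)
      have hM0 : constantCoeff M = 0 := constantCoeff_monom _ (pow_ne_zero _ hp.out.ne_zero)
      have hpair := constantCoeff_pair h0 hM0
      refine ⟨MvPowerSeries.subst ![Φ, M] ((law p n).map φ).toPowerSeries,
        constantCoeff_subst_pair h0 hM0 (((law p n).map φ).zero_constantCoeff), ?_, ?_⟩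
      · rw [coeff_law_subst_low _ h0 hM0 (one_le_order h0) (one_le_order hM0)
          (by simp), h1]
        simp only [M, coeff_C_mul, coeff_X_pow, Finsupp.single_eq_single_iff, true_and,
          one_ne_zero, false_and, or_false]
        rcases Nat.lt_trichotomy (k + 1) h with hlt | heq | hgt
        · rw [if_neg (by omega : ¬ h ≤ k), if_neg (by omega : ¬ h ≤ k + 1), hu _ (by omega) hlt]
          simp
        · subst heq
          rw [if_neg (by omega), if_pos le_rfl, Nat.sub_self, pow_zero, if_pos rfl]
          simp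
        · rw [if_pos (by omega : h ≤ k), if_pos (by omega : h ≤ k + 1),
            if_neg (Nat.one_lt_pow (by omega : k + 1 - h ≠ 0) hp.out.one_lt).ne]
          simp
      · rw [pSeq, map_fsum φ (constantCoeff_pSeq p n k)
          (constantCoeff_monom _ (pow_ne_zero _ hp.out.ne_zero)), h2,
          MvPowerSeries.expand_subst (p ^ h) (pow_ne_zero h hp.out.ne_zero)
            (MvPowerSeries.hasSubst_of_constantCoeff_zero hpair)]
        congr 1
        funext i
        fin_cases i
        · simp
        · simp only [M, Fin.mk_one, Matrix.cons_val_one, Matrix.cons_val_fin_one, map_mul,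
            map_pow, MvPowerSeries.map_C, MvPowerSeries.map_X, MvPowerSeries.expand_C,
            MvPowerSeries.expand_X]
          rcases Nat.lt_or_ge (k + 1) h with hlt | hge
          · rw [hu _ (by omega) hlt, map_zero, zero_mul, zero_mul]
          · rw [← pow_mul, ← pow_add, show h + (k + 1 - h) = k + 1 by omega]
  obtain ⟨Φ, h0, h1, h2⟩ := key n
  refine ⟨Φ, h0, ?_, by rw [map_mulSeries_p φ hchar, h2]⟩
  rw [h1]
  split_ifs with hn
  · rfl
  · rw [uA_eq_zero n (by omega), map_zero]

theorem mulSeries_p_full (hn : n ≠ 0) (hu : ∀ i, 0 < i → i < n → φ (uA n i) = 0) :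
    MvPowerSeries.map φ (mulSeries p n p) = MvPowerSeries.X () ^ p ^ n := by
  obtain ⟨m, rfl⟩ : ∃ m, n = m + 1 := ⟨n - 1, by omega⟩
  rw [map_mulSeries_p φ hchar, pSeq, map_fsum φ (constantCoeff_pSeq p _ m)
    (constantCoeff_monom _ (pow_ne_zero _ hp.out.ne_zero)),
    map_pSeq_eq_zero φ hu m (by omega),
    FormalGroup.zero_add _ (PowerSeries.HasSubst.of_constantCoeff_zero
      (by simp [zero_pow (pow_ne_zero _ hp.out.ne_zero)]))]
  simp [uA]

end modp

end Haz

end Vale.Agent.P217
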